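/-
Row 242 (S0480), SCV layer: basic definitions.   Owner: helper290.

Base space            `Cn n = Fin n → ℂ`  (sup norm: `Metric.ball z r` is the polydisc, `volume` is the
                      product Haar measure).
Riemann domain        a topological space `W` with a local homeomorphism `p : W → Cn n`.
                      Everything local on `W` is DEFINED by transport to `Cn n` through the chosen
                      local inverse `hp.localInverseAt x` (germ independent of the choice: file `RdGerm`).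
Measure               `rdVol p`: the unique measure with `μ A = volume (p '' A)` for every Borel set `A`
                      on which `p` is injective.
-/
import Mathlib

open MeasureTheory Complex
open scoped ContDiff ComplexConjugate ENNReal Topology

namespace Claimed.Agent.R242

/-- The base space `ℂⁿ` with the sup norm. -/
abbrev Cn (n : ℕ) : Type := Fin n → ℂ

section Euclid

variable {n : ℕ}

/-- Wirtinger derivative `∂/∂z_j` on `Cn n`. -/
noncomputable def dz (j : Fin n) (g : Cn n → ℂ) (z : Cn n) : ℂ :=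
  (fderiv ℝ g z (Pi.single j 1) - I * fderiv ℝ g z (Pi.single j I)) / 2

/-- Wirtinger derivative `∂/∂ z̄_j` on `Cn n`. -/
noncomputable def dzb (j : Fin n) (g : Cn n → ℂ) (z : Cn n) : ℂ :=
  (fderiv ℝ g z (Pi.single j 1) + I * fderiv ℝ g z (Pi.single j I)) / 2

/-- The entry `∂²φ/∂z_j∂z̄_k` of the complex Hessian of a real function. -/
noncomputable def leviC (φ : Cn n → ℝ) (j k : Fin n) (z : Cn n) : ℂ :=
  dz j (dzb k (fun y => (φ y : ℂ))) z

/-- The Levi form `∑ φ_{j k̄} a_j ā_k` of a real function. -/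
noncomputable def levi (φ : Cn n → ℝ) (z : Cn n) (a : Cn n) : ℝ :=
  (∑ j, ∑ k, leviC φ j k z * a j * conj (a k)).re

/-- smooth and plurisubharmonic on the set `U` (meant for `U` open). -/
def PshOn (φ : Cn n → ℝ) (U : Set (Cn n)) : Prop :=
  ContDiffOn ℝ ∞ φ U ∧ ∀ z ∈ U, ∀ a, 0 ≤ levi φ z a

end Euclid

section RiemannDomain

variable {n : ℕ} {W : Type*} [TopologicalSpace W] {p : W → Cn n} (hp : IsLocalHomeomorph p)
  {F : Type*}

/-- The local expression of `u : W → F` near `x`, a function on `Cn n` that is meaningful near `p x`. -/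
noncomputable def rdLoc (u : W → F) (x : W) : Cn n → F := fun z => u (hp.localInverseAt x z)

/-- `∂u/∂z_j` on a Riemann domain. -/
noncomputable def rdD (j : Fin n) (u : W → ℂ) (x : W) : ℂ := dz j (rdLoc hp u x) (p x)

/-- `∂u/∂z̄_j` on a Riemann domain. -/
noncomputable def rdDb (j : Fin n) (u : W → ℂ) (x : W) : ℂ := dzb j (rdLoc hp u x) (p x)

/-- `∂²φ/∂z_j∂z̄_k` on a Riemann domain. -/
noncomputable def rdLeviC (φ : W → ℝ) (j k : Fin n) (x : W) : ℂ := leviC (rdLoc hp φ x) j k (p x)

/-- Levi form on a Riemann domain. -/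
noncomputable def rdLevi (φ : W → ℝ) (x : W) (a : Cn n) : ℝ := levi (rdLoc hp φ x) (p x) a

variable [NormedAddCommGroup F] [NormedSpace ℝ F]

/-- `u` is `C^k` at `x`. -/
def RdContDiffAt (k : WithTop ℕ∞) (u : W → F) (x : W) : Prop :=
  ContDiffAt ℝ k (rdLoc hp u x) (p x)

/-- `u` is `C^k` on `W`. -/
def RdContDiff (k : WithTop ℕ∞) (u : W → F) : Prop := ∀ x, RdContDiffAt hp k u x

/-- `C^k` with compact support. -/
def RdTest (k : WithTop ℕ∞) (u : W → F) : Prop := RdContDiff hp k u ∧ HasCompactSupport u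

/-- `u` is holomorphic on `W`. -/
def RdHolo (u : W → ℂ) : Prop := ∀ x, DifferentiableAt ℂ (rdLoc hp u x) (p x)

end RiemannDomain

section Measure

variable {n : ℕ} {W : Type*} [MeasurableSpace W]

/-- Characteristic property of the pull-back of Lebesgue measure. -/
def IsRdVol (p : W → Cn n) (μ : Measure W) : Prop :=
  ∀ A : Set W, MeasurableSet A → Set.InjOn p A → μ A = volume (p '' A)

open Classical in
/-- The pull-back of Lebesgue measure under a local homeomorphism `p` (junk value `0` if there is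
no such measure). -/
noncomputable def rdVol (p : W → Cn n) : Measure W :=
  if h : ∃ μ : Measure W, IsRdVol p μ then h.choose else 0

/-- The weighted measure `e^{-φ} dV`. -/
noncomputable def rdVolW (p : W → Cn n) (φ : W → ℝ) : Measure W :=
  (rdVol p).withDensity fun x => ENNReal.ofReal (Real.exp (-φ x))

end Measure

section Weak

variable {n : ℕ} {W : Type*} [TopologicalSpace W] [MeasurableSpace W]
  {p : W → Cn n} (hp : IsLocalHomeomorph p)

/-- `∂̄u = f` in the sense of distributions (tested against `C_c^k`; the public notion is `k = ∞`).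
Only meaningful for locally integrable `u`, `f j`. -/
def RdWeakDbarK (k : WithTop ℕ∞) (u : W → ℂ) (f : Fin n → W → ℂ) : Prop :=
  ∀ v : W → ℂ, RdTest hp k v → ∀ j,
    ∫ x, u x * rdDb hp j v x ∂(rdVol p) = - ∫ x, f j x * v x ∂(rdVol p)

/-- `∂̄u = f` in the sense of distributions. -/
def RdWeakDbar (u : W → ℂ) (f : Fin n → W → ℂ) : Prop := RdWeakDbarK hp ∞ u f

/-- `∂̄f = 0` in the sense of distributions, for a `(0,1)`-form `f = ∑ f_j dz̄_j`. -/
def RdWeakClosed (f : Fin n → W → ℂ) : Prop :=
  ∀ v : W → ℂ, RdTest hp ∞ v → ∀ j k,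
    ∫ x, f j x * rdDb hp k v x ∂(rdVol p) = ∫ x, f k x * rdDb hp j v x ∂(rdVol p)

/-- locally square integrable. -/
def RdL2Loc (p : W → Cn n) (u : W → ℂ) : Prop :=
  AEStronglyMeasurable u (rdVol p) ∧
    ∀ K : Set W, IsCompact K → ∫⁻ x in K, ENNReal.ofReal (‖u x‖ ^ 2) ∂(rdVol p) < ⊤

end Weak

end Claimed.Agent.R242

/-! equation lemmas of this file, cited once here (rule 6) -/
namespace Claimed.Agent.R242

theorem r242_eqcite_SCV_Defs : True := by
  have := @Claimed.Agent.R242.rdVolW.eq_1.{0}
  have := @Claimed.Agent.R242.leviC.eq_1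
  have := @Claimed.Agent.R242.Cn.eq_1
  have := @Claimed.Agent.R242.RdContDiff.eq_1.{0,0}
  have := @Claimed.Agent.R242.RdTest.eq_1.{0,0}
  have := @Claimed.Agent.R242.RdContDiffAt.eq_1.{0,0}
  have := @Claimed.Agent.R242.RdL2Loc.eq_1.{0}
  have := @Claimed.Agent.R242.RdWeakDbarK.eq_1.{0}
  have := @Claimed.Agent.R242.rdLeviC.eq_1.{0}
  have := @Claimed.Agent.R242.rdLevi.eq_1.{0}
  have := @Claimed.Agent.R242.dzb.eq_1
  have := @Claimed.Agent.R242.RdWeakDbar.eq_1.{0}
  have := @Claimed.Agent.R242.dz.eq_1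
  have := @Claimed.Agent.R242.RdHolo.eq_1.{0}
  have := @Claimed.Agent.R242.rdVol.eq_1.{0}
  have := @Claimed.Agent.R242.rdD.eq_1.{0}
  have := @Claimed.Agent.R242.IsRdVol.eq_1.{0}
  have := @Claimed.Agent.R242.rdDb.eq_1.{0}
  have := @Claimed.Agent.R242.rdLoc.eq_1.{0,0}
  have := @Claimed.Agent.R242.RdWeakClosed.eq_1.{0}
  have := @Claimed.Agent.R242.levi.eq_1
  have := @Claimed.Agent.R242.PshOn.eq_1
  have := @Claimed.Agent.R242.RdContDiff.congr_simp.{0,0}
  have := @Claimed.Agent.R242.rdD.congr_simp.{0}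
  have := @Claimed.Agent.R242.rdDb.congr_simp.{0}
  have := @Claimed.Agent.R242.rdLoc.congr_simp.{0,0}
  have := @Claimed.Agent.R242.rdLevi.congr_simp.{0}
  trivial

end Claimed.Agent.R242
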