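/-
Row 242 (S0480), SCV layer: **Weyl's lemma for `∂̄`**.  Owner: helper249.

`E` is a finite dimensional complex normed space (`EuclideanSpace ℂ (Fin n)`, `Fin n → ℂ`, `ℂ`, …) with
an additive Haar measure `μ`.  A locally integrable function `u` on an open set `U` which is weakly
holomorphic (`∫ ∂̄_v η · u = 0` for all real test functions `η` supported in `U`) agrees almost
everywhere on `U` with a holomorphic function.

Proof: mollification with any smooth kernel is holomorphic; a holomorphic function is reproduced by a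
kernel which is invariant under the circle action `w ↦ c • w`; convolutions commute.
-/
import Mathlib

set_option autoImplicit false

namespace Claimed.Agent.R242

open MeasureTheory Complex Metric Set Filter Topology
open scoped ContDiff Convolution

variable {E : Type*} [NormedAddCommGroup E] [NormedSpace ℂ E] [FiniteDimensional ℂ E]
  [MeasurableSpace E] [BorelSpace E]

/-! ### Definitions -/

/-- `2 ∂̄_v η (w)` for a real valued function `η`. -/
noncomputable def r242_dbarR (η : E → ℝ) (w v : E) : ℂ :=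
  (fderiv ℝ η w v : ℂ) + I * (fderiv ℝ η w (I • v) : ℂ)

/-- `u` is locally integrable on `U` and `∂̄ u = 0` in the weak sense. -/
def r242_WeakHol (μ : Measure E) (U : Set E) (u : E → ℂ) : Prop :=
  LocallyIntegrableOn u U μ ∧ ∀ η : E → ℝ, ContDiff ℝ ∞ η → HasCompactSupport η → tsupport η ⊆ U →
    ∀ v : E, ∫ w, r242_dbarR η w v * u w ∂μ = 0

/-! ### The circle action preserves Haar measure -/

/-- Multiplication by a nonzero scalar as a real continuous linear equivalence. -/
noncomputable def r242_smulEquiv (c : ℂ) (hc : c ≠ 0) : E ≃L[ℝ] E :=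
  ((LinearEquiv.smulOfNeZero ℂ E c hc).toContinuousLinearEquiv).restrictScalars ℝ

omit [MeasurableSpace E] [BorelSpace E] in
@[simp] theorem r242_smulEquiv_apply (c : ℂ) (hc : c ≠ 0) (w : E) :
    r242_smulEquiv c hc w = c • w := rfl

theorem r242_measurePreserving_smul (μ : Measure E) [μ.IsAddHaarMeasure] {c : ℂ} (hc : ‖c‖ = 1) :
    MeasurePreserving (fun w : E => c • w) μ μ := by
  have hc0 : c ≠ 0 := by
    rintro rfl
    simp at hc
  set f : E ≃L[ℝ] E := r242_smulEquiv c hc0 with hf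
  have hpre : ∀ s : Set E, μ (f ⁻¹' s) = ENNReal.ofReal |LinearMap.det (f.symm : E →ₗ[ℝ] E)| * μ s :=
    fun s => Measure.addHaar_preimage_continuousLinearEquiv μ f s
  have hball : f ⁻¹' (ball (0 : E) 1) = ball (0 : E) 1 := by
    ext w
    simp [hf, norm_smul, hc]
  have h1 := hpre (ball (0 : E) 1)
  rw [hball] at h1
  have hpos : μ (ball (0 : E) 1) ≠ 0 := (measure_ball_pos μ 0 one_pos).ne'
  have hfin : μ (ball (0 : E) 1) ≠ ⊤ := measure_ball_lt_top.ne
  have hk : ENNReal.ofReal |LinearMap.det (f.symm : E →ₗ[ℝ] E)| = 1 := by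
    have h2 : 1 * μ (ball (0 : E) 1) =
        ENNReal.ofReal |LinearMap.det (f.symm : E →ₗ[ℝ] E)| * μ (ball (0 : E) 1) := by
      rw [one_mul]; exact h1
    exact ((ENNReal.mul_left_inj hpos hfin).1 h2).symm
  refine ⟨f.continuous.measurable, Measure.ext fun s hs => ?_⟩
  have h3 : Measure.map (fun w : E => c • w) μ s = μ (f ⁻¹' s) :=
    Measure.map_apply f.continuous.measurable hs
  rw [h3, hpre s, hk, one_mul]

theorem r242_integral_smul_comp (μ : Measure E) [μ.IsAddHaarMeasure] {c : ℂ} (hc : ‖c‖ = 1)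
    (g : E → ℂ) : ∫ w, g (c • w) ∂μ = ∫ w, g w ∂μ := by
  have hc0 : c ≠ 0 := by
    rintro rfl
    simp at hc
  exact (r242_measurePreserving_smul μ hc).integral_comp
    (r242_smulEquiv c hc0).toHomeomorph.measurableEmbedding g

/-! ### A smooth kernel invariant under the circle action -/

theorem r242_exists_kernel (μ : Measure E) [μ.IsAddHaarMeasure] {r : ℝ} (hr : 0 < r) :
    ∃ ρ : E → ℝ, ContDiff ℝ ∞ ρ ∧ HasCompactSupport ρ ∧ tsupport ρ ⊆ closedBall 0 r ∧
      (∫ w, ρ w ∂μ = 1) ∧ ∀ c : ℂ, ‖c‖ = 1 → ∀ w, ρ (c • w) = ρ w := by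
  classical
  obtain e : E ≃L[ℂ] EuclideanSpace ℂ (Fin (Module.finrank ℂ E)) :=
    ContinuousLinearEquiv.ofFinrankEq (by simp)
  -- a small radius in the Euclidean norm
  set M : ℝ := ‖(e.symm : EuclideanSpace ℂ (Fin (Module.finrank ℂ E)) →L[ℂ] E)‖ with hM
  have hM0 : 0 ≤ M := norm_nonneg _
  obtain ⟨δ, hδ, hδr⟩ : ∃ δ : ℝ, 0 < δ ∧ M * δ ≤ r := by
    refine ⟨r / (M + 1), by positivity, ?_⟩
    rw [mul_div_assoc', div_le_iff₀ (by positivity)]
    nlinarith
  set ψ : E → ℝ := fun w => Real.smoothTransition (δ ^ 2 - ‖e w‖ ^ 2) with hψ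
  have hsm : ContDiff ℝ ∞ ψ := by
    have h0 : ContDiff ℝ ∞ (fun w : E => e w) :=
      ((e : E →L[ℂ] EuclideanSpace ℂ (Fin (Module.finrank ℂ E))).restrictScalars ℝ).contDiff
    have h1 : ContDiff ℝ ∞ (fun w : E => ‖e w‖ ^ 2) := (contDiff_norm_sq ℂ).comp h0
    exact Real.smoothTransition.contDiff.comp (contDiff_const.sub h1)
  have hsupp : Function.support ψ ⊆ closedBall 0 r := by
    intro w hw
    have h1 : 0 < δ ^ 2 - ‖e w‖ ^ 2 := by
      by_contra hcon
      exact hw (Real.smoothTransition.zero_of_nonpos (not_lt.1 hcon))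
    have h2 : ‖e w‖ < δ := by
      by_contra hcon
      have h4 : δ ≤ ‖e w‖ := not_lt.1 hcon
      nlinarith [norm_nonneg (e w)]
    have h3 : ‖w‖ ≤ M * ‖e w‖ := by
      have := (e.symm : EuclideanSpace ℂ (Fin (Module.finrank ℂ E)) →L[ℂ] E).le_opNorm (e w)
      simpa using this
    rw [mem_closedBall_zero_iff]
    calc ‖w‖ ≤ M * ‖e w‖ := h3
      _ ≤ M * δ := mul_le_mul_of_nonneg_left h2.le hM0
      _ ≤ r := hδr
  have htsupp : tsupport ψ ⊆ closedBall 0 r := closure_minimal hsupp isClosed_closedBall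
  have hcs : HasCompactSupport ψ :=
    HasCompactSupport.of_support_subset_isCompact (isCompact_closedBall 0 r) hsupp
  have hnn : 0 ≤ ψ := fun w => Real.smoothTransition.nonneg _
  have h0 : ψ 0 ≠ 0 := by
    have : 0 < ψ 0 := by
      simp only [hψ, map_zero, norm_zero]
      refine Real.smoothTransition.pos_of_pos ?_
      have : 0 < δ ^ 2 := by positivity
      simpa using this
    exact this.ne'
  have hint : 0 < ∫ w, ψ w ∂μ :=
    hsm.continuous.integral_pos_of_hasCompactSupport_nonneg_nonzero hcs hnn h0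
  refine ⟨fun w => (∫ w, ψ w ∂μ)⁻¹ * ψ w, contDiff_const.mul hsm, hcs.mul_left, ?_, ?_, ?_⟩
  · exact (tsupport_mul_subset_right (f := fun _ => (∫ w, ψ w ∂μ)⁻¹) (g := ψ)).trans htsupp
  · rw [integral_const_mul, inv_mul_cancel₀ hint.ne']
  · intro c hc w
    simp only [hψ, map_smul, norm_smul, hc, one_mul]

/-! ### The mean value property -/

section mvp

variable (μ : Measure E) [μ.IsAddHaarMeasure] {ρ : E → ℝ} {δ : ℝ} {v : E → ℂ} {V : Set E} {z : E}

omit [FiniteDimensional ℂ E] [MeasurableSpace E] [BorelSpace E] in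
theorem r242_mvp_mem (hz : closedBall z δ ⊆ V) {t : E} (ht : t ∈ closedBall (0 : E) δ) {ζ : ℂ}
    (hζ : ‖ζ‖ ≤ 1) : z - ζ • t ∈ V := by
  apply hz
  rw [mem_closedBall, dist_eq_norm]
  have h1 : ‖t‖ ≤ δ := by simpa using ht
  calc ‖z - ζ • t - z‖ = ‖ζ‖ * ‖t‖ := by
        rw [sub_sub_cancel_left, norm_neg, norm_smul]
    _ ≤ 1 * δ := mul_le_mul hζ h1 (norm_nonneg _) zero_le_one
    _ = δ := one_mul _

omit [FiniteDimensional ℂ E] [MeasurableSpace E] [BorelSpace E] in
theorem r242_mvp_continuous (hρc : Continuous ρ) (hρs : tsupport ρ ⊆ closedBall 0 δ)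
    (hV : IsOpen V) (hv : DifferentiableOn ℂ v V) (hz : closedBall z δ ⊆ V) :
    Continuous (Function.uncurry fun (t : E) (θ : ℝ) => ρ t • v (z - exp (θ * I) • t)) := by
  rw [continuous_iff_continuousAt]
  rintro ⟨t, θ⟩
  by_cases ht : t ∈ closedBall (0 : E) δ
  · have hmem : z - exp (θ * I) • t ∈ V := r242_mvp_mem hz ht (by simp [Complex.norm_exp_ofReal_mul_I])
    have h1 : ContinuousAt v (z - exp (θ * I) • t) :=
      hv.continuousOn.continuousAt (hV.mem_nhds hmem)
    have h2 : ContinuousAt (fun p : E × ℝ => z - exp (p.2 * I) • p.1) (t, θ) := by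
      fun_prop
    have h3 : ContinuousAt (fun p : E × ℝ => v (z - exp (p.2 * I) • p.1)) (t, θ) :=
      ContinuousAt.comp (g := v) (f := fun p : E × ℝ => z - exp (p.2 * I) • p.1) h1 h2
    exact (hρc.continuousAt.comp continuousAt_fst).smul h3
  · have hopen : IsOpen {p : E × ℝ | p.1 ∉ closedBall (0 : E) δ} :=
      (isClosed_closedBall.preimage continuous_fst).isOpen_compl
    have hev : ∀ᶠ p : E × ℝ in 𝓝 (t, θ), p.1 ∉ closedBall (0 : E) δ := hopen.mem_nhds ht
    have hcongr : (Function.uncurry fun (t : E) (θ : ℝ) => ρ t • v (z - exp (θ * I) • t))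
        =ᶠ[𝓝 (t, θ)] fun _ => 0 := by
      filter_upwards [hev] with p hp
      have : ρ p.1 = 0 := image_eq_zero_of_notMem_tsupport fun h => hp (hρs h)
      simp [Function.uncurry, this]
    exact continuousAt_const.congr hcongr.symm

theorem r242_mvp (hρc : Continuous ρ) (hρs : tsupport ρ ⊆ closedBall 0 δ)
    (hρ1 : ∫ w, ρ w ∂μ = 1) (hρi : ∀ c : ℂ, ‖c‖ = 1 → ∀ w, ρ (c • w) = ρ w)
    (hV : IsOpen V) (hv : DifferentiableOn ℂ v V) (hz : closedBall z δ ⊆ V) :
    ∫ t, ρ t • v (z - t) ∂μ = v z := by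
  set F : E → ℝ → ℂ := fun t θ => ρ t • v (z - exp (θ * I) • t) with hF
  have hcont : Continuous (Function.uncurry F) := r242_mvp_continuous hρc hρs hV hv hz
  have hπ : (0 : ℝ) ≤ 2 * Real.pi := by positivity
  -- rotation invariance
  have hA : ∀ θ : ℝ, ∫ t, F t θ ∂μ = ∫ t, ρ t • v (z - t) ∂μ := by
    intro θ
    have hc : ‖exp (θ * I)‖ = 1 := Complex.norm_exp_ofReal_mul_I θ
    have := r242_integral_smul_comp μ hc (fun t => ρ t • v (z - t))
    rw [← this]
    refine integral_congr_ae (Eventually.of_forall fun t => ?_)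
    simp only [hF, hρi _ hc t]
  -- the circle average
  have hB : ∀ t : E, ∫ θ in (0 : ℝ)..2 * Real.pi, F t θ = (2 * Real.pi) • (ρ t • v z) := by
    intro t
    by_cases ht : t ∈ closedBall (0 : E) δ
    · have hd : DifferentiableOn ℂ (fun ζ : ℂ => v (z - ζ • t)) (closure (ball (0 : ℂ) |1|)) := by
        intro ζ hζ
        have hζ' : ‖ζ‖ ≤ 1 := by
          have := closure_ball_subset_closedBall hζ
          simpa using this
        have hmem : z - ζ • t ∈ V := r242_mvp_mem hz ht hζ'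
        have h1 : DifferentiableAt ℂ v (z - ζ • t) := hv.differentiableAt (hV.mem_nhds hmem)
        have h2 : DifferentiableAt ℂ (fun ζ : ℂ => z - ζ • t) ζ := by fun_prop
        exact (DifferentiableAt.comp (g := v) ζ h1 h2).differentiableWithinAt
      have hav := hd.diffContOnCl.circleAverage
      rw [Real.circleAverage] at hav
      have h3 : ∫ θ in (0 : ℝ)..2 * Real.pi, v (z - circleMap 0 1 θ • t) = (2 * Real.pi) • v z := by
        have h4 : (2 * Real.pi) • ((2 * Real.pi)⁻¹ •
            ∫ θ in (0 : ℝ)..2 * Real.pi, v (z - circleMap 0 1 θ • t)) =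
            (2 * Real.pi) • v (z - (0 : ℂ) • t) := by rw [hav]
        rw [smul_smul, mul_inv_cancel₀ (by positivity), one_smul, zero_smul, sub_zero] at h4
        exact h4
      have h5 : ∀ θ : ℝ, F t θ = ρ t • v (z - circleMap 0 1 θ • t) := fun θ => by
        simp [hF, circleMap]
      simp only [h5]
      rw [intervalIntegral.integral_smul, h3, smul_comm]
    · have : ρ t = 0 := image_eq_zero_of_notMem_tsupport fun h => ht (hρs h)
      simp [hF, this]
  -- Fubini
  have hint : Integrable (Function.uncurry F) (μ.prod (volume.restrict (Ioc 0 (2 * Real.pi)))) := by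
    have h1 : IntegrableOn (Function.uncurry F) (closedBall (0 : E) δ ×ˢ Icc 0 (2 * Real.pi))
        (μ.prod volume) :=
      hcont.continuousOn.integrableOn_compact ((isCompact_closedBall 0 δ).prod isCompact_Icc)
    have h2 : IntegrableOn (Function.uncurry F) (univ ×ˢ Ioc 0 (2 * Real.pi)) (μ.prod volume) := by
      refine h1.of_forall_sdiff_eq_zero (MeasurableSet.univ.prod measurableSet_Ioc) ?_
      rintro ⟨t, θ⟩ ⟨h3, h4⟩
      have ht : t ∉ closedBall (0 : E) δ := fun h => h4 ⟨h, Ioc_subset_Icc_self h3.2⟩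
      have : ρ t = 0 := image_eq_zero_of_notMem_tsupport fun h => ht (hρs h)
      simp [Function.uncurry, hF, this]
    rw [IntegrableOn, ← Measure.prod_restrict, Measure.restrict_univ] at h2
    exact h2
  have hswap := integral_integral_swap hint
  simp only [← intervalIntegral.integral_of_le hπ] at hswap
  simp only [hA, hB] at hswap
  rw [intervalIntegral.integral_const, sub_zero, integral_smul] at hswap
  have h6 : ∫ t, ρ t • v z ∂μ = v z := by
    rw [integral_smul_const, hρ1, one_smul]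
  rw [h6] at hswap
  have h7 : (2 * Real.pi) ≠ 0 := by positivity
  exact (smul_right_injective ℂ h7 hswap).symm

end mvp

/-! ### Complex differentiability from the Cauchy-Riemann equations -/

omit [FiniteDimensional ℂ E] [MeasurableSpace E] [BorelSpace E] in
theorem r242_differentiableAt_of_real {f : E → ℂ} {A : E →L[ℝ] ℂ} {z : E} (h : HasFDerivAt f A z)
    (hA : ∀ v, A (I • v) = I * A v) : DifferentiableAt ℂ f z := by
  have hsmul : ∀ (c : ℂ) (x : E), A (c • x) = c • A x := by
    intro c x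
    have h1 : c • x = c.re • x + c.im • (I • x) := by
      conv_lhs => rw [← Complex.re_add_im c]
      rw [add_smul, mul_smul, Complex.coe_smul, Complex.coe_smul]
    rw [h1, map_add, map_smul, map_smul, hA]
    conv_rhs => rw [← Complex.re_add_im c]
    simp only [Complex.real_smul, smul_eq_mul]
    ring
  let A' : E →L[ℂ] ℂ :=
    { toFun := A
      map_add' := A.map_add
      map_smul' := hsmul
      cont := A.cont }
  have : HasFDerivAt f A' z := hasFDerivAt_of_restrictScalars ℝ h rfl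
  exact this.differentiableAt

/-! ### A mollification of a weakly holomorphic function is holomorphic -/

section mollify

variable (μ : Measure E) [μ.IsAddHaarMeasure] {U K : Set E} {u u' : E → ℂ} {η : E → ℝ} {δ : ℝ} {z : E}

omit [FiniteDimensional ℂ E] [MeasurableSpace E] [BorelSpace E] in
theorem r242_fderiv_reflect (hη : ContDiff ℝ ∞ η) (z w : E) :
    fderiv ℝ (fun w => η (z - w)) w = -fderiv ℝ η (z - w) := by
  have h1 : HasFDerivAt η (fderiv ℝ η (z - w)) (z - w) :=
    (hη.differentiable (by simp)).differentiableAt.hasFDerivAt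
  have h2 : HasFDerivAt (fun w : E => z - w) (-ContinuousLinearMap.id ℝ E) w :=
    (hasFDerivAt_id w).const_sub z
  have h3 := (h1.comp w h2).fderiv
  have h4 : (η ∘ fun w : E => z - w) = fun w => η (z - w) := rfl
  rw [h4] at h3
  rw [h3]
  ext v
  simp

omit [FiniteDimensional ℂ E] [MeasurableSpace E] [BorelSpace E] in
theorem r242_dbarR_reflect (hη : ContDiff ℝ ∞ η) (z w v : E) :
    r242_dbarR (fun w => η (z - w)) w v = -r242_dbarR η (z - w) v := by
  simp only [r242_dbarR, r242_fderiv_reflect hη]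
  simp only [_root_.neg_apply, Complex.ofReal_neg]
  ring

theorem r242_hol_mollify (hu : r242_WeakHol μ U u) (hu' : LocallyIntegrable u' μ) (hKU : K ⊆ U)
    (hK : ∀ w ∈ K, u' w = u w) (hη : ContDiff ℝ ∞ η) (hηc : HasCompactSupport η)
    (hηs : tsupport η ⊆ closedBall 0 δ) (hz : closedBall z δ ⊆ K) :
    DifferentiableAt ℂ (η ⋆[ContinuousLinearMap.lsmul ℝ ℝ, μ] u') z := by
  have hd := hηc.hasFDerivAt_convolution_left (ContinuousLinearMap.lsmul ℝ ℝ : ℝ →L[ℝ] ℂ →L[ℝ] ℂ)
    (μ := μ) (hη.of_le (by simp)) hu' z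
  refine r242_differentiableAt_of_real hd ?_
  -- the derivative in a direction
  have hex : Integrable (fun t => ((ContinuousLinearMap.lsmul ℝ ℝ : ℝ →L[ℝ] ℂ →L[ℝ] ℂ).precompL E
      (fderiv ℝ η t)) (u' (z - t))) μ :=
    (hηc.fderiv ℝ).convolutionExists_left _ (hη.continuous_fderiv (by simp)) hu' z
  have hval : ∀ v : E, (fderiv ℝ η ⋆[(ContinuousLinearMap.lsmul ℝ ℝ :
      ℝ →L[ℝ] ℂ →L[ℝ] ℂ).precompL E, μ] u') z v = ∫ t, (fderiv ℝ η t v : ℂ) * u' (z - t) ∂μ := by
    intro v
    rw [convolution_def, ContinuousLinearMap.integral_apply hex]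
    refine integral_congr_ae (Eventually.of_forall fun t => ?_)
    simp [ContinuousLinearMap.precompL_apply]
  have hiv : ∀ v : E, Integrable (fun t => (fderiv ℝ η t v : ℂ) * u' (z - t)) μ := by
    intro v
    have := hex.apply_continuousLinearMap v
    refine this.congr (Eventually.of_forall fun t => ?_)
    simp [ContinuousLinearMap.precompL_apply]
  -- the test function
  have htest : ∀ v : E, ∫ w, r242_dbarR (fun w => η (z - w)) w v * u w ∂μ = 0 := by
    intro v
    have h1 : tsupport (fun w => η (z - w)) = (Homeomorph.subLeft z) ⁻¹' tsupport η :=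
      tsupport_comp_eq_preimage η (Homeomorph.subLeft z)
    have h0 : ContDiff ℝ ∞ (fun w => η (z - w)) := hη.comp (contDiff_const.sub contDiff_id)
    refine hu.2 (fun w => η (z - w)) h0 (hηc.comp_homeomorph (Homeomorph.subLeft z)) ?_ v
    rw [h1]
    intro w hw
    have h2 : z - w ∈ closedBall (0 : E) δ := hηs hw
    apply hKU
    apply hz
    rw [mem_closedBall, dist_comm, dist_eq_norm]
    simpa using h2
  have hkey : ∀ v : E, ∫ t, r242_dbarR η t v * u' (z - t) ∂μ = 0 := by
    intro v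
    rw [← integral_sub_left_eq_self (fun t => r242_dbarR η t v * u' (z - t)) μ z]
    have h1 : ∀ w, r242_dbarR η (z - w) v * u' (z - (z - w)) =
        -(r242_dbarR (fun w => η (z - w)) w v * u w) := by
      intro w
      rw [r242_dbarR_reflect hη, sub_sub_cancel, neg_mul, neg_neg]
      by_cases hw : w ∈ K
      · rw [hK w hw]
      · have h2 : z - w ∉ tsupport η := by
          intro h3
          have h4 : z - w ∈ closedBall (0 : E) δ := hηs h3
          apply hw
          apply hz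
          rw [mem_closedBall, dist_comm, dist_eq_norm]
          simpa using h4
        have h5 : fderiv ℝ η (z - w) = 0 := by
          by_contra h6
          exact h2 (support_fderiv_subset ℝ h6)
        simp [r242_dbarR, h5]
    simp only [h1]
    rw [integral_neg, htest v, neg_zero]
  intro v
  have h1 := hkey v
  have h2 : ∀ t, r242_dbarR η t v * u' (z - t) = (fderiv ℝ η t v : ℂ) * u' (z - t) +
      I * ((fderiv ℝ η t (I • v) : ℂ) * u' (z - t)) := by
    intro t
    simp only [r242_dbarR]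
    ring
  simp only [h2] at h1
  rw [integral_add (hiv v) ((hiv (I • v)).const_mul I), integral_const_mul, ← hval, ← hval] at h1
  have h3 : I * (I * (fderiv ℝ η ⋆[(ContinuousLinearMap.lsmul ℝ ℝ :
      ℝ →L[ℝ] ℂ →L[ℝ] ℂ).precompL E, μ] u') z (I • v)) = -(fderiv ℝ η ⋆[(ContinuousLinearMap.lsmul ℝ ℝ :
      ℝ →L[ℝ] ℂ →L[ℝ] ℂ).precompL E, μ] u') z (I • v) := by
    rw [← mul_assoc, Complex.I_mul_I, neg_one_mul]
  have h4 := congrArg (fun x => I * x) h1
  simp only [mul_add, mul_zero, h3] at h4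
  exact (sub_eq_zero.1 (by rw [← h4]; ring)).symm

end mollify

/-! ### Convolutions commute -/

section comm

variable (μ : Measure E) [μ.IsAddHaarMeasure] {f₁ f₂ : E → ℝ} {g : E → ℂ}

theorem r242_conv_assoc (h₁ : Continuous f₁) (c₁ : HasCompactSupport f₁) (h₂ : Continuous f₂)
    (c₂ : HasCompactSupport f₂) (hg : LocallyIntegrable g μ) (x : E) :
    ((f₁ ⋆[ContinuousLinearMap.mul ℝ ℝ, μ] f₂) ⋆[ContinuousLinearMap.lsmul ℝ ℝ, μ] g) x =
      (f₁ ⋆[ContinuousLinearMap.lsmul ℝ ℝ, μ] (f₂ ⋆[ContinuousLinearMap.lsmul ℝ ℝ, μ] g)) x := by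
  refine convolution_assoc (ContinuousLinearMap.mul ℝ ℝ)
    (ContinuousLinearMap.lsmul ℝ ℝ : ℝ →L[ℝ] ℂ →L[ℝ] ℂ) (ContinuousLinearMap.lsmul ℝ ℝ)
    (ContinuousLinearMap.lsmul ℝ ℝ) (fun a b c => by simp [mul_smul]) h₁.aestronglyMeasurable
    h₂.aestronglyMeasurable hg.aestronglyMeasurable ?_ ?_ ?_
  all_goals have hgn : LocallyIntegrable (fun x => ‖g x‖) μ := fun y => (hg y).norm
  · exact Eventually.of_forall fun y =>
      c₁.convolutionExists_left _ h₁ h₂.locallyIntegrable y
  · exact Eventually.of_forall fun y =>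
      c₂.norm.convolutionExists_left _ h₂.norm hgn y
  · refine c₁.norm.convolutionExists_left _ h₁.norm ?_ x
    exact (c₂.norm.continuous_convolution_left _ h₂.norm hgn).locallyIntegrable

theorem r242_conv_comm (h₁ : Continuous f₁) (c₁ : HasCompactSupport f₁) (h₂ : Continuous f₂)
    (c₂ : HasCompactSupport f₂) (hg : LocallyIntegrable g μ) (x : E) :
    (f₁ ⋆[ContinuousLinearMap.lsmul ℝ ℝ, μ] (f₂ ⋆[ContinuousLinearMap.lsmul ℝ ℝ, μ] g)) x =
      (f₂ ⋆[ContinuousLinearMap.lsmul ℝ ℝ, μ] (f₁ ⋆[ContinuousLinearMap.lsmul ℝ ℝ, μ] g)) x := by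
  rw [← r242_conv_assoc μ h₁ c₁ h₂ c₂ hg, ← r242_conv_assoc μ h₂ c₂ h₁ c₁ hg]
  have hflip : (ContinuousLinearMap.mul ℝ ℝ).flip = ContinuousLinearMap.mul ℝ ℝ := by
    ext
    simp
  have : f₁ ⋆[ContinuousLinearMap.mul ℝ ℝ, μ] f₂ = f₂ ⋆[ContinuousLinearMap.mul ℝ ℝ, μ] f₁ := by
    conv_lhs => rw [← hflip]
    exact convolution_flip (ContinuousLinearMap.mul ℝ ℝ)
  rw [this]

end comm

/-! ### Weyl's lemma -/

section weyl

variable (μ : Measure E) [μ.IsAddHaarMeasure] {U : Set E} {u : E → ℂ}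

omit [NormedSpace ℂ E] [FiniteDimensional ℂ E] [MeasurableSpace E] [BorelSpace E] in
theorem r242_closedBall_subset {z₀ z : E} {a b c : ℝ} (hz : dist z z₀ < a) (h : a + b ≤ c) :
    closedBall z b ⊆ ball z₀ c := by
  intro w hw
  rw [mem_closedBall] at hw
  rw [mem_ball]
  calc dist w z₀ ≤ dist w z + dist z z₀ := dist_triangle _ _ _
    _ < b + a := by linarith
    _ ≤ c := by linarith

/-- The sequence of Mathlib bump functions used as an approximate identity. -/
noncomputable def r242_bump (r : ℝ) (hr : 0 < r) (i : ℕ) : ContDiffBump (0 : E) where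
  rIn := r * (1 / ((i : ℝ) + 1)) / 2
  rOut := r * (1 / ((i : ℝ) + 1))
  rIn_pos := by positivity
  rIn_lt_rOut := by
    have : 0 < r * (1 / ((i : ℝ) + 1)) := by positivity
    linarith

theorem r242_bump_rOut (r : ℝ) (hr : 0 < r) (i : ℕ) :
    (r242_bump (E := E) r hr i).rOut = r * (1 / ((i : ℝ) + 1)) := rfl

theorem r242_bump_rIn (r : ℝ) (hr : 0 < r) (i : ℕ) :
    (r242_bump (E := E) r hr i).rIn = r * (1 / ((i : ℝ) + 1)) / 2 := rfl

theorem r242_weyl_local (hU : IsOpen U) (hu : r242_WeakHol μ U u) {z₀ : E} (hz₀ : z₀ ∈ U) :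
    ∃ r : ℝ, 0 < r ∧ ∃ h : E → ℂ, ball z₀ r ⊆ U ∧ DifferentiableOn ℂ h (ball z₀ r) ∧
      ∀ᵐ z ∂μ, z ∈ ball z₀ r → u z = h z := by
  obtain ⟨ε, hε, hεU⟩ := Metric.isOpen_iff.1 hU z₀ hz₀
  set r : ℝ := ε / 4 with hr
  have hr0 : 0 < r := by positivity
  set K : Set E := closedBall z₀ (3 * r) with hK
  have hKU : K ⊆ U := (closedBall_subset_ball (by rw [hr]; linarith)).trans hεU
  set u' : E → ℂ := K.indicator u with hu'
  have hu'i : Integrable u' μ :=
    (hu.1.integrableOn_compact_subset hKU (isCompact_closedBall _ _)).integrable_indicator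
      measurableSet_closedBall
  have hu'l : LocallyIntegrable u' μ := hu'i.locallyIntegrable
  have hu'K : ∀ w ∈ K, u' w = u w := fun w hw => indicator_of_mem hw u
  obtain ⟨ρ, hρsm, hρc, hρs, hρ1, hρi⟩ := r242_exists_kernel μ hr0
  -- every mollification with a kernel supported in the ball of radius `r` is holomorphic
  have hmol : ∀ η : E → ℝ, ContDiff ℝ ∞ η → HasCompactSupport η → tsupport η ⊆ closedBall 0 r →
      DifferentiableOn ℂ (η ⋆[ContinuousLinearMap.lsmul ℝ ℝ, μ] u') (ball z₀ (2 * r)) := by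
    intro η h1 h2 h3 z hz
    have h4 : closedBall z r ⊆ K :=
      (r242_closedBall_subset (mem_ball.1 hz) (by linarith)).trans ball_subset_closedBall
    exact (r242_hol_mollify μ hu hu'l hKU hu'K h1 h2 h3 h4).differentiableWithinAt
  set h : E → ℂ := ρ ⋆[ContinuousLinearMap.lsmul ℝ ℝ, μ] u' with hh
  have hhc : Continuous h := hρc.continuous_convolution_left _ hρsm.continuous hu'l
  refine ⟨r, hr0, h, (ball_subset_closedBall.trans (closedBall_subset_closedBall
    (by linarith))).trans hKU, (hmol ρ hρsm hρc hρs).mono (ball_subset_ball (by linarith)), ?_⟩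
  -- the approximate identity
  set φ : ℕ → ContDiffBump (0 : E) := r242_bump r hr0 with hφ
  have hφ0 : Tendsto (fun i => (φ i).rOut) atTop (𝓝 0) := by
    have := (tendsto_one_div_add_atTop_nhds_zero_nat (𝕜 := ℝ)).const_mul r
    rw [mul_zero] at this
    exact this
  have hφK : ∀ᶠ i in atTop, (φ i).rOut ≤ 2 * (φ i).rIn := Eventually.of_forall fun i => by
    simp only [hφ, r242_bump_rOut, r242_bump_rIn]
    linarith
  have hφr : ∀ i, (φ i).rOut ≤ r := fun i => by
    simp only [hφ, r242_bump_rOut, r242_bump_rIn]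
    have h1 : 1 / ((i : ℝ) + 1) ≤ 1 := by
      rw [div_le_one (by positivity)]
      have : (0 : ℝ) ≤ i := Nat.cast_nonneg i
      linarith
    nlinarith
  have hkey : ∀ i, ∀ z ∈ ball z₀ r, ((φ i).normed μ ⋆[ContinuousLinearMap.lsmul ℝ ℝ, μ] u') z =
      ((φ i).normed μ ⋆[ContinuousLinearMap.lsmul ℝ ℝ, μ] h) z := by
    intro i z hz
    have hs : tsupport ((φ i).normed μ) ⊆ closedBall 0 r := by
      rw [ContDiffBump.tsupport_normed_eq (φ i) (μ := μ)]
      exact closedBall_subset_closedBall (hφr i)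
    have hd := hmol ((φ i).normed μ) (φ i).contDiff_normed (φ i).hasCompactSupport_normed hs
    have hm := r242_mvp μ hρsm.continuous hρs hρ1 hρi isOpen_ball hd
      (r242_closedBall_subset (mem_ball.1 hz) (by linarith) : closedBall z r ⊆ ball z₀ (2 * r))
    have hc := r242_conv_comm μ (f₂ := (φ i).normed μ) hρsm.continuous hρc
      (φ i).continuous_normed (φ i).hasCompactSupport_normed hu'l z
    rw [← hh] at hc
    rw [← hc, ← hm, convolution_def]
    rfl
  have hae := ContDiffBump.ae_convolution_tendsto_right_of_locallyIntegrable (μ := μ) hφ0 hφK hu'l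
  filter_upwards [hae] with z hz hzb
  have h1 := ContDiffBump.convolution_tendsto_right_of_continuous (μ := μ) hφ0 hhc z
  have h2 : (fun i => ((φ i).normed μ ⋆[ContinuousLinearMap.lsmul ℝ ℝ, μ] u') z) =
      fun i => ((φ i).normed μ ⋆[ContinuousLinearMap.lsmul ℝ ℝ, μ] h) z :=
    funext fun i => hkey i z hzb
  rw [h2] at hz
  have h3 : u' z = h z := tendsto_nhds_unique hz h1
  rw [← h3, hu'K z (ball_subset_closedBall.trans (closedBall_subset_closedBall (by linarith)) hzb)]

/-- **Weyl's lemma for `∂̄`.** -/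
theorem r242_weyl (hU : IsOpen U) (hu : r242_WeakHol μ U u) :
    ∃ h : E → ℂ, DifferentiableOn ℂ h U ∧ ∀ᵐ z ∂μ, z ∈ U → u z = h z := by
  classical
  choose r hr H hsub hdiff hae using fun z₀ : U => r242_weyl_local μ hU hu z₀.2
  set h : E → ℂ := fun z => if hz : z ∈ U then H ⟨z, hz⟩ z else 0 with hh
  have hloc : ∀ (z₀ : U), ∀ z ∈ ball (z₀ : E) (r z₀), h z = H z₀ z := by
    intro z₀ z hz
    have hzU : z ∈ U := hsub z₀ hz
    have h1 : h z = H ⟨z, hzU⟩ z := by simp only [hh, dif_pos hzU]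
    rw [h1]
    set W : Set E := ball z (r ⟨z, hzU⟩) ∩ ball (z₀ : E) (r z₀) with hW
    have hWo : IsOpen W := isOpen_ball.inter isOpen_ball
    have hzW : z ∈ W := ⟨mem_ball_self (hr _), hz⟩
    have hae' : H ⟨z, hzU⟩ =ᵐ[μ.restrict W] H z₀ := by
      rw [Filter.EventuallyEq, ae_restrict_iff' hWo.measurableSet]
      filter_upwards [hae ⟨z, hzU⟩, hae z₀] with w h2 h3 hw
      rw [← h2 hw.1, ← h3 hw.2]
    exact Measure.eqOn_open_of_ae_eq hae' hWo
      ((hdiff _).continuousOn.mono inter_subset_left)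
      ((hdiff _).continuousOn.mono inter_subset_right) hzW
  refine ⟨h, ?_, ?_⟩
  · intro z₀ hz₀
    have h1 : DifferentiableAt ℂ (H ⟨z₀, hz₀⟩) z₀ :=
      (hdiff ⟨z₀, hz₀⟩).differentiableAt (isOpen_ball.mem_nhds (mem_ball_self (hr _)))
    have h2 : h =ᶠ[𝓝 z₀] H ⟨z₀, hz₀⟩ := by
      filter_upwards [isOpen_ball.mem_nhds (mem_ball_self (hr ⟨z₀, hz₀⟩))] with z hz
      exact hloc ⟨z₀, hz₀⟩ z hz
    exact (h1.congr_of_eventuallyEq h2).differentiableWithinAt
  · set s : Set E := {z | z ∈ U ∧ u z ≠ h z} with hs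
    have hnull : μ s = 0 := by
      refine measure_null_of_locally_null s fun x hx => ?_
      refine ⟨ball x (r ⟨x, hx.1⟩) ∩ s, ?_, ?_⟩
      · rw [inter_comm]
        exact inter_mem_nhdsWithin s (isOpen_ball.mem_nhds (mem_ball_self (hr _)))
      · refine measure_mono_null ?_ (hae ⟨x, hx.1⟩)
        intro w hw hcon
        exact hw.2.2 (by rw [hloc ⟨x, hx.1⟩ w hw.1]; exact hcon hw.1)
    rw [ae_iff]
    refine measure_mono_null ?_ hnull
    intro z hz
    exact Classical.not_imp.1 hz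

/-- `2 ∂̄_v φ (w)` for a complex valued function `φ`. -/
noncomputable def r242_dbarC (φ : E → ℂ) (w v : E) : ℂ :=
  fderiv ℝ φ w v + I * fderiv ℝ φ w (I • v)

omit [FiniteDimensional ℂ E] [MeasurableSpace E] [BorelSpace E] in
theorem r242_dbarC_ofReal {η : E → ℝ} (hη : ContDiff ℝ ∞ η) (w v : E) :
    r242_dbarC (fun w => (η w : ℂ)) w v = r242_dbarR η w v := by
  have h1 : HasFDerivAt η (fderiv ℝ η w) w :=
    (hη.differentiable (by simp)).differentiableAt.hasFDerivAt
  have h2 : HasFDerivAt (fun w => (η w : ℂ)) (Complex.ofRealCLM.comp (fderiv ℝ η w)) w :=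
    Complex.ofRealCLM.hasFDerivAt.comp w h1
  simp [r242_dbarC, r242_dbarR, h2.fderiv]

omit [FiniteDimensional ℂ E] [BorelSpace E] [μ.IsAddHaarMeasure] in
/-- Weak holomorphy tested against complex valued test functions. -/
theorem r242_weakHol_of_complex (hl : LocallyIntegrableOn u U μ)
    (h : ∀ φ : E → ℂ, ContDiff ℝ ∞ φ → HasCompactSupport φ → tsupport φ ⊆ U →
      ∀ v : E, ∫ w, r242_dbarC φ w v * u w ∂μ = 0) : r242_WeakHol μ U u := by
  refine ⟨hl, fun η hη hc hs v => ?_⟩
  have h1 : ContDiff ℝ ∞ (fun w => (η w : ℂ)) := Complex.ofRealCLM.contDiff.comp hη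
  have h2 : HasCompactSupport (fun w => (η w : ℂ)) := hc.comp_left Complex.ofReal_zero
  have h3 : tsupport (fun w => (η w : ℂ)) ⊆ U := by
    refine (closure_mono ?_).trans hs
    intro w hw hcon
    exact hw (by simp [hcon])
  have := h _ h1 h2 h3 v
  simpa only [r242_dbarC_ofReal hη] using this

end weyl

end Claimed.Agent.R242
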