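/-
Row 242 (S0480), SCV layer: **mean value property** on balls (= polydiscs for `Cn n`), the `L²`
sub-mean-value inequality, smoothness of holomorphic functions, Cauchy estimates from the `L²` norm.
Owner: helper249.

`E` = finite dimensional complex normed space with an additive Haar measure `μ`; the corollaries for
`Cn n = Fin n → ℂ` (with `dz`, `dzb` of `Defs.lean`) are at the end.
-/
import Claimed.Agent.R242.SCV.Defs
import Claimed.Agent.R242.SCV.Weyl

set_option autoImplicit false

namespace Claimed.Agent.R242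

open MeasureTheory Complex Metric Set Filter Topology
open scoped ContDiff Convolution ENNReal

variable {E : Type*} [NormedAddCommGroup E] [NormedSpace ℂ E] [FiniteDimensional ℂ E]
  [MeasurableSpace E] [BorelSpace E] (μ : Measure E) [μ.IsAddHaarMeasure]

/-! ### The mean value property on balls -/

section ball

variable {v : E → ℂ} {V : Set E} {z : E} {r : ℝ}

theorem r242_mvp_ball_aux (hV : IsOpen V) (hv : DifferentiableOn ℂ v V) (hz : closedBall z r ⊆ V) :
    ∫ t in ball (0 : E) r, v (z - t) ∂μ = (μ (ball (0 : E) r)).toReal • v z := by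
  set S : Set E := ball (0 : E) r with hS
  set F : E → ℝ → ℂ := fun t θ => v (z - exp (θ * I) • t) with hF
  have hπ : (0 : ℝ) ≤ 2 * Real.pi := by positivity
  have hSm : MeasurableSet S := measurableSet_ball
  -- rotation invariance
  have hA : ∀ θ : ℝ, ∫ t in S, F t θ ∂μ = ∫ t in S, v (z - t) ∂μ := by
    intro θ
    have hc : ‖exp (θ * I)‖ = 1 := Complex.norm_exp_ofReal_mul_I θ
    have := r242_integral_smul_comp μ hc (S.indicator fun t => v (z - t))
    rw [← integral_indicator hSm, ← integral_indicator hSm, ← this]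
    refine integral_congr_ae (Eventually.of_forall fun t => ?_)
    have hmem : exp (θ * I) • t ∈ S ↔ t ∈ S := by
      simp [hS, norm_smul, hc]
    by_cases ht : t ∈ S
    · simp only [indicator_of_mem ht, indicator_of_mem (hmem.2 ht), hF]
    · simp only [indicator_of_notMem ht, indicator_of_notMem (fun h => ht (hmem.1 h))]
  -- the circle average
  have hB : ∀ t ∈ S, ∫ θ in (0 : ℝ)..2 * Real.pi, F t θ = (2 * Real.pi) • v z := by
    intro t ht
    have ht' : t ∈ closedBall (0 : E) r := ball_subset_closedBall ht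
    have hd : DifferentiableOn ℂ (fun ζ : ℂ => v (z - ζ • t)) (closure (ball (0 : ℂ) |1|)) := by
      intro ζ hζ
      have hζ' : ‖ζ‖ ≤ 1 := by
        have := closure_ball_subset_closedBall hζ
        simpa using this
      have hmem : z - ζ • t ∈ V := r242_mvp_mem hz ht' hζ'
      have h1 : DifferentiableAt ℂ v (z - ζ • t) := hv.differentiableAt (hV.mem_nhds hmem)
      have h2 : DifferentiableAt ℂ (fun ζ : ℂ => z - ζ • t) ζ := by fun_prop
      exact (DifferentiableAt.comp (g := v) ζ h1 h2).differentiableWithinAt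
    have hav := hd.diffContOnCl.circleAverage
    rw [Real.circleAverage] at hav
    have h4 : (2 * Real.pi) • ((2 * Real.pi)⁻¹ •
        ∫ θ in (0 : ℝ)..2 * Real.pi, v (z - circleMap 0 1 θ • t)) =
        (2 * Real.pi) • v (z - (0 : ℂ) • t) := by rw [hav]
    rw [smul_smul, mul_inv_cancel₀ (by positivity), one_smul, zero_smul, sub_zero] at h4
    have h5 : ∀ θ : ℝ, F t θ = v (z - circleMap 0 1 θ • t) := fun θ => by
      simp [hF, circleMap]
    simp only [h5]
    exact h4
  -- Fubini
  have hint : Integrable (Function.uncurry F)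
      ((μ.restrict S).prod (volume.restrict (Ioc 0 (2 * Real.pi)))) := by
    have hc : ContinuousOn (Function.uncurry F) (closedBall (0 : E) r ×ˢ Icc 0 (2 * Real.pi)) := by
      have h1 : ContinuousOn (fun p : E × ℝ => z - exp (p.2 * I) • p.1)
          (closedBall (0 : E) r ×ˢ Icc 0 (2 * Real.pi)) := by fun_prop
      refine hv.continuousOn.comp h1 ?_
      rintro ⟨t, θ⟩ ⟨ht, -⟩
      exact r242_mvp_mem hz ht (by simp [Complex.norm_exp_ofReal_mul_I])
    have h1 : IntegrableOn (Function.uncurry F) (closedBall (0 : E) r ×ˢ Icc 0 (2 * Real.pi))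
        (μ.prod volume) :=
      hc.integrableOn_compact ((isCompact_closedBall 0 r).prod isCompact_Icc)
    rw [Measure.prod_restrict]
    exact h1.mono_set (prod_mono ball_subset_closedBall Ioc_subset_Icc_self)
  have hswap := integral_integral_swap hint
  simp only [← intervalIntegral.integral_of_le hπ] at hswap
  simp only [hA] at hswap
  rw [setIntegral_congr_fun hSm hB, intervalIntegral.integral_const, sub_zero,
    setIntegral_const, measureReal_def] at hswap
  have h7 : (2 * Real.pi) ≠ 0 := by positivity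
  rw [smul_comm] at hswap
  exact (smul_right_injective ℂ h7 hswap).symm

theorem r242_integral_ball_reflect (v : E → ℂ) (z : E) (r : ℝ) :
    ∫ w in ball z r, v w ∂μ = ∫ t in ball (0 : E) r, v (z - t) ∂μ := by
  rw [← integral_indicator measurableSet_ball, ← integral_indicator measurableSet_ball,
    ← integral_sub_left_eq_self _ μ z]
  refine integral_congr_ae (Eventually.of_forall fun t => ?_)
  have hmem : z - t ∈ ball z r ↔ t ∈ ball (0 : E) r := by
    simp [mem_ball, dist_eq_norm]
  by_cases ht : t ∈ ball (0 : E) r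
  · simp only [indicator_of_mem ht, indicator_of_mem (hmem.2 ht)]
  · simp only [indicator_of_notMem ht, indicator_of_notMem (fun h => ht (hmem.1 h))]

omit [NormedSpace ℂ E] [FiniteDimensional ℂ E] in
theorem r242_measure_ball_center (z : E) (r : ℝ) : μ (ball z r) = μ (ball (0 : E) r) := by
  rw [Measure.addHaar_ball_center]

/-- Mean value property, `v` holomorphic near the closed ball. -/
theorem r242_mvp_ball_of_nhds (hV : IsOpen V) (hv : DifferentiableOn ℂ v V)
    (hz : closedBall z r ⊆ V) : ∫ w in ball z r, v w ∂μ = (μ (ball z r)).toReal • v z := by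
  rw [r242_integral_ball_reflect, r242_mvp_ball_aux μ hV hv hz, r242_measure_ball_center μ z]

omit [NormedSpace ℂ E] [FiniteDimensional ℂ E] [MeasurableSpace E] [BorelSpace E] in
theorem r242_iUnion_ball (z : E) {r : ℝ} (hr : 0 < r) :
    ⋃ k : ℕ, ball z (r * (1 - 1 / ((k : ℝ) + 1))) = ball z r := by
  ext w
  simp only [mem_iUnion, mem_ball]
  constructor
  · rintro ⟨k, hk⟩
    have : 0 < 1 / ((k : ℝ) + 1) := by positivity
    nlinarith
  · intro hw
    have h1 : 0 < 1 - dist w z / r := by
      rw [sub_pos, div_lt_one hr]; exact hw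
    obtain ⟨k, hk⟩ := exists_nat_one_div_lt h1
    refine ⟨k, ?_⟩
    have h2 : dist w z / r < 1 - 1 / ((k : ℝ) + 1) := by linarith
    calc dist w z = r * (dist w z / r) := by field_simp
      _ < r * (1 - 1 / ((k : ℝ) + 1)) := mul_lt_mul_of_pos_left h2 hr

/-- **Mean value property** on an open ball for an integrable holomorphic function. -/
theorem r242_mvp_ball (hv : DifferentiableOn ℂ v (ball z r)) (hi : IntegrableOn v (ball z r) μ) :
    ∫ w in ball z r, v w ∂μ = (μ (ball z r)).toReal • v z := by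
  rcases le_or_gt r 0 with hr | hr
  · simp [ball_eq_empty.2 hr]
  set s : ℕ → Set E := fun k => ball z (r * (1 - 1 / ((k : ℝ) + 1))) with hs
  have hU : ⋃ k, s k = ball z r := r242_iUnion_ball z hr
  have hmono : Monotone s := by
    intro a b hab
    refine ball_subset_ball (mul_le_mul_of_nonneg_left ?_ hr.le)
    have h1 : (a : ℝ) ≤ b := by exact_mod_cast hab
    have h2 : 1 / ((b : ℝ) + 1) ≤ 1 / ((a : ℝ) + 1) :=
      one_div_le_one_div_of_le (by positivity) (by linarith)
    linarith
  have h1 : Tendsto (fun k => ∫ w in s k, v w ∂μ) atTop (𝓝 (∫ w in ⋃ k, s k, v w ∂μ)) :=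
    tendsto_setIntegral_of_monotone (fun k => measurableSet_ball) hmono (by rw [hU]; exact hi)
  have h2 : Tendsto (fun k => μ (s k)) atTop (𝓝 (μ (⋃ k, s k))) :=
    tendsto_measure_iUnion_atTop hmono
  have h3 : Tendsto (fun k => (μ (s k)).toReal • v z) atTop (𝓝 ((μ (⋃ k, s k)).toReal • v z)) := by
    refine Tendsto.smul_const ?_ _
    exact (ENNReal.tendsto_toReal (by rw [hU]; exact measure_ball_lt_top.ne)).comp h2
  have h4 : ∀ k, ∫ w in s k, v w ∂μ = (μ (s k)).toReal • v z := by
    intro k
    refine r242_mvp_ball_of_nhds μ isOpen_ball hv (closedBall_subset_ball ?_)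
    have : 0 < 1 / ((k : ℝ) + 1) := by positivity
    nlinarith
  simp only [h4] at h1
  rw [hU] at h1 h3
  exact tendsto_nhds_unique h1 h3

/-- **`L²` sub-mean-value inequality.** -/
theorem r242_sq_mul_le_lintegral (hv : DifferentiableOn ℂ v (ball z r)) :
    ENNReal.ofReal (‖v z‖ ^ 2) * μ (ball z r) ≤ ∫⁻ w in ball z r, ENNReal.ofReal (‖v w‖ ^ 2) ∂μ := by
  by_cases htop : ∫⁻ w in ball z r, ENNReal.ofReal (‖v w‖ ^ 2) ∂μ = ⊤
  · rw [htop]; exact le_top
  have hg : DifferentiableOn ℂ (fun w => v w ^ 2) (ball z r) := hv.pow 2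
  have hnorm : ∀ w, ‖v w ^ 2‖ = ‖v w‖ ^ 2 := fun w => norm_pow _ _
  have hgi : IntegrableOn (fun w => v w ^ 2) (ball z r) μ := by
    refine ⟨hg.continuousOn.aestronglyMeasurable measurableSet_ball, ?_⟩
    rw [hasFiniteIntegral_iff_norm]
    simp only [hnorm]
    exact lt_top_iff_ne_top.2 htop
  have h1 := r242_mvp_ball μ hg hgi
  have h2 : ‖v z‖ ^ 2 * (μ (ball z r)).toReal ≤ ∫ w in ball z r, ‖v w‖ ^ 2 ∂μ := by
    calc ‖v z‖ ^ 2 * (μ (ball z r)).toReal = ‖(μ (ball z r)).toReal • v z ^ 2‖ := by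
          rw [norm_smul, hnorm, Real.norm_of_nonneg ENNReal.toReal_nonneg, mul_comm]
      _ = ‖∫ w in ball z r, v w ^ 2 ∂μ‖ := by rw [h1]
      _ ≤ ∫ w in ball z r, ‖v w ^ 2‖ ∂μ := norm_integral_le_integral_norm _
      _ = ∫ w in ball z r, ‖v w‖ ^ 2 ∂μ := by simp only [hnorm]
  have h3 : ∫⁻ w in ball z r, ENNReal.ofReal (‖v w‖ ^ 2) ∂μ =
      ENNReal.ofReal (∫ w in ball z r, ‖v w‖ ^ 2 ∂μ) := by
    rw [ofReal_integral_eq_lintegral_ofReal]
    · have := hgi.norm
      simpa only [hnorm] using this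
    · exact Eventually.of_forall fun w => by positivity
  rw [h3]
  calc ENNReal.ofReal (‖v z‖ ^ 2) * μ (ball z r)
      = ENNReal.ofReal (‖v z‖ ^ 2) * ENNReal.ofReal (μ (ball z r)).toReal := by
        rw [ENNReal.ofReal_toReal measure_ball_lt_top.ne]
    _ = ENNReal.ofReal (‖v z‖ ^ 2 * (μ (ball z r)).toReal) := by
        rw [ENNReal.ofReal_mul (by positivity)]
    _ ≤ _ := ENNReal.ofReal_le_ofReal h2

end ball

/-! ### Holomorphic functions are smooth -/

section smooth

variable {f : E → ℂ} {U : Set E}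

/-- Near every point a holomorphic function is a convolution with a smooth kernel. -/
theorem r242_local_repr (hU : IsOpen U) (hf : DifferentiableOn ℂ f U) {z₀ : E} (hz₀ : z₀ ∈ U) :
    ∃ r : ℝ, 0 < r ∧ ∃ (ρ : E → ℝ) (f' : E → ℂ), ContDiff ℝ ∞ ρ ∧ HasCompactSupport ρ ∧
      Integrable f' μ ∧ ∀ z ∈ ball z₀ r, f z = (ρ ⋆[ContinuousLinearMap.lsmul ℝ ℝ, μ] f') z := by
  obtain ⟨ε, hε, hεU⟩ := Metric.isOpen_iff.1 hU z₀ hz₀
  set r : ℝ := ε / 4 with hr
  have hr0 : 0 < r := by positivity
  set K : Set E := closedBall z₀ (3 * r) with hK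
  have hKU : K ⊆ U := (closedBall_subset_ball (by rw [hr]; linarith)).trans hεU
  obtain ⟨ρ, hρsm, hρc, hρs, hρ1, hρi⟩ := r242_exists_kernel μ hr0
  have hi : Integrable (K.indicator f) μ :=
    ((hf.continuousOn.mono hKU).integrableOn_compact (isCompact_closedBall _ _)).integrable_indicator
      measurableSet_closedBall
  refine ⟨r, hr0, ρ, K.indicator f, hρsm, hρc, hi, fun z hz => ?_⟩
  have hzK : closedBall z r ⊆ K :=
    (r242_closedBall_subset (mem_ball.1 hz) (by linarith : r + r ≤ 3 * r)).trans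
      ball_subset_closedBall
  have hm := r242_mvp μ hρsm.continuous hρs hρ1 hρi hU hf (hzK.trans hKU)
  rw [← hm, convolution_def]
  refine integral_congr_ae (Eventually.of_forall fun t => ?_)
  by_cases ht : t ∈ tsupport ρ
  · have h1 : z - t ∈ K := by
      apply hzK
      have h2 : t ∈ closedBall (0 : E) r := hρs ht
      rw [mem_closedBall, dist_eq_norm] at *
      simpa using h2
    simp [indicator_of_mem h1]
  · simp [image_eq_zero_of_notMem_tsupport ht]

end smooth

omit [MeasurableSpace E] [BorelSpace E] in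
/-- **Holomorphic functions of several variables are smooth.** -/
theorem r242_contDiffOn_of_differentiableOn {f : E → ℂ} {U : Set E} (hU : IsOpen U)
    (hf : DifferentiableOn ℂ f U) : ContDiffOn ℝ ∞ f U := by
  let _ : MeasurableSpace E := borel E
  have _ : BorelSpace E := ⟨rfl⟩
  intro z₀ hz₀
  obtain ⟨r, hr, ρ, f', hρ, hρc, hf', hrep⟩ :=
    r242_local_repr (Measure.addHaar : Measure E) hU hf hz₀
  have h1 : ContDiff ℝ ∞ (ρ ⋆[ContinuousLinearMap.lsmul ℝ ℝ, (Measure.addHaar : Measure E)] f') :=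
    hρc.contDiff_convolution_left _ hρ hf'.locallyIntegrable
  have h2 : f =ᶠ[𝓝 z₀] (ρ ⋆[ContinuousLinearMap.lsmul ℝ ℝ, (Measure.addHaar : Measure E)] f') := by
    filter_upwards [isOpen_ball.mem_nhds (mem_ball_self hr)] with z hz
    exact hrep z hz
  exact (h1.contDiffAt.congr_of_eventuallyEq h2).contDiffWithinAt

/-! ### Holomorphic functions are weakly holomorphic -/

section weak

variable {f : E → ℂ} {U K : Set E}

omit [NormedSpace ℂ E] [FiniteDimensional ℂ E] [μ.IsAddHaarMeasure] in
theorem r242_integrable_smul_of_support [IsFiniteMeasureOnCompacts μ] {a : E → ℝ} {b : E → ℂ}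
    (hK : IsCompact K) (hKU : K ⊆ U) (ha : Continuous a) (hs : Function.support a ⊆ K)
    (hb : ContinuousOn b U) : Integrable (fun w => a w • b w) μ := by
  have h1 : IntegrableOn (fun w => a w • b w) K μ :=
    (ha.continuousOn.smul (hb.mono hKU)).integrableOn_compact hK
  refine (integrableOn_iff_integrable_of_support_subset ?_).1 h1
  intro w hw
  apply hs
  intro h0
  exact hw (by simp [h0])

theorem r242_weakHol_of_differentiableOn (hU : IsOpen U) (hf : DifferentiableOn ℂ f U) :
    r242_WeakHol μ U f := by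
  refine ⟨hf.continuousOn.locallyIntegrableOn hU.measurableSet, fun η hη hc hs v => ?_⟩
  have hsm : ContDiffOn ℝ ∞ f U := r242_contDiffOn_of_differentiableOn hU hf
  have hdc : ContinuousOn (fderiv ℝ f) U := hsm.continuousOn_fderiv_of_isOpen hU (by simp)
  have hηd : Continuous (fderiv ℝ η) := hη.continuous_fderiv (by simp)
  -- integration by parts in a direction
  have hpart : ∀ x : E, ∫ w, (fderiv ℝ η w x : ℂ) * f w ∂μ = -∫ w, η w • fderiv ℝ f w x ∂μ := by
    intro x
    have h1 : Integrable (fun w => fderiv ℝ η w x • f w) μ := by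
      refine r242_integrable_smul_of_support μ hc hs (hηd.clm_apply continuous_const) ?_
        hf.continuousOn
      intro w hw
      apply support_fderiv_subset ℝ
      intro h0
      exact hw (by simp [h0])
    have h2 : Integrable (fun w => η w • fderiv ℝ f w x) μ :=
      r242_integrable_smul_of_support μ hc hs hη.continuous subset_closure
        (hdc.clm_apply continuousOn_const)
    have h3 : Integrable (fun w => η w • f w) μ :=
      r242_integrable_smul_of_support μ hc hs hη.continuous subset_closure hf.continuousOn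
    have h4 := integral_smul_fderiv_eq_neg_fderiv_smul_of_integrable (μ := μ) (v := x) h1 h2 h3
      (fun w _ => (hη.differentiable (by simp)).differentiableAt)
      (fun w hw => ((hf.differentiableAt (hU.mem_nhds (hs hw))).restrictScalars ℝ))
    rw [h4, neg_neg]
    refine integral_congr_ae (Eventually.of_forall fun w => ?_)
    simp
  have hint : ∀ x : E, Integrable (fun w => (fderiv ℝ η w x : ℂ) * f w) μ := by
    intro x
    have h1 : Integrable (fun w => fderiv ℝ η w x • f w) μ := by
      refine r242_integrable_smul_of_support μ hc hs (hηd.clm_apply continuous_const) ?_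
        hf.continuousOn
      intro w hw
      apply support_fderiv_subset ℝ
      intro h0
      exact hw (by simp [h0])
    refine h1.congr (Eventually.of_forall fun w => ?_)
    simp
  have hCR : ∀ w, η w • fderiv ℝ f w (I • v) = I * (η w • fderiv ℝ f w v) := by
    intro w
    by_cases hw : w ∈ tsupport η
    · have h1 : DifferentiableAt ℂ f w := hf.differentiableAt (hU.mem_nhds (hs hw))
      rw [h1.fderiv_restrictScalars ℝ]
      simp only [ContinuousLinearMap.coe_restrictScalars', map_smul, smul_eq_mul, Complex.real_smul]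
      ring
    · simp [image_eq_zero_of_notMem_tsupport hw]
  have hsplit : ∀ w, r242_dbarR η w v * f w =
      (fderiv ℝ η w v : ℂ) * f w + I * ((fderiv ℝ η w (I • v) : ℂ) * f w) := by
    intro w
    simp only [r242_dbarR]
    ring
  simp only [hsplit]
  rw [integral_add (hint v) ((hint (I • v)).const_mul I), integral_const_mul, hpart, hpart]
  simp only [hCR]
  rw [integral_const_mul, mul_neg, ← mul_assoc, Complex.I_mul_I]
  ring

end weak

/-! ### Cauchy estimates from the `L²` norm -/

section cauchy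

variable {f : E → ℂ} {z : E} {R : ℝ}

/-- `|∂_v f (z)|² (R/2)² μ(B(z,R/2)) ≤ ∫_{B(z,R)} |f|²` for `‖v‖ ≤ 1`. -/
theorem r242_cauchy_L2 (hR : 0 < R) (hf : DifferentiableOn ℂ f (ball z R)) {v : E} (hv : ‖v‖ ≤ 1) :
    ENNReal.ofReal (‖fderiv ℂ f z v‖ ^ 2 * (R / 2) ^ 2) * μ (ball z (R / 2)) ≤
      ∫⁻ w in ball z R, ENNReal.ofReal (‖f w‖ ^ 2) ∂μ := by
  by_cases htop : ∫⁻ w in ball z R, ENNReal.ofReal (‖f w‖ ^ 2) ∂μ = ⊤
  · rw [htop]; exact le_top
  set J : ℝ≥0∞ := ∫⁻ w in ball z R, ENNReal.ofReal (‖f w‖ ^ 2) ∂μ with hJ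
  set m : ℝ≥0∞ := μ (ball z (R / 2)) with hm
  have hm0 : m ≠ 0 := (measure_ball_pos μ z (by positivity)).ne'
  have hmt : m ≠ ⊤ := measure_ball_lt_top.ne
  have hmr : 0 < m.toReal := ENNReal.toReal_pos hm0 hmt
  -- pointwise bound on the closed ball of radius `R / 2`
  have hpt : ∀ w ∈ closedBall z (R / 2), ‖f w‖ ^ 2 ≤ J.toReal / m.toReal := by
    intro w hw
    have hsub : ball w (R / 2) ⊆ ball z R := by
      intro y hy
      rw [mem_ball] at hy ⊢
      rw [mem_closedBall] at hw
      calc dist y z ≤ dist y w + dist w z := dist_triangle _ _ _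
        _ < R / 2 + R / 2 := by linarith
        _ = R := by ring
    have h1 := r242_sq_mul_le_lintegral μ (hf.mono hsub)
    have h2 : ∫⁻ y in ball w (R / 2), ENNReal.ofReal (‖f y‖ ^ 2) ∂μ ≤ J :=
      lintegral_mono_set hsub
    have h3 : μ (ball w (R / 2)) = m := by
      rw [hm, r242_measure_ball_center μ w, r242_measure_ball_center μ z]
    rw [h3] at h1
    have h4 : ENNReal.ofReal (‖f w‖ ^ 2) * m ≤ J := h1.trans h2
    have h5 := ENNReal.toReal_mono htop h4
    rw [ENNReal.toReal_mul, ENNReal.toReal_ofReal (by positivity)] at h5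
    rw [le_div_iff₀ hmr]
    exact h5
  -- the one variable Cauchy estimate
  set g : ℂ → ℂ := fun ζ => f (z + ζ • v) with hg
  have hmem : ∀ ζ : ℂ, ‖ζ‖ ≤ R / 2 → z + ζ • v ∈ closedBall z (R / 2) := by
    intro ζ hζ
    rw [mem_closedBall, dist_eq_norm, add_sub_cancel_left, norm_smul]
    calc ‖ζ‖ * ‖v‖ ≤ R / 2 * 1 := mul_le_mul hζ hv (norm_nonneg _) (by positivity)
      _ = R / 2 := mul_one _
  have hcb : closedBall z (R / 2) ⊆ ball z R := closedBall_subset_ball (by linarith)
  have hgd : DifferentiableOn ℂ g (closure (ball (0 : ℂ) (R / 2))) := by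
    intro ζ hζ
    have hζ' : ‖ζ‖ ≤ R / 2 := by
      have := closure_ball_subset_closedBall hζ
      simpa using this
    have h1 : DifferentiableAt ℂ f (z + ζ • v) :=
      hf.differentiableAt (isOpen_ball.mem_nhds (hcb (hmem ζ hζ')))
    have h2 : DifferentiableAt ℂ (fun ζ : ℂ => z + ζ • v) ζ := by fun_prop
    exact (DifferentiableAt.comp (g := f) ζ h1 h2).differentiableWithinAt
  have hsph : ∀ ζ ∈ sphere (0 : ℂ) (R / 2), ‖g ζ‖ ≤ Real.sqrt (J.toReal / m.toReal) := by
    intro ζ hζ
    have hζ' : ‖ζ‖ ≤ R / 2 := by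
      have : ‖ζ‖ = R / 2 := by simpa using hζ
      exact this.le
    exact Real.le_sqrt_of_sq_le (hpt _ (hmem ζ hζ'))
  have hder := Complex.norm_deriv_le_of_forall_mem_sphere_norm_le (by positivity : 0 < R / 2)
    hgd.diffContOnCl hsph
  have hderiv : deriv g 0 = fderiv ℂ f z v := by
    have h1 : HasFDerivAt f (fderiv ℂ f z) (z + (0 : ℂ) • v) := by
      rw [zero_smul, add_zero]
      exact (hf.differentiableAt (isOpen_ball.mem_nhds (mem_ball_self hR))).hasFDerivAt
    have h2 : HasDerivAt (fun ζ : ℂ => z + ζ • v) v 0 := by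
      have := ((hasDerivAt_id (0 : ℂ)).smul_const v).const_add z
      simpa using this
    exact (h1.comp_hasDerivAt (0 : ℂ) h2).deriv
  rw [hderiv] at hder
  have hq : 0 ≤ J.toReal / m.toReal := by positivity
  have h6 : ‖fderiv ℂ f z v‖ ^ 2 * (R / 2) ^ 2 * m.toReal ≤ J.toReal := by
    have h7 : ‖fderiv ℂ f z v‖ * (R / 2) ≤ Real.sqrt (J.toReal / m.toReal) := by
      rwa [le_div_iff₀ (by positivity)] at hder
    have h8 : (‖fderiv ℂ f z v‖ * (R / 2)) ^ 2 ≤ J.toReal / m.toReal := by
      calc (‖fderiv ℂ f z v‖ * (R / 2)) ^ 2 ≤ Real.sqrt (J.toReal / m.toReal) ^ 2 :=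
            pow_le_pow_left₀ (by positivity) h7 2
        _ = J.toReal / m.toReal := Real.sq_sqrt hq
    rw [le_div_iff₀ hmr] at h8
    calc _ = (‖fderiv ℂ f z v‖ * (R / 2)) ^ 2 * m.toReal := by ring
      _ ≤ _ := h8
  calc ENNReal.ofReal (‖fderiv ℂ f z v‖ ^ 2 * (R / 2) ^ 2) * m
      = ENNReal.ofReal (‖fderiv ℂ f z v‖ ^ 2 * (R / 2) ^ 2) * ENNReal.ofReal m.toReal := by
        rw [ENNReal.ofReal_toReal hmt]
    _ = ENNReal.ofReal (‖fderiv ℂ f z v‖ ^ 2 * (R / 2) ^ 2 * m.toReal) :=
        (ENNReal.ofReal_mul (by positivity)).symm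
    _ ≤ ENNReal.ofReal J.toReal := ENNReal.ofReal_le_ofReal h6
    _ = J := ENNReal.ofReal_toReal htop

end cauchy

/-! ### Corollaries on `Cn n` -/

section Cn

variable {n : ℕ} {f : Cn n → ℂ} {z : Cn n}

theorem dzb_eq_zero_of_differentiableAt (hf : DifferentiableAt ℂ f z) (j : Fin n) :
    dzb j f z = 0 := by
  have h1 : (Pi.single j I : Cn n) = I • (Pi.single j 1 : Cn n) := by
    ext i
    by_cases hi : i = j
    · subst hi; simp
    · simp [Pi.single_eq_of_ne hi]
  rw [dzb, hf.fderiv_restrictScalars ℝ, h1]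
  simp only [ContinuousLinearMap.coe_restrictScalars', map_smul, smul_eq_mul]
  rw [← mul_assoc, Complex.I_mul_I]
  ring

theorem dz_eq_fderiv_of_differentiableAt (hf : DifferentiableAt ℂ f z) (j : Fin n) :
    dz j f z = fderiv ℂ f z (Pi.single j 1) := by
  have h1 : (Pi.single j I : Cn n) = I • (Pi.single j 1 : Cn n) := by
    ext i
    by_cases hi : i = j
    · subst hi; simp
    · simp [Pi.single_eq_of_ne hi]
  rw [dz, hf.fderiv_restrictScalars ℝ, h1]
  simp only [ContinuousLinearMap.coe_restrictScalars', map_smul, smul_eq_mul]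
  rw [← mul_assoc, Complex.I_mul_I]
  ring

/-- Mean value property on a polydisc. -/
theorem mvp_polydisc {r : ℝ} (hf : DifferentiableOn ℂ f (ball z r))
    (hi : IntegrableOn f (ball z r)) :
    ∫ w in ball z r, f w = (volume (ball z r)).toReal • f z := r242_mvp_ball volume hf hi

/-- `L²` sub-mean-value inequality on a polydisc. -/
theorem sq_mul_volume_le_lintegral {r : ℝ} (hf : DifferentiableOn ℂ f (ball z r)) :
    ENNReal.ofReal (‖f z‖ ^ 2) * volume (ball z r) ≤
      ∫⁻ w in ball z r, ENNReal.ofReal (‖f w‖ ^ 2) := r242_sq_mul_le_lintegral volume hf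

/-- Cauchy estimate for `∂f/∂z_j` from the `L²` norm on a polydisc. -/
theorem dz_sq_le_lintegral {R : ℝ} (hR : 0 < R) (hf : DifferentiableOn ℂ f (ball z R))
    (j : Fin n) :
    ENNReal.ofReal (‖dz j f z‖ ^ 2 * (R / 2) ^ 2) * volume (ball z (R / 2)) ≤
      ∫⁻ w in ball z R, ENNReal.ofReal (‖f w‖ ^ 2) := by
  rw [dz_eq_fderiv_of_differentiableAt
    (hf.differentiableAt (isOpen_ball.mem_nhds (mem_ball_self hR)))]
  refine r242_cauchy_L2 volume hR hf ?_
  rw [Pi.norm_single]
  simp

/-- Holomorphic functions on open subsets of `Cn n` are smooth. -/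
theorem contDiffOn_of_differentiableOn_Cn {U : Set (Cn n)} (hU : IsOpen U)
    (hf : DifferentiableOn ℂ f U) : ContDiffOn ℝ ∞ f U :=
  r242_contDiffOn_of_differentiableOn hU hf

end Cn

end Claimed.Agent.R242
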