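/-
Row 242, SCV layer.  WirtA: FIRST ORDER Wirtinger calculus on `Cn n = Fin n → ℂ`.
Blueprint: helper290.   One leaf = this file (SCV-WIRT-A).  Pure Mathlib `fderiv` calculus.
Proofs: helper250.

Plan.  Everything unfolds to `fderiv ℝ g z (Pi.single j 1)` and `fderiv ℝ g z (Pi.single j I)`.
* congruence: `Filter.EventuallyEq.fderiv_eq`, `Filter.EventuallyEq.fderiv`.
* algebra: `fderiv_add`, `fderiv_mul`, `fderiv_const_mul`, `fderiv_fun_sum` ... then `ring`.
* conj: `conj` is the continuous ℝ-linear equivalence `Complex.conjCLE`; `ContinuousLinearEquiv.comp_fderiv`.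
* holomorphic: `DifferentiableAt.restrictScalars`, `DifferentiableAt.fderiv_restrictScalars`,
  `Pi.single j I = I • Pi.single j 1`, ℂ-linearity.
* converse (`holo_of_dzb`): the real derivative `L` satisfies `L (I • v) = I • L v` on the basis vectors, hence
  everywhere (`pi_eq_sum_univ`‑type decomposition `a = ∑ (re (a j)) • single j 1 + (im (a j)) • single j I`);
  build the ℂ-linear map and use `hasFDerivAt_of_restrictScalars` / `differentiableAt_iff_restrictScalars`.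
-/
import Claimed.Agent.R242.SCV.Defs

open MeasureTheory Complex
open scoped ContDiff ComplexConjugate ENNReal Topology

namespace Claimed.Agent.R242

variable {n : ℕ} {j : Fin n} {z : Cn n} {g g₁ g₂ : Cn n → ℂ}

theorem dz_congr (h : g₁ =ᶠ[𝓝 z] g₂) (j : Fin n) : dz j g₁ z = dz j g₂ z := by
  unfold dz
  rw [h.fderiv_eq]

theorem dzb_congr (h : g₁ =ᶠ[𝓝 z] g₂) (j : Fin n) : dzb j g₁ z = dzb j g₂ z := by
  unfold dzb
  rw [h.fderiv_eq]

theorem dz_eventuallyEq (h : g₁ =ᶠ[𝓝 z] g₂) (j : Fin n) : dz j g₁ =ᶠ[𝓝 z] dz j g₂ := by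
  filter_upwards [h.fderiv (𝕜 := ℝ)] with y hy
  unfold dz
  rw [hy]

theorem dzb_eventuallyEq (h : g₁ =ᶠ[𝓝 z] g₂) (j : Fin n) : dzb j g₁ =ᶠ[𝓝 z] dzb j g₂ := by
  filter_upwards [h.fderiv (𝕜 := ℝ)] with y hy
  unfold dzb
  rw [hy]

theorem dz_const (c : ℂ) : dz j (fun _ : Cn n => c) z = 0 := by
  unfold dz
  rw [fderiv_fun_const]
  simp

theorem dzb_const (c : ℂ) : dzb j (fun _ : Cn n => c) z = 0 := by
  unfold dzb
  rw [fderiv_fun_const]
  simp

theorem dz_add (h₁ : DifferentiableAt ℝ g₁ z) (h₂ : DifferentiableAt ℝ g₂ z) :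
    dz j (fun y => g₁ y + g₂ y) z = dz j g₁ z + dz j g₂ z := by
  unfold dz
  rw [fderiv_fun_add h₁ h₂, add_apply, add_apply]
  ring

theorem dzb_add (h₁ : DifferentiableAt ℝ g₁ z) (h₂ : DifferentiableAt ℝ g₂ z) :
    dzb j (fun y => g₁ y + g₂ y) z = dzb j g₁ z + dzb j g₂ z := by
  unfold dzb
  rw [fderiv_fun_add h₁ h₂, add_apply, add_apply]
  ring

theorem dz_sub (h₁ : DifferentiableAt ℝ g₁ z) (h₂ : DifferentiableAt ℝ g₂ z) :
    dz j (fun y => g₁ y - g₂ y) z = dz j g₁ z - dz j g₂ z := by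
  unfold dz
  rw [fderiv_fun_sub h₁ h₂, sub_apply, sub_apply]
  ring

theorem dzb_sub (h₁ : DifferentiableAt ℝ g₁ z) (h₂ : DifferentiableAt ℝ g₂ z) :
    dzb j (fun y => g₁ y - g₂ y) z = dzb j g₁ z - dzb j g₂ z := by
  unfold dzb
  rw [fderiv_fun_sub h₁ h₂, sub_apply, sub_apply]
  ring

theorem dz_neg : dz j (fun y => - g y) z = - dz j g z := by
  unfold dz
  rw [fderiv_fun_neg, neg_apply, neg_apply]
  ring

theorem dzb_neg : dzb j (fun y => - g y) z = - dzb j g z := by
  unfold dzb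
  rw [fderiv_fun_neg, neg_apply, neg_apply]
  ring

theorem dz_sum {ι : Type*} (s : Finset ι) (G : ι → Cn n → ℂ)
    (h : ∀ i ∈ s, DifferentiableAt ℝ (G i) z) :
    dz j (fun y => ∑ i ∈ s, G i y) z = ∑ i ∈ s, dz j (G i) z := by
  unfold dz
  rw [fderiv_fun_sum h, sum_apply, sum_apply,
    Finset.mul_sum, ← Finset.sum_sub_distrib, Finset.sum_div]

theorem dzb_sum {ι : Type*} (s : Finset ι) (G : ι → Cn n → ℂ)
    (h : ∀ i ∈ s, DifferentiableAt ℝ (G i) z) :
    dzb j (fun y => ∑ i ∈ s, G i y) z = ∑ i ∈ s, dzb j (G i) z := by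
  unfold dzb
  rw [fderiv_fun_sum h, sum_apply, sum_apply,
    Finset.mul_sum, ← Finset.sum_add_distrib, Finset.sum_div]

theorem dz_const_mul (c : ℂ) (h : DifferentiableAt ℝ g z) :
    dz j (fun y => c * g y) z = c * dz j g z := by
  unfold dz
  rw [fderiv_const_mul h c, smul_apply, smul_apply,
    smul_eq_mul, smul_eq_mul]
  ring

theorem dzb_const_mul (c : ℂ) (h : DifferentiableAt ℝ g z) :
    dzb j (fun y => c * g y) z = c * dzb j g z := by
  unfold dzb
  rw [fderiv_const_mul h c, smul_apply, smul_apply,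
    smul_eq_mul, smul_eq_mul]
  ring

theorem dz_mul (h₁ : DifferentiableAt ℝ g₁ z) (h₂ : DifferentiableAt ℝ g₂ z) :
    dz j (fun y => g₁ y * g₂ y) z = dz j g₁ z * g₂ z + g₁ z * dz j g₂ z := by
  unfold dz
  rw [fderiv_fun_mul h₁ h₂]
  simp only [add_apply, smul_apply, smul_eq_mul]
  ring

theorem dzb_mul (h₁ : DifferentiableAt ℝ g₁ z) (h₂ : DifferentiableAt ℝ g₂ z) :
    dzb j (fun y => g₁ y * g₂ y) z = dzb j g₁ z * g₂ z + g₁ z * dzb j g₂ z := by
  unfold dzb
  rw [fderiv_fun_mul h₁ h₂]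
  simp only [add_apply, smul_apply, smul_eq_mul]
  ring

theorem wirt_fderiv_conj (g : Cn n → ℂ) (z v : Cn n) :
    fderiv ℝ (fun y => conj (g y)) z v = conj (fderiv ℝ g z v) := by
  have h := ContinuousLinearEquiv.comp_fderiv (𝕜 := ℝ) Complex.conjCLE (f := g) (x := z)
  have h' : (fun y => conj (g y)) = (Complex.conjCLE ∘ g) := rfl
  rw [h', h]
  rfl

theorem dz_conj (g : Cn n → ℂ) : dz j (fun y => conj (g y)) z = conj (dzb j g z) := by
  unfold dz dzb
  rw [wirt_fderiv_conj, wirt_fderiv_conj]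
  simp only [map_div₀, map_add, map_mul, conj_I, map_ofNat]
  ring

theorem dzb_conj (g : Cn n → ℂ) : dzb j (fun y => conj (g y)) z = conj (dz j g z) := by
  unfold dz dzb
  rw [wirt_fderiv_conj, wirt_fderiv_conj]
  simp only [map_div₀, map_sub, map_mul, conj_I, map_ofNat]
  ring

/-- for a real function `∂̄_j u` is the conjugate of `∂_j u`. -/
theorem dzb_ofReal (u : Cn n → ℝ) :
    dzb j (fun y => (u y : ℂ)) z = conj (dz j (fun y => (u y : ℂ)) z) := by
  have h := dzb_conj (j := j) (z := z) (fun y => (u y : ℂ))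
  simpa only [conj_ofReal] using h

theorem wirt_fderiv_coord (k : Fin n) (z v : Cn n) : fderiv ℝ (fun y : Cn n => y k) z v = v k := by
  have h : HasFDerivAt (𝕜 := ℝ) (fun y : Cn n => y k) (ContinuousLinearMap.proj k) z :=
    hasFDerivAt_apply k z
  rw [h.fderiv]
  rfl

theorem dz_coord (j k : Fin n) : dz j (fun y : Cn n => y k) z = if j = k then 1 else 0 := by
  unfold dz
  rw [wirt_fderiv_coord, wirt_fderiv_coord]
  by_cases h : j = k
  · subst h
    rw [Pi.single_eq_same, Pi.single_eq_same, if_pos rfl, I_mul_I]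
    norm_num
  · rw [Pi.single_eq_of_ne (Ne.symm h), Pi.single_eq_of_ne (Ne.symm h), if_neg h]
    simp

theorem dzb_coord (j k : Fin n) : dzb j (fun y : Cn n => y k) z = 0 := by
  unfold dzb
  rw [wirt_fderiv_coord, wirt_fderiv_coord]
  by_cases h : j = k
  · subst h
    rw [Pi.single_eq_same, Pi.single_eq_same, I_mul_I]
    norm_num
  · rw [Pi.single_eq_of_ne (Ne.symm h), Pi.single_eq_of_ne (Ne.symm h)]
    simp

theorem wirt_single_I (j : Fin n) : (Pi.single j I : Cn n) = I • (Pi.single j 1 : Cn n) := by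
  rw [← Pi.single_smul, smul_eq_mul, mul_one]

theorem wirt_fderiv_holo_I (h : DifferentiableAt ℂ g z) (j : Fin n) :
    fderiv ℝ g z (Pi.single j I) = I * fderiv ℂ g z (Pi.single j 1) := by
  rw [h.fderiv_restrictScalars ℝ, ContinuousLinearMap.coe_restrictScalars', wirt_single_I,
    map_smul, smul_eq_mul]

theorem wirt_fderiv_holo_one (h : DifferentiableAt ℂ g z) (j : Fin n) :
    fderiv ℝ g z (Pi.single j 1) = fderiv ℂ g z (Pi.single j 1) := by
  rw [h.fderiv_restrictScalars ℝ, ContinuousLinearMap.coe_restrictScalars']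

theorem dzb_of_holo (h : DifferentiableAt ℂ g z) : dzb j g z = 0 := by
  unfold dzb
  rw [wirt_fderiv_holo_I h, wirt_fderiv_holo_one h, ← mul_assoc, I_mul_I]
  ring

theorem dz_of_holo (h : DifferentiableAt ℂ g z) : dz j g z = fderiv ℂ g z (Pi.single j 1) := by
  unfold dz
  rw [wirt_fderiv_holo_I h, wirt_fderiv_holo_one h, ← mul_assoc, I_mul_I]
  ring

theorem wirt_decomp (a : Cn n) :
    a = ∑ j, ((a j).re • (Pi.single j 1 : Cn n) + (a j).im • (Pi.single j I : Cn n)) := by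
  funext k
  rw [Finset.sum_apply, Finset.sum_eq_single k]
  · simp only [Pi.add_apply, Pi.smul_apply, Pi.single_eq_same, real_smul, mul_one]
    exact (re_add_im (a k)).symm
  · intro b _ hb
    simp only [Pi.add_apply, Pi.smul_apply, Pi.single_eq_of_ne (Ne.symm hb), smul_zero, add_zero]
  · intro hk
    exact absurd (Finset.mem_univ k) hk

theorem wirt_alg (A B w : ℂ) :
    (w.re : ℂ) * A + (w.im : ℂ) * B = (A - I * B) / 2 * w + (A + I * B) / 2 * conj w := by
  have h1 : (w.re : ℂ) = (w + conj w) / 2 := by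
    rw [add_conj]
    push_cast
    ring
  have h2 : (w.im : ℂ) = -I * ((w - conj w) / 2) := by
    rw [sub_conj]
    push_cast
    have hI : I * I = -1 := I_mul_I
    linear_combination (w.im : ℂ) * hI
  rw [h1, h2]
  ring

/-- the real differential in terms of the Wirtinger derivatives (no hypothesis needed). -/
theorem wirt_fderiv_eq_sum (g : Cn n → ℂ) (z a : Cn n) :
    fderiv ℝ g z a = ∑ j, (dz j g z * a j + dzb j g z * conj (a j)) := by
  conv_lhs => rw [wirt_decomp a]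
  rw [map_sum]
  refine Finset.sum_congr rfl fun j _ => ?_
  rw [map_add, map_smul, map_smul]
  unfold dz dzb
  simp only [real_smul]
  exact wirt_alg _ _ _

/-- the real differential in terms of the Wirtinger derivatives. -/
theorem fderiv_eq_sum_dz (h : DifferentiableAt ℝ g z) (a : Cn n) :
    fderiv ℝ g z a = ∑ j, (dz j g z * a j + dzb j g z * conj (a j)) :=
  wirt_fderiv_eq_sum g z a

/-- Cauchy–Riemann: real differentiable with all `∂̄_j g = 0` is complex differentiable. -/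
theorem holo_of_dzb (h : DifferentiableAt ℝ g z) (h0 : ∀ j, dzb j g z = 0) :
    DifferentiableAt ℂ g z := by
  have hL : HasFDerivAt g (∑ j, dz j g z • (ContinuousLinearMap.proj j : Cn n →L[ℂ] ℂ)) z := by
    refine hasFDerivAt_of_restrictScalars ℝ h.hasFDerivAt ?_
    ext a
    rw [ContinuousLinearMap.coe_restrictScalars', wirt_fderiv_eq_sum, sum_apply]
    refine Finset.sum_congr rfl fun j _ => ?_
    rw [h0 j, zero_mul, add_zero]
    rfl
  exact hL.differentiableAt

/-- chain rule, outer function real. -/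
theorem wirt_fderiv_comp_real (u : Cn n → ℝ) (χ : ℝ → ℝ) (hu : DifferentiableAt ℝ u z)
    (hχ : DifferentiableAt ℝ χ (u z)) (v : Cn n) :
    fderiv ℝ (fun y => ((χ (u y) : ℝ) : ℂ)) z v
      = ((deriv χ (u z) : ℝ) : ℂ) * fderiv ℝ (fun y => (u y : ℂ)) z v := by
  have h1 : HasFDerivAt (fun y => (u y : ℂ)) (Complex.ofRealCLM.comp (fderiv ℝ u z)) z :=
    Complex.ofRealCLM.hasFDerivAt.comp z hu.hasFDerivAt
  have h2 : HasFDerivAt (χ ∘ u) (deriv χ (u z) • fderiv ℝ u z) z :=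
    hχ.hasDerivAt.comp_hasFDerivAt z hu.hasFDerivAt
  have h3 : HasFDerivAt (fun y => ((χ (u y) : ℝ) : ℂ))
      (Complex.ofRealCLM.comp (deriv χ (u z) • fderiv ℝ u z)) z :=
    Complex.ofRealCLM.hasFDerivAt.comp z h2
  rw [h1.fderiv, h3.fderiv]
  simp

theorem dz_comp_real (u : Cn n → ℝ) (χ : ℝ → ℝ) (hu : DifferentiableAt ℝ u z)
    (hχ : DifferentiableAt ℝ χ (u z)) :
    dz j (fun y => ((χ (u y) : ℝ) : ℂ)) z = ((deriv χ (u z) : ℝ) : ℂ) * dz j (fun y => (u y : ℂ)) z := by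
  unfold dz
  rw [wirt_fderiv_comp_real u χ hu hχ, wirt_fderiv_comp_real u χ hu hχ]
  ring

theorem dzb_comp_real (u : Cn n → ℝ) (χ : ℝ → ℝ) (hu : DifferentiableAt ℝ u z)
    (hχ : DifferentiableAt ℝ χ (u z)) :
    dzb j (fun y => ((χ (u y) : ℝ) : ℂ)) z
      = ((deriv χ (u z) : ℝ) : ℂ) * dzb j (fun y => (u y : ℂ)) z := by
  unfold dzb
  rw [wirt_fderiv_comp_real u χ hu hχ, wirt_fderiv_comp_real u χ hu hχ]
  ring

theorem wirt_fderiv_comp_holo (H : ℂ → ℂ) (hg : DifferentiableAt ℝ g z)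
    (hH : DifferentiableAt ℂ H (g z)) (v : Cn n) :
    fderiv ℝ (fun y => H (g y)) z v = deriv H (g z) * fderiv ℝ g z v := by
  have h2 : HasFDerivAt (H ∘ g) (deriv H (g z) • fderiv ℝ g z) z :=
    hH.hasDerivAt.comp_hasFDerivAt z hg.hasFDerivAt
  have h3 : (fun y => H (g y)) = H ∘ g := rfl
  rw [h3, h2.fderiv]
  rfl

/-- chain rule, outer function holomorphic of one variable. -/
theorem dz_comp_holo (H : ℂ → ℂ) (hg : DifferentiableAt ℝ g z) (hH : DifferentiableAt ℂ H (g z)) :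
    dz j (fun y => H (g y)) z = deriv H (g z) * dz j g z := by
  unfold dz
  rw [wirt_fderiv_comp_holo H hg hH, wirt_fderiv_comp_holo H hg hH]
  ring

theorem dzb_comp_holo (H : ℂ → ℂ) (hg : DifferentiableAt ℝ g z)
    (hH : DifferentiableAt ℂ H (g z)) :
    dzb j (fun y => H (g y)) z = deriv H (g z) * dzb j g z := by
  unfold dzb
  rw [wirt_fderiv_comp_holo H hg hH, wirt_fderiv_comp_holo H hg hH]
  ring

theorem wirt_differentiableAt_conj (h : DifferentiableAt ℝ g z) :
    DifferentiableAt ℝ (fun y => conj (g y)) z :=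
  Complex.conjCLE.differentiableAt.comp z h

/-- `∂_j |g|² = ḡ ∂_j g` for holomorphic `g`. -/
theorem dz_normSq_holo (h : DifferentiableAt ℂ g z) :
    dz j (fun y => ((‖g y‖ ^ 2 : ℝ) : ℂ)) z = conj (g z) * dz j g z := by
  have e : (fun y => ((‖g y‖ ^ 2 : ℝ) : ℂ)) = fun y => conj (g y) * g y := by
    funext y
    rw [conj_mul']
    push_cast
    rfl
  have hr : DifferentiableAt ℝ g z := h.restrictScalars ℝ
  rw [e, dz_mul (wirt_differentiableAt_conj hr) hr, dz_conj, dzb_of_holo h, map_zero, zero_mul,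
    zero_add]

/-- regularity of the Wirtinger derivatives. -/
theorem contDiffAt_dz {k m : WithTop ℕ∞} (h : ContDiffAt ℝ m g z) (hk : k + 1 ≤ m) (j : Fin n) :
    ContDiffAt ℝ k (dz j g) z := by
  have h1 : ∀ v : Cn n, ContDiffAt ℝ k (fun y => fderiv ℝ g y v) z := fun v =>
    (h.fderiv_right hk).clm_apply contDiffAt_const
  unfold dz
  exact ((h1 _).sub (contDiffAt_const.mul (h1 _))).div_const 2

theorem contDiffAt_dzb {k m : WithTop ℕ∞} (h : ContDiffAt ℝ m g z) (hk : k + 1 ≤ m) (j : Fin n) :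
    ContDiffAt ℝ k (dzb j g) z := by
  have h1 : ∀ v : Cn n, ContDiffAt ℝ k (fun y => fderiv ℝ g y v) z := fun v =>
    (h.fderiv_right hk).clm_apply contDiffAt_const
  unfold dzb
  exact ((h1 _).add (contDiffAt_const.mul (h1 _))).div_const 2

theorem contDiffOn_dz {k m : WithTop ℕ∞} {U : Set (Cn n)} (hU : IsOpen U)
    (h : ContDiffOn ℝ m g U) (hk : k + 1 ≤ m) (j : Fin n) : ContDiffOn ℝ k (dz j g) U :=
  fun _ hy => (contDiffAt_dz (h.contDiffAt (hU.mem_nhds hy)) hk j).contDiffWithinAt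

theorem contDiffOn_dzb {k m : WithTop ℕ∞} {U : Set (Cn n)} (hU : IsOpen U)
    (h : ContDiffOn ℝ m g U) (hk : k + 1 ≤ m) (j : Fin n) : ContDiffOn ℝ k (dzb j g) U :=
  fun _ hy => (contDiffAt_dzb (h.contDiffAt (hU.mem_nhds hy)) hk j).contDiffWithinAt

end Claimed.Agent.R242
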