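/-
Row 242, SCV layer.  WirtB: SECOND ORDER Wirtinger calculus and the Levi form on `Cn n`.
Blueprint: helper290.   One leaf = this file (SCV-WIRT-B).  Uses WirtA (may be used while still sorried).

Plan.
* commutation: `ContDiffAt.isSymmSndFDerivAt` (symmetry of the second derivative, `minSmoothness ℝ 2 = 2`);
  write `dz j (dzb k g) z` as a ℂ-linear combination of `fderiv ℝ (fun y => fderiv ℝ g y v) z w`
  `= fderiv ℝ (fderiv ℝ g) z w v` for `v, w ∈ {single k 1, single k I, single j 1, single j I}`.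
* `leviC_conj`: `conj (∂_j ∂̄_k φ) = ∂̄_j ∂_k φ = ∂_k ∂̄_j φ` by `dz_conj`, `dzb_conj`, commutation.
* `levi_comp`: `∂̄_k (χ∘u) = χ'(u) ∂̄_k u` NEAR z (`dzb_comp_real` + eventually), then `dz_mul`, `dz_comp_real`
  for `χ'`; `∑∑ ∂_j u a_j conj(∂_k u a_k) = |∑ ∂_j u a_j|²`.
* `levi_normSq_holo`: `∂̄_k |g|² = g conj(∂_k g)` near z, `∂_j conj(∂_k g) = conj(∂̄_j ∂_k g) = conj(∂_k ∂̄_j g) = 0`.
* `levi_log_sum_exp_nonneg`: `S = ∑ e^{u_i}`, `levi S = ∑ e^{u_i}(levi u_i + |∂u_i·a|²)`, `∂S·a = ∑ e^{u_i} ∂u_i·a`,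
  `levi (log S) = levi S / S - |∂S·a|²/S²`, Cauchy–Schwarz `|∑ e_i x_i|² ≤ (∑ e_i)(∑ e_i |x_i|²)`.
Proofs: helper250 (helpers with prefix `wirt_`).
-/
import Claimed.Agent.R242.SCV.WirtA

open MeasureTheory Complex
open scoped ContDiff ComplexConjugate ENNReal Topology

namespace Claimed.Agent.R242

variable {n : ℕ} {j k : Fin n} {z a : Cn n} {g : Cn n → ℂ} {φ φ₁ φ₂ u : Cn n → ℝ}

/-! ### helpers -/

theorem wirt_ofReal_contDiffAt {m : WithTop ℕ∞} (h : ContDiffAt ℝ m φ z) :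
    ContDiffAt ℝ m (fun y => (φ y : ℂ)) z :=
  Complex.ofRealCLM.contDiff.contDiffAt.comp z h

theorem wirt_ev_contDiffAt {E F : Type*} [NormedAddCommGroup E] [NormedSpace ℝ E]
    [NormedAddCommGroup F] [NormedSpace ℝ F] {f : E → F} {x : E} (h : ContDiffAt ℝ 2 f x) :
    ∀ᶠ y in 𝓝 x, ContDiffAt ℝ 2 f y :=
  h.eventually (by simp)

theorem wirt_diff_of_two {E F : Type*} [NormedAddCommGroup E] [NormedSpace ℝ E]
    [NormedAddCommGroup F] [NormedSpace ℝ F] {f : E → F} {x : E} (h : ContDiffAt ℝ 2 f x) :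
    DifferentiableAt ℝ f x :=
  h.differentiableAt (by norm_num)

theorem wirt_diff_dz (h : ContDiffAt ℝ 2 g z) (k : Fin n) : DifferentiableAt ℝ (dz k g) z :=
  (contDiffAt_dz (k := 1) h (by norm_num) k).differentiableAt one_ne_zero

theorem wirt_diff_dzb (h : ContDiffAt ℝ 2 g z) (k : Fin n) : DifferentiableAt ℝ (dzb k g) z :=
  (contDiffAt_dzb (k := 1) h (by norm_num) k).differentiableAt one_ne_zero

theorem wirt_hasFDerivAt_fderiv_apply (h : ContDiffAt ℝ 2 g z) (v : Cn n) :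
    HasFDerivAt (fun y => fderiv ℝ g y v) ((fderiv ℝ (fderiv ℝ g) z).flip v) z := by
  have h1 : DifferentiableAt ℝ (fderiv ℝ g) z :=
    (h.fderiv_right (m := 1) (by norm_num)).differentiableAt one_ne_zero
  have h2 := h1.hasFDerivAt.clm_apply (hasFDerivAt_const v z)
  simpa using h2

theorem wirt_fderiv_dz (h : ContDiffAt ℝ 2 g z) (k : Fin n) (w : Cn n) :
    fderiv ℝ (dz k g) z w = (fderiv ℝ (fderiv ℝ g) z w (Pi.single k 1)
      - I * fderiv ℝ (fderiv ℝ g) z w (Pi.single k I)) / 2 := by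
  have h1 : HasFDerivAt (fun y => (1 / 2 : ℂ) *
      (fderiv ℝ g y (Pi.single k 1) - I * fderiv ℝ g y (Pi.single k I)))
      ((1 / 2 : ℂ) • ((fderiv ℝ (fderiv ℝ g) z).flip (Pi.single k 1)
        - I • (fderiv ℝ (fderiv ℝ g) z).flip (Pi.single k I))) z :=
    (((wirt_hasFDerivAt_fderiv_apply h (Pi.single k 1)).sub
      ((wirt_hasFDerivAt_fderiv_apply h (Pi.single k I)).const_mul I)).const_mul (1 / 2 : ℂ))
  have e : dz k g = fun y => (1 / 2 : ℂ) *
      (fderiv ℝ g y (Pi.single k 1) - I * fderiv ℝ g y (Pi.single k I)) := by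
    funext y
    unfold dz
    ring
  rw [e, h1.fderiv]
  simp only [smul_apply, sub_apply, ContinuousLinearMap.flip_apply, smul_eq_mul]
  ring

theorem wirt_fderiv_dzb (h : ContDiffAt ℝ 2 g z) (k : Fin n) (w : Cn n) :
    fderiv ℝ (dzb k g) z w = (fderiv ℝ (fderiv ℝ g) z w (Pi.single k 1)
      + I * fderiv ℝ (fderiv ℝ g) z w (Pi.single k I)) / 2 := by
  have h1 : HasFDerivAt (fun y => (1 / 2 : ℂ) *
      (fderiv ℝ g y (Pi.single k 1) + I * fderiv ℝ g y (Pi.single k I)))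
      ((1 / 2 : ℂ) • ((fderiv ℝ (fderiv ℝ g) z).flip (Pi.single k 1)
        + I • (fderiv ℝ (fderiv ℝ g) z).flip (Pi.single k I))) z :=
    (((wirt_hasFDerivAt_fderiv_apply h (Pi.single k 1)).add
      ((wirt_hasFDerivAt_fderiv_apply h (Pi.single k I)).const_mul I)).const_mul (1 / 2 : ℂ))
  have e : dzb k g = fun y => (1 / 2 : ℂ) *
      (fderiv ℝ g y (Pi.single k 1) + I * fderiv ℝ g y (Pi.single k I)) := by
    funext y
    unfold dzb
    ring
  rw [e, h1.fderiv]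
  simp only [smul_apply, add_apply, ContinuousLinearMap.flip_apply, smul_eq_mul]
  ring

theorem wirt_symm (h : ContDiffAt ℝ 2 g z) (v w : Cn n) :
    fderiv ℝ (fderiv ℝ g) z v w = fderiv ℝ (fderiv ℝ g) z w v :=
  (h.isSymmSndFDerivAt (by simp)) v w

theorem wirt_dz_def (j : Fin n) (G : Cn n → ℂ) (z : Cn n) :
    dz j G z = (fderiv ℝ G z (Pi.single j 1) - I * fderiv ℝ G z (Pi.single j I)) / 2 := rfl

theorem wirt_dzb_def (j : Fin n) (G : Cn n → ℂ) (z : Cn n) :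
    dzb j G z = (fderiv ℝ G z (Pi.single j 1) + I * fderiv ℝ G z (Pi.single j I)) / 2 := rfl

theorem dz_dzb_comm (h : ContDiffAt ℝ 2 g z) (j k : Fin n) :
    dz j (dzb k g) z = dzb k (dz j g) z := by
  rw [wirt_dz_def j (dzb k g), wirt_dzb_def k (dz j g), wirt_fderiv_dzb h, wirt_fderiv_dzb h, wirt_fderiv_dz h, wirt_fderiv_dz h,
    wirt_symm h (Pi.single k 1) (Pi.single j 1), wirt_symm h (Pi.single k 1) (Pi.single j I),
    wirt_symm h (Pi.single k I) (Pi.single j 1), wirt_symm h (Pi.single k I) (Pi.single j I)]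
  ring

theorem dz_dz_comm (h : ContDiffAt ℝ 2 g z) (j k : Fin n) :
    dz j (dz k g) z = dz k (dz j g) z := by
  rw [wirt_dz_def j (dz k g), wirt_dz_def k (dz j g), wirt_fderiv_dz h, wirt_fderiv_dz h, wirt_fderiv_dz h, wirt_fderiv_dz h,
    wirt_symm h (Pi.single k 1) (Pi.single j 1), wirt_symm h (Pi.single k 1) (Pi.single j I),
    wirt_symm h (Pi.single k I) (Pi.single j 1), wirt_symm h (Pi.single k I) (Pi.single j I)]
  ring

theorem dzb_dzb_comm (h : ContDiffAt ℝ 2 g z) (j k : Fin n) :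
    dzb j (dzb k g) z = dzb k (dzb j g) z := by
  rw [wirt_dzb_def j (dzb k g), wirt_dzb_def k (dzb j g), wirt_fderiv_dzb h, wirt_fderiv_dzb h, wirt_fderiv_dzb h, wirt_fderiv_dzb h,
    wirt_symm h (Pi.single k 1) (Pi.single j 1), wirt_symm h (Pi.single k 1) (Pi.single j I),
    wirt_symm h (Pi.single k I) (Pi.single j 1), wirt_symm h (Pi.single k I) (Pi.single j I)]
  ring

theorem wirt_conj_dzb_ofReal (φ : Cn n → ℝ) (k : Fin n) (y : Cn n) :
    conj (dzb k (fun y => (φ y : ℂ)) y) = dz k (fun y => (φ y : ℂ)) y := by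
  rw [dzb_ofReal, conj_conj]

theorem leviC_conj (h : ContDiffAt ℝ 2 φ z) (j k : Fin n) :
    conj (leviC φ j k z) = leviC φ k j z := by
  unfold leviC
  rw [← dzb_conj]
  simp only [wirt_conj_dzb_ofReal]
  exact (dz_dzb_comm (wirt_ofReal_contDiffAt h) k j).symm

/-- the double sum defining the Levi form is real. -/
theorem levi_eq_sum (h : ContDiffAt ℝ 2 φ z) (a : Cn n) :
    ((levi φ z a : ℝ) : ℂ) = ∑ j, ∑ k, leviC φ j k z * a j * conj (a k) := by
  unfold levi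
  rw [← conj_eq_iff_re, map_sum, Finset.sum_comm]
  refine Finset.sum_congr rfl fun j _ => ?_
  rw [map_sum]
  refine Finset.sum_congr rfl fun k _ => ?_
  rw [map_mul, map_mul, leviC_conj h, conj_conj]
  ring

theorem leviC_congr (h : φ₁ =ᶠ[𝓝 z] φ₂) (j k : Fin n) : leviC φ₁ j k z = leviC φ₂ j k z := by
  unfold leviC
  have h' : (fun y => (φ₁ y : ℂ)) =ᶠ[𝓝 z] fun y => (φ₂ y : ℂ) := by
    filter_upwards [h] with y hy
    rw [hy]
  exact dz_congr (dzb_eventuallyEq h' k) j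

theorem levi_congr (h : φ₁ =ᶠ[𝓝 z] φ₂) (a : Cn n) : levi φ₁ z a = levi φ₂ z a := by
  unfold levi
  simp only [leviC_congr h]

theorem wirt_leviC_const (c : ℝ) (j k : Fin n) : leviC (fun _ : Cn n => c) j k z = 0 := by
  unfold leviC
  have e : dzb k (fun _ : Cn n => (c : ℂ)) = fun _ => 0 := by
    funext y
    exact dzb_const _
  rw [e, dz_const]

theorem levi_const (c : ℝ) : levi (fun _ : Cn n => c) z a = 0 := by
  unfold levi
  simp only [wirt_leviC_const, zero_mul, Finset.sum_const_zero, zero_re]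

theorem wirt_dzdzb_add {G₁ G₂ : Cn n → ℂ} (h₁ : ContDiffAt ℝ 2 G₁ z) (h₂ : ContDiffAt ℝ 2 G₂ z)
    (j k : Fin n) :
    dz j (dzb k (fun y => G₁ y + G₂ y)) z = dz j (dzb k G₁) z + dz j (dzb k G₂) z := by
  have e : dzb k (fun y => G₁ y + G₂ y) =ᶠ[𝓝 z] fun y => dzb k G₁ y + dzb k G₂ y := by
    filter_upwards [wirt_ev_contDiffAt h₁, wirt_ev_contDiffAt h₂] with y h1 h2
    exact dzb_add (wirt_diff_of_two h1) (wirt_diff_of_two h2)
  rw [dz_congr e, dz_add (wirt_diff_dzb h₁ k) (wirt_diff_dzb h₂ k)]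

theorem wirt_dzdzb_const_mul {G : Cn n → ℂ} (c : ℂ) (h : ContDiffAt ℝ 2 G z) (j k : Fin n) :
    dz j (dzb k (fun y => c * G y)) z = c * dz j (dzb k G) z := by
  have e : dzb k (fun y => c * G y) =ᶠ[𝓝 z] fun y => c * dzb k G y := by
    filter_upwards [wirt_ev_contDiffAt h] with y h1
    exact dzb_const_mul c (wirt_diff_of_two h1)
  rw [dz_congr e, dz_const_mul c (wirt_diff_dzb h k)]

theorem wirt_dzdzb_sum {ι : Type*} (s : Finset ι) (G : ι → Cn n → ℂ)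
    (h : ∀ i ∈ s, ContDiffAt ℝ 2 (G i) z) (j k : Fin n) :
    dz j (dzb k (fun y => ∑ i ∈ s, G i y)) z = ∑ i ∈ s, dz j (dzb k (G i)) z := by
  have e : dzb k (fun y => ∑ i ∈ s, G i y) =ᶠ[𝓝 z] fun y => ∑ i ∈ s, dzb k (G i) y := by
    have h' : ∀ᶠ y in 𝓝 z, ∀ i ∈ s, ContDiffAt ℝ 2 (G i) y :=
      (Filter.eventually_all_finset s).2 fun i hi => wirt_ev_contDiffAt (h i hi)
    filter_upwards [h'] with y hy
    exact dzb_sum s G fun i hi => wirt_diff_of_two (hy i hi)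
  rw [dz_congr e, dz_sum s _ fun i hi => wirt_diff_dzb (h i hi) k]

theorem wirt_leviC_add (h₁ : ContDiffAt ℝ 2 φ₁ z) (h₂ : ContDiffAt ℝ 2 φ₂ z) (j k : Fin n) :
    leviC (fun y => φ₁ y + φ₂ y) j k z = leviC φ₁ j k z + leviC φ₂ j k z := by
  have e : (fun y => ((φ₁ y + φ₂ y : ℝ) : ℂ)) = fun y => (φ₁ y : ℂ) + (φ₂ y : ℂ) := by
    funext y
    push_cast
    rfl
  show dz j (dzb k (fun y => ((φ₁ y + φ₂ y : ℝ) : ℂ))) z = _
  rw [e]
  exact wirt_dzdzb_add (wirt_ofReal_contDiffAt h₁) (wirt_ofReal_contDiffAt h₂) j k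

theorem wirt_leviC_const_mul (c : ℝ) (h : ContDiffAt ℝ 2 φ z) (j k : Fin n) :
    leviC (fun y => c * φ y) j k z = (c : ℂ) * leviC φ j k z := by
  have e : (fun y => ((c * φ y : ℝ) : ℂ)) = fun y => (c : ℂ) * (φ y : ℂ) := by
    funext y
    push_cast
    rfl
  show dz j (dzb k (fun y => ((c * φ y : ℝ) : ℂ))) z = _
  rw [e]
  exact wirt_dzdzb_const_mul (c : ℂ) (wirt_ofReal_contDiffAt h) j k

theorem wirt_leviC_sum {ι : Type*} (s : Finset ι) (Φ : ι → Cn n → ℝ)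
    (h : ∀ i ∈ s, ContDiffAt ℝ 2 (Φ i) z) (j k : Fin n) :
    leviC (fun y => ∑ i ∈ s, Φ i y) j k z = ∑ i ∈ s, leviC (Φ i) j k z := by
  have e : (fun y => ((∑ i ∈ s, Φ i y : ℝ) : ℂ)) = fun y => ∑ i ∈ s, (Φ i y : ℂ) := by
    funext y
    push_cast
    rfl
  show dz j (dzb k (fun y => ((∑ i ∈ s, Φ i y : ℝ) : ℂ))) z = _
  rw [e]
  exact wirt_dzdzb_sum s (fun i y => (Φ i y : ℂ)) (fun i hi => wirt_ofReal_contDiffAt (h i hi)) j k

theorem levi_add (h₁ : ContDiffAt ℝ 2 φ₁ z) (h₂ : ContDiffAt ℝ 2 φ₂ z) :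
    levi (fun y => φ₁ y + φ₂ y) z a = levi φ₁ z a + levi φ₂ z a := by
  unfold levi
  simp only [wirt_leviC_add h₁ h₂, add_mul, Finset.sum_add_distrib, add_re]

theorem levi_const_mul (c : ℝ) (h : ContDiffAt ℝ 2 φ z) :
    levi (fun y => c * φ y) z a = c * levi φ z a := by
  unfold levi
  simp only [wirt_leviC_const_mul c h, mul_assoc, ← Finset.mul_sum, re_ofReal_mul]

theorem levi_sum {ι : Type*} (s : Finset ι) (Φ : ι → Cn n → ℝ)
    (h : ∀ i ∈ s, ContDiffAt ℝ 2 (Φ i) z) :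
    levi (fun y => ∑ i ∈ s, Φ i y) z a = ∑ i ∈ s, levi (Φ i) z a := by
  unfold levi
  simp only [wirt_leviC_sum s Φ h, Finset.sum_mul]
  rw [← re_sum]
  congr 1
  calc ∑ j, ∑ k, ∑ i ∈ s, leviC (Φ i) j k z * a j * conj (a k)
      = ∑ j, ∑ i ∈ s, ∑ k, leviC (Φ i) j k z * a j * conj (a k) :=
        Finset.sum_congr rfl fun j _ => Finset.sum_comm
    _ = ∑ i ∈ s, ∑ j, ∑ k, leviC (Φ i) j k z * a j * conj (a k) := Finset.sum_comm

/-- continuity of the Levi form in the point. -/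
theorem continuousOn_levi {U : Set (Cn n)} (hU : IsOpen U) (h : ContDiffOn ℝ 2 φ U) (a : Cn n) :
    ContinuousOn (fun y => levi φ y a) U := by
  have h1 : ContDiffOn ℝ 2 (fun y => (φ y : ℂ)) U :=
    Complex.ofRealCLM.contDiff.comp_contDiffOn h
  have h2 : ∀ j k, ContinuousOn (fun y => leviC φ j k y) U := fun j k =>
    (contDiffOn_dz (k := 0) hU (contDiffOn_dzb (k := 1) hU h1 (by norm_num) k) (by norm_num)
      j).continuousOn
  unfold levi
  refine Complex.continuous_re.comp_continuousOn ?_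
  refine continuousOn_finsetSum _ fun j _ => continuousOn_finsetSum _ fun k _ => ?_
  exact ((h2 j k).mul continuousOn_const).mul continuousOn_const

theorem wirt_diff_deriv {χ : ℝ → ℝ} {t : ℝ} (hχ : ContDiffAt ℝ 2 χ t) :
    DifferentiableAt ℝ (deriv χ) t := by
  have h1 : ContDiffAt ℝ 1 (fun s => fderiv ℝ χ s 1) t :=
    (hχ.fderiv_right (m := 1) (by norm_num)).clm_apply contDiffAt_const
  exact h1.differentiableAt one_ne_zero

theorem wirt_leviC_comp (χ : ℝ → ℝ) (hu : ContDiffAt ℝ 2 u z) (hχ : ContDiffAt ℝ 2 χ (u z))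
    (j k : Fin n) :
    leviC (fun y => χ (u y)) j k z
      = ((deriv (deriv χ) (u z) : ℝ) : ℂ) * dz j (fun y => (u y : ℂ)) z
          * dzb k (fun y => (u y : ℂ)) z
        + ((deriv χ (u z) : ℝ) : ℂ) * leviC u j k z := by
  have hev : dzb k (fun y => ((χ (u y) : ℝ) : ℂ)) =ᶠ[𝓝 z]
      fun y => ((deriv χ (u y) : ℝ) : ℂ) * dzb k (fun y => (u y : ℂ)) y := by
    have h3 : ∀ᶠ y in 𝓝 z, ContDiffAt ℝ 2 χ (u y) :=
      hu.continuousAt.eventually (wirt_ev_contDiffAt hχ)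
    filter_upwards [wirt_ev_contDiffAt hu, h3] with y hy1 hy3
    exact dzb_comp_real u χ (wirt_diff_of_two hy1) (wirt_diff_of_two hy3)
  have hu' : DifferentiableAt ℝ u z := wirt_diff_of_two hu
  have hd1 : DifferentiableAt ℝ (deriv χ) (u z) := wirt_diff_deriv hχ
  have hdiff1 : DifferentiableAt ℝ (fun y => ((deriv χ (u y) : ℝ) : ℂ)) z :=
    Complex.ofRealCLM.differentiableAt.comp z (hd1.comp z hu')
  show dz j (dzb k (fun y => ((χ (u y) : ℝ) : ℂ))) z = _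
  rw [dz_congr hev, dz_mul hdiff1 (wirt_diff_dzb (wirt_ofReal_contDiffAt hu) k),
    dz_comp_real u (deriv χ) hu' hd1]
  rfl

/-- the algebra behind all Levi form computations: rank one part. -/
theorem wirt_sum_rank_one (d : Fin n → ℂ) (a : Cn n) :
    ∑ j, ∑ k, d j * conj (d k) * a j * conj (a k) = ((‖∑ j, d j * a j‖ ^ 2 : ℝ) : ℂ) := by
  have h : ((‖∑ j, d j * a j‖ ^ 2 : ℝ) : ℂ) = (∑ j, d j * a j) * conj (∑ k, d k * a k) := by
    rw [mul_conj']
    push_cast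
    rfl
  rw [h, map_sum, Finset.sum_mul_sum]
  refine Finset.sum_congr rfl fun j _ => Finset.sum_congr rfl fun k _ => ?_
  rw [map_mul]
  ring

/-- chain rule for the Levi form. -/
theorem levi_comp (χ : ℝ → ℝ) (hu : ContDiffAt ℝ 2 u z) (hχ : ContDiffAt ℝ 2 χ (u z)) :
    levi (fun y => χ (u y)) z a
      = deriv χ (u z) * levi u z a
        + deriv (deriv χ) (u z) * ‖∑ j, dz j (fun y => (u y : ℂ)) z * a j‖ ^ 2 := by
  have e : ∑ j, ∑ k, leviC (fun y => χ (u y)) j k z * a j * conj (a k)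
      = ((deriv (deriv χ) (u z) : ℝ) : ℂ) *
          ((‖∑ j, dz j (fun y => (u y : ℂ)) z * a j‖ ^ 2 : ℝ) : ℂ)
        + ((deriv χ (u z) : ℝ) : ℂ) * ∑ j, ∑ k, leviC u j k z * a j * conj (a k) := by
    rw [← wirt_sum_rank_one, Finset.mul_sum, Finset.mul_sum, ← Finset.sum_add_distrib]
    refine Finset.sum_congr rfl fun j _ => ?_
    rw [Finset.mul_sum, Finset.mul_sum, ← Finset.sum_add_distrib]
    refine Finset.sum_congr rfl fun k _ => ?_
    rw [wirt_leviC_comp χ hu hχ, dzb_ofReal]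
    ring
  unfold levi
  rw [e, add_re, re_ofReal_mul, re_ofReal_mul, ofReal_re]
  ring

theorem wirt_normSq_eq (g : Cn n → ℂ) :
    (fun y => ((‖g y‖ ^ 2 : ℝ) : ℂ)) = fun y => conj (g y) * g y := by
  funext y
  rw [conj_mul']
  push_cast
  rfl

theorem wirt_leviC_normSq_holo (h : ∀ᶠ y in 𝓝 z, DifferentiableAt ℂ g y) (h2 : ContDiffAt ℝ 2 g z)
    (j k : Fin n) :
    leviC (fun y => ‖g y‖ ^ 2) j k z = dz j g z * conj (dz k g z) := by
  have hev : dzb k (fun y => ((‖g y‖ ^ 2 : ℝ) : ℂ)) =ᶠ[𝓝 z] fun y => conj (dz k g y) * g y := by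
    filter_upwards [h] with y hy
    have hr := hy.restrictScalars ℝ
    rw [wirt_normSq_eq, dzb_mul (wirt_differentiableAt_conj hr) hr, dzb_conj, dzb_of_holo hy,
      mul_zero, add_zero]
  have hz : DifferentiableAt ℝ g z := wirt_diff_of_two h2
  have h0 : dzb j g =ᶠ[𝓝 z] fun _ => 0 := by
    filter_upwards [h] with y hy
    exact dzb_of_holo hy
  show dz j (dzb k (fun y => ((‖g y‖ ^ 2 : ℝ) : ℂ))) z = _
  rw [dz_congr hev, dz_mul (wirt_differentiableAt_conj (wirt_diff_dz h2 k)) hz, dz_conj,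
    ← dz_dzb_comm h2 k j, dz_congr h0, dz_const, map_zero, zero_mul, zero_add]
  ring

theorem levi_normSq_holo (h : ∀ᶠ y in 𝓝 z, DifferentiableAt ℂ g y) (h2 : ContDiffAt ℝ 2 g z) :
    levi (fun y => ‖g y‖ ^ 2) z a = ‖∑ j, dz j g z * a j‖ ^ 2 := by
  unfold levi
  simp only [wirt_leviC_normSq_holo h h2]
  rw [wirt_sum_rank_one (fun j => dz j g z) a, ofReal_re]

theorem wirt_levi_log_normSq_add (h : ∀ᶠ y in 𝓝 z, DifferentiableAt ℂ g y)
    (h2 : ContDiffAt ℝ 2 g z) {δ : ℝ} (hpos : 0 < ‖g z‖ ^ 2 + δ) :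
    levi (fun y => Real.log (‖g y‖ ^ 2 + δ)) z a
      = δ * ‖∑ j, dz j g z * a j‖ ^ 2 / (‖g z‖ ^ 2 + δ) ^ 2 := by
  have hN : ContDiffAt ℝ 2 (fun y => ‖g y‖ ^ 2) z := h2.norm_sq ℝ
  have hu : ContDiffAt ℝ 2 (fun y => ‖g y‖ ^ 2 + δ) z := hN.add contDiffAt_const
  have hlog : ContDiffAt ℝ 2 Real.log (‖g z‖ ^ 2 + δ) := Real.contDiffAt_log.2 hpos.ne'
  have h1 : levi (fun y => ‖g y‖ ^ 2 + δ) z a = ‖∑ j, dz j g z * a j‖ ^ 2 := by
    rw [levi_add hN contDiffAt_const, levi_const, add_zero, levi_normSq_holo h h2]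
  have h3 : ∀ j, dz j (fun y => ((‖g y‖ ^ 2 + δ : ℝ) : ℂ)) z = conj (g z) * dz j g z := by
    intro j
    have e : (fun y => ((‖g y‖ ^ 2 + δ : ℝ) : ℂ)) = fun y => ((‖g y‖ ^ 2 : ℝ) : ℂ) + (δ : ℂ) := by
      funext y
      push_cast
      rfl
    rw [e, dz_add (wirt_diff_of_two (wirt_ofReal_contDiffAt hN)) (differentiableAt_const _),
      dz_const, add_zero, dz_normSq_holo h.self_of_nhds]
  have h4 : ∑ j, conj (g z) * dz j g z * a j = conj (g z) * ∑ j, dz j g z * a j := by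
    rw [Finset.mul_sum]
    exact Finset.sum_congr rfl fun j _ => by ring
  rw [levi_comp (u := fun y => ‖g y‖ ^ 2 + δ) Real.log hu hlog, h1]
  simp only [h3]
  rw [h4, norm_mul, RCLike.norm_conj, Real.deriv_log', deriv_inv]
  field_simp
  ring

/-- `log |g|²` is pluriharmonic where `g ≠ 0`. -/
theorem levi_log_normSq_holo (h : ∀ᶠ y in 𝓝 z, DifferentiableAt ℂ g y) (h2 : ContDiffAt ℝ 2 g z)
    (hne : g z ≠ 0) : levi (fun y => Real.log (‖g y‖ ^ 2)) z a = 0 := by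
  have hpos : 0 < ‖g z‖ ^ 2 + 0 := by
    have : 0 < ‖g z‖ := norm_pos_iff.2 hne
    positivity
  have h3 := wirt_levi_log_normSq_add (a := a) h h2 hpos
  simpa using h3

/-- `levi log(|g|²+δ) = δ |∂g·a|² / (|g|²+δ)²`. -/
theorem levi_log_normSq_add (h : ∀ᶠ y in 𝓝 z, DifferentiableAt ℂ g y) (h2 : ContDiffAt ℝ 2 g z)
    {δ : ℝ} (hδ : 0 < δ) :
    levi (fun y => Real.log (‖g y‖ ^ 2 + δ)) z a
      = δ * ‖∑ j, dz j g z * a j‖ ^ 2 / (‖g z‖ ^ 2 + δ) ^ 2 :=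
  wirt_levi_log_normSq_add h h2 (by positivity)

/-- log-sum-exp of psh functions is psh. -/
theorem levi_log_sum_exp_nonneg {ι : Type*} [Fintype ι] [Nonempty ι] (U : ι → Cn n → ℝ)
    (hU : ∀ i, ContDiffAt ℝ 2 (U i) z) (hpsh : ∀ i, 0 ≤ levi (U i) z a) :
    0 ≤ levi (fun y => Real.log (∑ i, Real.exp (U i y))) z a := by
  have hE : ∀ i, ContDiffAt ℝ 2 (fun y => Real.exp (U i y)) z := fun i => (hU i).exp
  have hS : ContDiffAt ℝ 2 (fun y => ∑ i, Real.exp (U i y)) z := ContDiffAt.sum fun i _ => hE i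
  have hpos : 0 < ∑ i, Real.exp (U i z) :=
    Finset.sum_pos (fun i _ => Real.exp_pos _) Finset.univ_nonempty
  obtain ⟨x, hx⟩ : ∃ x : ι → ℂ, x = fun i => ∑ j, dz j (fun y => (U i y : ℂ)) z * a j := ⟨_, rfl⟩
  have h1 : levi (fun y => ∑ i, Real.exp (U i y)) z a
      = ∑ i, Real.exp (U i z) * (levi (U i) z a + ‖x i‖ ^ 2) := by
    rw [levi_sum Finset.univ _ (fun i _ => hE i)]
    refine Finset.sum_congr rfl fun i _ => ?_
    rw [levi_comp Real.exp (hU i) Real.contDiff_exp.contDiffAt, Real.deriv_exp, Real.deriv_exp, hx]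
    ring
  have h2 : ∀ j, dz j (fun y => ((∑ i, Real.exp (U i y) : ℝ) : ℂ)) z
      = ∑ i, ((Real.exp (U i z) : ℝ) : ℂ) * dz j (fun y => (U i y : ℂ)) z := by
    intro j
    have e : (fun y => ((∑ i, Real.exp (U i y) : ℝ) : ℂ))
        = fun y => ∑ i, ((Real.exp (U i y) : ℝ) : ℂ) := by
      funext y
      push_cast
      rfl
    rw [e, dz_sum Finset.univ _ fun i _ => wirt_diff_of_two (wirt_ofReal_contDiffAt (hE i))]
    refine Finset.sum_congr rfl fun i _ => ?_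
    rw [dz_comp_real (U i) Real.exp (wirt_diff_of_two (hU i)) Real.differentiableAt_exp,
      Real.deriv_exp]
  have h3 : ∑ j, dz j (fun y => ((∑ i, Real.exp (U i y) : ℝ) : ℂ)) z * a j
      = ∑ i, ((Real.exp (U i z) : ℝ) : ℂ) * x i := by
    simp only [h2, Finset.sum_mul, hx, Finset.mul_sum]
    rw [Finset.sum_comm]
    exact Finset.sum_congr rfl fun i _ => Finset.sum_congr rfl fun j _ => by ring
  rw [levi_comp (u := fun y => ∑ i, Real.exp (U i y)) Real.log hS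
    (Real.contDiffAt_log.2 hpos.ne'), h1, h3, Real.deriv_log', deriv_inv]
  obtain ⟨S, hSdef⟩ : ∃ S : ℝ, S = ∑ i, Real.exp (U i z) := ⟨_, rfl⟩
  rw [← hSdef] at hpos ⊢
  have hN : ‖∑ i, ((Real.exp (U i z) : ℝ) : ℂ) * x i‖ ^ 2
      ≤ S * ∑ i, Real.exp (U i z) * ‖x i‖ ^ 2 := by
    have hn1 : ‖∑ i, ((Real.exp (U i z) : ℝ) : ℂ) * x i‖ ≤ ∑ i, Real.exp (U i z) * ‖x i‖ := by
      refine (norm_sum_le _ _).trans (le_of_eq ?_)
      refine Finset.sum_congr rfl fun i _ => ?_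
      rw [norm_mul, norm_real, Real.norm_eq_abs, abs_of_pos (Real.exp_pos _)]
    have hn2 : (∑ i, Real.exp (U i z) * ‖x i‖) ^ 2
        ≤ (∑ i, Real.exp (U i z)) * ∑ i, Real.exp (U i z) * ‖x i‖ ^ 2 :=
      Finset.sum_sq_le_sum_mul_sum_of_sq_le_mul _ (fun i _ => (Real.exp_pos _).le)
        (fun i _ => by positivity) (fun i _ => le_of_eq (by ring))
    rw [hSdef]
    exact (pow_le_pow_left₀ (norm_nonneg _) hn1 2).trans hn2
  have hP : ∑ i, Real.exp (U i z) * ‖x i‖ ^ 2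
      ≤ ∑ i, Real.exp (U i z) * (levi (U i) z a + ‖x i‖ ^ 2) := by
    refine Finset.sum_le_sum fun i _ => ?_
    exact mul_le_mul_of_nonneg_left (by linarith [hpsh i]) (Real.exp_pos _).le
  have e : (fun x => x⁻¹) S * ∑ i, Real.exp (U i z) * (levi (U i) z a + ‖x i‖ ^ 2)
      + -(S ^ 2)⁻¹ * ‖∑ i, ((Real.exp (U i z) : ℝ) : ℂ) * x i‖ ^ 2
      = (S * ∑ i, Real.exp (U i z) * (levi (U i) z a + ‖x i‖ ^ 2)
          - ‖∑ i, ((Real.exp (U i z) : ℝ) : ℂ) * x i‖ ^ 2) / S ^ 2 := by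
    simp only
    field_simp
    ring
  rw [e]
  refine div_nonneg ?_ (by positivity)
  have := mul_le_mul_of_nonneg_left hP hpos.le
  linarith

theorem wirt_coord_holo (k : Fin n) (c : ℂ) (y : Cn n) :
    DifferentiableAt ℂ (fun y : Cn n => y k - c) y :=
  (hasFDerivAt_apply (𝕜 := ℂ) k y).differentiableAt.sub_const c

theorem wirt_coord_contDiffAt (k : Fin n) (c : ℂ) (y : Cn n) :
    ContDiffAt ℝ 2 (fun y : Cn n => y k - c) y :=
  ((contDiff_apply ℝ ℂ k).sub contDiff_const).contDiffAt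

theorem wirt_dz_coord_sub (j k : Fin n) (c : ℂ) :
    dz j (fun y : Cn n => y k - c) z = if j = k then 1 else 0 := by
  rw [dz_sub (hasFDerivAt_apply (𝕜 := ℝ) k z).differentiableAt (differentiableAt_const c),
    dz_coord, dz_const, sub_zero]

/-- the coordinate function: `levi |z_k - c|² = |a_k|²`. -/
theorem levi_normSq_coord (k : Fin n) (c : ℂ) :
    levi (fun y : Cn n => ‖y k - c‖ ^ 2) z a = ‖a k‖ ^ 2 := by
  rw [levi_normSq_holo (g := fun y : Cn n => y k - c)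
    (Filter.Eventually.of_forall fun y => wirt_coord_holo k c y) (wirt_coord_contDiffAt k c z)]
  simp only [wirt_dz_coord_sub, ite_mul, one_mul, zero_mul, Finset.sum_ite_eq', Finset.mem_univ,
    if_true]

theorem dz_normSq_coord (j k : Fin n) (c : ℂ) :
    dz j (fun y : Cn n => ((‖y k - c‖ ^ 2 : ℝ) : ℂ)) z = if j = k then conj (z k - c) else 0 := by
  rw [dz_normSq_holo (g := fun y : Cn n => y k - c) (wirt_coord_holo k c z), wirt_dz_coord_sub]
  split_ifs <;> simp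

/-- a function of `|z_k - c|²`. -/
theorem levi_comp_normSq_coord (k : Fin n) (c : ℂ) (χ : ℝ → ℝ)
    (hχ : ContDiffAt ℝ 2 χ (‖z k - c‖ ^ 2)) :
    levi (fun y : Cn n => χ (‖y k - c‖ ^ 2)) z a
      = (deriv χ (‖z k - c‖ ^ 2) + ‖z k - c‖ ^ 2 * deriv (deriv χ) (‖z k - c‖ ^ 2)) * ‖a k‖ ^ 2 := by
  have hu : ContDiffAt ℝ 2 (fun y : Cn n => ‖y k - c‖ ^ 2) z :=
    (wirt_coord_contDiffAt k c z).norm_sq ℝ
  rw [levi_comp (u := fun y : Cn n => ‖y k - c‖ ^ 2) χ hu hχ, levi_normSq_coord]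
  simp only [dz_normSq_coord, ite_mul, zero_mul, Finset.sum_ite_eq', Finset.mem_univ, if_true]
  rw [norm_mul, RCLike.norm_conj]
  ring

end Claimed.Agent.R242
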