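/-
Row 242, SCV layer, RD kit 1/5.  RdGerm: germs of local inverses; transfer of the calculus of `Cn n` to a
Riemann domain `p : W → Cn n`.      Blueprint: helper290.   Leaves: SCV-RD-GERM-A (sections 1,2), -B (3,4).
PROVED (helper87): the whole file, from the statements of WirtA / WirtB / MVP.  Extras: `RdContDiffAt.differentiableAt`, `RdHolo.differentiableOn_rdLoc`.

A SHEET is an `e : OpenPartialHomeomorph W (Cn n)` whose underlying function is `p`  (`IsSheet p e`).
`(hp.localInverseAt x).symm` is a sheet containing `x`.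

Plan.
* `rd_section_eventuallyEq`: take the sheet `U` of `x` (`hp.localInverseAt x`), both sections land in `U`
  near `p x` (continuity at `p x`), `p` is injective on `U`  (`hp.injOn_localInverseAt_target`).
* everything else is `Filter.EventuallyEq` bookkeeping plus WirtA/WirtB (`dz_congr`, `leviC_congr`, ...).
* `rdLoc_localOp`: for `z` near `p x` put `y = s_x z`; `p y = z`, `y ∈ target`, germ lemma at `y`.
-/
import Claimed.Agent.R242.SCV.WirtB
import Claimed.Agent.R242.SCV.MVP

open MeasureTheory Complex Filter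
open scoped ContDiff ComplexConjugate ENNReal Topology

namespace Claimed.Agent.R242

variable {n : ℕ} {W : Type*} [TopologicalSpace W] {p : W → Cn n} (hp : IsLocalHomeomorph p)

/-! ### 1. Sheets and germs -/

/-- A sheet of `p`: a partial homeomorphism whose underlying map is `p`. -/
def IsSheet (p : W → Cn n) (e : OpenPartialHomeomorph W (Cn n)) : Prop := (e : W → Cn n) = p

/-- the chosen sheet through `x`. -/
noncomputable def rdSheet (x : W) : OpenPartialHomeomorph W (Cn n) := (hp.localInverseAt x).symm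

theorem isSheet_rdSheet (x : W) : IsSheet p (rdSheet hp x) := by
  exact hp.localInverseAt_symm x

theorem mem_rdSheet_source (x : W) : x ∈ (rdSheet hp x).source := by
  exact hp.self_mem_localInverseAt_target

theorem rdSheet_symm (x : W) : (rdSheet hp x).symm = hp.localInverseAt x := by
  exact (hp.localInverseAt x).symm_symm

/-- restriction of a sheet to an open set is a sheet. -/
theorem IsSheet.restrOpen {e : OpenPartialHomeomorph W (Cn n)} (he : IsSheet p e) (U : Set W)
    (hU : IsOpen U) : IsSheet p (e.restrOpen U hU) := by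
  exact he

theorem IsSheet.apply_symm {e : OpenPartialHomeomorph W (Cn n)} (he : IsSheet p e) {z : Cn n}
    (hz : z ∈ e.target) : p (e.symm z) = z := by
  rw [← he]
  exact e.right_inv hz

theorem IsSheet.symm_apply {e : OpenPartialHomeomorph W (Cn n)} (he : IsSheet p e) {x : W}
    (hx : x ∈ e.source) : e.symm (p x) = x := by
  rw [← he]
  exact e.left_inv hx

theorem IsSheet.injOn {e : OpenPartialHomeomorph W (Cn n)} (he : IsSheet p e) :
    Set.InjOn p e.source := by
  rw [← he]
  exact e.injOn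

theorem IsSheet.image_source {e : OpenPartialHomeomorph W (Cn n)} (he : IsSheet p e) :
    p '' e.source = e.target := by
  rw [← he]
  exact e.image_source_eq_target

include hp in
/-- two continuous local sections of `p` through `x` have the same germ. -/
theorem rd_section_eventuallyEq {x : W} {s t : Cn n → W}
    (hs : ContinuousAt s (p x)) (ht : ContinuousAt t (p x)) (hsx : s (p x) = x) (htx : t (p x) = x)
    (hs' : ∀ᶠ z in 𝓝 (p x), p (s z) = z) (ht' : ∀ᶠ z in 𝓝 (p x), p (t z) = z) :
    s =ᶠ[𝓝 (p x)] t := by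
  have hU : (hp.localInverseAt x).target ∈ 𝓝 x :=
    (hp.localInverseAt x).open_target.mem_nhds hp.self_mem_localInverseAt_target
  have h1 : ∀ᶠ z in 𝓝 (p x), s z ∈ (hp.localInverseAt x).target :=
    hs (by rw [hsx]; exact hU)
  have h2 : ∀ᶠ z in 𝓝 (p x), t z ∈ (hp.localInverseAt x).target :=
    ht (by rw [htx]; exact hU)
  filter_upwards [h1, h2, hs', ht'] with z h1 h2 h3 h4
  exact hp.injOn_localInverseAt_target h1 h2 (h3.trans h4.symm)

/-- the chosen local inverse at `x` has the germ of the inverse of any sheet through `x`. -/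
theorem rd_localInverseAt_eventuallyEq_sheet {e : OpenPartialHomeomorph W (Cn n)}
    (he : IsSheet p e) {x : W} (hx : x ∈ e.source) :
    (hp.localInverseAt x : Cn n → W) =ᶠ[𝓝 (p x)] e.symm := by
  have hpx : p x ∈ e.target := by
    rw [← he]
    exact e.map_source hx
  have hsrc : p x ∈ (hp.localInverseAt x).source := hp.apply_self_mem_localInverseAt_source
  refine rd_section_eventuallyEq hp ((hp.localInverseAt x).continuousAt hsrc)
    (e.symm.continuousAt hpx) hp.localInverseAt_apply_self (he.symm_apply hx) ?_ ?_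
  · filter_upwards [(hp.localInverseAt x).open_source.mem_nhds hsrc] with z hz
    exact hp.apply_localInverseAt_of_mem hz
  · filter_upwards [e.open_target.mem_nhds hpx] with z hz
    exact he.apply_symm hz

theorem rd_localInverseAt_eventuallyEq {x y : W} (hy : y ∈ (hp.localInverseAt x).target) :
    (hp.localInverseAt y : Cn n → W) =ᶠ[𝓝 (p y)] hp.localInverseAt x := by
  have h := rd_localInverseAt_eventuallyEq_sheet hp (isSheet_rdSheet hp x) (x := y) hy
  rwa [rdSheet_symm] at h

/-! ### 2. `rdLoc` -/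

section loc
variable {F G : Type*}

theorem rdLoc_apply_self (u : W → F) (x : W) : rdLoc hp u x (p x) = u x := by
  unfold rdLoc
  rw [hp.localInverseAt_apply_self]

theorem rdLoc_eventuallyEq_sheet (u : W → F) {e : OpenPartialHomeomorph W (Cn n)}
    (he : IsSheet p e) {x : W} (hx : x ∈ e.source) :
    rdLoc hp u x =ᶠ[𝓝 (p x)] fun z => u (e.symm z) := by
  filter_upwards [rd_localInverseAt_eventuallyEq_sheet hp he hx] with z hz
  unfold rdLoc
  rw [hz]

theorem rdLoc_eventuallyEq (u : W → F) {x y : W} (hy : y ∈ (hp.localInverseAt x).target) :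
    rdLoc hp u y =ᶠ[𝓝 (p y)] rdLoc hp u x := by
  filter_upwards [rd_localInverseAt_eventuallyEq hp hy] with z hz
  unfold rdLoc
  rw [hz]

/-- functions that agree near `x` have the same local expression near `p x`. -/
theorem rdLoc_congr {u v : W → F} {x : W} (h : u =ᶠ[𝓝 x] v) :
    rdLoc hp u x =ᶠ[𝓝 (p x)] rdLoc hp v x := by
  have hsrc : p x ∈ (hp.localInverseAt x).source := hp.apply_self_mem_localInverseAt_source
  have hc : Tendsto (hp.localInverseAt x) (𝓝 (p x)) (𝓝 x) := by
    have := (hp.localInverseAt x).continuousAt hsrc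
    rwa [ContinuousAt, hp.localInverseAt_apply_self] at this
  exact hc.eventually h

/-- `u` is recovered from its local expression near `x`. -/
theorem rdLoc_comp_proj (u : W → F) (x : W) : (fun y => rdLoc hp u x (p y)) =ᶠ[𝓝 x] u := by
  filter_upwards [(hp.localInverseAt x).open_target.mem_nhds hp.self_mem_localInverseAt_target]
    with y hy
  unfold rdLoc
  have h := (isSheet_rdSheet hp x).symm_apply (x := y) hy
  rw [rdSheet_symm] at h
  rw [h]

/-- local expression of a pull-back `g ∘ p`. -/
theorem rdLoc_comp (g : Cn n → F) (x : W) : rdLoc hp (fun y => g (p y)) x =ᶠ[𝓝 (p x)] g := by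
  filter_upwards [(hp.localInverseAt x).open_source.mem_nhds
    hp.apply_self_mem_localInverseAt_source] with z hz
  show g (p (hp.localInverseAt x z)) = g z
  rw [hp.apply_localInverseAt_of_mem hz]

/-- **Transfer principle**: a local operator `D` on `Cn n` induces an operator on `W` whose local
expression is `D` of the local expression. -/
theorem rdLoc_localOp (D : (Cn n → F) → Cn n → G)
    (hD : ∀ (g₁ g₂ : Cn n → F) (z : Cn n), g₁ =ᶠ[𝓝 z] g₂ → D g₁ z = D g₂ z) (u : W → F) (x : W) :
    rdLoc hp (fun y => D (rdLoc hp u y) (p y)) x =ᶠ[𝓝 (p x)] D (rdLoc hp u x) := by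
  filter_upwards [(hp.localInverseAt x).open_source.mem_nhds
    hp.apply_self_mem_localInverseAt_source] with z hz
  have h1 : p (hp.localInverseAt x z) = z := hp.apply_localInverseAt_of_mem hz
  have h2 : hp.localInverseAt x z ∈ (hp.localInverseAt x).target :=
    (hp.localInverseAt x).map_source hz
  have h3 := rdLoc_eventuallyEq hp u h2
  rw [h1] at h3
  show D (rdLoc hp u (hp.localInverseAt x z)) (p (hp.localInverseAt x z)) = D (rdLoc hp u x) z
  rw [h1]
  exact hD _ _ _ h3

end loc

theorem rdLoc_rdD (j : Fin n) (u : W → ℂ) (x : W) :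
    rdLoc hp (rdD hp j u) x =ᶠ[𝓝 (p x)] dz j (rdLoc hp u x) := by
  exact rdLoc_localOp hp (dz j) (fun _ _ _ h => dz_congr h j) u x

theorem rdLoc_rdDb (j : Fin n) (u : W → ℂ) (x : W) :
    rdLoc hp (rdDb hp j u) x =ᶠ[𝓝 (p x)] dzb j (rdLoc hp u x) := by
  exact rdLoc_localOp hp (dzb j) (fun _ _ _ h => dzb_congr h j) u x

theorem rdD_eq_sheet (j : Fin n) (u : W → ℂ) {e : OpenPartialHomeomorph W (Cn n)}
    (he : IsSheet p e) {x : W} (hx : x ∈ e.source) :
    rdD hp j u x = dz j (fun z => u (e.symm z)) (p x) := by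
  exact dz_congr (rdLoc_eventuallyEq_sheet hp u he hx) j

theorem rdDb_eq_sheet (j : Fin n) (u : W → ℂ) {e : OpenPartialHomeomorph W (Cn n)}
    (he : IsSheet p e) {x : W} (hx : x ∈ e.source) :
    rdDb hp j u x = dzb j (fun z => u (e.symm z)) (p x) := by
  exact dzb_congr (rdLoc_eventuallyEq_sheet hp u he hx) j

theorem rdLeviC_eq (φ : W → ℝ) (j k : Fin n) (x : W) :
    rdLeviC hp φ j k x = rdD hp j (rdDb hp k (fun y => (φ y : ℂ))) x := by
  exact (dz_congr (rdLoc_rdDb hp k (fun y => (φ y : ℂ)) x) j).symm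

theorem rdLevi_eq_sheet (φ : W → ℝ) {e : OpenPartialHomeomorph W (Cn n)}
    (he : IsSheet p e) {x : W} (hx : x ∈ e.source) (a : Cn n) :
    rdLevi hp φ x a = levi (fun z => φ (e.symm z)) (p x) a := by
  exact levi_congr (rdLoc_eventuallyEq_sheet hp φ he hx) a

theorem rdD_congr {u v : W → ℂ} {x : W} (h : u =ᶠ[𝓝 x] v) (j : Fin n) :
    rdD hp j u x = rdD hp j v x := by
  exact dz_congr (rdLoc_congr hp h) j

theorem rdDb_congr {u v : W → ℂ} {x : W} (h : u =ᶠ[𝓝 x] v) (j : Fin n) :
    rdDb hp j u x = rdDb hp j v x := by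
  exact dzb_congr (rdLoc_congr hp h) j

/-- pull-backs: `∂_j (g ∘ p) = (∂_j g) ∘ p`. -/
theorem rdD_comp (g : Cn n → ℂ) (j : Fin n) (x : W) :
    rdD hp j (fun y => g (p y)) x = dz j g (p x) := by
  exact dz_congr (rdLoc_comp hp g x) j

theorem rdDb_comp (g : Cn n → ℂ) (j : Fin n) (x : W) :
    rdDb hp j (fun y => g (p y)) x = dzb j g (p x) := by
  exact dzb_congr (rdLoc_comp hp g x) j

theorem rdLevi_comp (φ : Cn n → ℝ) (x : W) (a : Cn n) :
    rdLevi hp (fun y => φ (p y)) x a = levi φ (p x) a := by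
  exact levi_congr (rdLoc_comp hp φ x) a

/-! ### 3. Regularity classes -/

section reg
variable {F : Type*} [NormedAddCommGroup F] [NormedSpace ℝ F] {k m : WithTop ℕ∞}

theorem rdContDiffAt_iff_sheet (u : W → F) {e : OpenPartialHomeomorph W (Cn n)}
    (he : IsSheet p e) {x : W} (hx : x ∈ e.source) :
    RdContDiffAt hp k u x ↔ ContDiffAt ℝ k (fun z => u (e.symm z)) (p x) := by
  have h := rdLoc_eventuallyEq_sheet hp u he hx
  exact ⟨fun h1 => ContDiffAt.congr_of_eventuallyEq h1 h.symm,
    fun h1 => ContDiffAt.congr_of_eventuallyEq h1 h⟩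

/-- `u` is `C^k` on `W` iff it is `C^k` in every sheet. -/
theorem rdContDiff_iff_sheet (u : W → F) :
    RdContDiff hp k u ↔ ∀ e : OpenPartialHomeomorph W (Cn n), IsSheet p e →
      ContDiffOn ℝ k (fun z => u (e.symm z)) e.target := by
  constructor
  · intro h e he z hz
    have hx : e.symm z ∈ e.source := e.map_target hz
    have h1 := (rdContDiffAt_iff_sheet hp u he hx).1 (h (e.symm z))
    rw [he.apply_symm hz] at h1
    exact h1.contDiffWithinAt
  · intro h x
    have hx := mem_rdSheet_source hp x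
    rw [rdContDiffAt_iff_sheet hp u (isSheet_rdSheet hp x) hx]
    have hpx : p x ∈ (rdSheet hp x).target := by
      have := (rdSheet hp x).map_source hx
      rwa [isSheet_rdSheet hp x] at this
    exact (h _ (isSheet_rdSheet hp x)).contDiffAt ((rdSheet hp x).open_target.mem_nhds hpx)

theorem RdContDiffAt.congr {u v : W → F} {x : W} (hu : RdContDiffAt hp k u x) (h : u =ᶠ[𝓝 x] v) :
    RdContDiffAt hp k v x := by
  exact ContDiffAt.congr_of_eventuallyEq hu (rdLoc_congr hp h).symm

theorem RdContDiff.of_le {u : W → F} (hu : RdContDiff hp m u) (h : k ≤ m) : RdContDiff hp k u := by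
  exact fun x => ContDiffAt.of_le (hu x) h

theorem RdContDiffAt.continuousAt {u : W → F} {x : W} (hu : RdContDiffAt hp k u x) :
    ContinuousAt u x := by
  have h1 : ContinuousAt (rdLoc hp u x) (p x) := ContDiffAt.continuousAt hu
  have h2 : ContinuousAt (fun y => rdLoc hp u x (p y)) x :=
    ContinuousAt.comp (f := p) h1 hp.continuous.continuousAt
  exact h2.congr (rdLoc_comp_proj hp u x)

theorem RdContDiff.continuous {u : W → F} (hu : RdContDiff hp k u) : Continuous u := by
  exact continuous_iff_continuousAt.2 fun x => RdContDiffAt.continuousAt hp (hu x)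

theorem rdContDiff_comp {g : Cn n → F} (hg : ContDiff ℝ k g) :
    RdContDiff hp k (fun y => g (p y)) := by
  exact fun x => hg.contDiffAt.congr_of_eventuallyEq (rdLoc_comp hp g x)

theorem rdContDiff_const (c : F) : RdContDiff hp k (fun _ : W => c) := by
  exact fun x => contDiffAt_const

/-- composition with a `C^k` map of the values (covers `+`, `*`, `conj`, `exp`, `ofReal`, pairs...). -/
theorem RdContDiff.comp_left {F' : Type*} [NormedAddCommGroup F'] [NormedSpace ℝ F']
    {u : W → F} (hu : RdContDiff hp k u) {H : F → F'} (hH : ContDiff ℝ k H) :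
    RdContDiff hp k (fun y => H (u y)) := by
  exact fun x => ContDiffAt.comp (p x) hH.contDiffAt (hu x)

/-- same, `H` only `C^k` on an open set containing the values of `u`. -/
theorem RdContDiff.comp_left_on {F' : Type*} [NormedAddCommGroup F'] [NormedSpace ℝ F']
    {u : W → F} (hu : RdContDiff hp k u) {H : F → F'} {T : Set F} (hT : IsOpen T)
    (hH : ContDiffOn ℝ k H T) (huT : ∀ y, u y ∈ T) :
    RdContDiff hp k (fun y => H (u y)) := by
  exact fun x => ContDiffAt.comp (p x) (hH.contDiffAt (hT.mem_nhds (huT _))) (hu x)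

theorem RdContDiff.prodMk {F' : Type*} [NormedAddCommGroup F'] [NormedSpace ℝ F']
    {u : W → F} {v : W → F'} (hu : RdContDiff hp k u) (hv : RdContDiff hp k v) :
    RdContDiff hp k (fun y => (u y, v y)) := by
  exact fun x => ContDiffAt.prodMk (hu x) (hv x)

theorem RdContDiff.add {u v : W → F} (hu : RdContDiff hp k u) (hv : RdContDiff hp k v) :
    RdContDiff hp k (fun y => u y + v y) := by
  exact fun x => ContDiffAt.add (hu x) (hv x)

theorem RdContDiff.sub {u v : W → F} (hu : RdContDiff hp k u) (hv : RdContDiff hp k v) :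
    RdContDiff hp k (fun y => u y - v y) := by
  exact fun x => ContDiffAt.sub (hu x) (hv x)

theorem RdContDiff.neg {u : W → F} (hu : RdContDiff hp k u) : RdContDiff hp k (fun y => - u y) := by
  exact fun x => ContDiffAt.neg (hu x)

theorem RdContDiff.sum {ι : Type*} (s : Finset ι) {u : ι → W → F}
    (hu : ∀ i ∈ s, RdContDiff hp k (u i)) : RdContDiff hp k (fun y => ∑ i ∈ s, u i y) := by
  exact fun x => ContDiffAt.sum fun i hi => hu i hi x

theorem RdContDiff.mul {u v : W → ℂ} (hu : RdContDiff hp k u) (hv : RdContDiff hp k v) :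
    RdContDiff hp k (fun y => u y * v y) := by
  exact fun x => ContDiffAt.mul (hu x) (hv x)

theorem RdContDiff.mul_real {u v : W → ℝ} (hu : RdContDiff hp k u) (hv : RdContDiff hp k v) :
    RdContDiff hp k (fun y => u y * v y) := by
  exact fun x => ContDiffAt.mul (hu x) (hv x)

theorem RdContDiff.conj {u : W → ℂ} (hu : RdContDiff hp k u) :
    RdContDiff hp k (fun y => (starRingEnd ℂ) (u y)) := by
  exact RdContDiff.comp_left hp hu Complex.conjCLE.contDiff

theorem RdContDiff.ofReal {u : W → ℝ} (hu : RdContDiff hp k u) :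
    RdContDiff hp k (fun y => (u y : ℂ)) := by
  exact RdContDiff.comp_left hp hu Complex.ofRealCLM.contDiff

theorem RdContDiff.rdD {u : W → ℂ} (hu : RdContDiff hp m u) (h : k + 1 ≤ m) (j : Fin n) :
    RdContDiff hp k (rdD hp j u) := by
  exact fun x => (contDiffAt_dz (hu x) h j).congr_of_eventuallyEq (rdLoc_rdD hp j u x)

theorem RdContDiff.rdDb {u : W → ℂ} (hu : RdContDiff hp m u) (h : k + 1 ≤ m) (j : Fin n) :
    RdContDiff hp k (rdDb hp j u) := by
  exact fun x => (contDiffAt_dzb (hu x) h j).congr_of_eventuallyEq (rdLoc_rdDb hp j u x)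

theorem RdContDiff.differentiableAt {u : W → F} (hu : RdContDiff hp k u) (hk : 1 ≤ k) (x : W) :
    DifferentiableAt ℝ (rdLoc hp u x) (p x) := by
  exact ContDiffAt.differentiableAt (hu x) (by
    intro h0
    rw [h0] at hk
    exact absurd hk (by norm_num))

theorem RdContDiffAt.differentiableAt {u : W → F} {x : W} (hu : RdContDiffAt hp 1 u x) :
    DifferentiableAt ℝ (rdLoc hp u x) (p x) :=
  ContDiffAt.differentiableAt hu one_ne_zero

theorem RdContDiff.continuous_rdLevi {φ : W → ℝ} (hφ : RdContDiff hp 2 φ) (a : Cn n) :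
    Continuous (fun x => rdLevi hp φ x a) := by
  refine continuous_iff_continuousAt.2 fun x => ?_
  have he := isSheet_rdSheet hp x
  have hx := mem_rdSheet_source hp x
  have hpx : p x ∈ (rdSheet hp x).target := by
    have := (rdSheet hp x).map_source hx
    rwa [he] at this
  have h1 : ContinuousOn (fun z => levi (fun z => φ ((rdSheet hp x).symm z)) z a)
      (rdSheet hp x).target :=
    continuousOn_levi (rdSheet hp x).open_target ((rdContDiff_iff_sheet hp φ).1 hφ _ he) a
  have h2 : ContinuousAt (fun z => levi (fun z => φ ((rdSheet hp x).symm z)) z a) (p x) :=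
    h1.continuousAt ((rdSheet hp x).open_target.mem_nhds hpx)
  have h3 : ContinuousAt (fun y => levi (fun z => φ ((rdSheet hp x).symm z)) (p y) a) x :=
    ContinuousAt.comp (f := p) h2 hp.continuous.continuousAt
  refine h3.congr ?_
  filter_upwards [(rdSheet hp x).open_source.mem_nhds hx] with y hy
  exact (rdLevi_eq_sheet hp φ he hy a).symm

end reg

/-! ### 4. Calculus rules on `W` (one-line transfers of WirtA / WirtB) -/

section rules
variable {u v : W → ℂ} {x : W} {j k : Fin n}

theorem rdD_const (c : ℂ) : rdD hp j (fun _ : W => c) x = 0 := by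
  exact dz_const c

theorem rdDb_const (c : ℂ) : rdDb hp j (fun _ : W => c) x = 0 := by
  exact dzb_const c

theorem rdD_add (hu : RdContDiffAt hp 1 u x) (hv : RdContDiffAt hp 1 v x) :
    rdD hp j (fun y => u y + v y) x = rdD hp j u x + rdD hp j v x := by
  exact dz_add (RdContDiffAt.differentiableAt hp hu) (RdContDiffAt.differentiableAt hp hv)

theorem rdDb_add (hu : RdContDiffAt hp 1 u x) (hv : RdContDiffAt hp 1 v x) :
    rdDb hp j (fun y => u y + v y) x = rdDb hp j u x + rdDb hp j v x := by
  exact dzb_add (RdContDiffAt.differentiableAt hp hu) (RdContDiffAt.differentiableAt hp hv)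

theorem rdD_sub (hu : RdContDiffAt hp 1 u x) (hv : RdContDiffAt hp 1 v x) :
    rdD hp j (fun y => u y - v y) x = rdD hp j u x - rdD hp j v x := by
  exact dz_sub (RdContDiffAt.differentiableAt hp hu) (RdContDiffAt.differentiableAt hp hv)

theorem rdDb_sub (hu : RdContDiffAt hp 1 u x) (hv : RdContDiffAt hp 1 v x) :
    rdDb hp j (fun y => u y - v y) x = rdDb hp j u x - rdDb hp j v x := by
  exact dzb_sub (RdContDiffAt.differentiableAt hp hu) (RdContDiffAt.differentiableAt hp hv)

theorem rdD_neg : rdD hp j (fun y => - u y) x = - rdD hp j u x := by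
  exact dz_neg

theorem rdDb_neg : rdDb hp j (fun y => - u y) x = - rdDb hp j u x := by
  exact dzb_neg

theorem rdD_sum {ι : Type*} (s : Finset ι) (U : ι → W → ℂ)
    (h : ∀ i ∈ s, RdContDiffAt hp 1 (U i) x) :
    rdD hp j (fun y => ∑ i ∈ s, U i y) x = ∑ i ∈ s, rdD hp j (U i) x := by
  exact dz_sum s (fun i => rdLoc hp (U i) x) fun i hi => RdContDiffAt.differentiableAt hp (h i hi)

theorem rdDb_sum {ι : Type*} (s : Finset ι) (U : ι → W → ℂ)
    (h : ∀ i ∈ s, RdContDiffAt hp 1 (U i) x) :
    rdDb hp j (fun y => ∑ i ∈ s, U i y) x = ∑ i ∈ s, rdDb hp j (U i) x := by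
  exact dzb_sum s (fun i => rdLoc hp (U i) x) fun i hi => RdContDiffAt.differentiableAt hp (h i hi)

theorem rdD_mul (hu : RdContDiffAt hp 1 u x) (hv : RdContDiffAt hp 1 v x) :
    rdD hp j (fun y => u y * v y) x = rdD hp j u x * v x + u x * rdD hp j v x := by
  have h := dz_mul (j := j) (RdContDiffAt.differentiableAt hp hu)
    (RdContDiffAt.differentiableAt hp hv)
  rw [rdLoc_apply_self, rdLoc_apply_self] at h
  exact h

theorem rdDb_mul (hu : RdContDiffAt hp 1 u x) (hv : RdContDiffAt hp 1 v x) :
    rdDb hp j (fun y => u y * v y) x = rdDb hp j u x * v x + u x * rdDb hp j v x := by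
  have h := dzb_mul (j := j) (RdContDiffAt.differentiableAt hp hu)
    (RdContDiffAt.differentiableAt hp hv)
  rw [rdLoc_apply_self, rdLoc_apply_self] at h
  exact h

theorem rdD_conj (u : W → ℂ) : rdD hp j (fun y => conj (u y)) x = conj (rdDb hp j u x) := by
  exact dz_conj (rdLoc hp u x)

theorem rdDb_conj (u : W → ℂ) : rdDb hp j (fun y => conj (u y)) x = conj (rdD hp j u x) := by
  exact dzb_conj (rdLoc hp u x)

theorem rdDb_ofReal (φ : W → ℝ) :
    rdDb hp j (fun y => (φ y : ℂ)) x = conj (rdD hp j (fun y => (φ y : ℂ)) x) := by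
  exact dzb_ofReal (rdLoc hp φ x)

theorem rdD_comp_real (φ : W → ℝ) (χ : ℝ → ℝ) (hφ : RdContDiffAt hp 1 φ x)
    (hχ : DifferentiableAt ℝ χ (φ x)) :
    rdD hp j (fun y => ((χ (φ y) : ℝ) : ℂ)) x
      = ((deriv χ (φ x) : ℝ) : ℂ) * rdD hp j (fun y => (φ y : ℂ)) x := by
  have h := dz_comp_real (j := j) (rdLoc hp φ x) χ (RdContDiffAt.differentiableAt hp hφ)
    (by rw [rdLoc_apply_self]; exact hχ)
  rw [rdLoc_apply_self] at h
  exact h

theorem rdDb_comp_real (φ : W → ℝ) (χ : ℝ → ℝ) (hφ : RdContDiffAt hp 1 φ x)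
    (hχ : DifferentiableAt ℝ χ (φ x)) :
    rdDb hp j (fun y => ((χ (φ y) : ℝ) : ℂ)) x
      = ((deriv χ (φ x) : ℝ) : ℂ) * rdDb hp j (fun y => (φ y : ℂ)) x := by
  have h := dzb_comp_real (j := j) (rdLoc hp φ x) χ (RdContDiffAt.differentiableAt hp hφ)
    (by rw [rdLoc_apply_self]; exact hχ)
  rw [rdLoc_apply_self] at h
  exact h

theorem rdD_rdDb_comm (hu : RdContDiffAt hp 2 u x) (j k : Fin n) :
    rdD hp j (rdDb hp k u) x = rdDb hp k (rdD hp j u) x := by
  calc rdD hp j (rdDb hp k u) x = dz j (dzb k (rdLoc hp u x)) (p x) :=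
        dz_congr (rdLoc_rdDb hp k u x) j
    _ = dzb k (dz j (rdLoc hp u x)) (p x) := dz_dzb_comm hu j k
    _ = rdDb hp k (rdD hp j u) x := (dzb_congr (rdLoc_rdD hp j u x) k).symm

theorem rdDb_rdDb_comm (hu : RdContDiffAt hp 2 u x) (j k : Fin n) :
    rdDb hp j (rdDb hp k u) x = rdDb hp k (rdDb hp j u) x := by
  calc rdDb hp j (rdDb hp k u) x = dzb j (dzb k (rdLoc hp u x)) (p x) :=
        dzb_congr (rdLoc_rdDb hp k u x) j
    _ = dzb k (dzb j (rdLoc hp u x)) (p x) := dzb_dzb_comm hu j k
    _ = rdDb hp k (rdDb hp j u) x := (dzb_congr (rdLoc_rdDb hp j u x) k).symm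

theorem rdD_rdD_comm (hu : RdContDiffAt hp 2 u x) (j k : Fin n) :
    rdD hp j (rdD hp k u) x = rdD hp k (rdD hp j u) x := by
  calc rdD hp j (rdD hp k u) x = dz j (dz k (rdLoc hp u x)) (p x) :=
        dz_congr (rdLoc_rdD hp k u x) j
    _ = dz k (dz j (rdLoc hp u x)) (p x) := dz_dz_comm hu j k
    _ = rdD hp k (rdD hp j u) x := (dz_congr (rdLoc_rdD hp j u x) k).symm

theorem rdLeviC_conj {φ : W → ℝ} (h : RdContDiffAt hp 2 φ x) (j k : Fin n) :
    conj (rdLeviC hp φ j k x) = rdLeviC hp φ k j x := by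
  exact leviC_conj h j k

theorem rdLevi_eq_sum {φ : W → ℝ} (h : RdContDiffAt hp 2 φ x) (a : Cn n) :
    ((rdLevi hp φ x a : ℝ) : ℂ) = ∑ j, ∑ k, rdLeviC hp φ j k x * a j * conj (a k) := by
  exact levi_eq_sum h a

theorem rdLevi_add {φ₁ φ₂ : W → ℝ} (h₁ : RdContDiffAt hp 2 φ₁ x) (h₂ : RdContDiffAt hp 2 φ₂ x)
    (a : Cn n) :
    rdLevi hp (fun y => φ₁ y + φ₂ y) x a = rdLevi hp φ₁ x a + rdLevi hp φ₂ x a := by
  exact levi_add h₁ h₂

theorem rdLevi_comp_real {φ : W → ℝ} (χ : ℝ → ℝ) (hφ : RdContDiffAt hp 2 φ x)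
    (hχ : ContDiffAt ℝ 2 χ (φ x)) (a : Cn n) :
    rdLevi hp (fun y => χ (φ y)) x a
      = deriv χ (φ x) * rdLevi hp φ x a
        + deriv (deriv χ) (φ x) * ‖∑ j, rdD hp j (fun y => (φ y : ℂ)) x * a j‖ ^ 2 := by
  have h := levi_comp (a := a) χ hφ (by rw [rdLoc_apply_self]; exact hχ)
  rw [rdLoc_apply_self] at h
  exact h

/-- holomorphic = smooth + Cauchy–Riemann. -/
theorem rdHolo_iff (hu : RdContDiff hp 1 u) : RdHolo hp u ↔ ∀ j x, rdDb hp j u x = 0 := by
  exact ⟨fun h j x => dzb_of_holo (h x),
    fun h x => holo_of_dzb (RdContDiffAt.differentiableAt hp (hu x)) fun j => h j x⟩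

theorem RdHolo.rdDb_eq_zero (hu : RdHolo hp u) (j : Fin n) (x : W) : rdDb hp j u x = 0 := by
  exact dzb_of_holo (hu x)

/-- the local expression of a holomorphic function is holomorphic on the whole domain of the local inverse. -/
theorem RdHolo.differentiableOn_rdLoc (hu : RdHolo hp u) (x : W) :
    DifferentiableOn ℂ (rdLoc hp u x) (hp.localInverseAt x).source := by
  intro z hz
  have h1 : p (hp.localInverseAt x z) = z := hp.apply_localInverseAt_of_mem hz
  have h2 : hp.localInverseAt x z ∈ (hp.localInverseAt x).target :=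
    (hp.localInverseAt x).map_source hz
  have h3 := rdLoc_eventuallyEq hp u h2
  have h4 := hu (hp.localInverseAt x z)
  rw [h1] at h3 h4
  exact (h4.congr_of_eventuallyEq h3.symm).differentiableWithinAt

/-- holomorphic functions are smooth (from `contDiffOn_of_differentiableOn_Cn`, file MVP; to be proved in
`RdHolo.lean`-free fashion: the prover may add `import Claimed.Agent.R242.SCV.MVP`). -/
theorem RdHolo.contDiff (hu : RdHolo hp u) : RdContDiff hp ∞ u := by
  intro x
  exact (contDiffOn_of_differentiableOn_Cn (hp.localInverseAt x).open_source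
    (RdHolo.differentiableOn_rdLoc hp hu x)).contDiffAt
    ((hp.localInverseAt x).open_source.mem_nhds hp.apply_self_mem_localInverseAt_source)

/-- `|h|²` for holomorphic `h`: Levi form. -/
theorem rdLevi_normSq_holo (hu : RdHolo hp u) (x : W) (a : Cn n) :
    rdLevi hp (fun y => ‖u y‖ ^ 2) x a = ‖∑ j, rdD hp j u x * a j‖ ^ 2 := by
  have hs := (hp.localInverseAt x).open_source.mem_nhds
    (hp.apply_self_mem_localInverseAt_source (x := x))
  refine levi_normSq_holo ?_ (ContDiffAt.of_le (RdHolo.contDiff hp hu x) ENat.LEInfty.out)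
  filter_upwards [hs] with z hz
  exact (RdHolo.differentiableOn_rdLoc hp hu x).differentiableAt
    ((hp.localInverseAt x).open_source.mem_nhds hz)

end rules

end Claimed.Agent.R242

/-! equation lemmas of this file, cited once here (rule 6) -/
namespace Claimed.Agent.R242

theorem r242_eqcite_SCV_RdGerm : True := by
  have := @Claimed.Agent.R242.rdSheet.eq_1.{0}
  have := @Claimed.Agent.R242.IsSheet.eq_1.{0}
  have := @Claimed.Agent.R242.rdSheet.congr_simp.{0}
  trivial

end Claimed.Agent.R242
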