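/-
Row 242, SCV layer, RD kit 2/5.  RdMeas: the pull-back `rdVol p` of Lebesgue measure.
Blueprint: helper290.   Leaves: SCV-RD-MEAS-A (sections 1,2: existence, uniqueness), -B (3,4: formulas).
RdGerm may be used while sorried.

Plan.
* cover: `TopologicalSpace.countable_cover_nhds` with the neighbourhoods `(rdSheet hp x).source`.
* images: in a sheet `p '' A = e.target ∩ e.symm ⁻¹' A`, measurable because `e.symm` is continuous on the open
  set `e.target` (`ContinuousOn.measurableSet_inter_preimage`‑type lemma / `e.toHomeomorphSourceTarget`).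
* existence: enumerate the countable cover (`Set.Countable.toEncodable`, or `Set.countable_iff_exists_injective`),
  disjointify `D i = source i \ ⋃_{j<i} source j`, put `μ A = ∑' i, volume (p '' (A ∩ D i))`
  (= `Measure.sum fun i => (volume.restrict (p '' D i)).map (e i).symm`, or `Measure.ofMeasurable`).
  If `p` is injective on `A` the sets `p '' (A ∩ D i)` are disjoint with union `p '' A`.
* uniqueness: `Measure.ext`, `A = ⋃ A ∩ D i`, `p` injective on each piece.
* sheet formulas: `e.toHomeomorphSourceTarget` is a measurable equivalence of subtypes which is measure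
  preserving by `IsRdVol`; the formulas then hold for ALL functions (no measurability hypotheses).
-/
import Claimed.Agent.R242.SCV.RdGerm

open MeasureTheory Complex Filter
open scoped ContDiff ComplexConjugate ENNReal Topology

namespace Claimed.Agent.R242

variable {n : ℕ} {W : Type*} [TopologicalSpace W] [SecondCountableTopology W]
  [MeasurableSpace W] [BorelSpace W] {p : W → Cn n} (hp : IsLocalHomeomorph p)

/-! ### 1. Countable covers, measurability of images -/

theorem rd_countable_cover :
    ∃ s : Set W, s.Countable ∧ ⋃ x ∈ s, (rdSheet hp x).source = Set.univ :=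
  TopologicalSpace.countable_cover_nhds
    (fun x => (rdSheet hp x).open_source.mem_nhds (mem_rdSheet_source hp x))

omit [SecondCountableTopology W] in
theorem IsSheet.measurableSet_image {e : OpenPartialHomeomorph W (Cn n)} (he : IsSheet p e)
    {A : Set W} (hA : MeasurableSet A) (hAe : A ⊆ e.source) : MeasurableSet (p '' A) := by
  have h1 : p '' A = e.target ∩ e.symm ⁻¹' A := by
    rw [← e.image_eq_target_inter_inv_preimage hAe, he]
  have hc : Continuous (e.target.domRestrict e.symm) :=
    continuousOn_iff_continuous_domRestrict.1 e.continuousOn_symm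
  have h2 : e.target ∩ e.symm ⁻¹' A = Subtype.val '' ((e.target.domRestrict e.symm) ⁻¹' A) := by
    ext z
    constructor
    · rintro ⟨hz, hzA⟩
      exact ⟨⟨z, hz⟩, hzA, rfl⟩
    · rintro ⟨⟨y, hy⟩, hyA, rfl⟩
      exact ⟨hy, hyA⟩
  rw [h1, h2]
  exact MeasurableSet.subtype_image e.open_target.measurableSet (hc.measurable hA)

include hp in
theorem rd_measurableSet_image {A : Set W} (hA : MeasurableSet A) : MeasurableSet (p '' A) := by
  obtain ⟨s, hs, hcov⟩ := rd_countable_cover hp
  have h1 : p '' A = ⋃ x ∈ s, p '' (A ∩ (rdSheet hp x).source) := by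
    rw [← Set.image_iUnion₂, ← Set.inter_iUnion₂, hcov, Set.inter_univ]
  rw [h1]
  exact MeasurableSet.biUnion hs (fun x _ => (isSheet_rdSheet hp x).measurableSet_image
    (hA.inter (rdSheet hp x).open_source.measurableSet) Set.inter_subset_right)

include hp in
theorem rd_measurable_proj : Measurable p := hp.continuous.measurable

omit [SecondCountableTopology W] [MeasurableSpace W] [BorelSpace W] in
include hp in
theorem rd_locallyCompactSpace : LocallyCompactSpace W := by
  have : ∀ x : W, (𝓝 x).HasBasis
      (fun s ↦ s ∈ 𝓝 (rdSheet hp x x) ∧ IsCompact s ∧ s ⊆ (rdSheet hp x).target)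
      fun s ↦ (rdSheet hp x).symm '' s := fun x ↦ by
    rw [← (rdSheet hp x).symm_map_nhds_eq (mem_rdSheet_source hp x)]
    exact ((compact_basis_nhds (rdSheet hp x x)).hasBasis_self_subset
      ((rdSheet hp x).open_target.mem_nhds
        ((rdSheet hp x).map_source (mem_rdSheet_source hp x)))).map _
  refine .of_hasBasis this ?_
  rintro x s ⟨_, h₂, h₃⟩
  exact h₂.image_of_continuousOn ((rdSheet hp x).continuousOn_symm.mono h₃)

/-! ### 2. Existence and uniqueness -/

include hp in
/-- a countable measurable partition of `W` into pieces on which `p` is injective. -/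
theorem rdmA_exists_pieces : ∃ D : ℕ → Set W, (∀ i, MeasurableSet (D i)) ∧
    Pairwise (Function.onFun Disjoint D) ∧ (⋃ i, D i = Set.univ) ∧ ∀ i, Set.InjOn p (D i) := by
  obtain ⟨s, hs, hcov⟩ := rd_countable_cover hp
  have : Encodable s := hs.toEncodable
  set U : ℕ → Set W := fun i => ⋃ b ∈ Encodable.decode₂ s i, (rdSheet hp (b : W)).source with hU
  have hC : ∀ i, MeasurableSet (U i) ∧ Set.InjOn p (U i) := fun i =>
    Encodable.iUnion_decode₂_cases (f := fun b : s => (rdSheet hp (b : W)).source)
      (C := fun S => MeasurableSet S ∧ Set.InjOn p S) ⟨MeasurableSet.empty, Set.injOn_empty p⟩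
      (fun b => ⟨(rdSheet hp (b : W)).open_source.measurableSet, (isSheet_rdSheet hp b).injOn⟩)
  refine ⟨disjointed U, MeasurableSet.disjointed (fun i => (hC i).1), disjoint_disjointed U, ?_,
    fun i => (hC i).2.mono (disjointed_subset U i)⟩
  rw [iUnion_disjointed, hU, Encodable.iUnion_decode₂ (fun b : s => (rdSheet hp (b : W)).source),
    ← hcov, Set.biUnion_eq_iUnion]

include hp in
/-- the pull-back of Lebesgue measure on a piece on which `p` is injective. -/
theorem rdmA_exists_piece_measure {D : Set W} (hD : MeasurableSet D) (hi : Set.InjOn p D) :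
    ∃ ν : Measure W, ∀ A, MeasurableSet A → ν A = volume (p '' (A ∩ D)) := by
  refine ⟨(Measure.comap (fun x : D => p x) volume).map Subtype.val, fun A hA => ?_⟩
  rw [Measure.map_apply measurable_subtype_coe hA,
    Measure.comap_apply _ (fun x y hxy => Subtype.ext (hi x.2 y.2 hxy)) ?_ _
      (measurable_subtype_coe hA)]
  · congr 1
    ext z
    constructor
    · rintro ⟨⟨x, hx⟩, hxA, rfl⟩
      exact ⟨x, ⟨hxA, hx⟩, rfl⟩
    · rintro ⟨x, ⟨hxA, hx⟩, rfl⟩
      exact ⟨⟨x, hx⟩, hxA, rfl⟩
  · intro S hS
    have h1 : (fun x : D => p x) '' S = p '' (Subtype.val '' S) := by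
      rw [Set.image_image]
    rw [h1]
    exact rd_measurableSet_image hp (MeasurableSet.subtype_image hD hS)

include hp in
theorem exists_isRdVol : ∃ μ : Measure W, IsRdVol p μ := by
  obtain ⟨D, hDm, hDd, hDu, hDi⟩ := rdmA_exists_pieces hp
  choose ν hν using fun i => rdmA_exists_piece_measure hp (hDm i) (hDi i)
  refine ⟨Measure.sum ν, fun A hA hi => ?_⟩
  rw [Measure.sum_apply _ hA]
  have h1 : p '' A = ⋃ i, p '' (A ∩ D i) := by
    rw [← Set.image_iUnion, ← Set.inter_iUnion, hDu, Set.inter_univ]
  rw [h1, measure_iUnion]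
  · exact tsum_congr (fun i => hν i A hA)
  · intro i j hij
    refine Set.disjoint_image_image ?_
    rintro x ⟨hxA, hxi⟩ y ⟨hyA, hyj⟩ hxy
    have : x = y := hi hxA hyA hxy
    subst this
    exact Set.disjoint_left.1 (hDd hij) hxi hyj
  · exact fun i => rd_measurableSet_image hp (hA.inter (hDm i))

include hp in
theorem rdVol_isRdVol : IsRdVol p (rdVol p) := by
  unfold rdVol
  rw [dif_pos (exists_isRdVol hp)]
  exact (exists_isRdVol hp).choose_spec

include hp in
theorem IsRdVol.unique {μ ν : Measure W} (hμ : IsRdVol p μ) (hν : IsRdVol p ν) : μ = ν := by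
  obtain ⟨D, hDm, hDd, hDu, hDi⟩ := rdmA_exists_pieces hp
  refine Measure.ext (fun A hA => ?_)
  have h1 : A = ⋃ i, A ∩ D i := by
    rw [← Set.inter_iUnion, hDu, Set.inter_univ]
  have hd : Pairwise (Function.onFun Disjoint fun i => A ∩ D i) := fun i j hij =>
    (hDd hij).mono Set.inter_subset_right Set.inter_subset_right
  rw [h1, measure_iUnion hd (fun i => hA.inter (hDm i)),
    measure_iUnion hd (fun i => hA.inter (hDm i))]
  refine tsum_congr (fun i => ?_)
  rw [hμ _ (hA.inter (hDm i)) ((hDi i).mono Set.inter_subset_right),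
    hν _ (hA.inter (hDm i)) ((hDi i).mono Set.inter_subset_right)]

include hp in
theorem IsRdVol.eq_rdVol {μ : Measure W} (hμ : IsRdVol p μ) : μ = rdVol p :=
  IsRdVol.unique hp hμ (rdVol_isRdVol hp)

include hp in
theorem rdVol_apply {A : Set W} (hA : MeasurableSet A) (hi : Set.InjOn p A) :
    rdVol p A = volume (p '' A) :=
  rdVol_isRdVol hp A hA hi

/-! ### 3. Formulas in a sheet -/

section sheet
variable {e : OpenPartialHomeomorph W (Cn n)} (he : IsSheet p e)

omit [SecondCountableTopology W] in
/-- the inverse of a sheet, as a map on the subtype `e.target`, is a measurable embedding. -/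
theorem rdm_measurableEmbedding (e : OpenPartialHomeomorph W (Cn n)) :
    MeasurableEmbedding (fun t : e.target => e.symm (t : Cn n)) := by
  have h1 : MeasurableEmbedding (Subtype.val : e.source → W) :=
    MeasurableEmbedding.subtype_coe e.open_source.measurableSet
  have h2 : MeasurableEmbedding e.toHomeomorphSourceTarget.symm :=
    (e.toHomeomorphSourceTarget.symm).measurableEmbedding
  exact h1.comp h2

omit [TopologicalSpace W] [SecondCountableTopology W] [MeasurableSpace W] [BorelSpace W] in
theorem rdm_vol_eq (T : Set (Cn n)) (hT : MeasurableSet T) : (volume : Measure (Cn n)).restrict T =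
    Measure.map (Subtype.val : T → Cn n) (Measure.comap Subtype.val volume) :=
  (map_comap_subtype_coe hT volume).symm

include hp he

/-- KEY: `rdVol` in a sheet is the image of Lebesgue measure on the subtype `e.target`. -/
theorem rdm_restrict_eq : (rdVol p).restrict e.source =
    Measure.map (fun t : e.target => e.symm (t : Cn n)) (Measure.comap Subtype.val volume) := by
  have hι := rdm_measurableEmbedding e
  ext A hA
  rw [Measure.restrict_apply hA, hι.map_apply, comap_subtype_coe_apply e.open_target.measurableSet,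
    rdVol_apply hp (hA.inter e.open_source.measurableSet) (he.injOn.mono Set.inter_subset_right)]
  congr 1
  ext z
  constructor
  · rintro ⟨x, ⟨hxA, hxS⟩, rfl⟩
    have hz : p x ∈ e.target := by
      rw [← he]
      exact e.map_source hxS
    refine ⟨⟨p x, hz⟩, ?_, rfl⟩
    show e.symm (p x) ∈ A
    rw [he.symm_apply hxS]
    exact hxA
  · rintro ⟨⟨z, hz⟩, hzA, rfl⟩
    exact ⟨e.symm z, ⟨hzA, e.map_target hz⟩, he.apply_symm hz⟩

theorem map_rdVol_restrict_sheet :
    ((rdVol p).restrict e.source).map p = volume.restrict e.target := by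
  rw [rdm_restrict_eq hp he, rdm_vol_eq e.target e.open_target.measurableSet,
    Measure.map_map (rd_measurable_proj hp) (rdm_measurableEmbedding e).measurable]
  congr 1
  funext t
  exact he.apply_symm t.2

theorem rdVol_restrict_sheet :
    (rdVol p).restrict e.source = (volume.restrict e.target).map e.symm := by
  have h1 : AEMeasurable e.symm ((volume : Measure (Cn n)).restrict e.target) :=
    e.continuousOn_symm.aemeasurable e.open_target.measurableSet
  rw [rdm_restrict_eq hp he]
  rw [rdm_vol_eq e.target e.open_target.measurableSet] at h1 ⊢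
  rw [AEMeasurable.map_map_of_aemeasurable h1 measurable_subtype_coe.aemeasurable]
  rfl

theorem lintegral_sheet (g : W → ℝ≥0∞) :
    ∫⁻ x in e.source, g x ∂(rdVol p) = ∫⁻ z in e.target, g (e.symm z) := by
  rw [rdm_restrict_eq hp he, rdm_vol_eq e.target e.open_target.measurableSet,
    (rdm_measurableEmbedding e).lintegral_map,
    (MeasurableEmbedding.subtype_coe e.open_target.measurableSet).lintegral_map]

theorem integral_sheet {F : Type*} [NormedAddCommGroup F] [NormedSpace ℝ F] (g : W → F) :
    ∫ x in e.source, g x ∂(rdVol p) = ∫ z in e.target, g (e.symm z) := by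
  rw [rdm_restrict_eq hp he, rdm_vol_eq e.target e.open_target.measurableSet,
    (rdm_measurableEmbedding e).integral_map,
    (MeasurableEmbedding.subtype_coe e.open_target.measurableSet).integral_map]

theorem integrableOn_sheet_iff {F : Type*} [NormedAddCommGroup F] (g : W → F) :
    IntegrableOn g e.source (rdVol p) ↔ IntegrableOn (fun z => g (e.symm z)) e.target := by
  unfold IntegrableOn
  rw [rdm_restrict_eq hp he, rdm_vol_eq e.target e.open_target.measurableSet,
    (rdm_measurableEmbedding e).integrable_map_iff,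
    (MeasurableEmbedding.subtype_coe e.open_target.measurableSet).integrable_map_iff]
  rfl

theorem aestronglyMeasurable_sheet_iff {F : Type*} [TopologicalSpace F] (g : W → F) :
    AEStronglyMeasurable g ((rdVol p).restrict e.source) ↔
      AEStronglyMeasurable (fun z => g (e.symm z)) (volume.restrict e.target) := by
  rw [rdm_restrict_eq hp he, rdm_vol_eq e.target e.open_target.measurableSet,
    (rdm_measurableEmbedding e).aestronglyMeasurable_map_iff,
    (MeasurableEmbedding.subtype_coe e.open_target.measurableSet).aestronglyMeasurable_map_iff]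
  rfl

theorem ae_sheet_iff (P : W → Prop) :
    (∀ᵐ x ∂(rdVol p), x ∈ e.source → P x) ↔ ∀ᵐ z : Cn n, z ∈ e.target → P (e.symm z) := by
  rw [← ae_restrict_iff' e.open_source.measurableSet, ← ae_restrict_iff' e.open_target.measurableSet,
    rdm_restrict_eq hp he, rdm_vol_eq e.target e.open_target.measurableSet,
    (rdm_measurableEmbedding e).ae_map_iff,
    (MeasurableEmbedding.subtype_coe e.open_target.measurableSet).ae_map_iff]

/-- the same formulas read from `Cn n`. -/
theorem lintegral_sheet' (g : Cn n → ℝ≥0∞) :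
    ∫⁻ z in e.target, g z = ∫⁻ x in e.source, g (p x) ∂(rdVol p) := by
  rw [lintegral_sheet hp he (fun x => g (p x))]
  refine setLIntegral_congr_fun e.open_target.measurableSet fun z hz => ?_
  show g z = g (p (e.symm z))
  rw [he.apply_symm hz]

theorem integral_sheet' {F : Type*} [NormedAddCommGroup F] [NormedSpace ℝ F] (g : Cn n → F) :
    ∫ z in e.target, g z = ∫ x in e.source, g (p x) ∂(rdVol p) := by
  rw [integral_sheet hp he (fun x => g (p x))]
  refine setIntegral_congr_fun e.open_target.measurableSet fun z hz => ?_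
  show g z = g (p (e.symm z))
  rw [he.apply_symm hz]

end sheet

/-! ### 4. Global properties -/

include hp in
theorem rdVol_isLocallyFiniteMeasure : IsLocallyFiniteMeasure (rdVol p) := by
  refine ⟨fun x => ?_⟩
  have he := isSheet_rdSheet hp x
  have hx := mem_rdSheet_source hp x
  have hc : Continuous p := hp.continuous
  have hU : IsOpen ((rdSheet hp x).source ∩ p ⁻¹' Metric.ball (p x) 1) :=
    (rdSheet hp x).open_source.inter (Metric.isOpen_ball.preimage hc)
  refine ⟨(rdSheet hp x).source ∩ p ⁻¹' Metric.ball (p x) 1,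
    hU.mem_nhds ⟨hx, Metric.mem_ball_self one_pos⟩, ?_⟩
  rw [rdVol_apply hp hU.measurableSet (he.injOn.mono Set.inter_subset_left)]
  refine lt_of_le_of_lt (measure_mono ?_) (measure_ball_lt_top (x := p x) (r := 1))
  rintro _ ⟨y, hy, rfl⟩
  exact hy.2

include hp in
theorem rdVol_isFiniteMeasureOnCompacts : IsFiniteMeasureOnCompacts (rdVol p) := by
  have := rdVol_isLocallyFiniteMeasure hp
  infer_instance

include hp in
theorem rdVol_isOpenPosMeasure : (rdVol p).IsOpenPosMeasure := by
  refine ⟨fun U hU hne => ?_⟩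
  obtain ⟨x, hxU⟩ := hne
  have he := isSheet_rdSheet hp x
  have hx := mem_rdSheet_source hp x
  have hV : IsOpen (U ∩ (rdSheet hp x).source) := hU.inter (rdSheet hp x).open_source
  have h1 : rdVol p (U ∩ (rdSheet hp x).source) = volume (p '' (U ∩ (rdSheet hp x).source)) :=
    rdVol_apply hp hV.measurableSet (he.injOn.mono Set.inter_subset_right)
  have h2 : volume (p '' (U ∩ (rdSheet hp x).source)) ≠ 0 :=
    (hp.isOpenMap _ hV).measure_ne_zero volume ⟨p x, x, ⟨hxU, hx⟩, rfl⟩
  intro h0
  apply h2
  rw [← h1]
  exact measure_mono_null Set.inter_subset_left h0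

include hp in
theorem rdVol_sigmaFinite : SigmaFinite (rdVol p) := by
  have := rdVol_isLocallyFiniteMeasure hp
  infer_instance

/-- a property that holds a.e. in each chosen sheet holds a.e. -/
theorem ae_rdVol_of_forall_sheet {P : W → Prop}
    (h : ∀ x, ∀ᵐ y ∂(rdVol p), y ∈ (rdSheet hp x).source → P y) : ∀ᵐ y ∂(rdVol p), P y := by
  obtain ⟨s, hs, hcov⟩ := rd_countable_cover hp
  have h1 : ∀ᵐ y ∂(rdVol p), ∀ x ∈ s, y ∈ (rdSheet hp x).source → P y :=
    (ae_ball_iff hs).2 fun x _ => h x
  filter_upwards [h1] with y hy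
  have hy' : y ∈ ⋃ x ∈ s, (rdSheet hp x).source := by
    rw [hcov]
    trivial
  simp only [Set.mem_iUnion] at hy'
  obtain ⟨x, hxs, hyx⟩ := hy'
  exact hy x hxs hyx

/-- measurability can be tested in the chosen sheets. -/
theorem aestronglyMeasurable_rdVol_of_forall_sheet {F : Type*} [TopologicalSpace F]
    [TopologicalSpace.PseudoMetrizableSpace F] {g : W → F}
    (h : ∀ x, AEStronglyMeasurable g ((rdVol p).restrict (rdSheet hp x).source)) :
    AEStronglyMeasurable g (rdVol p) := by
  obtain ⟨s, hs, hcov⟩ := rd_countable_cover hp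
  have : Countable s := hs.to_subtype
  have h1 : AEStronglyMeasurable g ((rdVol p).restrict (⋃ x : s, (rdSheet hp x).source)) :=
    aestronglyMeasurable_iUnion_iff.2 fun x => h x
  have h2 : (⋃ x : s, (rdSheet hp (x : W)).source) = Set.univ := by
    rw [← hcov]
    exact Set.iUnion_subtype _ _
  rwa [h2, Measure.restrict_univ] at h1

include hp in
/-- two continuous functions that agree a.e. agree everywhere. -/
theorem eq_of_ae_eq_rdVol {F : Type*} [TopologicalSpace F] [T2Space F] {g₁ g₂ : W → F}
    (h₁ : Continuous g₁) (h₂ : Continuous g₂) (h : g₁ =ᵐ[rdVol p] g₂) : g₁ = g₂ := by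
  have := rdVol_isOpenPosMeasure hp
  exact (h₁.ae_eq_iff_eq (rdVol p) h₂).1 h

theorem rdVol_id : rdVol (id : Cn n → Cn n) = volume := by
  have h : IsRdVol (id : Cn n → Cn n) volume := fun A _ _ => by rw [Set.image_id]
  exact (h.eq_rdVol (Homeomorph.refl (Cn n)).isLocalHomeomorph).symm

/-- open subsets of `Cn n` as Riemann domains. -/
theorem isLocalHomeomorph_subtype_val {Ω : Set (Cn n)} (hΩ : IsOpen Ω) :
    IsLocalHomeomorph (Subtype.val : Ω → Cn n) :=
  hΩ.isOpenEmbedding_subtypeVal.isLocalHomeomorph

theorem rdVol_subtype_val {Ω : Set (Cn n)} (hΩ : IsOpen Ω) :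
    rdVol (Subtype.val : Ω → Cn n) = Measure.comap Subtype.val volume := by
  have h : IsRdVol (Subtype.val : Ω → Cn n) (Measure.comap Subtype.val volume) := fun A _ _ =>
    comap_subtype_coe_apply hΩ.measurableSet volume A
  exact (h.eq_rdVol (isLocalHomeomorph_subtype_val hΩ)).symm

/-! ### 5. The weighted measures -/

omit [TopologicalSpace W] [SecondCountableTopology W] [BorelSpace W] in
theorem lintegral_rdVolW {φ : W → ℝ} (hφ : Measurable φ) (g : W → ℝ≥0∞) :
    ∫⁻ x, g x ∂(rdVolW p φ) = ∫⁻ x, ENNReal.ofReal (Real.exp (-φ x)) * g x ∂(rdVol p) := by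
  have hm : Measurable fun x => ENNReal.ofReal (Real.exp (-φ x)) :=
    (Real.measurable_exp.comp hφ.neg).ennreal_ofReal
  unfold rdVolW
  rw [lintegral_withDensity_eq_lintegral_mul_non_measurable _ hm
    (Filter.Eventually.of_forall fun x => ENNReal.ofReal_lt_top)]
  rfl

omit [TopologicalSpace W] [SecondCountableTopology W] [BorelSpace W] in
theorem lintegral_rdVolW_ofReal {φ : W → ℝ} (hφ : Measurable φ) {g : W → ℝ} (hg : ∀ x, 0 ≤ g x) :
    ∫⁻ x, ENNReal.ofReal (g x) ∂(rdVolW p φ)
      = ∫⁻ x, ENNReal.ofReal (g x * Real.exp (-φ x)) ∂(rdVol p) := by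
  rw [lintegral_rdVolW hφ]
  refine lintegral_congr fun x => ?_
  rw [mul_comm (g x), ENNReal.ofReal_mul (Real.exp_pos _).le]

omit [TopologicalSpace W] [SecondCountableTopology W] [BorelSpace W] in
theorem integral_rdVolW {φ : W → ℝ} (hφ : Measurable φ) (g : W → ℂ) :
    ∫ x, g x ∂(rdVolW p φ) = ∫ x, g x * (Real.exp (-φ x) : ℂ) ∂(rdVol p) := by
  have h1 : Measurable fun x => Real.toNNReal (Real.exp (-φ x)) :=
    (Real.measurable_exp.comp hφ.neg).real_toNNReal
  have h2 := integral_withDensity_eq_integral_smul (μ := rdVol p) h1 g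
  have h3 : rdVolW p φ = (rdVol p).withDensity fun x => ((Real.toNNReal (Real.exp (-φ x)) : NNReal) : ℝ≥0∞) :=
    rfl
  rw [h3, h2]
  refine integral_congr_ae (Filter.Eventually.of_forall fun x => ?_)
  show Real.toNNReal (Real.exp (-φ x)) • g x = g x * (Real.exp (-φ x) : ℂ)
  rw [NNReal.smul_def, Real.coe_toNNReal _ (Real.exp_pos _).le, Complex.real_smul, mul_comm]

omit [TopologicalSpace W] [SecondCountableTopology W] [BorelSpace W] in
theorem rdVolW_absolutelyContinuous_iff {φ : W → ℝ} (hφ : Measurable φ) (P : W → Prop) :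
    (∀ᵐ x ∂(rdVolW p φ), P x) ↔ ∀ᵐ x ∂(rdVol p), P x := by
  have hm : Measurable fun x => ENNReal.ofReal (Real.exp (-φ x)) :=
    (Real.measurable_exp.comp hφ.neg).ennreal_ofReal
  unfold rdVolW
  rw [ae_withDensity_iff hm]
  refine eventually_congr (Filter.Eventually.of_forall fun x => ?_)
  have h : ENNReal.ofReal (Real.exp (-φ x)) ≠ 0 := (ENNReal.ofReal_pos.2 (Real.exp_pos _)).ne'
  exact ⟨fun h' => h' h, fun h' _ => h'⟩

omit [TopologicalSpace W] [SecondCountableTopology W] [BorelSpace W] in
theorem aestronglyMeasurable_rdVolW_iff {φ : W → ℝ} (hφ : Measurable φ) {F : Type*}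
    [TopologicalSpace F] [TopologicalSpace.PseudoMetrizableSpace F] (g : W → F) :
    AEStronglyMeasurable g (rdVolW p φ) ↔ AEStronglyMeasurable g (rdVol p) := by
  have hm : Measurable fun x => ENNReal.ofReal (Real.exp (-φ x)) :=
    (Real.measurable_exp.comp hφ.neg).ennreal_ofReal
  constructor
  · intro h
    refine h.mono_ac (withDensity_absolutelyContinuous' hm.aemeasurable
      (Filter.Eventually.of_forall fun x => (ENNReal.ofReal_pos.2 (Real.exp_pos _)).ne'))
  · intro h
    exact h.mono_ac (withDensity_absolutelyContinuous _ _)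

end Claimed.Agent.R242
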