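/-
Row 242 (S0480), SCV layer: HOWALD (integrability of monomial weights).   Owner: helper64.

Base space `Fin n → ℂ` with the sup norm (`Metric.ball 0 R` = polydisc), everything in `lintegral`.

* T1  `r242_lintegral_logpolar` : logarithmic polar coordinates `t_i = -log |z_i|`.
* T2a `r242_orth_lt_top`, T2b `r242_orth_eq_top` : exponential decay on a shifted orthant gives
      integrability; a positive lower bound on a tube around a ray gives non-integrability.
* T3  `r242_howald` : Howald's criterion with real exponents.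
* E1  `r242_howald_units`, E2 `r242_howald_units_at` : the same with unit factors / centred at `a`.
* E3  `r242_tube_eq_top` : a lower bound on the tubes around a ray gives non-integrability;
      `r242_logpolar_le`, `r242_le_logpolar` : transfer of bounds to logarithmic coordinates.
* E4  `r242_lintegral_image_holo`, `r242_lintegral_image_holo_ae` : change of variables for
      holomorphic maps that are injective (off the coordinate hyperplanes).
* E5  `r242_lintegral_image_le`, `r242_lintegral_le_card_image` : the two inequalities when the set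
      where the Jacobian does not vanish is covered by finitely many sets of injectivity.
* E6  `r242_howald_units_idx` : E2 for an arbitrary finite nonempty index type.
* E7  `r242_howald_cont` : E6 with real unit factors, continuous and positive on the closed polydisc.
-/
import Mathlib

set_option autoImplicit false

namespace Claimed.Agent.R242

open MeasureTheory Set
open scoped ENNReal

/-! ## 0. products -/

theorem r242_lintegral_fin_prod {n : ℕ} {E : Type*} {mE : MeasurableSpace E} (μ : Fin n → Measure E)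
    [∀ i, SigmaFinite (μ i)] (f : Fin n → E → ℝ≥0∞) (hf : ∀ i, Measurable (f i)) :
    ∫⁻ x : Fin n → E, ∏ i, f i (x i) ∂(Measure.pi μ) = ∏ i, ∫⁻ x, f i x ∂(μ i) := by
  induction n with
  | zero => simp
  | succ n ih =>
    calc ∫⁻ x : Fin (n + 1) → E, ∏ i, f i (x i) ∂(Measure.pi μ)
        = ∫⁻ x : E × (Fin n → E), f 0 x.1 * ∏ i : Fin n, f (Fin.succ i) (x.2 i)
            ∂((μ 0).prod (Measure.pi (fun i => μ i.succ))) := by
          rw [← ((measurePreserving_piFinSuccAbove (fun i => μ i) 0).symm).lintegral_comp_emb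
            (MeasurableEquiv.measurableEmbedding _)]
          simp_rw [MeasurableEquiv.piFinSuccAbove_symm_apply, Fin.insertNthEquiv,
            Fin.prod_univ_succ, Fin.insertNth_zero, Equiv.coe_fn_mk, Fin.cons_succ,
            Fin.zero_succAbove, cast_eq, Fin.cons_zero]
      _ = (∫⁻ x, f 0 x ∂μ 0) * ∏ i : Fin n, ∫⁻ x, f (Fin.succ i) x ∂(μ i.succ) := by
          rw [← ih (fun i => μ i.succ) (fun i => f i.succ) (fun i => hf _)]
          exact lintegral_prod_mul (hf 0).aemeasurable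
            (Finset.measurable_prod _ fun i _ => (hf _).comp (measurable_pi_apply i)).aemeasurable
      _ = ∏ i, ∫⁻ x, f i x ∂(μ i) := by rw [Fin.prod_univ_succ]

theorem r242_pi_withDensity {n : ℕ} {E : Type*} {mE : MeasurableSpace E} (μ : Fin n → Measure E)
    [∀ i, SigmaFinite (μ i)] (ρ : Fin n → E → ℝ≥0∞) (hρ : ∀ i, Measurable (ρ i))
    [∀ i, SigmaFinite ((μ i).withDensity (ρ i))] :
    Measure.pi (fun i => (μ i).withDensity (ρ i))
      = (Measure.pi μ).withDensity (fun x => ∏ i, ρ i (x i)) := by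
  refine Measure.pi_eq fun s hs => ?_
  rw [withDensity_apply _ (MeasurableSet.univ_pi hs), ← lintegral_indicator (MeasurableSet.univ_pi hs)]
  have e : ∀ x : Fin n → E, (univ.pi s).indicator (fun x => ∏ i, ρ i (x i)) x
      = ∏ i, (s i).indicator (ρ i) (x i) := by
    intro x
    by_cases hx : x ∈ univ.pi s
    · rw [indicator_of_mem hx]
      exact Finset.prod_congr rfl fun i _ => (indicator_of_mem (hx i (mem_univ i)) _).symm
    · rw [indicator_of_notMem hx]
      simp only [mem_univ_pi, not_forall] at hx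
      obtain ⟨i, hi⟩ := hx
      exact (Finset.prod_eq_zero (Finset.mem_univ i) (indicator_of_notMem hi _)).symm
  simp_rw [e]
  rw [r242_lintegral_fin_prod μ _ fun i => (hρ i).indicator (hs i)]
  exact Finset.prod_congr rfl fun i _ => by
    rw [withDensity_apply _ (hs i), lintegral_indicator (hs i)]

/-! ## 1. log-polar coordinates -/

/-- the density of `-log |z|` -/
noncomputable def r242_rho (t : ℝ) : ℝ≥0∞ := ENNReal.ofReal (2 * Real.pi * Real.exp (-2 * t))

theorem r242_rho_measurable : Measurable r242_rho := by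
  unfold r242_rho
  fun_prop

theorem r242_lintegral_radial (g : ℝ → ℝ≥0∞) (hg : Measurable g) :
    ∫⁻ z : ℂ, g ‖z‖ = ∫⁻ r in Ioi (0 : ℝ), ENNReal.ofReal (2 * Real.pi) * (ENNReal.ofReal r * g r) := by
  rw [← Complex.lintegral_comp_polarCoord_symm, polarCoord_target, Measure.volume_eq_prod,
    ← Measure.prod_restrict, lintegral_prod]
  · refine setLIntegral_congr_fun measurableSet_Ioi fun r hr => ?_
    have hr' : |r| = r := abs_of_pos hr
    simp only [Complex.norm_polarCoord_symm, hr', smul_eq_mul, lintegral_const,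
      Measure.restrict_apply MeasurableSet.univ, univ_inter, Real.volume_Ioo]
    rw [mul_comm]
    congr 2
    ring
  · simp only [Complex.norm_polarCoord_symm, smul_eq_mul]
    apply Measurable.aemeasurable
    fun_prop

theorem r242_lintegral_exp_neg (g : ℝ → ℝ≥0∞) :
    ∫⁻ r in Ioi (0 : ℝ), g r = ∫⁻ t : ℝ, ENNReal.ofReal (Real.exp (-t)) * g (Real.exp (-t)) := by
  have himg : (fun t : ℝ => Real.exp (-t)) '' univ = Ioi 0 := by
    ext r
    simp only [image_univ, mem_range, mem_Ioi]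
    constructor
    · rintro ⟨t, rfl⟩; exact Real.exp_pos _
    · intro hr; exact ⟨-Real.log r, by rw [neg_neg, Real.exp_log hr]⟩
  have h := lintegral_image_eq_lintegral_abs_deriv_mul (s := univ)
    (f := fun t : ℝ => Real.exp (-t)) (f' := fun t => -Real.exp (-t)) MeasurableSet.univ
    (fun t _ => by
      have := ((hasDerivAt_neg t).exp).hasDerivWithinAt (s := univ)
      simpa using this)
    (fun a _ b _ hab => by simpa using hab) g
  rw [himg] at h
  rw [h, setLIntegral_univ]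
  refine lintegral_congr fun t => ?_
  rw [abs_neg, abs_of_pos (Real.exp_pos _)]

theorem r242_lintegral_neg_log (f : ℝ → ℝ≥0∞) (hf : Measurable f) :
    ∫⁻ z : ℂ, f (-Real.log ‖z‖) = ∫⁻ t : ℝ, r242_rho t * f t := by
  rw [r242_lintegral_radial (fun r => f (-Real.log r)) (by fun_prop), r242_lintegral_exp_neg]
  refine lintegral_congr fun t => ?_
  rw [Real.log_exp, neg_neg, r242_rho, ← mul_assoc, ← mul_assoc, ← ENNReal.ofReal_mul (Real.exp_pos _).le,
    ← ENNReal.ofReal_mul (by positivity)]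
  congr 2
  rw [show -2 * t = -t + -t by ring, Real.exp_add]
  ring

theorem r242_map_neg_log :
    (volume : Measure ℂ).map (fun z => -Real.log ‖z‖) = volume.withDensity r242_rho := by
  refine Measure.ext_of_lintegral _ fun f hf => ?_
  rw [lintegral_map hf (by fun_prop), r242_lintegral_neg_log f hf,
    lintegral_withDensity_eq_lintegral_mul _ r242_rho_measurable hf]
  rfl

instance r242_rho_sigmaFinite : SigmaFinite ((volume : Measure ℝ).withDensity r242_rho) := by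
  unfold r242_rho
  exact SigmaFinite.withDensity_ofReal _

/-- **T1** log-polar change of variables on `ℂ^n`. -/
theorem r242_lintegral_logpolar {n : ℕ} (F : (Fin n → ℝ) → ℝ≥0∞) (hF : Measurable F) :
    ∫⁻ z : Fin n → ℂ, F (fun i => -Real.log ‖z i‖)
      = ∫⁻ t : Fin n → ℝ, (∏ i, r242_rho (t i)) * F t := by
  have h1 : Measure.map (fun (z : Fin n → ℂ) i => -Real.log ‖z i‖) volume
      = (volume : Measure (Fin n → ℝ)).withDensity (fun t => ∏ i, r242_rho (t i)) := by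
    have hs : ∀ i : Fin n, SigmaFinite (Measure.map (fun z : ℂ => -Real.log ‖z‖) (volume : Measure ℂ)) := by
      intro i; rw [r242_map_neg_log]; infer_instance
    have h2 := Measure.pi_map_pi (μ := fun _ : Fin n => (volume : Measure ℂ))
      (f := fun _ z => -Real.log ‖z‖) (hμ := hs) (fun i => by fun_prop)
    rw [volume_pi, h2]
    simp_rw [r242_map_neg_log]
    rw [r242_pi_withDensity _ _ fun _ => r242_rho_measurable, volume_pi]
  have hm : Measurable fun t : Fin n → ℝ => ∏ i, r242_rho (t i) :=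
    Finset.measurable_prod _ fun i _ => r242_rho_measurable.comp (measurable_pi_apply i)
  rw [← lintegral_map hF (by fun_prop), h1, lintegral_withDensity_eq_lintegral_mul _ hm hF]
  rfl

/-! ## 2. integrals over shifted orthants -/

/-- the shifted open orthant `{t | τ < t_i}` -/
def r242_orth (n : ℕ) (τ : ℝ) : Set (Fin n → ℝ) := {t | ∀ i, τ < t i}

theorem r242_orth_eq (n : ℕ) (τ : ℝ) : r242_orth n τ = univ.pi fun _ => Ioi τ := by
  ext t; simp [r242_orth]

theorem r242_orth_measurable (n : ℕ) (τ : ℝ) : MeasurableSet (r242_orth n τ) := by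
  rw [r242_orth_eq]; exact MeasurableSet.univ_pi fun _ => measurableSet_Ioi

theorem r242_lintegral_Ioi_exp (δ τ : ℝ) (hδ : 0 < δ) :
    ∫⁻ s in Ioi τ, ENNReal.ofReal (Real.exp (-δ * (s - τ))) = ENNReal.ofReal (1 / δ) := by
  have e : ∀ s : ℝ, Real.exp (-δ * (s - τ)) = Real.exp (δ * τ) * Real.exp (-δ * s) := by
    intro s; rw [← Real.exp_add]; congr 1; ring
  have hint : IntegrableOn (fun s => Real.exp (-δ * (s - τ))) (Ioi τ) := by
    simp_rw [e]
    exact (integrableOn_exp_mul_Ioi (by linarith : -δ < 0) τ).const_mul _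
  rw [← ofReal_integral_eq_lintegral_ofReal hint (Filter.Eventually.of_forall fun s => (Real.exp_pos _).le)]
  congr 1
  simp_rw [e]
  rw [integral_const_mul, integral_exp_mul_Ioi (by linarith : -δ < 0) τ]
  have : Real.exp (δ * τ) * Real.exp (-δ * τ) = 1 := by rw [← Real.exp_add]; simp
  calc Real.exp (δ * τ) * (-Real.exp (-δ * τ) / -δ)
      = (Real.exp (δ * τ) * Real.exp (-δ * τ)) / δ := by field_simp
    _ = 1 / δ := by rw [this]

theorem r242_lintegral_orth_exp (n : ℕ) (δ τ : ℝ) (hδ : 0 < δ) :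
    ∫⁻ t in r242_orth n τ, ENNReal.ofReal (Real.exp (-δ * ∑ i, (t i - τ)))
      = ENNReal.ofReal (1 / δ) ^ n := by
  rw [← lintegral_indicator (r242_orth_measurable n τ)]
  have e : ∀ t : Fin n → ℝ, (r242_orth n τ).indicator
      (fun t => ENNReal.ofReal (Real.exp (-δ * ∑ i, (t i - τ)))) t
      = ∏ i, (Ioi τ).indicator (fun s => ENNReal.ofReal (Real.exp (-δ * (s - τ)))) (t i) := by
    intro t
    by_cases ht : t ∈ r242_orth n τ
    · rw [indicator_of_mem ht, Finset.mul_sum, Real.exp_sum,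
        ENNReal.ofReal_prod_of_nonneg fun i _ => (Real.exp_pos _).le]
      refine Finset.prod_congr rfl fun i _ => ?_
      rw [indicator_of_mem (show t i ∈ Ioi τ from ht i)]
    · rw [indicator_of_notMem ht]
      simp only [r242_orth, mem_ofPred_eq, not_forall] at ht
      obtain ⟨i, hi⟩ := ht
      exact (Finset.prod_eq_zero (Finset.mem_univ i) (indicator_of_notMem hi _)).symm
  simp_rw [e]
  rw [volume_pi, r242_lintegral_fin_prod _ _ fun i => by
    apply Measurable.indicator _ measurableSet_Ioi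
    fun_prop]
  simp_rw [lintegral_indicator measurableSet_Ioi, r242_lintegral_Ioi_exp δ τ hδ]
  simp

/-- **T2a** exponential decay on a shifted orthant gives integrability. -/
theorem r242_orth_lt_top {n : ℕ} (f : (Fin n → ℝ) → ℝ≥0∞) (τ δ C : ℝ) (hδ : 0 < δ)
    (h : ∀ t ∈ r242_orth n τ, f t ≤ ENNReal.ofReal (C * Real.exp (-δ * ∑ i, (t i - τ)))) :
    ∫⁻ t in r242_orth n τ, f t < ∞ := by
  have hC : ∀ t : Fin n → ℝ, ENNReal.ofReal (C * Real.exp (-δ * ∑ i, (t i - τ)))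
      ≤ ENNReal.ofReal |C| * ENNReal.ofReal (Real.exp (-δ * ∑ i, (t i - τ))) := by
    intro t
    rw [← ENNReal.ofReal_mul (abs_nonneg _)]
    exact ENNReal.ofReal_le_ofReal (mul_le_mul_of_nonneg_right (le_abs_self _) (Real.exp_pos _).le)
  calc ∫⁻ t in r242_orth n τ, f t
      ≤ ∫⁻ t in r242_orth n τ, ENNReal.ofReal |C| * ENNReal.ofReal (Real.exp (-δ * ∑ i, (t i - τ))) :=
        setLIntegral_mono' (r242_orth_measurable n τ) fun t ht => (h t ht).trans (hC t)
    _ = ENNReal.ofReal |C| * ENNReal.ofReal (1 / δ) ^ n := by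
        rw [lintegral_const_mul _ (by fun_prop), r242_lintegral_orth_exp n δ τ hδ]
    _ < ∞ := ENNReal.mul_lt_top ENNReal.ofReal_lt_top (ENNReal.pow_lt_top ENNReal.ofReal_lt_top)

/-- **T2b** a positive lower bound on a tube around a ray gives non-integrability. -/
theorem r242_orth_eq_top {n : ℕ} (f : (Fin n → ℝ) → ℝ≥0∞) (τ ε : ℝ) (hε : 0 < ε) (a w : Fin n → ℝ)
    (ha : ∀ i, τ ≤ a i) (hw : ∀ i, 0 ≤ w i) (hw0 : w ≠ 0)
    (h : ∀ (s : ℝ) (u : Fin n → ℝ), 0 ≤ s → (∀ i, 0 < u i ∧ u i < 1) →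
      ENNReal.ofReal ε ≤ f (fun i => a i + s * w i + u i)) :
    ∫⁻ t in r242_orth n τ, f t = ∞ := by
  obtain ⟨i0, hi0⟩ : ∃ i, w i ≠ 0 := by
    by_contra hcon
    push Not at hcon
    exact hw0 (funext hcon)
  have hwi : 0 < w i0 := lt_of_le_of_ne (hw i0) (Ne.symm hi0)
  set σ : ℝ := 1 / w i0 with hσ
  have hσ0 : 0 < σ := by positivity
  have hσw : σ * w i0 = 1 := by rw [hσ]; field_simp
  let Q : ℕ → Set (Fin n → ℝ) := fun j =>
    univ.pi fun i => Ioo (a i + (j * σ) * w i) (a i + (j * σ) * w i + 1)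
  have hQm : ∀ j, MeasurableSet (Q j) := fun j => MeasurableSet.univ_pi fun _ => measurableSet_Ioo
  have hQd : Pairwise (Function.onFun Disjoint Q) := by
    intro j j' hjj
    rw [Function.onFun, Set.disjoint_left]
    intro t ht ht'
    have h1 := ht i0 (mem_univ _)
    have h2 := ht' i0 (mem_univ _)
    simp only [mem_Ioo, mul_assoc, hσw, mul_one] at h1 h2
    have h3 : (j : ℝ) < j' + 1 := by linarith [h1.1, h2.2]
    have h4 : (j' : ℝ) < j + 1 := by linarith [h1.2, h2.1]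
    have h5 : j < j' + 1 := by exact_mod_cast h3
    have h6 : j' < j + 1 := by exact_mod_cast h4
    omega
  have hQs : (⋃ j, Q j) ⊆ r242_orth n τ := by
    intro t ht
    obtain ⟨j, hj⟩ := mem_iUnion.1 ht
    intro i
    have h1 := (hj i (mem_univ _)).1
    have h2 : 0 ≤ (j * σ) * w i := by have := hw i; positivity
    linarith [ha i]
  have hQv : ∀ j, volume (Q j) = 1 := by
    intro j
    rw [Real.volume_pi_Ioo]
    simp
  have hQf : ∀ j, ENNReal.ofReal ε ≤ ∫⁻ t in Q j, f t := by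
    intro j
    calc ENNReal.ofReal ε = ∫⁻ _t in Q j, ENNReal.ofReal ε := by
          rw [lintegral_const, Measure.restrict_apply MeasurableSet.univ, univ_inter, hQv, mul_one]
      _ ≤ ∫⁻ t in Q j, f t := by
          refine setLIntegral_mono' (hQm j) fun t ht => ?_
          have h1 := h (j * σ) (fun i => t i - (a i + (j * σ) * w i)) (by positivity) (fun i => by
            have := ht i (mem_univ _)
            constructor <;> linarith [this.1, this.2])
          have e : (fun i => a i + (j * σ) * w i + (t i - (a i + (j * σ) * w i))) = t := by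
            funext i; ring
          rwa [e] at h1
  have : (∞ : ℝ≥0∞) ≤ ∫⁻ t in r242_orth n τ, f t := by
    calc (∞ : ℝ≥0∞) = ∑' _j : ℕ, ENNReal.ofReal ε :=
          (ENNReal.tsum_const_eq_top_of_ne_zero (by simpa using hε)).symm
      _ ≤ ∑' j, ∫⁻ t in Q j, f t := ENNReal.tsum_le_tsum hQf
      _ = ∫⁻ t in ⋃ j, Q j, f t := (lintegral_iUnion hQm hQd f).symm
      _ ≤ ∫⁻ t in r242_orth n τ, f t := lintegral_mono_set hQs
  exact top_le_iff.1 this

/-! ## 3. Howald's criterion with real exponents -/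

section Howald

variable {n N : ℕ}

/-- the integrand `∏ |z_i|^{2 b_i} (∑_k ∏_i |z_i|^{2 β_{k,i}})^{-c}` -/
noncomputable def r242_howInt (β : Fin N → Fin n → ℝ) (b : Fin n → ℝ) (c : ℝ) (z : Fin n → ℂ) : ℝ≥0∞ :=
  (∏ i, ‖z i‖ₑ ^ (2 * b i)) * (∑ k, ∏ i, ‖z i‖ₑ ^ (2 * β k i)) ^ (-c)

/-- the same in the coordinates `t_i = -log |z_i|` -/
noncomputable def r242_howT (β : Fin N → Fin n → ℝ) (b : Fin n → ℝ) (c : ℝ) (t : Fin n → ℝ) : ℝ :=
  Real.exp (-2 * ∑ i, t i * b i) * (∑ k, Real.exp (-2 * ∑ i, t i * β k i)) ^ (-c)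

theorem r242_enorm_rpow (z : ℂ) (hz : z ≠ 0) (x : ℝ) :
    ‖z‖ₑ ^ (2 * x) = ENNReal.ofReal (Real.exp (-2 * (-Real.log ‖z‖ * x))) := by
  have h0 : 0 < ‖z‖ := norm_pos_iff.2 hz
  rw [← ofReal_norm, ENNReal.ofReal_rpow_of_pos h0, Real.rpow_def_of_pos h0]
  congr 2
  ring

theorem r242_prod_enorm_rpow (z : Fin n → ℂ) (hz : ∀ i, z i ≠ 0) (x : Fin n → ℝ) :
    ∏ i, ‖z i‖ₑ ^ (2 * x i) = ENNReal.ofReal (Real.exp (-2 * ∑ i, -Real.log ‖z i‖ * x i)) := by
  rw [Finset.mul_sum, Real.exp_sum, ENNReal.ofReal_prod_of_nonneg fun i _ => (Real.exp_pos _).le]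
  exact Finset.prod_congr rfl fun i _ => r242_enorm_rpow (z i) (hz i) (x i)

theorem r242_howS_pos [NeZero N] (β : Fin N → Fin n → ℝ) (t : Fin n → ℝ) :
    0 < ∑ k, Real.exp (-2 * ∑ i, t i * β k i) :=
  Finset.sum_pos (fun _ _ => Real.exp_pos _) ⟨0, Finset.mem_univ _⟩

theorem r242_howInt_eq [NeZero N] (β : Fin N → Fin n → ℝ) (b : Fin n → ℝ) (c : ℝ) (z : Fin n → ℂ)
    (hz : ∀ i, z i ≠ 0) :
    r242_howInt β b c z = ENNReal.ofReal (r242_howT β b c fun i => -Real.log ‖z i‖) := by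
  rw [r242_howInt, r242_howT, ENNReal.ofReal_mul (Real.exp_pos _).le, r242_prod_enorm_rpow z hz b,
    ← ENNReal.ofReal_rpow_of_pos (r242_howS_pos β _),
    ENNReal.ofReal_sum_of_nonneg fun k _ => (Real.exp_pos _).le]
  congr 2
  exact Finset.sum_congr rfl fun k _ => r242_prod_enorm_rpow z hz (β k)

theorem r242_howT_measurable (β : Fin N → Fin n → ℝ) (b : Fin n → ℝ) (c : ℝ) :
    Measurable (r242_howT β b c) := by
  unfold r242_howT
  fun_prop

theorem r242_mem_ball_iff (z : Fin n → ℂ) (hz : ∀ i, z i ≠ 0) (R : ℝ) (hR : 0 < R) :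
    z ∈ Metric.ball (0 : Fin n → ℂ) R ↔ (fun i => -Real.log ‖z i‖) ∈ r242_orth n (-Real.log R) := by
  rw [mem_ball_zero_iff, pi_norm_lt_iff hR]
  refine forall_congr' fun i => ?_
  rw [neg_lt_neg_iff, Real.log_lt_log_iff (norm_pos_iff.2 (hz i)) hR]

/-- the Howald integral in logarithmic coordinates -/
theorem r242_howInt_lintegral [NeZero N] (β : Fin N → Fin n → ℝ) (b : Fin n → ℝ) (c R : ℝ) (hR : 0 < R) :
    ∫⁻ z in Metric.ball (0 : Fin n → ℂ) R, r242_howInt β b c z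
      = ∫⁻ t in r242_orth n (-Real.log R), (∏ i, r242_rho (t i)) * ENNReal.ofReal (r242_howT β b c t) := by
  rw [← lintegral_indicator Metric.isOpen_ball.measurableSet,
    ← lintegral_indicator (r242_orth_measurable n _)]
  have h1 : ∀ᵐ z : Fin n → ℂ, ∀ i, z i ≠ 0 := by
    rw [ae_all_iff]
    intro i
    rw [volume_pi]
    exact Measure.ae_eval_ne _ i 0
  have h2 : ∫⁻ z : Fin n → ℂ, (Metric.ball (0 : Fin n → ℂ) R).indicator (r242_howInt β b c) z
      = ∫⁻ z : Fin n → ℂ, (r242_orth n (-Real.log R)).indicator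
          (fun t => ENNReal.ofReal (r242_howT β b c t)) (fun i => -Real.log ‖z i‖) := by
    refine lintegral_congr_ae ?_
    filter_upwards [h1] with z hz
    by_cases hzb : z ∈ Metric.ball (0 : Fin n → ℂ) R
    · rw [indicator_of_mem hzb, indicator_of_mem ((r242_mem_ball_iff z hz R hR).1 hzb),
        r242_howInt_eq β b c z hz]
    · rw [indicator_of_notMem hzb,
        indicator_of_notMem (fun h => hzb ((r242_mem_ball_iff z hz R hR).2 h))]
  rw [h2, r242_lintegral_logpolar _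
    ((r242_howT_measurable β b c).ennreal_ofReal.indicator (r242_orth_measurable n _))]
  refine lintegral_congr fun t => ?_
  by_cases ht : t ∈ r242_orth n (-Real.log R)
  · rw [indicator_of_mem ht, indicator_of_mem ht]
  · rw [indicator_of_notMem ht, indicator_of_notMem ht, mul_zero]

theorem r242_prod_rho (t : Fin n → ℝ) :
    ∏ i, r242_rho (t i) = ENNReal.ofReal ((2 * Real.pi) ^ n * Real.exp (-2 * ∑ i, t i)) := by
  unfold r242_rho
  rw [← ENNReal.ofReal_prod_of_nonneg fun i _ => by positivity, Finset.prod_mul_distrib,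
    Finset.mul_sum, Real.exp_sum]
  simp

/-- the full integrand in logarithmic coordinates -/
theorem r242_how_integrand (β : Fin N → Fin n → ℝ) (b : Fin n → ℝ) (c : ℝ) (t : Fin n → ℝ) :
    (∏ i, r242_rho (t i)) * ENNReal.ofReal (r242_howT β b c t)
      = ENNReal.ofReal ((2 * Real.pi) ^ n * (Real.exp (-2 * ∑ i, t i * (b i + 1)) *
          (∑ k, Real.exp (-2 * ∑ i, t i * β k i)) ^ (-c))) := by
  rw [r242_prod_rho, ← ENNReal.ofReal_mul (by positivity), r242_howT]
  congr 1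
  have : Real.exp (-2 * ∑ i, t i * (b i + 1)) = Real.exp (-2 * ∑ i, t i) * Real.exp (-2 * ∑ i, t i * b i) := by
    rw [← Real.exp_add]
    congr 1
    simp only [mul_add, mul_one, Finset.sum_add_distrib]
    ring
  rw [this]
  ring

/-- compactness: the strict inequalities of the criterion are uniform -/
theorem r242_how_delta [NeZero N] (β : Fin N → Fin n → ℝ) (b : Fin n → ℝ) (c : ℝ)
    (h : ∀ w : Fin n → ℝ, (∀ i, 0 ≤ w i) → w ≠ 0 → ∃ k, c * ∑ i, w i * β k i < ∑ i, w i * (b i + 1)) :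
    ∃ δ : ℝ, 0 < δ ∧ ∀ t : Fin n → ℝ, (∀ i, 0 ≤ t i) →
      ∃ k, δ * ∑ i, t i ≤ ∑ i, t i * (b i + 1) - c * ∑ i, t i * β k i := by
  have hne : (Finset.univ : Finset (Fin N)).Nonempty := ⟨0, Finset.mem_univ _⟩
  let g : Fin N → (Fin n → ℝ) → ℝ := fun k w => ∑ i, w i * (b i + 1) - c * ∑ i, w i * β k i
  have hgc : ∀ k, Continuous (g k) := fun k => by fun_prop
  have hcont : Continuous fun w => Finset.univ.sup' hne fun k => g k w :=
    Continuous.finset_sup'_apply hne fun k _ => hgc k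
  rcases (stdSimplex ℝ (Fin n)).eq_empty_or_nonempty with hemp | hnon
  · -- then `n = 0`-like: every nonnegative vector vanishes
    refine ⟨1, one_pos, fun t ht => ⟨0, ?_⟩⟩
    have hs : ∑ i, t i = 0 := by
      by_contra hs
      have hpos : 0 < ∑ i, t i := lt_of_le_of_ne (Finset.sum_nonneg fun i _ => ht i) (Ne.symm hs)
      have : (fun i => t i / ∑ j, t j) ∈ stdSimplex ℝ (Fin n) :=
        ⟨fun i => div_nonneg (ht i) hpos.le, by rw [← Finset.sum_div]; exact div_self hs⟩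
      rw [hemp] at this
      exact this
    have ht0 : ∀ i, t i = 0 := fun i =>
      (Finset.sum_eq_zero_iff_of_nonneg fun i _ => ht i).1 hs i (Finset.mem_univ i)
    simp [ht0]
  · obtain ⟨w0, hw0, hmin⟩ := (isCompact_stdSimplex ℝ (Fin n)).exists_isMinOn hnon hcont.continuousOn
    have hw0ne : w0 ≠ 0 := by
      intro h0
      have := hw0.2
      rw [h0] at this
      simp at this
    obtain ⟨k0, hk0⟩ := h w0 hw0.1 hw0ne
    set δ := Finset.univ.sup' hne fun k => g k w0 with hδ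
    have hδpos : 0 < δ := lt_of_lt_of_le (sub_pos.2 hk0)
      (Finset.le_sup' (fun k => g k w0) (Finset.mem_univ k0))
    refine ⟨δ, hδpos, fun t ht => ?_⟩
    by_cases hs : ∑ i, t i = 0
    · have ht0 : ∀ i, t i = 0 := fun i =>
        (Finset.sum_eq_zero_iff_of_nonneg fun i _ => ht i).1 hs i (Finset.mem_univ i)
      exact ⟨0, by simp [ht0]⟩
    · have hpos : 0 < ∑ i, t i := lt_of_le_of_ne (Finset.sum_nonneg fun i _ => ht i) (Ne.symm hs)
      set S := ∑ i, t i with hS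
      have hw : (fun i => t i / S) ∈ stdSimplex ℝ (Fin n) :=
        ⟨fun i => div_nonneg (ht i) hpos.le, by rw [← Finset.sum_div]; exact div_self hs⟩
      have h1 : δ ≤ Finset.univ.sup' hne fun k => g k (fun i => t i / S) := hmin hw
      obtain ⟨k, _, hk⟩ := Finset.exists_mem_eq_sup' hne fun k => g k (fun i => t i / S)
      refine ⟨k, ?_⟩
      rw [hk] at h1
      have h2 : g k (fun i => t i / S) * S = ∑ i, t i * (b i + 1) - c * ∑ i, t i * β k i := by
        simp only [g, div_mul_eq_mul_div, ← Finset.sum_div]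
        field_simp
      rw [← h2]
      exact mul_le_mul_of_nonneg_right h1 hpos.le

theorem r242_howS_rpow_le [NeZero N] (β : Fin N → Fin n → ℝ) (c : ℝ) (hc : 0 ≤ c) (t : Fin n → ℝ)
    (k : Fin N) :
    (∑ k, Real.exp (-2 * ∑ i, t i * β k i)) ^ (-c) ≤ Real.exp (2 * (c * ∑ i, t i * β k i)) := by
  have h1 : Real.exp (-2 * ∑ i, t i * β k i) ≤ ∑ k, Real.exp (-2 * ∑ i, t i * β k i) :=
    Finset.single_le_sum (f := fun k => Real.exp (-2 * ∑ i, t i * β k i))
      (fun _ _ => (Real.exp_pos _).le) (Finset.mem_univ k)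
  calc (∑ k, Real.exp (-2 * ∑ i, t i * β k i)) ^ (-c)
      ≤ Real.exp (-2 * ∑ i, t i * β k i) ^ (-c) :=
        Real.rpow_le_rpow_of_nonpos (Real.exp_pos _) h1 (by linarith)
    _ = Real.exp (2 * (c * ∑ i, t i * β k i)) := by
        rw [← Real.exp_mul]; congr 1; ring

/-- **T3, sufficiency.** -/
theorem r242_howald_lt_top [NeZero N] (β : Fin N → Fin n → ℝ) (b : Fin n → ℝ) (c : ℝ) (hc : 0 ≤ c)
    (R : ℝ) (hR : 0 < R)
    (h : ∀ w : Fin n → ℝ, (∀ i, 0 ≤ w i) → w ≠ 0 → ∃ k, c * ∑ i, w i * β k i < ∑ i, w i * (b i + 1)) :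
    ∫⁻ z in Metric.ball (0 : Fin n → ℂ) R, r242_howInt β b c z < ∞ := by
  obtain ⟨δ, hδ, hδt⟩ := r242_how_delta β b c h
  rw [r242_howInt_lintegral β b c R hR]
  set τ := -Real.log R with hτ
  set Kk : Fin N → ℝ := fun k => τ * (∑ i, (b i + 1) - c * ∑ i, β k i) with hKk
  set K : ℝ := ∑ k, |Kk k| with hK
  refine r242_orth_lt_top _ τ (2 * δ) ((2 * Real.pi) ^ n * Real.exp (2 * K)) (by linarith) fun t ht => ?_
  rw [r242_how_integrand]
  apply ENNReal.ofReal_le_ofReal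
  rw [mul_assoc]
  refine mul_le_mul_of_nonneg_left ?_ (by positivity)
  obtain ⟨k, hk⟩ := hδt (fun i => t i - τ) fun i => (sub_pos.2 (ht i)).le
  have hKle : -K ≤ Kk k := by
    have h1 : |Kk k| ≤ K := Finset.single_le_sum (f := fun k => |Kk k|) (fun _ _ => abs_nonneg _)
      (Finset.mem_univ k)
    linarith [neg_abs_le (Kk k)]
  have hsplit : ∑ i, t i * (b i + 1) - c * ∑ i, t i * β k i
      = (∑ i, (t i - τ) * (b i + 1) - c * ∑ i, (t i - τ) * β k i) + Kk k := by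
    have e1 : ∀ x : Fin n → ℝ, ∑ i, (t i - τ) * x i = ∑ i, t i * x i - τ * ∑ i, x i := by
      intro x
      rw [Finset.mul_sum, ← Finset.sum_sub_distrib]
      exact Finset.sum_congr rfl fun i _ => by ring
    rw [e1, e1]
    simp only [hKk]
    ring
  calc Real.exp (-2 * ∑ i, t i * (b i + 1)) * (∑ k, Real.exp (-2 * ∑ i, t i * β k i)) ^ (-c)
      ≤ Real.exp (-2 * ∑ i, t i * (b i + 1)) * Real.exp (2 * (c * ∑ i, t i * β k i)) :=
        mul_le_mul_of_nonneg_left (r242_howS_rpow_le β c hc t k) (Real.exp_pos _).le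
    _ = Real.exp (-2 * (∑ i, t i * (b i + 1) - c * ∑ i, t i * β k i)) := by
        rw [← Real.exp_add]; congr 1; ring
    _ ≤ Real.exp (2 * K + -(2 * δ) * ∑ i, (t i - τ)) := by
        apply Real.exp_le_exp.2
        rw [hsplit]
        nlinarith
    _ = Real.exp (2 * K) * Real.exp (-(2 * δ) * ∑ i, (t i - τ)) := Real.exp_add _ _

/-- **T3, necessity.** -/
theorem r242_howald_eq_top [NeZero N] (β : Fin N → Fin n → ℝ) (hβ : ∀ k i, 0 ≤ β k i) (b : Fin n → ℝ)
    (c : ℝ) (hc : 0 ≤ c) (R : ℝ) (hR : 0 < R) (w : Fin n → ℝ) (hw : ∀ i, 0 ≤ w i) (hw0 : w ≠ 0)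
    (h : ∀ k, ∑ i, w i * (b i + 1) ≤ c * ∑ i, w i * β k i) :
    ∫⁻ z in Metric.ball (0 : Fin n → ℂ) R, r242_howInt β b c z = ∞ := by
  rw [r242_howInt_lintegral β b c R hR]
  set τ := -Real.log R with hτ
  set B : ℝ := ∑ i, |b i + 1| with hB
  have hB0 : 0 ≤ B := Finset.sum_nonneg fun _ _ => abs_nonneg _
  have hNpos : (0 : ℝ) < N := by exact_mod_cast Nat.pos_of_ne_zero (NeZero.ne N)
  obtain ⟨k0, _, hk0⟩ := Finset.exists_min_image (Finset.univ : Finset (Fin N))
    (fun k => ∑ i, w i * β k i) ⟨0, Finset.mem_univ _⟩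
  set μ := ∑ i, w i * β k0 i with hμ
  refine r242_orth_eq_top _ τ ((2 * Real.pi) ^ n * (Real.exp (-2 * ((|τ| + 1) * B)) * (N : ℝ) ^ (-c)))
    (by positivity) (fun _ => |τ|) w (fun _ => le_abs_self τ) hw hw0 fun s u hs hu => ?_
  rw [r242_how_integrand]
  apply ENNReal.ofReal_le_ofReal
  refine mul_le_mul_of_nonneg_left ?_ (by positivity)
  -- the sum of exponentials
  have hS : ∑ k, Real.exp (-2 * ∑ i, (|τ| + s * w i + u i) * β k i) ≤ N * Real.exp (-2 * (s * μ)) := by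
    calc ∑ k, Real.exp (-2 * ∑ i, (|τ| + s * w i + u i) * β k i)
        ≤ ∑ _k : Fin N, Real.exp (-2 * (s * μ)) := by
          refine Finset.sum_le_sum fun k _ => Real.exp_le_exp.2 ?_
          have h1 : s * μ ≤ s * ∑ i, w i * β k i := mul_le_mul_of_nonneg_left (hk0 k (Finset.mem_univ k)) hs
          have h2 : s * ∑ i, w i * β k i ≤ ∑ i, (|τ| + s * w i + u i) * β k i := by
            rw [Finset.mul_sum]
            refine Finset.sum_le_sum fun i _ => ?_
            have := hβ k i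
            have h3 : 0 ≤ (|τ| + u i) * β k i := mul_nonneg (add_nonneg (abs_nonneg _) (hu i).1.le) this
            nlinarith
          linarith
      _ = N * Real.exp (-2 * (s * μ)) := by simp
  have hS' : (N : ℝ) ^ (-c) * Real.exp (2 * (s * ∑ i, w i * (b i + 1)))
      ≤ (∑ k, Real.exp (-2 * ∑ i, (|τ| + s * w i + u i) * β k i)) ^ (-c) := by
    calc (N : ℝ) ^ (-c) * Real.exp (2 * (s * ∑ i, w i * (b i + 1)))
        ≤ (N : ℝ) ^ (-c) * Real.exp (2 * (s * (c * μ))) := by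
          refine mul_le_mul_of_nonneg_left (Real.exp_le_exp.2 ?_) (by positivity)
          have := mul_le_mul_of_nonneg_left (h k0) hs
          linarith
      _ = (N * Real.exp (-2 * (s * μ))) ^ (-c) := by
          rw [Real.mul_rpow hNpos.le (Real.exp_pos _).le, ← Real.exp_mul]
          congr 2; ring
      _ ≤ _ := Real.rpow_le_rpow_of_nonpos (r242_howS_pos β _) hS (by linarith)
  have hE : Real.exp (-2 * ((|τ| + 1) * B)) * Real.exp (-2 * (s * ∑ i, w i * (b i + 1)))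
      ≤ Real.exp (-2 * ∑ i, (|τ| + s * w i + u i) * (b i + 1)) := by
    rw [← Real.exp_add]
    apply Real.exp_le_exp.2
    have h1 : ∑ i, (|τ| + s * w i + u i) * (b i + 1)
        = s * ∑ i, w i * (b i + 1) + ∑ i, (|τ| + u i) * (b i + 1) := by
      rw [Finset.mul_sum, ← Finset.sum_add_distrib]
      exact Finset.sum_congr rfl fun i _ => by ring
    have h2 : ∑ i, (|τ| + u i) * (b i + 1) ≤ (|τ| + 1) * B := by
      rw [hB, Finset.mul_sum]
      refine Finset.sum_le_sum fun i _ => ?_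
      calc (|τ| + u i) * (b i + 1) ≤ (|τ| + u i) * |b i + 1| :=
            mul_le_mul_of_nonneg_left (le_abs_self _) (add_nonneg (abs_nonneg _) (hu i).1.le)
        _ ≤ (|τ| + 1) * |b i + 1| :=
            mul_le_mul_of_nonneg_right (by linarith [(hu i).2]) (abs_nonneg _)
    rw [h1]
    linarith
  calc Real.exp (-2 * ((|τ| + 1) * B)) * (N : ℝ) ^ (-c)
      = (Real.exp (-2 * ((|τ| + 1) * B)) * Real.exp (-2 * (s * ∑ i, w i * (b i + 1)))) *
          ((N : ℝ) ^ (-c) * Real.exp (2 * (s * ∑ i, w i * (b i + 1)))) := by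
        have : Real.exp (-2 * (s * ∑ i, w i * (b i + 1))) * Real.exp (2 * (s * ∑ i, w i * (b i + 1))) = 1 := by
          rw [← Real.exp_add]; simp
        calc Real.exp (-2 * ((|τ| + 1) * B)) * (N : ℝ) ^ (-c)
            = Real.exp (-2 * ((|τ| + 1) * B)) * (N : ℝ) ^ (-c) *
              (Real.exp (-2 * (s * ∑ i, w i * (b i + 1))) * Real.exp (2 * (s * ∑ i, w i * (b i + 1)))) := by
              rw [this, mul_one]
          _ = _ := by ring
    _ ≤ _ := mul_le_mul hE hS' (by positivity) (Real.exp_pos _).le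

/-- **T3 = HOWALD with real exponents** (`N ≥ 1` monomials with exponents `β_k ∈ ℝ^n_{≥0}`, Jacobian exponents `b ∈ ℝ^n`, `c ≥ 0`). -/
theorem r242_howald [NeZero N] (β : Fin N → Fin n → ℝ) (hβ : ∀ k i, 0 ≤ β k i) (b : Fin n → ℝ)
    (c : ℝ) (hc : 0 ≤ c) (R : ℝ) (hR : 0 < R) :
    ∫⁻ z in Metric.ball (0 : Fin n → ℂ) R,
        (∏ i, ‖z i‖ₑ ^ (2 * b i)) * (∑ k, ∏ i, ‖z i‖ₑ ^ (2 * β k i)) ^ (-c) < ∞ ↔
      ∀ w : Fin n → ℝ, (∀ i, 0 ≤ w i) → w ≠ 0 → ∃ k, c * ∑ i, w i * β k i < ∑ i, w i * (b i + 1) := by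
  constructor
  · intro hfin w hw hw0
    by_contra hcon
    push Not at hcon
    exact (ne_of_lt hfin) (r242_howald_eq_top β hβ b c hc R hR w hw hw0 hcon)
  · exact r242_howald_lt_top β b c hc R hR

end Howald

/-! ## 4. Extras: unit factors, arbitrary centre, the tube lemma, change of variables -/

section HowaldExtras

variable {n N : ℕ}

theorem r242_rpow_ne_zero (m : ℝ≥0∞) (c : ℝ) (hc : 0 ≤ c) (hm : m ≠ 0) : m ^ c ≠ 0 := by
  intro h
  rw [ENNReal.rpow_eq_zero_iff] at h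
  rcases h with h | h
  · exact hm h.1
  · linarith [h.2]

/-- two-sided comparison of `(∑ U_k M_k)^{-c}` with `(∑ M_k)^{-c}` -/
theorem r242_sum_units_rpow (c : ℝ) (hc : 0 ≤ c) (U Mo : Fin N → ℝ≥0∞) (m M : ℝ≥0∞)
    (hm : m ≠ 0) (hM : M ≠ ∞) (hmM : m ≤ M) (hU : ∀ k, m ≤ U k ∧ U k ≤ M) :
    (M ^ c)⁻¹ * (∑ k, Mo k) ^ (-c) ≤ (∑ k, U k * Mo k) ^ (-c) ∧
      (∑ k, U k * Mo k) ^ (-c) ≤ (m ^ c)⁻¹ * (∑ k, Mo k) ^ (-c) := by
  have hM0 : M ≠ 0 := fun h => hm (le_antisymm (h ▸ hmM) bot_le)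
  have hmt : m ≠ ∞ := fun h => hM (le_antisymm le_top (h ▸ hmM))
  constructor
  · rw [ENNReal.rpow_neg, ENNReal.rpow_neg,
      ← ENNReal.mul_inv (Or.inl (r242_rpow_ne_zero M c hc hM0))
        (Or.inl (ENNReal.rpow_ne_top_of_nonneg hc hM)),
      ENNReal.inv_le_inv, ← ENNReal.mul_rpow_of_nonneg _ _ hc, Finset.mul_sum]
    exact ENNReal.rpow_le_rpow (Finset.sum_le_sum fun k _ => mul_le_mul_left (hU k).2 _) hc
  · rw [ENNReal.rpow_neg, ENNReal.rpow_neg,
      ← ENNReal.mul_inv (Or.inl (r242_rpow_ne_zero m c hc hm))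
        (Or.inl (ENNReal.rpow_ne_top_of_nonneg hc hmt)),
      ENNReal.inv_le_inv, ← ENNReal.mul_rpow_of_nonneg _ _ hc, Finset.mul_sum]
    exact ENNReal.rpow_le_rpow (Finset.sum_le_sum fun k _ => mul_le_mul_left (hU k).1 _) hc

/-- **E1: Howald with unit factors** (no measurability of the units is needed). -/
theorem r242_howald_units [NeZero N] (β : Fin N → Fin n → ℝ) (hβ : ∀ k i, 0 ≤ β k i) (b : Fin n → ℝ)
    (c : ℝ) (hc : 0 ≤ c) (R : ℝ) (hR : 0 < R)
    (U : Fin N → (Fin n → ℂ) → ℝ≥0∞) (V : (Fin n → ℂ) → ℝ≥0∞) (m M : ℝ≥0∞)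
    (hm : m ≠ 0) (hM : M ≠ ∞)
    (hU : ∀ k, ∀ z ∈ Metric.ball (0 : Fin n → ℂ) R, m ≤ U k z ∧ U k z ≤ M)
    (hV : ∀ z ∈ Metric.ball (0 : Fin n → ℂ) R, m ≤ V z ∧ V z ≤ M) :
    ∫⁻ z in Metric.ball (0 : Fin n → ℂ) R,
        V z * (∏ i, ‖z i‖ₑ ^ (2 * b i)) * (∑ k, U k z * ∏ i, ‖z i‖ₑ ^ (2 * β k i)) ^ (-c) < ∞ ↔
      ∀ w : Fin n → ℝ, (∀ i, 0 ≤ w i) → w ≠ 0 → ∃ k, c * ∑ i, w i * β k i < ∑ i, w i * (b i + 1) := by
  have hmM : m ≤ M := (hV 0 (Metric.mem_ball_self hR)).1.trans (hV 0 (Metric.mem_ball_self hR)).2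
  have hM0 : M ≠ 0 := fun h => hm (le_antisymm (h ▸ hmM) bot_le)
  have hmt : m ≠ ∞ := fun h => hM (le_antisymm le_top (h ▸ hmM))
  rw [← r242_howald β hβ b c hc R hR]
  have hms : MeasurableSet (Metric.ball (0 : Fin n → ℂ) R) := Metric.isOpen_ball.measurableSet
  constructor
  · intro h
    have h1 : (m * (M ^ c)⁻¹) * ∫⁻ z in Metric.ball (0 : Fin n → ℂ) R,
        (∏ i, ‖z i‖ₑ ^ (2 * b i)) * (∑ k, ∏ i, ‖z i‖ₑ ^ (2 * β k i)) ^ (-c) < ∞ := by
      refine lt_of_le_of_lt ?_ h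
      rw [← lintegral_const_mul' _ _ (ENNReal.mul_ne_top hmt
        (ENNReal.inv_ne_top.2 (r242_rpow_ne_zero M c hc hM0)))]
      refine setLIntegral_mono' hms fun z hz => ?_
      have h2 := (r242_sum_units_rpow c hc (fun k => U k z) (fun k => ∏ i, ‖z i‖ₑ ^ (2 * β k i))
        m M hm hM hmM fun k => hU k z hz).1
      calc m * (M ^ c)⁻¹ * ((∏ i, ‖z i‖ₑ ^ (2 * b i)) * (∑ k, ∏ i, ‖z i‖ₑ ^ (2 * β k i)) ^ (-c))
          = m * (∏ i, ‖z i‖ₑ ^ (2 * b i)) * ((M ^ c)⁻¹ * (∑ k, ∏ i, ‖z i‖ₑ ^ (2 * β k i)) ^ (-c)) := by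
            ring
        _ ≤ _ := mul_le_mul' (mul_le_mul_left (hV z hz).1 _) h2
    by_contra hcon
    rw [not_lt, top_le_iff] at hcon
    rw [hcon, ENNReal.mul_top] at h1
    · exact lt_irrefl _ h1
    · exact mul_ne_zero hm (ENNReal.inv_ne_zero.2 (ENNReal.rpow_ne_top_of_nonneg hc hM))
  · intro h
    have h1 : ∫⁻ z in Metric.ball (0 : Fin n → ℂ) R,
        V z * (∏ i, ‖z i‖ₑ ^ (2 * b i)) * (∑ k, U k z * ∏ i, ‖z i‖ₑ ^ (2 * β k i)) ^ (-c)
        ≤ (M * (m ^ c)⁻¹) * ∫⁻ z in Metric.ball (0 : Fin n → ℂ) R,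
        (∏ i, ‖z i‖ₑ ^ (2 * b i)) * (∑ k, ∏ i, ‖z i‖ₑ ^ (2 * β k i)) ^ (-c) := by
      rw [← lintegral_const_mul' _ _ (ENNReal.mul_ne_top hM
        (ENNReal.inv_ne_top.2 (r242_rpow_ne_zero m c hc hm)))]
      refine setLIntegral_mono' hms fun z hz => ?_
      have h2 := (r242_sum_units_rpow c hc (fun k => U k z) (fun k => ∏ i, ‖z i‖ₑ ^ (2 * β k i))
        m M hm hM hmM fun k => hU k z hz).2
      calc V z * (∏ i, ‖z i‖ₑ ^ (2 * b i)) * (∑ k, U k z * ∏ i, ‖z i‖ₑ ^ (2 * β k i)) ^ (-c)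
          ≤ M * (∏ i, ‖z i‖ₑ ^ (2 * b i)) * ((m ^ c)⁻¹ * (∑ k, ∏ i, ‖z i‖ₑ ^ (2 * β k i)) ^ (-c)) :=
            mul_le_mul' (mul_le_mul_left (hV z hz).2 _) h2
        _ = _ := by ring
    exact lt_of_le_of_lt h1 (ENNReal.mul_lt_top (ENNReal.mul_lt_top hM.lt_top
      (ENNReal.inv_ne_top.2 (r242_rpow_ne_zero m c hc hm)).lt_top) h)

theorem r242_setLIntegral_ball_sub (a : Fin n → ℂ) (R : ℝ) (G : (Fin n → ℂ) → ℝ≥0∞) :
    ∫⁻ z in Metric.ball a R, G (z - a) = ∫⁻ z in Metric.ball (0 : Fin n → ℂ) R, G z := by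
  rw [← lintegral_indicator Metric.isOpen_ball.measurableSet,
    ← lintegral_indicator Metric.isOpen_ball.measurableSet,
    ← lintegral_sub_right_eq_self ((Metric.ball (0 : Fin n → ℂ) R).indicator G) a]
  refine lintegral_congr fun z => ?_
  have : z ∈ Metric.ball a R ↔ z - a ∈ Metric.ball (0 : Fin n → ℂ) R := by
    rw [mem_ball_zero_iff, mem_ball_iff_norm]
  by_cases hz : z ∈ Metric.ball a R
  · rw [indicator_of_mem hz, indicator_of_mem (this.1 hz)]
  · rw [indicator_of_notMem hz, indicator_of_notMem (fun h => hz (this.2 h))]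

/-- **E2: Howald with unit factors, centred at an arbitrary point `a`.** -/
theorem r242_howald_units_at [NeZero N] (a : Fin n → ℂ) (β : Fin N → Fin n → ℝ) (hβ : ∀ k i, 0 ≤ β k i)
    (b : Fin n → ℝ) (c : ℝ) (hc : 0 ≤ c) (R : ℝ) (hR : 0 < R)
    (U : Fin N → (Fin n → ℂ) → ℝ≥0∞) (V : (Fin n → ℂ) → ℝ≥0∞) (m M : ℝ≥0∞)
    (hm : m ≠ 0) (hM : M ≠ ∞)
    (hU : ∀ k, ∀ z ∈ Metric.ball a R, m ≤ U k z ∧ U k z ≤ M)
    (hV : ∀ z ∈ Metric.ball a R, m ≤ V z ∧ V z ≤ M) :
    ∫⁻ z in Metric.ball a R, V z * (∏ i, ‖z i - a i‖ₑ ^ (2 * b i)) *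
        (∑ k, U k z * ∏ i, ‖z i - a i‖ₑ ^ (2 * β k i)) ^ (-c) < ∞ ↔
      ∀ w : Fin n → ℝ, (∀ i, 0 ≤ w i) → w ≠ 0 → ∃ k, c * ∑ i, w i * β k i < ∑ i, w i * (b i + 1) := by
  have hmem : ∀ z ∈ Metric.ball (0 : Fin n → ℂ) R, z + a ∈ Metric.ball a R := by
    intro z hz
    rw [mem_ball_iff_norm, add_sub_cancel_right]
    exact mem_ball_zero_iff.1 hz
  have h := r242_setLIntegral_ball_sub a R (fun z => V (z + a) * (∏ i, ‖z i‖ₑ ^ (2 * b i)) *
    (∑ k, U k (z + a) * ∏ i, ‖z i‖ₑ ^ (2 * β k i)) ^ (-c))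
  simp only [sub_add_cancel, Pi.sub_apply] at h
  rw [h]
  exact r242_howald_units β hβ b c hc R hR (fun k z => U k (z + a)) (fun z => V (z + a)) m M hm hM
    (fun k z hz => hU k _ (hmem z hz)) (fun z hz => hV _ (hmem z hz))

theorem r242_ae_ne_zero : ∀ᵐ z : Fin n → ℂ, ∀ i, z i ≠ 0 := by
  rw [ae_all_iff]
  intro i
  rw [volume_pi]
  exact Measure.ae_eval_ne _ i 0

/-- T1 on a polydisc -/
theorem r242_lintegral_logpolar_ball (F : (Fin n → ℝ) → ℝ≥0∞) (hF : Measurable F) (R : ℝ) (hR : 0 < R) :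
    ∫⁻ z in Metric.ball (0 : Fin n → ℂ) R, F (fun i => -Real.log ‖z i‖)
      = ∫⁻ t in r242_orth n (-Real.log R), (∏ i, r242_rho (t i)) * F t := by
  rw [← lintegral_indicator Metric.isOpen_ball.measurableSet,
    ← lintegral_indicator (r242_orth_measurable n _)]
  have h2 : ∫⁻ z : Fin n → ℂ, (Metric.ball (0 : Fin n → ℂ) R).indicator
        (fun z => F (fun i => -Real.log ‖z i‖)) z
      = ∫⁻ z : Fin n → ℂ, (r242_orth n (-Real.log R)).indicator F (fun i => -Real.log ‖z i‖) := by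
    refine lintegral_congr_ae ?_
    filter_upwards [r242_ae_ne_zero] with z hz
    by_cases hzb : z ∈ Metric.ball (0 : Fin n → ℂ) R
    · rw [indicator_of_mem hzb, indicator_of_mem ((r242_mem_ball_iff z hz R hR).1 hzb)]
    · rw [indicator_of_notMem hzb,
        indicator_of_notMem (fun h => hzb ((r242_mem_ball_iff z hz R hR).2 h))]
  rw [h2, r242_lintegral_logpolar _ (hF.indicator (r242_orth_measurable n _))]
  refine lintegral_congr fun t => ?_
  by_cases ht : t ∈ r242_orth n (-Real.log R)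
  · rw [indicator_of_mem ht, indicator_of_mem ht]
  · rw [indicator_of_notMem ht, indicator_of_notMem ht, mul_zero]

/-- lower bounds transfer to logarithmic coordinates -/
theorem r242_logpolar_le (Φ : (Fin n → ℂ) → ℝ≥0∞) (F : (Fin n → ℝ) → ℝ≥0∞) (hF : Measurable F)
    (R : ℝ) (hR : 0 < R)
    (h : ∀ z ∈ Metric.ball (0 : Fin n → ℂ) R, (∀ i, z i ≠ 0) → F (fun i => -Real.log ‖z i‖) ≤ Φ z) :
    ∫⁻ t in r242_orth n (-Real.log R), (∏ i, r242_rho (t i)) * F t
      ≤ ∫⁻ z in Metric.ball (0 : Fin n → ℂ) R, Φ z := by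
  rw [← r242_lintegral_logpolar_ball F hF R hR]
  refine lintegral_mono_ae ?_
  rw [ae_restrict_iff' Metric.isOpen_ball.measurableSet]
  filter_upwards [r242_ae_ne_zero] with z hz hzb
  exact h z hzb hz

/-- upper bounds transfer to logarithmic coordinates -/
theorem r242_le_logpolar (Φ : (Fin n → ℂ) → ℝ≥0∞) (F : (Fin n → ℝ) → ℝ≥0∞) (hF : Measurable F)
    (R : ℝ) (hR : 0 < R)
    (h : ∀ z ∈ Metric.ball (0 : Fin n → ℂ) R, (∀ i, z i ≠ 0) → Φ z ≤ F (fun i => -Real.log ‖z i‖)) :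
    ∫⁻ z in Metric.ball (0 : Fin n → ℂ) R, Φ z
      ≤ ∫⁻ t in r242_orth n (-Real.log R), (∏ i, r242_rho (t i)) * F t := by
  rw [← r242_lintegral_logpolar_ball F hF R hR]
  refine lintegral_mono_ae ?_
  rw [ae_restrict_iff' Metric.isOpen_ball.measurableSet]
  filter_upwards [r242_ae_ne_zero] with z hz hzb
  exact h z hzb hz

/-- **E3: the tube lemma** (`test ⇒ not integrable`). -/
theorem r242_tube_eq_top (Φ : (Fin n → ℂ) → ℝ≥0∞) (R ρ κ : ℝ) (hρ : 0 < ρ) (hρR : ρ ≤ R) (hκ : 0 < κ)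
    (u : Fin n → ℝ) (hu : ∀ i, 0 ≤ u i) (hu0 : u ≠ 0)
    (h : ∀ (s : ℝ) (z : Fin n → ℂ), 0 ≤ s →
      (∀ i, ρ * Real.exp (-(s * u i) - 1) < ‖z i‖ ∧ ‖z i‖ < ρ * Real.exp (-(s * u i))) →
      ENNReal.ofReal (κ * Real.exp (2 * s * ∑ i, u i)) ≤ Φ z) :
    ∫⁻ z in Metric.ball (0 : Fin n → ℂ) R, Φ z = ∞ := by
  have hR : 0 < R := lt_of_lt_of_le hρ hρR
  set a0 : ℝ := -Real.log ρ with ha0
  let T : Set (Fin n → ℝ) := ⋃ s ∈ Ici (0 : ℝ), univ.pi fun i => Ioo (a0 + s * u i) (a0 + s * u i + 1)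
  have hT : MeasurableSet T := by
    refine IsOpen.measurableSet (isOpen_biUnion fun s _ => ?_)
    exact isOpen_set_pi finite_univ fun i _ => isOpen_Ioo
  set κ' : ℝ := κ * Real.exp (-2 * (n * (a0 + 1))) with hκ'
  have hκ'0 : 0 < κ' := by positivity
  let F : (Fin n → ℝ) → ℝ≥0∞ := T.indicator fun t => ENNReal.ofReal (κ' * Real.exp (2 * ∑ i, t i))
  have hF : Measurable F := by
    refine Measurable.indicator ?_ hT
    fun_prop
  have h1 := r242_logpolar_le Φ F hF R hR (by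
    intro z _ hz
    by_cases ht : (fun i => -Real.log ‖z i‖) ∈ T
    · simp only [F, indicator_of_mem ht]
      obtain ⟨s, hs, hst⟩ := mem_iUnion₂.1 ht
      have hs0 : (0 : ℝ) ≤ s := hs
      refine le_trans (ENNReal.ofReal_le_ofReal ?_) (h s z hs0 fun i => ?_)
      · have h3 : ∑ i, -Real.log ‖z i‖ ≤ ∑ i, (a0 + s * u i + 1) :=
          Finset.sum_le_sum fun i _ => (hst i (mem_univ _)).2.le
        have h4 : ∑ i, (a0 + s * u i + 1) = n * (a0 + 1) + s * ∑ i, u i := by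
          simp only [Finset.sum_add_distrib, Finset.mul_sum, Finset.sum_const, Finset.card_univ,
            Fintype.card_fin, nsmul_eq_mul]
          ring
        rw [hκ', mul_assoc, ← Real.exp_add]
        refine mul_le_mul_of_nonneg_left (Real.exp_le_exp.2 ?_) hκ.le
        nlinarith [h3, h4]
      · have h5 := hst i (mem_univ _)
        have hzi : 0 < ‖z i‖ := norm_pos_iff.2 (hz i)
        constructor
        · rw [← Real.exp_log hρ, ← Real.exp_add, ← Real.lt_log_iff_exp_lt hzi]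
          linarith [h5.2]
        · rw [← Real.exp_log hρ, ← Real.exp_add, ← Real.log_lt_iff_lt_exp hzi]
          linarith [h5.1]
    · simp only [F, indicator_of_notMem ht]
      exact bot_le)
  refine top_le_iff.1 (le_trans (le_of_eq ?_) h1)
  symm
  refine r242_orth_eq_top _ _ ((2 * Real.pi) ^ n * κ') (by positivity) (fun _ => a0) u ?_ hu hu0 ?_
  · intro _
    rw [ha0, neg_le_neg_iff]
    exact Real.log_le_log hρ hρR
  · intro s v hs hv
    have ht : (fun i => a0 + s * u i + v i) ∈ T := by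
      refine mem_iUnion₂.2 ⟨s, hs, fun i _ => ?_⟩
      constructor <;> linarith [(hv i).1, (hv i).2]
    simp only [F, indicator_of_mem ht]
    rw [r242_prod_rho, ← ENNReal.ofReal_mul (by positivity)]
    refine ENNReal.ofReal_le_ofReal (le_of_eq ?_)
    have : Real.exp (-2 * ∑ i, (a0 + s * u i + v i)) * Real.exp (2 * ∑ i, (a0 + s * u i + v i)) = 1 := by
      rw [← Real.exp_add]
      simp
    calc (2 * Real.pi) ^ n * κ' = (2 * Real.pi) ^ n * κ' * (Real.exp (-2 * ∑ i, (a0 + s * u i + v i)) * Real.exp (2 * ∑ i, (a0 + s * u i + v i))) := by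
          rw [this, mul_one]
      _ = _ := by ring

/-- the real determinant of a complex linear map is `|det_ℂ|²` -/
theorem r242_det_restrictScalars (L : (Fin n → ℂ) →L[ℂ] (Fin n → ℂ)) :
    (L.restrictScalars ℝ).det = ‖L.det‖ ^ 2 := by
  have h := LinearMap.det_restrictScalars (R := ℝ) (f := (L : (Fin n → ℂ) →ₗ[ℂ] (Fin n → ℂ)))
  rw [Algebra.norm_complex_apply, Complex.normSq_eq_norm_sq] at h
  exact h

/-- **E4: change of variables for injective holomorphic maps.** -/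
theorem r242_lintegral_image_holo (S : Set (Fin n → ℂ)) (hS : MeasurableSet S)
    (π : (Fin n → ℂ) → (Fin n → ℂ)) (π' : (Fin n → ℂ) → ((Fin n → ℂ) →L[ℂ] (Fin n → ℂ)))
    (hπ : ∀ y ∈ S, HasFDerivWithinAt π (π' y) S y) (hinj : InjOn π S) (Φ : (Fin n → ℂ) → ℝ≥0∞) :
    ∫⁻ x in π '' S, Φ x = ∫⁻ y in S, ‖(π' y).det‖ₑ ^ 2 * Φ (π y) := by
  rw [lintegral_image_eq_lintegral_abs_det_fderiv_mul volume hS
    (f' := fun y => (π' y).restrictScalars ℝ) (fun y hy => (hπ y hy).restrictScalars ℝ) hinj Φ]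
  refine lintegral_congr fun y => ?_
  rw [r242_det_restrictScalars, abs_of_nonneg (by positivity), ENNReal.ofReal_pow (norm_nonneg _),
    ofReal_norm]

/-- **E4'**: the map is holomorphic on the open set `D` and injective on the part of the measurable set
`K ⊆ D` off the coordinate hyperplanes. -/
theorem r242_lintegral_image_holo_ae (D K : Set (Fin n → ℂ)) (hD : IsOpen D) (hKD : K ⊆ D)
    (hK : MeasurableSet K) (π : (Fin n → ℂ) → (Fin n → ℂ)) (hπ : DifferentiableOn ℂ π D)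
    (hinj : InjOn π {y | y ∈ K ∧ ∀ j, y j ≠ 0}) (Φ : (Fin n → ℂ) → ℝ≥0∞) :
    ∫⁻ x in π '' K, Φ x = ∫⁻ y in K, ‖(fderiv ℂ π y).det‖ₑ ^ 2 * Φ (π y) := by
  set K0 : Set (Fin n → ℂ) := {y | y ∈ K ∧ ∀ j, y j ≠ 0} with hK0
  have hK0m : MeasurableSet K0 := by
    have : K0 = K ∩ ⋂ j, {y : Fin n → ℂ | y j ≠ 0} := by
      ext y; simp [hK0]
    rw [this]
    refine hK.inter (MeasurableSet.iInter fun j => ?_)
    exact (measurableSet_eq_fun (measurable_pi_apply j) measurable_const).compl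
  have hnull : volume (K \ K0) = 0 := by
    refine measure_mono_null ?_ (ae_iff.1 (r242_ae_ne_zero (n := n)))
    intro y hy
    exact fun h => hy.2 ⟨hy.1, h⟩
  have hKK : K = K0 ∪ (K \ K0) := by
    rw [union_sdiff_cancel]
    exact fun y hy => hy.1
  have e1 : (K : Set (Fin n → ℂ)) =ᵐ[volume] K0 := by
    conv_lhs => rw [hKK]
    exact union_ae_eq_left_of_ae_eq_empty (ae_eq_empty.2 hnull)
  have e2 : (π '' K : Set (Fin n → ℂ)) =ᵐ[volume] π '' K0 := by
    conv_lhs => rw [hKK, image_union]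
    refine union_ae_eq_left_of_ae_eq_empty (ae_eq_empty.2 ?_)
    refine addHaar_image_eq_zero_of_differentiableOn_of_addHaar_eq_zero volume ?_ hnull
    exact ((hπ.mono hKD).mono sdiff_subset).restrictScalars ℝ
  rw [setLIntegral_congr e1, setLIntegral_congr e2]
  refine r242_lintegral_image_holo K0 hK0m π (fderiv ℂ π) (fun y hy => ?_) hinj Φ
  exact ((hπ y (hKD hy.1)).differentiableAt (hD.mem_nhds (hKD hy.1))).hasFDerivAt.hasFDerivWithinAt

theorem r242_lintegral_biUnion_finset_le {α ι : Type*} {mα : MeasurableSpace α} (μ : Measure α)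
    (s : Finset ι) (t : ι → Set α) (f : α → ℝ≥0∞) :
    ∫⁻ a in ⋃ j ∈ s, t j, f a ∂μ ≤ ∑ j ∈ s, ∫⁻ a in t j, f a ∂μ := by
  classical
  induction s using Finset.induction_on with
  | empty => simp
  | insert j s hj ih =>
    rw [Finset.sum_insert hj, Finset.set_biUnion_insert]
    exact (lintegral_union_le _ _ _).trans (add_le_add le_rfl ih)

/-- auxiliary: a measurable set covered by finitely many measurable sets of injectivity -/
theorem r242_lintegral_image_le_aux {ι : Type*} (D : Set (Fin n → ℂ)) (hD : IsOpen D)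
    (π : (Fin n → ℂ) → (Fin n → ℂ)) (hπ : DifferentiableOn ℂ π D)
    (A : ι → Set (Fin n → ℂ)) (hA : ∀ j, MeasurableSet (A j)) (hinj : ∀ j, InjOn π (A j))
    (Φ : (Fin n → ℂ) → ℝ≥0∞) (s : Finset ι) :
    ∀ K : Set (Fin n → ℂ), K ⊆ D → MeasurableSet K → K ⊆ ⋃ j ∈ s, A j →
      ∫⁻ x in π '' K, Φ x ≤ ∫⁻ y in K, ‖(fderiv ℂ π y).det‖ₑ ^ 2 * Φ (π y) := by
  classical
  induction s using Finset.induction_on with
  | empty =>
    intro K _ _ hK
    have : K = ∅ := by
      rw [← subset_empty_iff]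
      simpa using hK
    simp [this]
  | insert j s hj ih =>
    intro K hKD hK hKs
    have h1 : K \ A j ⊆ ⋃ i ∈ s, A i := by
      intro y hy
      have := hKs hy.1
      simp only [Finset.mem_insert, iUnion_iUnion_eq_or_left, mem_union] at this
      exact this.resolve_left hy.2
    have h2 := ih (K \ A j) (sdiff_subset.trans hKD) (hK.diff (hA j)) h1
    have h3 : ∫⁻ x in π '' (K ∩ A j), Φ x
        = ∫⁻ y in K ∩ A j, ‖(fderiv ℂ π y).det‖ₑ ^ 2 * Φ (π y) :=
      r242_lintegral_image_holo (K ∩ A j) (hK.inter (hA j)) π (fderiv ℂ π)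
        (fun y hy => ((hπ y (hKD hy.1)).differentiableAt
          (hD.mem_nhds (hKD hy.1))).hasFDerivAt.hasFDerivWithinAt)
        ((hinj j).mono inter_subset_right) Φ
    calc ∫⁻ x in π '' K, Φ x = ∫⁻ x in π '' (K ∩ A j) ∪ π '' (K \ A j), Φ x := by
          rw [← image_union, inter_union_sdiff]
      _ ≤ (∫⁻ x in π '' (K ∩ A j), Φ x) + ∫⁻ x in π '' (K \ A j), Φ x := lintegral_union_le _ _ _
      _ ≤ (∫⁻ y in K ∩ A j, ‖(fderiv ℂ π y).det‖ₑ ^ 2 * Φ (π y))
          + ∫⁻ y in K \ A j, ‖(fderiv ℂ π y).det‖ₑ ^ 2 * Φ (π y) := add_le_add h3.le h2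
      _ = _ := lintegral_inter_add_sdiff _ _ (hA j)

/-- **E5a**: `π` holomorphic on the open set `D`; the part of `K` where the Jacobian does not vanish is
covered by finitely many measurable sets on which `π` is injective.  Then
`∫_{π(K)} Φ ≤ ∫_K |Jac π|² Φ∘π`. -/
theorem r242_lintegral_image_le {ι : Type*} (D K : Set (Fin n → ℂ)) (hD : IsOpen D) (hKD : K ⊆ D)
    (hK : MeasurableSet K) (π : (Fin n → ℂ) → (Fin n → ℂ)) (hπ : DifferentiableOn ℂ π D)
    (s : Finset ι) (A : ι → Set (Fin n → ℂ)) (hA : ∀ j, MeasurableSet (A j))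
    (hinj : ∀ j, InjOn π (A j))
    (hcov : ∀ y ∈ K, (fderiv ℂ π y).det ≠ 0 → y ∈ ⋃ j ∈ s, A j) (Φ : (Fin n → ℂ) → ℝ≥0∞) :
    ∫⁻ x in π '' K, Φ x ≤ ∫⁻ y in K, ‖(fderiv ℂ π y).det‖ₑ ^ 2 * Φ (π y) := by
  set B : Set (Fin n → ℂ) := ⋃ j ∈ s, A j with hB
  have hBm : MeasurableSet B := Finset.measurableSet_biUnion s fun j _ => hA j
  have h1 := r242_lintegral_image_le_aux D hD π hπ A hA hinj Φ s (K ∩ B)
    (inter_subset_left.trans hKD) (hK.inter hBm) inter_subset_right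
  have h2 : volume (π '' (K \ B)) = 0 := by
    refine addHaar_image_eq_zero_of_det_fderivWithin_eq_zero volume
      (f' := fun y => (fderiv ℂ π y).restrictScalars ℝ) (fun y hy => ?_) (fun y hy => ?_)
    · exact (((hπ y (hKD hy.1)).differentiableAt
        (hD.mem_nhds (hKD hy.1))).hasFDerivAt.restrictScalars ℝ).hasFDerivWithinAt
    · rw [r242_det_restrictScalars]
      have : (fderiv ℂ π y).det = 0 := by
        by_contra hne
        exact hy.2 (hcov y hy.1 hne)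
      rw [this]
      simp
  calc ∫⁻ x in π '' K, Φ x = ∫⁻ x in π '' (K ∩ B) ∪ π '' (K \ B), Φ x := by
        rw [← image_union, inter_union_sdiff]
    _ ≤ (∫⁻ x in π '' (K ∩ B), Φ x) + ∫⁻ x in π '' (K \ B), Φ x := lintegral_union_le _ _ _
    _ = ∫⁻ x in π '' (K ∩ B), Φ x := by rw [setLIntegral_measure_zero _ _ h2, add_zero]
    _ ≤ ∫⁻ y in K ∩ B, ‖(fderiv ℂ π y).det‖ₑ ^ 2 * Φ (π y) := h1
    _ ≤ _ := lintegral_mono_set inter_subset_left

/-- **E5b**: in the same situation `∫_K |Jac π|² Φ∘π ≤ (number of pieces) · ∫_{π(K)} Φ`. -/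
theorem r242_lintegral_le_card_image {ι : Type*} (D K : Set (Fin n → ℂ)) (hD : IsOpen D) (hKD : K ⊆ D)
    (hK : MeasurableSet K) (π : (Fin n → ℂ) → (Fin n → ℂ)) (hπ : DifferentiableOn ℂ π D)
    (s : Finset ι) (A : ι → Set (Fin n → ℂ)) (hA : ∀ j, MeasurableSet (A j))
    (hinj : ∀ j, InjOn π (A j))
    (hcov : ∀ y ∈ K, (fderiv ℂ π y).det ≠ 0 → y ∈ ⋃ j ∈ s, A j) (Φ : (Fin n → ℂ) → ℝ≥0∞) :
    ∫⁻ y in K, ‖(fderiv ℂ π y).det‖ₑ ^ 2 * Φ (π y) ≤ s.card * ∫⁻ x in π '' K, Φ x := by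
  set B : Set (Fin n → ℂ) := ⋃ j ∈ s, A j with hB
  have hBm : MeasurableSet B := Finset.measurableSet_biUnion s fun j _ => hA j
  have h0 : ∫⁻ y in K \ B, ‖(fderiv ℂ π y).det‖ₑ ^ 2 * Φ (π y) = 0 := by
    rw [setLIntegral_congr_fun (g := fun _ => 0) (hK.diff hBm) (fun y hy => ?_)]
    · simp
    · have : (fderiv ℂ π y).det = 0 := by
        by_contra hne
        exact hy.2 (hcov y hy.1 hne)
      simp [this]
  have h1 : ∀ j, ∫⁻ y in K ∩ A j, ‖(fderiv ℂ π y).det‖ₑ ^ 2 * Φ (π y) ≤ ∫⁻ x in π '' K, Φ x := by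
    intro j
    rw [← r242_lintegral_image_holo (K ∩ A j) (hK.inter (hA j)) π (fderiv ℂ π)
        (fun y hy => ((hπ y (hKD hy.1)).differentiableAt
          (hD.mem_nhds (hKD hy.1))).hasFDerivAt.hasFDerivWithinAt)
        ((hinj j).mono inter_subset_right) Φ]
    exact lintegral_mono_set (image_mono inter_subset_left)
  calc ∫⁻ y in K, ‖(fderiv ℂ π y).det‖ₑ ^ 2 * Φ (π y)
      = ∫⁻ y in K ∩ B, ‖(fderiv ℂ π y).det‖ₑ ^ 2 * Φ (π y) := by
        rw [← lintegral_inter_add_sdiff _ K hBm, h0, add_zero]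
    _ = ∫⁻ y in ⋃ j ∈ s, (K ∩ A j), ‖(fderiv ℂ π y).det‖ₑ ^ 2 * Φ (π y) := by
        rw [hB, inter_iUnion₂]
    _ ≤ ∑ j ∈ s, ∫⁻ y in K ∩ A j, ‖(fderiv ℂ π y).det‖ₑ ^ 2 * Φ (π y) :=
        r242_lintegral_biUnion_finset_le _ _ _ _
    _ ≤ ∑ _j ∈ s, ∫⁻ x in π '' K, Φ x := Finset.sum_le_sum fun j _ => h1 j
    _ = _ := by rw [Finset.sum_const, nsmul_eq_mul]

end HowaldExtras

section HowaldIdx

variable {n : ℕ}

/-- **E6: Howald with unit factors, arbitrary centre, arbitrary finite nonempty index type.** -/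
theorem r242_howald_units_idx {κ : Type*} [Fintype κ] [Nonempty κ] (a : Fin n → ℂ) (β : κ → Fin n → ℝ)
    (hβ : ∀ k i, 0 ≤ β k i) (b : Fin n → ℝ) (c : ℝ) (hc : 0 ≤ c) (R : ℝ) (hR : 0 < R)
    (U : κ → (Fin n → ℂ) → ℝ≥0∞) (V : (Fin n → ℂ) → ℝ≥0∞) (m M : ℝ≥0∞)
    (hm : m ≠ 0) (hM : M ≠ ∞)
    (hU : ∀ k, ∀ z ∈ Metric.ball a R, m ≤ U k z ∧ U k z ≤ M)
    (hV : ∀ z ∈ Metric.ball a R, m ≤ V z ∧ V z ≤ M) :
    ∫⁻ z in Metric.ball a R, V z * (∏ i, ‖z i - a i‖ₑ ^ (2 * b i)) *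
        (∑ k, U k z * ∏ i, ‖z i - a i‖ₑ ^ (2 * β k i)) ^ (-c) < ∞ ↔
      ∀ w : Fin n → ℝ, (∀ i, 0 ≤ w i) → w ≠ 0 → ∃ k, c * ∑ i, w i * β k i < ∑ i, w i * (b i + 1) := by
  classical
  set e := Fintype.equivFin κ with he
  have : NeZero (Fintype.card κ) := ⟨Fintype.card_ne_zero⟩
  have h := r242_howald_units_at a (fun k => β (e.symm k)) (fun k i => hβ _ i) b c hc R hR
    (fun k => U (e.symm k)) V m M hm hM (fun k => hU _) hV
  have hsum : ∀ z : Fin n → ℂ, ∑ k, U (e.symm k) z * ∏ i, ‖z i - a i‖ₑ ^ (2 * β (e.symm k) i)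
      = ∑ k, U k z * ∏ i, ‖z i - a i‖ₑ ^ (2 * β k i) := fun z =>
    Equiv.sum_comp e.symm fun k => U k z * ∏ i, ‖z i - a i‖ₑ ^ (2 * β k i)
  simp only [hsum] at h
  rw [h]
  refine forall_congr' fun w => forall_congr' fun _ => forall_congr' fun _ => ?_
  constructor
  · rintro ⟨k, hk⟩; exact ⟨_, hk⟩
  · rintro ⟨k, hk⟩; exact ⟨e k, by simpa using hk⟩

/-- finitely many positive continuous functions on a compact set have common bounds. -/
theorem r242_common_bounds {X κ : Type*} [TopologicalSpace X] [Fintype κ] (K : Set X) (hK : IsCompact K)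
    (v : κ → X → ℝ) (hc : ∀ k, ContinuousOn (v k) K) (h0 : ∀ k, ∀ x ∈ K, 0 < v k x) :
    ∃ M : ℝ, 0 < M ∧ ∀ k, ∀ x ∈ K, M⁻¹ ≤ v k x ∧ v k x ≤ M := by
  have hcont : ContinuousOn (fun x => ∑ k, (v k x + (v k x)⁻¹)) K :=
    continuousOn_finsetSum _ fun k _ => (hc k).add ((hc k).inv₀ fun x hx => (h0 k x hx).ne')
  obtain ⟨C, hC⟩ := hK.exists_bound_of_continuousOn hcont
  refine ⟨max C 1, by positivity, fun k x hx => ?_⟩
  have hpos := h0 k x hx
  have h1 : v k x + (v k x)⁻¹ ≤ ∑ k, (v k x + (v k x)⁻¹) :=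
    Finset.single_le_sum (f := fun k => v k x + (v k x)⁻¹)
      (fun k _ => by have := h0 k x hx; positivity) (Finset.mem_univ k)
  have h2 : ∑ k, (v k x + (v k x)⁻¹) ≤ C := (le_abs_self _).trans (hC x hx)
  have h3 : (v k x)⁻¹ ≤ max C 1 := by
    have : 0 < (v k x)⁻¹ := by positivity
    exact le_trans (by linarith) (le_max_left _ _)
  have h4 : v k x ≤ max C 1 := by
    have : 0 < (v k x)⁻¹ := by positivity
    exact le_trans (by linarith) (le_max_left _ _)
  refine ⟨?_, h4⟩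
  rw [inv_le_comm₀ (by positivity) hpos]
  exact h3

/-- **E7: Howald with continuous positive unit factors on the closed polydisc.** -/
theorem r242_howald_cont {κ : Type*} [Fintype κ] [Nonempty κ] (a : Fin n → ℂ) (β : κ → Fin n → ℝ)
    (hβ : ∀ k i, 0 ≤ β k i) (b : Fin n → ℝ) (c : ℝ) (hc : 0 ≤ c) (R : ℝ) (hR : 0 < R)
    (U : κ → (Fin n → ℂ) → ℝ) (V : (Fin n → ℂ) → ℝ)
    (hUc : ∀ k, ContinuousOn (U k) (Metric.closedBall a R))
    (hU0 : ∀ k, ∀ z ∈ Metric.closedBall a R, 0 < U k z)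
    (hVc : ContinuousOn V (Metric.closedBall a R)) (hV0 : ∀ z ∈ Metric.closedBall a R, 0 < V z) :
    ∫⁻ z in Metric.ball a R, ENNReal.ofReal (V z) * (∏ i, ‖z i - a i‖ₑ ^ (2 * b i)) *
        (∑ k, ENNReal.ofReal (U k z) * ∏ i, ‖z i - a i‖ₑ ^ (2 * β k i)) ^ (-c) < ∞ ↔
      ∀ w : Fin n → ℝ, (∀ i, 0 ≤ w i) → w ≠ 0 → ∃ k, c * ∑ i, w i * β k i < ∑ i, w i * (b i + 1) := by
  obtain ⟨M, hM, hb⟩ := r242_common_bounds (κ := Option κ) (Metric.closedBall a R)
    (isCompact_closedBall a R) (fun o => o.elim V U)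
    (fun o => by cases o with
      | none => exact hVc
      | some k => exact hUc k)
    (fun o => by cases o with
      | none => exact hV0
      | some k => exact hU0 k)
  refine r242_howald_units_idx a β hβ b c hc R hR (fun k z => ENNReal.ofReal (U k z))
    (fun z => ENNReal.ofReal (V z)) (ENNReal.ofReal M⁻¹) (ENNReal.ofReal M)
    (by simpa using hM) ENNReal.ofReal_ne_top (fun k z hz => ?_) (fun z hz => ?_)
  · have := hb (some k) z (Metric.ball_subset_closedBall hz)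
    exact ⟨ENNReal.ofReal_le_ofReal this.1, ENNReal.ofReal_le_ofReal this.2⟩
  · have := hb none z (Metric.ball_subset_closedBall hz)
    exact ⟨ENNReal.ofReal_le_ofReal this.1, ENNReal.ofReal_le_ofReal this.2⟩

end HowaldIdx

end Claimed.Agent.R242
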