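/-
Row 242 (S0480), SCV layer: **`L²` Riemann extension** across the zero set of a holomorphic function.
Owner: helper249.

`E` = finite dimensional complex normed space with an additive Haar measure `μ`.
* `r242_analyticOnNhd_of_differentiableOn` : holomorphic on an open set ⇒ analytic (Osgood);
* `r242_removable_L2`   : one variable, `L²` near a puncture ⇒ removable singularity;
* `r242_ae_slice_lt_top`: an integrable function is locally integrable on almost every complex line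
                          of a given direction (Tonelli + translation invariance, no coordinates);
* `r242_rext_at`, `r242_rext` : `f` holomorphic off `{g = 0}`, locally `L²` ⇒ `f` extends;
* `r242_rext_div`       : if moreover `f / g` is locally `L²` then the extension is `g * H`;
* the forms on `Cn n` (`rext_hyperplane`, `rext_hyperplane_vanish`, `rext_zeroSet`) are at the end.
The slice extension theorem is taken from `R269/Lib/SCVa.lean` (helper270).
-/
import Claimed.Agent.R242.SCV.MVP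
import Claimed.Agent.R269.Lib.SCVa

set_option autoImplicit false

namespace Claimed.Agent.R242

open MeasureTheory Complex Metric Set Filter Topology
open scoped ContDiff ENNReal

variable {E : Type*} [NormedAddCommGroup E] [NormedSpace ℂ E] [FiniteDimensional ℂ E]

/-! ### Osgood -/

/-- A holomorphic function on an open subset of a finite dimensional space is analytic. -/
theorem r242_analyticOnNhd_of_differentiableOn {f : E → ℂ} {U : Set E} (hU : IsOpen U)
    (hf : DifferentiableOn ℂ f U) : AnalyticOnNhd ℂ f U := by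
  refine Claimed.Agent.R269.SCV.analyticOnNhd_of_contDiffOn_one hU ?_
  have hsm : ContDiffOn ℝ ∞ f U := r242_contDiffOn_of_differentiableOn hU hf
  have hdc : ContinuousOn (fderiv ℝ f) U := hsm.continuousOn_fderiv_of_isOpen hU (by simp)
  have hind : IsInducing (ContinuousLinearMap.restrictScalarsIsometry ℂ E ℂ ℝ ℝ) :=
    (ContinuousLinearMap.restrictScalarsIsometry ℂ E ℂ ℝ ℝ).isometry.isEmbedding.isInducing
  have hc : ContinuousOn (fderiv ℂ f) U := by
    rw [hind.continuousOn_iff]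
    refine hdc.congr fun z hz => ?_
    exact ((hf.differentiableAt (hU.mem_nhds hz)).fderiv_restrictScalars ℝ).symm
  have h1 : ContDiffOn ℂ ((0 : WithTop ℕ∞) + 1) f U :=
    (contDiffOn_succ_iff_fderiv_of_isOpen hU).2 ⟨hf, by simp, contDiffOn_zero.2 hc⟩
  simpa using h1

/-! ### One variable: `L²` singularities are removable -/

theorem r242_removable_L2 {φ : ℂ → ℂ} {ρ : ℝ} (hρ : 0 < ρ)
    (hd : DifferentiableOn ℂ φ (ball 0 ρ \ {0}))
    (hi : ∫⁻ t in ball (0 : ℂ) ρ \ {0}, ENNReal.ofReal (‖φ t‖ ^ 2) < ⊤) :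
    ∃ ψ : ℂ → ℂ, AnalyticAt ℂ ψ 0 ∧ ∀ᶠ t in 𝓝[≠] (0 : ℂ), φ t = ψ t := by
  set ν : Measure ℂ := volume.restrict (ball (0 : ℂ) ρ \ {0}) with hν
  -- the `L²` mass of small discs tends to zero
  have hsmall : Tendsto (fun δ : ℝ => ∫⁻ t in ball (0 : ℂ) δ, ENNReal.ofReal (‖φ t‖ ^ 2) ∂ν)
      (𝓝 0) (𝓝 0) := by
    refine tendsto_setLIntegral_zero hi.ne ?_
    have h1 : Tendsto (fun δ : ℝ => ENNReal.ofReal δ ^ 2 * (NNReal.pi : ℝ≥0∞)) (𝓝 0) (𝓝 0) := by
      have h2 : Tendsto (fun δ : ℝ => ENNReal.ofReal δ) (𝓝 0) (𝓝 0) := by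
        have := (ENNReal.continuous_ofReal.tendsto 0)
        simpa using this
      have h3 : Tendsto (fun δ : ℝ => ENNReal.ofReal δ ^ 2) (𝓝 0) (𝓝 0) := by
        have h4 := (ENNReal.continuous_pow 2).tendsto 0 |>.comp h2
        have h5 : ((0 : ℝ≥0∞) ^ 2) = 0 := by simp
        rw [h5] at h4
        exact h4
      have := ENNReal.Tendsto.mul_const h3 (Or.inr (ENNReal.coe_ne_top (r := NNReal.pi)))
      simpa using this
    refine tendsto_of_tendsto_of_tendsto_of_le_of_le tendsto_const_nhds h1 (fun _ => zero_le) ?_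
    intro δ
    calc ν (ball (0 : ℂ) δ) ≤ volume (ball (0 : ℂ) δ) := Measure.restrict_apply_le _ _
      _ = _ := Complex.volume_ball 0 δ
  -- pointwise bound
  have hpt : ∀ t : ℂ, t ≠ 0 → 2 * ‖t‖ < ρ →
      ENNReal.ofReal (‖φ t‖ ^ 2 * (‖t‖ / 2) ^ 2 * Real.pi) ≤
        ∫⁻ s in ball (0 : ℂ) (2 * ‖t‖), ENNReal.ofReal (‖φ s‖ ^ 2) ∂ν := by
    intro t ht htρ
    have htpos : 0 < ‖t‖ := norm_pos_iff.2 ht
    have hsub : ball t (‖t‖ / 2) ⊆ ball (0 : ℂ) (2 * ‖t‖) ∩ (ball (0 : ℂ) ρ \ {0}) := by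
      intro s hs
      have h1 : ‖s - t‖ < ‖t‖ / 2 := by simpa [dist_eq_norm] using hs
      have h2 : ‖s‖ ≤ ‖s - t‖ + ‖t‖ := by
        have := norm_add_le (s - t) t
        simpa using this
      have h3 : ‖t‖ ≤ ‖s - t‖ + ‖s‖ := by
        have := norm_sub_le s (s - t)
        simp only [sub_sub_cancel] at this
        linarith
      refine ⟨by simp only [mem_ball_zero_iff]; linarith, by simp only [mem_ball_zero_iff]; linarith, ?_⟩
      intro hs0
      have : s = 0 := hs0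
      rw [this, norm_zero] at h3
      simp only [this, zero_sub, norm_neg] at h1
      linarith
    have hd' : DifferentiableOn ℂ φ (ball t (‖t‖ / 2)) :=
      hd.mono fun s hs => (hsub hs).2
    have h4 := r242_sq_mul_le_lintegral (volume : Measure ℂ) hd'
    rw [Complex.volume_ball] at h4
    have h5 : ENNReal.ofReal (‖φ t‖ ^ 2 * (‖t‖ / 2) ^ 2 * Real.pi) =
        ENNReal.ofReal (‖φ t‖ ^ 2) * (ENNReal.ofReal (‖t‖ / 2) ^ 2 * (NNReal.pi : ℝ≥0∞)) := by
      rw [mul_assoc, ENNReal.ofReal_mul (by positivity), ENNReal.ofReal_mul (by positivity),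
        ENNReal.ofReal_pow (show 0 ≤ ‖t‖ / 2 by positivity), ← NNReal.coe_real_pi,
        ENNReal.ofReal_coe_nnreal]
    rw [h5]
    refine h4.trans ?_
    rw [hν, Measure.restrict_restrict measurableSet_ball]
    exact lintegral_mono_set hsub
  -- `t φ(t) → 0`
  have hlim : Tendsto (fun t : ℂ => ‖φ t‖ ^ 2 * (‖t‖ / 2) ^ 2 * Real.pi) (𝓝[≠] 0) (𝓝 0) := by
    have hn : Tendsto (fun t : ℂ => 2 * ‖t‖) (𝓝[≠] 0) (𝓝 0) := by
      have : Tendsto (fun t : ℂ => 2 * ‖t‖) (𝓝 0) (𝓝 (2 * ‖(0 : ℂ)‖)) :=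
        (continuous_const.mul continuous_norm).tendsto 0
      rw [norm_zero, mul_zero] at this
      exact this.mono_left nhdsWithin_le_nhds
    have h1 := hsmall.comp hn
    have hev : ∀ᶠ t : ℂ in 𝓝[≠] 0, ENNReal.ofReal (‖φ t‖ ^ 2 * (‖t‖ / 2) ^ 2 * Real.pi) ≤
        ∫⁻ s in ball (0 : ℂ) (2 * ‖t‖), ENNReal.ofReal (‖φ s‖ ^ 2) ∂ν := by
      filter_upwards [self_mem_nhdsWithin, hn.eventually (gt_mem_nhds hρ)] with t ht htρ
      exact hpt t ht htρ
    have h2 : Tendsto (fun t : ℂ => ENNReal.ofReal (‖φ t‖ ^ 2 * (‖t‖ / 2) ^ 2 * Real.pi))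
        (𝓝[≠] 0) (𝓝 0) :=
      tendsto_of_tendsto_of_tendsto_of_le_of_le' tendsto_const_nhds h1
        (Eventually.of_forall fun _ => zero_le) hev
    have h3 := (ENNReal.tendsto_toReal ENNReal.zero_ne_top).comp h2
    refine h3.congr fun t => ?_
    simp only [Function.comp]
    exact ENNReal.toReal_ofReal (by positivity)
  have ho : (fun t => φ t - φ 0) =o[𝓝[≠] (0 : ℂ)] fun t => (t - 0)⁻¹ := by
    have h1 : φ =o[𝓝[≠] (0 : ℂ)] fun t => (t - 0)⁻¹ := by
      rw [Asymptotics.isLittleO_iff]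
      intro c hc
      have hc' : 0 < c ^ 2 * Real.pi / 4 := by positivity
      filter_upwards [hlim.eventually (gt_mem_nhds hc'), self_mem_nhdsWithin] with t ht ht0
      have htpos : 0 < ‖t‖ := norm_pos_iff.2 ht0
      rw [sub_zero, norm_inv, ← div_eq_mul_inv, le_div_iff₀ htpos]
      have h2 : (‖φ t‖ * ‖t‖) ^ 2 < c ^ 2 := by
        have h3 : ‖φ t‖ ^ 2 * (‖t‖ / 2) ^ 2 * Real.pi = (‖φ t‖ * ‖t‖) ^ 2 * (Real.pi / 4) := by ring
        rw [h3] at ht
        have h4 : c ^ 2 * Real.pi / 4 = c ^ 2 * (Real.pi / 4) := by ring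
        rw [h4] at ht
        exact lt_of_mul_lt_mul_right ht (by positivity)
      exact (abs_lt_of_sq_lt_sq' h2 hc.le).2.le
    have h2 : (fun _ : ℂ => φ 0) =o[𝓝[≠] (0 : ℂ)] fun t => (t - 0)⁻¹ := by
      refine Asymptotics.isLittleO_const_left.2 (Or.inr ?_)
      have : Tendsto (fun t : ℂ => ‖t‖⁻¹) (𝓝[≠] 0) atTop := by
        have h3 : Tendsto (fun t : ℂ => ‖t‖) (𝓝[≠] 0) (𝓝[>] 0) := tendsto_norm_nhdsNE_zero
        exact tendsto_inv_nhdsGT_zero.comp h3
      refine this.congr fun t => ?_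
      simp
    exact h1.sub h2
  have h6 := Complex.differentiableOn_update_limUnder_of_isLittleO (ball_mem_nhds (0 : ℂ) hρ) hd ho
  refine ⟨_, h6.analyticAt (ball_mem_nhds 0 hρ), ?_⟩
  filter_upwards [self_mem_nhdsWithin] with t ht
  rw [Function.update_of_ne ht]

/-! ### Almost every slice of an integrable function is locally integrable -/

theorem r242_ae_slice_lt_top [MeasurableSpace E] [BorelSpace E] (μ : Measure E)
    [μ.IsAddHaarMeasure] {F : E → ℝ≥0∞} (hF : Measurable F) (hi : ∫⁻ x, F x ∂μ < ⊤) (v : E) :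
    ∀ᵐ x ∂μ, ∀ k : ℕ, ∫⁻ t in ball (0 : ℂ) k, F (x + t • v) < ⊤ := by
  rw [ae_all_iff]
  intro k
  have hc : Continuous fun q : E × ℂ => q.1 + q.2 • v := by fun_prop
  have hm : Measurable (fun q : E × ℂ => F (q.1 + q.2 • v)) := hF.comp hc.measurable
  have h1 : ∫⁻ x, (∫⁻ t in ball (0 : ℂ) k, F (x + t • v)) ∂μ =
      ∫⁻ t in ball (0 : ℂ) k, (∫⁻ x, F (x + t • v) ∂μ) :=
    lintegral_lintegral_swap (f := fun x t => F (x + t • v)) hm.aemeasurable
  have h2 : ∀ t : ℂ, ∫⁻ x, F (x + t • v) ∂μ = ∫⁻ x, F x ∂μ := fun t =>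
    lintegral_add_right_eq_self F (t • v)
  refine ae_lt_top (hm.lintegral_prod_right') ?_
  rw [h1]
  simp only [h2, lintegral_const, Measure.restrict_apply, MeasurableSet.univ, univ_inter]
  exact (ENNReal.mul_lt_top hi measure_ball_lt_top).ne

/-! ### The `L²` extension theorem -/

/-- `L²` Riemann extension, local form. -/
theorem r242_rext_at [MeasurableSpace E] [BorelSpace E] (μ : Measure E) [μ.IsAddHaarMeasure]
    {p : E} {g f : E → ℂ} (hg : AnalyticAt ℂ g p) (hg0 : ∃ᶠ y in 𝓝 p, g y ≠ 0)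
    (hf : ∀ᶠ x in 𝓝 p, g x ≠ 0 → AnalyticAt ℂ f x)
    (hi : ∃ r > 0, ∫⁻ x in ball p r ∩ {x | g x ≠ 0}, ENNReal.ofReal (‖f x‖ ^ 2) ∂μ < ⊤) :
    ∃ H : E → ℂ, AnalyticAt ℂ H p ∧ ∀ᶠ x in 𝓝 p, g x ≠ 0 → H x = f x := by
  classical
  obtain ⟨r, hr, hir⟩ := hi
  obtain ⟨δ, hδ, hall⟩ := Metric.eventually_nhds_iff_ball.1 (hg.eventually_analyticAt.and hf)
  set r' : ℝ := min r δ with hr'
  have hr'0 : 0 < r' := lt_min hr hδ
  have hopen : ∀ ε ≤ δ, IsOpen (ball p ε ∩ {x | g x ≠ 0}) := by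
    intro ε hε
    have hgc : ContinuousOn g (ball p ε) := fun x hx =>
      (hall x (ball_subset_ball hε hx)).1.continuousAt.continuousWithinAt
    exact hgc.isOpen_inter_preimage isOpen_ball (isOpen_ne (x := (0 : ℂ)))
  have hfc : ∀ ε ≤ δ, ContinuousOn f (ball p ε ∩ {x | g x ≠ 0}) := fun ε hε x hx =>
    ((hall x (ball_subset_ball hε hx.1)).2 hx.2).continuousAt.continuousWithinAt
  set S : Set E := ball p r' ∩ {x | g x ≠ 0} with hS
  have hSo : IsOpen S := hopen r' (min_le_right _ _)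
  set F : E → ℝ≥0∞ := S.indicator fun x => ENNReal.ofReal (‖f x‖ ^ 2) with hF
  have hFm : Measurable F := by
    rw [hF, ← Set.piecewise_eq_indicator]
    refine ContinuousOn.measurable_piecewise ?_ continuousOn_const hSo.measurableSet
    exact ENNReal.continuous_ofReal.comp_continuousOn
      (((hfc r' (min_le_right _ _)).norm).pow 2)
  have hFi : ∫⁻ x, F x ∂μ < ⊤ := by
    rw [hF, lintegral_indicator hSo.measurableSet]
    refine lt_of_le_of_lt (lintegral_mono_set ?_) hir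
    exact inter_subset_inter_left _ (ball_subset_ball (min_le_left _ _))
  obtain ⟨v, hv⟩ := Claimed.Agent.R269.SCV.exists_good_direction hg hg0
  set T : Set E := {x | ¬ ∀ k : ℕ, ∫⁻ t in ball (0 : ℂ) k, F (x + t • v) < ⊤} with hT
  have hT0 : ∀ᵐ x ∂μ, x ∉ T := by
    filter_upwards [r242_ae_slice_lt_top μ hFm hFi v] with x hx
    exact fun h => h hx
  have hTinv : ∀ x, x ∉ T → ∀ ζ : ℂ, x + ζ • v ∉ T := by
    intro x hx ζ
    have hx : ∀ k : ℕ, ∫⁻ t in ball (0 : ℂ) k, F (x + t • v) < ⊤ := not_not.1 hx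
    refine not_not.2 ?_
    intro k
    obtain ⟨k', hk'⟩ := exists_nat_ge ((k : ℝ) + ‖ζ‖)
    have hGm : Measurable fun s : ℂ => F (x + s • v) :=
      hFm.comp (by fun_prop : Continuous fun s : ℂ => x + s • v).measurable
    have h1 := (measurePreserving_add_left (volume : Measure ℂ) ζ).setLIntegral_comp_preimage
      (measurableSet_ball (x := ζ) (ε := (k : ℝ))) hGm
    have h2 : (fun t : ℂ => ζ + t) ⁻¹' ball ζ (k : ℝ) = ball (0 : ℂ) k := by
      ext t
      simp [dist_eq_norm]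
    rw [h2] at h1
    have h3 : ∀ t : ℂ, x + ζ • v + t • v = x + (ζ + t) • v := fun t => by
      rw [add_smul, add_assoc]
    simp only [h3]
    rw [h1]
    refine lt_of_le_of_lt (lintegral_mono_set ?_) (hx k')
    intro s hs
    rw [mem_ball, dist_eq_norm] at hs
    rw [mem_ball_zero_iff]
    have := norm_add_le (s - ζ) ζ
    simp only [sub_add_cancel] at this
    linarith
  obtain ⟨H, hH, hHe⟩ := Claimed.Agent.R269.SCV.exists_analyticAt_of_slices_off (h := f) (T := T)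
    hg hv hTinv hf (by
      filter_upwards [Claimed.Agent.R269.SCV.eventually_slice_ne_zero hg hv,
        ball_mem_nhds p hr'0] with x h1 h2 hxT
      have hℓ : Tendsto (fun t : ℂ => x + t • v) (𝓝 0) (𝓝 x) := by
        have : Tendsto (fun t : ℂ => x + t • v) (𝓝 0) (𝓝 (x + (0 : ℂ) • v)) :=
          (Continuous.tendsto (by fun_prop) 0)
        simpa using this
      obtain ⟨ρ, hρ, hρall⟩ := Metric.eventually_nhds_iff_ball.1
        ((eventually_nhdsWithin_iff.1 h1).and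
          ((hℓ.eventually (isOpen_ball.mem_nhds h2)).and (ball_mem_nhds (0 : ℂ) one_pos)))
      have hmemS : ∀ t ∈ ball (0 : ℂ) ρ \ {0}, x + t • v ∈ S := fun t ht =>
        ⟨(hρall t ht.1).2.1, (hρall t ht.1).1 ht.2⟩
      refine r242_removable_L2 (φ := fun t => f (x + t • v)) hρ ?_ ?_
      · intro t ht
        have h5 : AnalyticAt ℂ f (x + t • v) :=
          (hall _ (ball_subset_ball (min_le_right _ _) (hmemS t ht).1)).2 (hmemS t ht).2
        exact (AnalyticAt.comp (f := fun t : ℂ => x + t • v) h5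
          (by fun_prop)).differentiableAt.differentiableWithinAt
      · have hxT : ∀ k : ℕ, ∫⁻ t in ball (0 : ℂ) k, F (x + t • v) < ⊤ := not_not.1 hxT
        have h6 := hxT 1
        refine lt_of_le_of_lt ?_ h6
        calc ∫⁻ t in ball (0 : ℂ) ρ \ {0}, ENNReal.ofReal (‖f (x + t • v)‖ ^ 2)
            = ∫⁻ t in ball (0 : ℂ) ρ \ {0}, F (x + t • v) := by
              refine setLIntegral_congr_fun (measurableSet_ball.diff (measurableSet_singleton 0)) ?_
              intro t ht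
              simp only [hF]
              rw [indicator_of_mem (hmemS t ht)]
          _ ≤ ∫⁻ t in ball (0 : ℂ) ((1 : ℕ) : ℝ), F (x + t • v) := by
              refine lintegral_mono_set ?_
              intro t ht
              simpa using (hρall t ht.1).2.2)
  refine ⟨H, hH, ?_⟩
  obtain ⟨ε, hε, hεall⟩ := Metric.eventually_nhds_iff_ball.1 (hH.eventually_analyticAt.and hHe)
  set ε' : ℝ := min ε δ with hε'
  have hε'0 : 0 < ε' := lt_min hε hδ
  have hEq : EqOn H f (ball p ε' ∩ {x | g x ≠ 0}) := by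
    refine Measure.eqOn_open_of_ae_eq (μ := μ) ?_ (hopen ε' (min_le_right _ _)) ?_
      (hfc ε' (min_le_right _ _))
    · rw [Filter.EventuallyEq, ae_restrict_iff' (hopen ε' (min_le_right _ _)).measurableSet]
      filter_upwards [hT0] with x hxT hx
      exact (hεall x (ball_subset_ball (min_le_left _ _) hx.1)).2 hxT hx.2
    · intro x hx
      exact (hεall x (ball_subset_ball (min_le_left _ _) hx.1)).1.continuousAt.continuousWithinAt
  filter_upwards [ball_mem_nhds p hε'0] with x hx hgx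
  exact hEq ⟨hx, hgx⟩

omit [NormedSpace ℂ E] [FiniteDimensional ℂ E] in
/-- Two functions which are continuous on the set `U` (which is open) and agree off a nowhere dense
set `{g = 0}` agree on `U`. -/
theorem r242_eqOn_of_eqOn_off {U : Set E} (hU : IsOpen U) {g F₁ F₂ : E → ℂ}
    (hg0 : ∀ x ∈ U, ∃ᶠ y in 𝓝 x, g y ≠ 0) (h₁ : ContinuousOn F₁ U) (h₂ : ContinuousOn F₂ U)
    (he : ∀ x ∈ U, g x ≠ 0 → F₁ x = F₂ x) : EqOn F₁ F₂ U := by
  intro x hx
  by_contra hne
  have h1 : ∀ᶠ y in 𝓝 x, F₁ y ≠ F₂ y :=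
    (ContinuousAt.ne_iff_eventually_ne (h₁.continuousAt (hU.mem_nhds hx))
      (h₂.continuousAt (hU.mem_nhds hx))).1 hne
  obtain ⟨y, hy0, hy1, hyU⟩ := ((hg0 x hx).and_eventually (h1.and (hU.mem_nhds hx))).exists
  exact hy1 (he y hyU hy0)

/-- **`L²` Riemann extension** across the zero set of a holomorphic function `g` which vanishes
identically near no point of `U`. -/
theorem r242_rext [MeasurableSpace E] [BorelSpace E] (μ : Measure E) [μ.IsAddHaarMeasure]
    {U : Set E} (hU : IsOpen U) {g f : E → ℂ} (hg : DifferentiableOn ℂ g U)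
    (hg0 : ∀ x ∈ U, ∃ᶠ y in 𝓝 x, g y ≠ 0)
    (hf : DifferentiableOn ℂ f (U \ {x | g x = 0}))
    (hi : ∀ x ∈ U, g x = 0 →
      ∃ r > 0, ∫⁻ y in ball x r \ {y | g y = 0}, ENNReal.ofReal (‖f y‖ ^ 2) ∂μ < ⊤) :
    ∃ H : E → ℂ, DifferentiableOn ℂ H U ∧ ∀ x ∈ U, g x ≠ 0 → H x = f x := by
  have hga : AnalyticOnNhd ℂ g U := r242_analyticOnNhd_of_differentiableOn hU hg
  have hUo : IsOpen (U \ {x | g x = 0}) := by
    have := hg.continuousOn.isOpen_inter_preimage hU (isOpen_ne (x := (0 : ℂ)))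
    exact this
  have hfa : AnalyticOnNhd ℂ f (U \ {x | g x = 0}) := r242_analyticOnNhd_of_differentiableOn hUo hf
  set H : E → ℂ := fun x => limUnder (𝓝[{y | g y ≠ 0}] x) f with hH
  have key : ∀ p ∈ U, ∃ Hp : E → ℂ, AnalyticAt ℂ Hp p ∧ (∀ᶠ x in 𝓝 p, g x ≠ 0 → Hp x = f x) ∧
      H =ᶠ[𝓝 p] Hp := by
    intro p hp
    have hUp : ∀ᶠ x in 𝓝 p, x ∈ U := hU.mem_nhds hp
    obtain ⟨Hp, hHp, hHpe⟩ : ∃ Hp : E → ℂ, AnalyticAt ℂ Hp p ∧
        ∀ᶠ x in 𝓝 p, g x ≠ 0 → Hp x = f x := by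
      by_cases hgp : g p = 0
      · obtain ⟨r, hr, hir⟩ := hi p hp hgp
        exact r242_rext_at μ (hga p hp) (hg0 p hp) (hUp.mono fun x hx hgx => hfa x ⟨hx, hgx⟩)
          ⟨r, hr, hir⟩
      · exact ⟨f, hfa p ⟨hp, hgp⟩, Eventually.of_forall fun _ _ => rfl⟩
    refine ⟨Hp, hHp, hHpe, ?_⟩
    filter_upwards [hHpe.eventually_nhds, hHp.eventually_analyticAt, hUp] with x h1 h2 h3
    have : NeBot (𝓝[{y | g y ≠ 0}] x) :=
      mem_closure_iff_nhdsWithin_neBot.1 (mem_closure_iff_frequently.2 (hg0 x h3))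
    refine Tendsto.limUnder_eq ?_
    have h4 : ∀ᶠ y in 𝓝[{y | g y ≠ 0}] x, Hp y = f y := by
      filter_upwards [nhdsWithin_le_nhds h1, self_mem_nhdsWithin] with y h5 h6 using h5 h6
    exact (h2.continuousAt.tendsto.mono_left nhdsWithin_le_nhds).congr' h4
  refine ⟨H, fun p hp => ?_, fun p hp hgp => ?_⟩
  · obtain ⟨Hp, hHp, -, he⟩ := key p hp
    exact (hHp.congr he.symm).differentiableAt.differentiableWithinAt
  · obtain ⟨Hp, -, hHpe, he⟩ := key p hp
    rw [he.self_of_nhds, hHpe.self_of_nhds hgp]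

/-- Division form: if `f / g` is locally `L²` then `f` extends to `g * H` with `H` holomorphic; in
particular the extension vanishes on `{g = 0}`. -/
theorem r242_rext_div [MeasurableSpace E] [BorelSpace E] (μ : Measure E) [μ.IsAddHaarMeasure]
    {U : Set E} (hU : IsOpen U) {g f : E → ℂ} (hg : DifferentiableOn ℂ g U)
    (hg0 : ∀ x ∈ U, ∃ᶠ y in 𝓝 x, g y ≠ 0)
    (hf : DifferentiableOn ℂ f (U \ {x | g x = 0}))
    (hi : ∀ x ∈ U, g x = 0 → ∃ r > 0,
      ∫⁻ y in ball x r \ {y | g y = 0}, ENNReal.ofReal (‖f y‖ ^ 2 / ‖g y‖ ^ 2) ∂μ < ⊤) :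
    ∃ H : E → ℂ, DifferentiableOn ℂ H U ∧ ∀ x ∈ U, g x ≠ 0 → g x * H x = f x := by
  have hq : DifferentiableOn ℂ (fun x => f x / g x) (U \ {x | g x = 0}) := by
    simp only [div_eq_mul_inv]
    exact hf.mul ((hg.mono sdiff_subset).inv fun x hx => hx.2)
  obtain ⟨H, hH, hHe⟩ := r242_rext μ hU (f := fun x => f x / g x) hg hg0 hq (by
      intro x hx hgx
      obtain ⟨r, hr, hir⟩ := hi x hx hgx
      refine ⟨r, hr, ?_⟩
      simpa only [norm_div, div_pow] using hir)
  refine ⟨H, hH, fun x hx hgx => ?_⟩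
  rw [hHe x hx hgx, mul_div_cancel₀ _ hgx]

/-- Vanishing form: any continuous extension `F` of `f` vanishes on `{g = 0}` as soon as `f / g` is
locally `L²`. -/
theorem r242_rext_vanish [MeasurableSpace E] [BorelSpace E] (μ : Measure E) [μ.IsAddHaarMeasure]
    {U : Set E} (hU : IsOpen U) {g f F : E → ℂ} (hg : DifferentiableOn ℂ g U)
    (hg0 : ∀ x ∈ U, ∃ᶠ y in 𝓝 x, g y ≠ 0)
    (hf : DifferentiableOn ℂ f (U \ {x | g x = 0}))
    (hi : ∀ x ∈ U, g x = 0 → ∃ r > 0,
      ∫⁻ y in ball x r \ {y | g y = 0}, ENNReal.ofReal (‖f y‖ ^ 2 / ‖g y‖ ^ 2) ∂μ < ⊤)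
    (hF : ContinuousOn F U) (hFf : ∀ x ∈ U, g x ≠ 0 → F x = f x) :
    ∀ x ∈ U, g x = 0 → F x = 0 := by
  obtain ⟨H, hH, hHe⟩ := r242_rext_div μ hU hg hg0 hf hi
  have h1 : EqOn F (fun x => g x * H x) U :=
    r242_eqOn_of_eqOn_off hU hg0 hF (hg.continuousOn.mul hH.continuousOn) fun x hx hgx => by
      rw [hFf x hx hgx, hHe x hx hgx]
  intro x hx hgx
  rw [h1 hx]
  simp only [hgx, zero_mul]

/-! ### The forms on `Cn n` -/

section Cn

variable {n : ℕ}

theorem r242_frequently_coord_ne (j : Fin n) (c : ℂ) (x : Cn n) :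
    ∃ᶠ y in 𝓝 x, y j - c ≠ 0 := by
  have hℓ : Tendsto (fun t : ℂ => x + t • (Pi.single j 1 : Cn n)) (𝓝[≠] 0) (𝓝 x) := by
    have : Tendsto (fun t : ℂ => x + t • (Pi.single j 1 : Cn n)) (𝓝 0)
        (𝓝 (x + (0 : ℂ) • (Pi.single j 1 : Cn n))) := (Continuous.tendsto (by fun_prop) 0)
    rw [zero_smul, add_zero] at this
    exact this.mono_left nhdsWithin_le_nhds
  by_cases hx : x j - c = 0
  · refine hℓ.frequently (Eventually.frequently ?_)
    filter_upwards [self_mem_nhdsWithin] with t ht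
    have : (x + t • (Pi.single j 1 : Cn n)) j - c = t := by
      simp only [Pi.add_apply, Pi.smul_apply, Pi.single_eq_same, smul_eq_mul, mul_one]
      linear_combination hx
    rw [this]
    exact ht
  · have hc : ContinuousAt (fun y : Cn n => y j - c) x :=
      ((continuous_apply j).sub continuous_const).continuousAt
    exact (hc.eventually_ne hx).frequently

/-- (a) `L²` extension across the hyperplane `{z j = c}`. -/
theorem rext_hyperplane {U : Set (Cn n)} (hU : IsOpen U) (j : Fin n) (c : ℂ) {f : Cn n → ℂ}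
    (hf : DifferentiableOn ℂ f (U \ {z | z j = c}))
    (hi : ∀ x ∈ U, x j = c →
      ∃ r > 0, ∫⁻ y in ball x r \ {z | z j = c}, ENNReal.ofReal (‖f y‖ ^ 2) < ⊤) :
    ∃ F : Cn n → ℂ, DifferentiableOn ℂ F U ∧ ∀ x ∈ U, x j ≠ c → F x = f x := by
  have hset : {z : Cn n | z j - c = 0} = {z | z j = c} := by
    ext z
    exact sub_eq_zero
  obtain ⟨F, hF, hFe⟩ := r242_rext (volume : Measure (Cn n)) hU (g := fun z => z j - c) (f := f)
    (by fun_prop) (fun x _ => r242_frequently_coord_ne j c x) (by rw [hset]; exact hf)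
    (fun x hx hxj => by rw [hset]; exact hi x hx (sub_eq_zero.1 hxj))
  exact ⟨F, hF, fun x hx hxj => hFe x hx (sub_ne_zero.2 hxj)⟩

/-- Division form of (a): if `∫ |f|² / |z j - c|²` is locally finite, `f = (z j - c) H`. -/
theorem rext_hyperplane_div {U : Set (Cn n)} (hU : IsOpen U) (j : Fin n) (c : ℂ) {f : Cn n → ℂ}
    (hf : DifferentiableOn ℂ f (U \ {z | z j = c}))
    (hi : ∀ x ∈ U, x j = c → ∃ r > 0,
      ∫⁻ y in ball x r \ {z | z j = c}, ENNReal.ofReal (‖f y‖ ^ 2 / ‖y j - c‖ ^ 2) < ⊤) :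
    ∃ H : Cn n → ℂ, DifferentiableOn ℂ H U ∧ ∀ x ∈ U, x j ≠ c → (x j - c) * H x = f x := by
  have hset : {z : Cn n | z j - c = 0} = {z | z j = c} := by
    ext z
    exact sub_eq_zero
  obtain ⟨F, hF, hFe⟩ := r242_rext_div (volume : Measure (Cn n)) hU (g := fun z => z j - c) (f := f)
    (by fun_prop) (fun x _ => r242_frequently_coord_ne j c x) (by rw [hset]; exact hf)
    (fun x hx hxj => by rw [hset]; exact hi x hx (sub_eq_zero.1 hxj))
  exact ⟨F, hF, fun x hx hxj => hFe x hx (sub_ne_zero.2 hxj)⟩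

/-- Vanishing form of (a): there is a holomorphic extension, and it vanishes on the hyperplane. -/
theorem rext_hyperplane_vanish {U : Set (Cn n)} (hU : IsOpen U) (j : Fin n) (c : ℂ) {f : Cn n → ℂ}
    (hf : DifferentiableOn ℂ f (U \ {z | z j = c}))
    (hi : ∀ x ∈ U, x j = c → ∃ r > 0,
      ∫⁻ y in ball x r \ {z | z j = c}, ENNReal.ofReal (‖f y‖ ^ 2 / ‖y j - c‖ ^ 2) < ⊤) :
    ∃ F : Cn n → ℂ, DifferentiableOn ℂ F U ∧ (∀ x ∈ U, x j ≠ c → F x = f x) ∧
      ∀ x ∈ U, x j = c → F x = 0 := by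
  obtain ⟨H, hH, hHe⟩ := rext_hyperplane_div hU j c hf hi
  refine ⟨fun x => (x j - c) * H x, ?_, hHe, fun x _ hxj => by simp [hxj]⟩
  exact DifferentiableOn.mul (by fun_prop) hH

/-- Vanishing form of (a) for a given continuous extension. -/
theorem rext_hyperplane_vanish' {U : Set (Cn n)} (hU : IsOpen U) (j : Fin n) (c : ℂ)
    {f F : Cn n → ℂ} (hf : DifferentiableOn ℂ f (U \ {z | z j = c}))
    (hi : ∀ x ∈ U, x j = c → ∃ r > 0,
      ∫⁻ y in ball x r \ {z | z j = c}, ENNReal.ofReal (‖f y‖ ^ 2 / ‖y j - c‖ ^ 2) < ⊤)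
    (hF : ContinuousOn F U) (hFf : ∀ x ∈ U, x j ≠ c → F x = f x) :
    ∀ x ∈ U, x j = c → F x = 0 := by
  have hset : {z : Cn n | z j - c = 0} = {z | z j = c} := by
    ext z
    exact sub_eq_zero
  intro x hx hxj
  exact r242_rext_vanish (volume : Measure (Cn n)) hU (g := fun z => z j - c) (f := f)
    (by fun_prop) (fun x _ => r242_frequently_coord_ne j c x) (by rw [hset]; exact hf)
    (fun x hx hxj => by rw [hset]; exact hi x hx (sub_eq_zero.1 hxj)) hF
    (fun x hx hxj => hFf x hx (sub_ne_zero.1 hxj)) x hx (sub_eq_zero.2 hxj)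

/-- (b) `L²` extension across `{h = 0}`. -/
theorem rext_zeroSet {U : Set (Cn n)} (hU : IsOpen U) {h f : Cn n → ℂ}
    (hh : DifferentiableOn ℂ h U) (hh0 : ∀ x ∈ U, ∃ᶠ y in 𝓝 x, h y ≠ 0)
    (hf : DifferentiableOn ℂ f (U \ {z | h z = 0}))
    (hi : ∀ x ∈ U, h x = 0 →
      ∃ r > 0, ∫⁻ y in ball x r \ {z | h z = 0}, ENNReal.ofReal (‖f y‖ ^ 2) < ⊤) :
    ∃ F : Cn n → ℂ, DifferentiableOn ℂ F U ∧ ∀ x ∈ U, h x ≠ 0 → F x = f x :=
  r242_rext (volume : Measure (Cn n)) hU hh hh0 hf hi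

end Cn

end Claimed.Agent.R242
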