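/-
Row 242 (S0480), SCV layer: **Liouville's theorem with polynomial growth**.      Owner: helper249.

* `r242_iteratedDeriv_eq_zero_of_growth`, `r242_eq_sum_of_growth` : one variable;
* `r242_liou_sum` : an entire function `F` on a finite dimensional space with `‖F z‖ ≤ C (1 + ‖z‖) ^ N` is the
                    sum of its first `N + 1` Taylor terms `(k!)⁻¹ D^k F(0)(z,…,z)`;
* `r242_diagPoly` : the homogeneous polynomial `z ↦ M (z,…,z)` of a multilinear map on `Cn n`;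
* `liou_sup`      : `F` entire on `Cn n`, `‖F z‖ ≤ C (1 + ‖z‖) ^ N`  ⇒  `F = eval · P`, `P.totalDegree ≤ N`;
* `liou_L2`       : the same from `∫⁻ ‖F‖² / (1 + ‖z‖²) ^ N < ⊤`;
* `liou_L2_weight`, `liou_L2_euclid` : variants (general weight `ψ ≥ c (1 + ‖z‖²)^(-N)`; `∑ ‖z j‖²`).
-/
import Claimed.Agent.R242.SCV.RExt

set_option autoImplicit false

namespace Claimed.Agent.R242

open MeasureTheory Complex Metric Set Filter Topology
open scoped ContDiff ENNReal Nat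

/-! ### One variable -/

theorem r242_iteratedDeriv_eq_zero_of_growth {g : ℂ → ℂ} (hg : Differentiable ℂ g) {C A : ℝ}
    {N k : ℕ} (hA : 0 ≤ A) (hb : ∀ ζ, ‖g ζ‖ ≤ C * (1 + A * ‖ζ‖) ^ N) (hk : N < k) :
    iteratedDeriv k g 0 = 0 := by
  have hC : 0 ≤ C := by
    have := (norm_nonneg _).trans (hb 0)
    simpa using this
  set K : ℝ := k ! * (C * (1 + A) ^ N) with hK
  have hbound : ∀ R : ℝ, 1 ≤ R → ‖iteratedDeriv k g 0‖ ≤ K / R := by
    intro R hR
    have hR0 : 0 < R := by linarith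
    have h1 := Complex.norm_iteratedDeriv_le_of_forall_mem_sphere_norm_le (c := 0) (R := R)
      (C := C * (1 + A * R) ^ N) (f := g) k hR0 hg.diffContOnCl (by
        intro ζ hζ
        have : ‖ζ‖ = R := by simpa using hζ
        rw [← this]
        exact hb ζ)
    refine h1.trans ?_
    rw [div_le_div_iff₀ (by positivity) hR0]
    have h2 : (1 + A * R) ^ N ≤ ((1 + A) * R) ^ N := by
      refine pow_le_pow_left₀ (by positivity) ?_ N
      nlinarith
    have h3 : R ^ (N + 1) ≤ R ^ k := pow_le_pow_right₀ hR hk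
    calc (k ! : ℝ) * (C * (1 + A * R) ^ N) * R
        ≤ (k ! : ℝ) * (C * ((1 + A) * R) ^ N) * R := by gcongr
      _ = K * R ^ (N + 1) := by rw [hK, mul_pow]; ring
      _ ≤ K * R ^ k := by
          have : 0 ≤ K := by positivity
          gcongr
  have hlim : Tendsto (fun R : ℝ => K / R) atTop (𝓝 0) := tendsto_const_nhds.div_atTop tendsto_id
  have h0 : ‖iteratedDeriv k g 0‖ ≤ 0 :=
    ge_of_tendsto hlim ((eventually_ge_atTop 1).mono hbound)
  exact norm_le_zero_iff.1 h0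

theorem r242_eq_sum_of_growth {g : ℂ → ℂ} (hg : Differentiable ℂ g) {C A : ℝ} {N : ℕ}
    (hA : 0 ≤ A) (hb : ∀ ζ, ‖g ζ‖ ≤ C * (1 + A * ‖ζ‖) ^ N) (ζ : ℂ) :
    g ζ = ∑ k ∈ Finset.range (N + 1), (k ! : ℂ)⁻¹ * iteratedDeriv k g 0 * ζ ^ k := by
  have h1 := Complex.hasSum_taylorSeries_of_entire hg 0 ζ
  have h2 : HasSum (fun k : ℕ => (k ! : ℂ)⁻¹ • (ζ - 0) ^ k • iteratedDeriv k g 0)
      (∑ k ∈ Finset.range (N + 1), (k ! : ℂ)⁻¹ • (ζ - 0) ^ k • iteratedDeriv k g 0) := by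
    refine hasSum_sum_of_ne_finset_zero fun k hk => ?_
    have hk' : N < k := by
      simp only [Finset.mem_range, not_lt] at hk
      omega
    rw [r242_iteratedDeriv_eq_zero_of_growth hg hA hb hk']
    simp
  rw [h1.unique h2]
  refine Finset.sum_congr rfl fun k _ => ?_
  simp only [sub_zero, smul_eq_mul]
  ring

/-! ### Several variables: the Taylor expansion stops -/

section general

variable {E : Type*} [NormedAddCommGroup E] [NormedSpace ℂ E] [FiniteDimensional ℂ E]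

theorem r242_liou_sum {F : E → ℂ} (hF : Differentiable ℂ F) {C : ℝ} {N : ℕ}
    (hb : ∀ z, ‖F z‖ ≤ C * (1 + ‖z‖) ^ N) (z : E) :
    F z = ∑ k ∈ Finset.range (N + 1), (k ! : ℂ)⁻¹ * iteratedFDeriv ℂ k F 0 (fun _ => z) := by
  have hFa : AnalyticOnNhd ℂ F univ :=
    r242_analyticOnNhd_of_differentiableOn isOpen_univ hF.differentiableOn
  have hFc : ContDiff ℂ ω F := hFa.contDiff
  set L : ℂ →L[ℂ] E := ContinuousLinearMap.toSpanSingleton ℂ z with hL
  have hLa : ∀ ζ : ℂ, L ζ = ζ • z := fun ζ => by simp [hL]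
  have hg : Differentiable ℂ (F ∘ L) := hF.comp L.differentiable
  have hgb : ∀ ζ : ℂ, ‖(F ∘ L) ζ‖ ≤ C * (1 + ‖z‖ * ‖ζ‖) ^ N := by
    intro ζ
    have := hb (L ζ)
    rwa [hLa, norm_smul, mul_comm ‖ζ‖] at this
  have h1 := r242_eq_sum_of_growth hg (norm_nonneg z) hgb 1
  have h2 : (F ∘ L) 1 = F z := by simp [hLa]
  rw [h2] at h1
  rw [h1]
  refine Finset.sum_congr rfl fun k _ => ?_
  rw [iteratedDeriv_eq_iteratedFDeriv, L.iteratedFDeriv_comp_right hFc 0 (i := k) (by simp)]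
  simp [hLa]

end general

/-! ### The polynomial of a multilinear map on the diagonal -/

section poly

variable {n : ℕ}

/-- the homogeneous polynomial `z ↦ M (z,…,z)`. -/
noncomputable def r242_diagPoly {k : ℕ}
    (M : ContinuousMultilinearMap ℂ (fun _ : Fin k => Cn n) ℂ) : MvPolynomial (Fin n) ℂ :=
  ∑ i : Fin k → Fin n, MvPolynomial.C (M fun l => Pi.single (i l) 1) * ∏ l, MvPolynomial.X (i l)

theorem r242_eval_diagPoly {k : ℕ} (M : ContinuousMultilinearMap ℂ (fun _ : Fin k => Cn n) ℂ)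
    (z : Cn n) : MvPolynomial.eval z (r242_diagPoly M) = M fun _ => z := by
  classical
  have hz : z = ∑ j, z j • (Pi.single j 1 : Cn n) := by
    ext i
    simp [Finset.sum_apply, Pi.single_apply]
  have h1 : (M fun _ : Fin k => z) = M fun _ : Fin k => ∑ j, z j • (Pi.single j 1 : Cn n) := by
    rw [← hz]
  rw [h1, ContinuousMultilinearMap.map_sum]
  simp only [r242_diagPoly, map_sum, map_mul, MvPolynomial.eval_C, map_prod, MvPolynomial.eval_X]
  refine Finset.sum_congr rfl fun i _ => ?_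
  rw [ContinuousMultilinearMap.map_smul_univ, smul_eq_mul, mul_comm]

theorem r242_diagPoly_isHomogeneous {k : ℕ}
    (M : ContinuousMultilinearMap ℂ (fun _ : Fin k => Cn n) ℂ) :
    (r242_diagPoly M).IsHomogeneous k := by
  refine MvPolynomial.IsHomogeneous.sum _ _ _ fun i _ => ?_
  have h1 : (∏ l : Fin k, (MvPolynomial.X (i l) : MvPolynomial (Fin n) ℂ)).IsHomogeneous
      (∑ _l : Fin k, 1) :=
    MvPolynomial.IsHomogeneous.prod _ _ _ fun l _ => MvPolynomial.isHomogeneous_X ℂ (i l)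
  have h2 := (MvPolynomial.isHomogeneous_C (Fin n) (M fun l => Pi.single (i l) 1)).mul h1
  simpa using h2

/-- **Liouville**, sup form. -/
theorem liou_sup {N : ℕ} {F : Cn n → ℂ} (hF : Differentiable ℂ F) {C : ℝ}
    (hb : ∀ z, ‖F z‖ ≤ C * (1 + ‖z‖) ^ N) :
    ∃ P : MvPolynomial (Fin n) ℂ, P.totalDegree ≤ N ∧ ∀ z, F z = MvPolynomial.eval z P := by
  refine ⟨∑ k ∈ Finset.range (N + 1),
    MvPolynomial.C ((k ! : ℂ)⁻¹) * r242_diagPoly (iteratedFDeriv ℂ k F 0), ?_, fun z => ?_⟩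
  · refine MvPolynomial.totalDegree_finsetSum_le fun k hk => ?_
    refine (MvPolynomial.totalDegree_mul _ _).trans ?_
    rw [MvPolynomial.totalDegree_C, zero_add]
    refine (r242_diagPoly_isHomogeneous _).totalDegree_le.trans ?_
    have := Finset.mem_range.1 hk
    omega
  · rw [r242_liou_sum hF hb z]
    simp only [map_sum, map_mul, MvPolynomial.eval_C, r242_eval_diagPoly]

/-- **Liouville**, `L²` form. -/
theorem liou_L2 {N : ℕ} {F : Cn n → ℂ} (hF : Differentiable ℂ F)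
    (hi : ∫⁻ z, ENNReal.ofReal (‖F z‖ ^ 2 / (1 + ‖z‖ ^ 2) ^ N) < ⊤) :
    ∃ P : MvPolynomial (Fin n) ℂ, P.totalDegree ≤ N ∧ ∀ z, F z = MvPolynomial.eval z P := by
  set I : ℝ≥0∞ := ∫⁻ z, ENNReal.ofReal (‖F z‖ ^ 2 / (1 + ‖z‖ ^ 2) ^ N) with hI
  set V : ℝ≥0∞ := volume (ball (0 : Cn n) 1) with hV
  have hV0 : V ≠ 0 := (measure_ball_pos volume 0 one_pos).ne'
  have hVt : V ≠ ⊤ := measure_ball_lt_top.ne
  have hVr : 0 < V.toReal := ENNReal.toReal_pos hV0 hVt
  have key : ∀ z, ‖F z‖ ^ 2 * V.toReal ≤ (2 * (1 + ‖z‖) ^ 2) ^ N * I.toReal := by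
    intro z
    have h1 := r242_sq_mul_le_lintegral (volume : Measure (Cn n)) (z := z) (r := 1)
      hF.differentiableOn
    have hVz : volume (ball z 1) = V := by
      rw [hV]
      exact Measure.addHaar_ball_center volume z 1
    rw [hVz] at h1
    have h2 : ∫⁻ w in ball z 1, ENNReal.ofReal (‖F w‖ ^ 2) ≤
        ENNReal.ofReal ((2 * (1 + ‖z‖) ^ 2) ^ N) * I := by
      calc ∫⁻ w in ball z 1, ENNReal.ofReal (‖F w‖ ^ 2)
          ≤ ∫⁻ w in ball z 1, ENNReal.ofReal ((2 * (1 + ‖z‖) ^ 2) ^ N) *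
              ENNReal.ofReal (‖F w‖ ^ 2 / (1 + ‖w‖ ^ 2) ^ N) := by
            refine setLIntegral_mono' measurableSet_ball fun w hw => ?_
            rw [← ENNReal.ofReal_mul (by positivity)]
            refine ENNReal.ofReal_le_ofReal ?_
            have hw1 : ‖w‖ ≤ 1 + ‖z‖ := by
              have h3 : ‖w - z‖ < 1 := by simpa [dist_eq_norm] using hw
              have h4 := norm_add_le (w - z) z
              simp only [sub_add_cancel] at h4
              linarith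
            have hw2 : (1 + ‖w‖ ^ 2) ^ N ≤ (2 * (1 + ‖z‖) ^ 2) ^ N := by
              refine pow_le_pow_left₀ (by positivity) ?_ N
              have h5 : ‖w‖ ^ 2 ≤ (1 + ‖z‖) ^ 2 := pow_le_pow_left₀ (norm_nonneg w) hw1 2
              have h6 : (1 : ℝ) ≤ (1 + ‖z‖) ^ 2 := by
                have := norm_nonneg z
                nlinarith
              linarith
            have hpos : 0 < (1 + ‖w‖ ^ 2) ^ N := by positivity
            rw [mul_div_assoc', le_div_iff₀ hpos, mul_comm]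
            gcongr
        _ ≤ ∫⁻ w, ENNReal.ofReal ((2 * (1 + ‖z‖) ^ 2) ^ N) *
              ENNReal.ofReal (‖F w‖ ^ 2 / (1 + ‖w‖ ^ 2) ^ N) := setLIntegral_le_lintegral _ _
        _ = ENNReal.ofReal ((2 * (1 + ‖z‖) ^ 2) ^ N) * I := by
            rw [lintegral_const_mul' _ _ ENNReal.ofReal_ne_top]
    have h3 := ENNReal.toReal_mono (ENNReal.mul_ne_top ENNReal.ofReal_ne_top hi.ne) (h1.trans h2)
    rwa [ENNReal.toReal_mul, ENNReal.toReal_mul, ENNReal.toReal_ofReal (by positivity),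
      ENNReal.toReal_ofReal (by positivity)] at h3
  refine liou_sup (C := Real.sqrt (2 ^ N * I.toReal / V.toReal)) hF fun z => ?_
  have h1 : ‖F z‖ ^ 2 ≤ (Real.sqrt (2 ^ N * I.toReal / V.toReal) * (1 + ‖z‖) ^ N) ^ 2 := by
    rw [mul_pow, Real.sq_sqrt (by positivity), div_mul_eq_mul_div, le_div_iff₀ hVr]
    refine (key z).trans (le_of_eq ?_)
    rw [mul_pow, ← pow_mul, ← pow_mul, mul_comm 2 N]
    ring
  exact (abs_le_of_sq_le_sq' h1 (by positivity)).2

/-- **Liouville**, `L²` form with a general weight `ψ ≥ c (1 + ‖z‖²)^(-N)`. -/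
theorem liou_L2_weight {N : ℕ} {F : Cn n → ℂ} (hF : Differentiable ℂ F) {ψ : Cn n → ℝ≥0∞} {c : ℝ}
    (hc : 0 < c) (hψ : ∀ z, ENNReal.ofReal (c / (1 + ‖z‖ ^ 2) ^ N) ≤ ψ z)
    (hi : ∫⁻ z, ENNReal.ofReal (‖F z‖ ^ 2) * ψ z < ⊤) :
    ∃ P : MvPolynomial (Fin n) ℂ, P.totalDegree ≤ N ∧ ∀ z, F z = MvPolynomial.eval z P := by
  refine liou_L2 hF ?_
  calc ∫⁻ z, ENNReal.ofReal (‖F z‖ ^ 2 / (1 + ‖z‖ ^ 2) ^ N)
      ≤ ∫⁻ z, ENNReal.ofReal c⁻¹ * (ENNReal.ofReal (‖F z‖ ^ 2) * ψ z) := by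
        refine lintegral_mono fun z => ?_
        calc ENNReal.ofReal (‖F z‖ ^ 2 / (1 + ‖z‖ ^ 2) ^ N)
            = ENNReal.ofReal c⁻¹ * (ENNReal.ofReal (‖F z‖ ^ 2) *
                ENNReal.ofReal (c / (1 + ‖z‖ ^ 2) ^ N)) := by
              rw [← ENNReal.ofReal_mul (by positivity), ← ENNReal.ofReal_mul (by positivity)]
              congr 1
              field_simp
          _ ≤ _ := by gcongr; exact hψ z
    _ = ENNReal.ofReal c⁻¹ * ∫⁻ z, ENNReal.ofReal (‖F z‖ ^ 2) * ψ z :=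
        lintegral_const_mul' _ _ ENNReal.ofReal_ne_top
    _ < ⊤ := ENNReal.mul_lt_top ENNReal.ofReal_lt_top hi

/-- **Liouville**, `L²` form with the Euclidean norm in the weight. -/
theorem liou_L2_euclid {N : ℕ} {F : Cn n → ℂ} (hF : Differentiable ℂ F)
    (hi : ∫⁻ z, ENNReal.ofReal (‖F z‖ ^ 2 / (1 + ∑ j, ‖z j‖ ^ 2) ^ N) < ⊤) :
    ∃ P : MvPolynomial (Fin n) ℂ, P.totalDegree ≤ N ∧ ∀ z, F z = MvPolynomial.eval z P := by
  refine liou_L2_weight (c := (((n : ℝ) + 1) ^ N)⁻¹)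
    (ψ := fun z => ENNReal.ofReal (1 / (1 + ∑ j, ‖z j‖ ^ 2) ^ N)) hF (by positivity) ?_ ?_
  · intro z
    refine ENNReal.ofReal_le_ofReal ?_
    have h1 : ∑ j, ‖z j‖ ^ 2 ≤ n * ‖z‖ ^ 2 := by
      calc ∑ j, ‖z j‖ ^ 2 ≤ ∑ _j : Fin n, ‖z‖ ^ 2 :=
            Finset.sum_le_sum fun j _ => pow_le_pow_left₀ (norm_nonneg _) (norm_le_pi_norm z j) 2
        _ = n * ‖z‖ ^ 2 := by simp
    have h0 : 0 ≤ ∑ j, ‖z j‖ ^ 2 := Finset.sum_nonneg fun j _ => by positivity
    have h2 : (1 + ∑ j, ‖z j‖ ^ 2) ^ N ≤ ((n : ℝ) + 1) ^ N * (1 + ‖z‖ ^ 2) ^ N := by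
      rw [← mul_pow]
      refine pow_le_pow_left₀ (by positivity) ?_ N
      have : 0 ≤ ‖z‖ ^ 2 := by positivity
      nlinarith
    rw [inv_eq_one_div, div_div]
    exact one_div_le_one_div_of_le (by positivity) h2
  · refine lt_of_le_of_lt (le_of_eq ?_) hi
    refine lintegral_congr fun z => ?_
    have h0 : 0 ≤ ∑ j, ‖z j‖ ^ 2 := Finset.sum_nonneg fun j _ => by positivity
    rw [← ENNReal.ofReal_mul (by positivity)]
    congr 1
    ring

end poly

end Claimed.Agent.R242
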