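/-
Row 242, SCV layer, package HOR.  Architect: helper147.
HorAbs: the ONLY two places where Hilbert space theory (`Lp` classes) is used.  Mathlib only, no contract.
Two independent leaves:  SCV-HOR-RIESZ (`hor_l2_riesz`),  SCV-HOR-PROJ (`hor_l2_proj`).   BOTH PROVED (helper54).

`hor_l2_riesz`.  `H := Lp ℂ 2 ν`.  `T' : A →ₗ[ℂ] H`, `a ↦ (hT a).toLp` (`MemLp.toLp_add`, `MemLp.toLp_const_smul`),
  `‖T' a‖² = ∫ ‖T a‖²` (`Lp.norm_toLp`, `MemLp.eLpNorm_eq_integral_rpow_norm`, or `L2.inner_def` + `integral_inner..`).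
  `ker T' ≤ ker ℓ` by `hℓ`; so `ℓ` factors through `range T'`
  (`(ker T').liftQ ℓ _ ∘ T'.quotKerEquivRange.symm`), bounded by `√M` (`LinearMap.mkContinuous`); extend to `H` with the same
  norm (`exists_extension_norm_eq`), represent by `y : H` (`InnerProductSpace.toDual ℂ H`), `‖y‖ ≤ √M`; take `u := conj ∘ y`
  (`L2.inner_def`: `⟪y, T' a⟫ = ∫ conj (y x) * T a x`... check the order with `RCLike.inner_apply`).

`hor_l2_proj`.  `E := PiLp 2 fun _ : ι => Lp ℂ 2 ν` (Hilbert).  `N' := {e | ∃ w ∈ N, ∀ j, e j =ᵐ[ν] w j}` is a submodule, closed by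
  `hcl` (sequential closedness; representatives of the limit), hence complete; orthogonal projection
  (`Submodule.exists_norm_eq_iInf_of_complete_subspace` + `Submodule.norm_eq_iInf_iff_inner_eq_zero`).  The norm inequality is
  Pythagoras: `α = (α - β) + β`, `α - β ⟂ β`.
-/
import Mathlib

open MeasureTheory Complex Filter
open scoped ComplexConjugate ENNReal Topology

namespace Claimed.Agent.R242

/-- the square of the `L²` norm as an integral -/
theorem hor_abs_norm_sq {X : Type*} [MeasurableSpace X] {ν : Measure X} (f : Lp ℂ 2 ν) :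
    ‖f‖ ^ 2 = ∫ x, ‖f x‖ ^ 2 ∂ν := by
  have h := L2.inner_def (𝕜 := ℂ) f f
  rw [inner_self_eq_norm_sq_to_K] at h
  simp only [inner_self_eq_norm_sq_to_K] at h
  have h2 : ∫ x, ((‖f x‖ : ℂ)) ^ 2 ∂ν = ((∫ x, ‖f x‖ ^ 2 ∂ν : ℝ) : ℂ) := by
    rw [← integral_complex_ofReal]
    simp
  have h3 : ((‖f‖ ^ 2 : ℝ) : ℂ) = ((∫ x, ‖f x‖ ^ 2 ∂ν : ℝ) : ℂ) := by
    rw [← h2]
    push_cast
    exact h
  exact Complex.ofReal_injective h3

theorem hor_abs_norm_sq_toLp {X : Type*} [MeasurableSpace X] {ν : Measure X} {g : X → ℂ}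
    (hg : MemLp g 2 ν) : ‖hg.toLp g‖ ^ 2 = ∫ x, ‖g x‖ ^ 2 ∂ν := by
  rw [hor_abs_norm_sq]
  refine integral_congr_ae ?_
  filter_upwards [hg.coeFn_toLp] with x hx
  rw [hx]

/-- **Riesz on the range of a linear map** (bilinear pairing). -/
theorem hor_l2_riesz {X : Type*} [MeasurableSpace X] (ν : Measure X)
    {A : Type*} [AddCommGroup A] [Module ℂ A]
    (T : A →ₗ[ℂ] (X → ℂ)) (hT : ∀ a, MemLp (T a) 2 ν) (ℓ : A →ₗ[ℂ] ℂ) (M : ℝ) (hM : 0 ≤ M)
    (hℓ : ∀ a, ‖ℓ a‖ ^ 2 ≤ M * ∫ x, ‖T a x‖ ^ 2 ∂ν) :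
    ∃ u : X → ℂ, MemLp u 2 ν ∧ ∫ x, ‖u x‖ ^ 2 ∂ν ≤ M ∧ ∀ a, ∫ x, u x * T a x ∂ν = ℓ a := by
  classical
  let T' : A →ₗ[ℂ] Lp ℂ 2 ν :=
    { toFun := fun a => (hT a).toLp (T a)
      map_add' := fun a b => by
        rw [← MemLp.toLp_add]
        exact MemLp.toLp_congr _ _ (by rw [map_add])
      map_smul' := fun c a => by
        rw [RingHom.id_apply, ← MemLp.toLp_const_smul]
        exact MemLp.toLp_congr _ _ (by rw [map_smul]) }
  have hT' : ∀ a, T' a = (hT a).toLp (T a) := fun a => rfl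
  have hbound : ∀ a, ‖ℓ a‖ ≤ Real.sqrt M * ‖T' a‖ := by
    intro a
    have h1 := hℓ a
    rw [← hor_abs_norm_sq_toLp (hT a), ← hT'] at h1
    have h2 : ‖ℓ a‖ ^ 2 ≤ (Real.sqrt M * ‖T' a‖) ^ 2 := by
      rw [mul_pow, Real.sq_sqrt hM]
      exact h1
    exact (pow_le_pow_iff_left₀ (norm_nonneg _) (by positivity) two_ne_zero).1 h2
  have hker : LinearMap.ker T' ≤ LinearMap.ker ℓ := by
    intro a ha
    rw [LinearMap.mem_ker] at ha ⊢
    have := hbound a
    rw [ha, norm_zero, mul_zero] at this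
    exact norm_le_zero_iff.1 this
  let f₀ : LinearMap.range T' →ₗ[ℂ] ℂ :=
    ((LinearMap.ker T').liftQ ℓ hker).comp T'.quotKerEquivRange.symm.toLinearMap
  have hf₀ : ∀ a, f₀ ⟨T' a, LinearMap.mem_range_self T' a⟩ = ℓ a := by
    intro a
    have e : T'.quotKerEquivRange.symm ⟨T' a, LinearMap.mem_range_self T' a⟩
        = (LinearMap.ker T').mkQ a := by
      rw [LinearEquiv.symm_apply_eq]
      rfl
    show ((LinearMap.ker T').liftQ ℓ hker) (T'.quotKerEquivRange.symm _) = _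
    rw [e]
    rfl
  have hf₀b : ∀ y : LinearMap.range T', ‖f₀ y‖ ≤ Real.sqrt M * ‖y‖ := by
    rintro ⟨y, a, rfl⟩
    rw [hf₀]
    exact hbound a
  let f : StrongDual ℂ (LinearMap.range T') := f₀.mkContinuous (Real.sqrt M) hf₀b
  obtain ⟨g, hg1, hg2⟩ := exists_extension_norm_eq (LinearMap.range T') f
  have hfn : ‖f‖ ≤ Real.sqrt M := LinearMap.mkContinuous_norm_le _ (Real.sqrt_nonneg M) _
  set y : Lp ℂ 2 ν := (InnerProductSpace.toDual ℂ (Lp ℂ 2 ν)).symm g with hy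
  have hyn : ‖y‖ ≤ Real.sqrt M := by
    rw [hy, LinearIsometryEquiv.norm_map, hg2]
    exact hfn
  have hyi : ∀ a, inner ℂ y (T' a) = ℓ a := by
    intro a
    rw [hy, InnerProductSpace.toDual_symm_apply]
    have := hg1 ⟨T' a, LinearMap.mem_range_self T' a⟩
    simp only at this
    rw [this]
    exact hf₀ a
  refine ⟨fun x => conj (y x), ?_, ?_, ?_⟩
  · refine (Lp.memLp y).congr_norm
      (Complex.continuous_conj.comp_aestronglyMeasurable (Lp.aestronglyMeasurable y)) ?_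
    exact Eventually.of_forall fun x => (RCLike.norm_conj _).symm
  · simp only [RCLike.norm_conj]
    rw [← hor_abs_norm_sq]
    calc ‖y‖ ^ 2 ≤ (Real.sqrt M) ^ 2 := by gcongr
      _ = M := Real.sq_sqrt hM
  · intro a
    rw [← hyi a, L2.inner_def]
    refine integral_congr_ae ?_
    filter_upwards [(hT a).coeFn_toLp] with x hx
    rw [hT', hx, RCLike.inner_apply, mul_comm]

/-- **Orthogonal projection onto an `L²`-closed space of tuples of functions.** -/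
theorem hor_l2_proj {X : Type*} [MeasurableSpace X] (ν : Measure X) {ι : Type*} [Fintype ι]
    (N : Submodule ℂ (ι → X → ℂ)) (hN : ∀ w ∈ N, ∀ j, MemLp (w j) 2 ν)
    (hcl : ∀ (w : ℕ → ι → X → ℂ) (w₀ : ι → X → ℂ), (∀ m, w m ∈ N) → (∀ j, MemLp (w₀ j) 2 ν) →
      (∀ j, Tendsto (fun m => ∫ x, ‖w m j x - w₀ j x‖ ^ 2 ∂ν) atTop (𝓝 0)) → w₀ ∈ N)
    (α : ι → X → ℂ) (hα : ∀ j, MemLp (α j) 2 ν) :
    ∃ β ∈ N, (∀ w ∈ N, ∑ j, ∫ x, (α j x - β j x) * conj (w j x) ∂ν = 0) ∧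
      ∑ j, ∫ x, ‖α j x - β j x‖ ^ 2 ∂ν ≤ ∑ j, ∫ x, ‖α j x‖ ^ 2 ∂ν := by
  classical
  let E := PiLp 2 fun _ : ι => Lp ℂ 2 ν
  let N' : Submodule ℂ E :=
    { carrier := {e | ∃ w ∈ N, ∀ j, (e j : X → ℂ) =ᵐ[ν] w j}
      add_mem' := by
        rintro e e' ⟨w, hw, h⟩ ⟨w', hw', h'⟩
        refine ⟨w + w', N.add_mem hw hw', fun j => ?_⟩
        have h1 : ((e + e') j : Lp ℂ 2 ν) = e j + e' j := rfl
        rw [h1]
        filter_upwards [Lp.coeFn_add (e j) (e' j), h j, h' j] with x h2 h3 h4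
        rw [h2, Pi.add_apply, h3, h4]
        rfl
      zero_mem' := by
        refine ⟨0, N.zero_mem, fun j => ?_⟩
        have h1 : ((0 : E) j : Lp ℂ 2 ν) = 0 := rfl
        rw [h1]
        filter_upwards [Lp.coeFn_zero ℂ 2 ν] with x h2
        rw [h2]
        rfl
      smul_mem' := by
        rintro c e ⟨w, hw, h⟩
        refine ⟨c • w, N.smul_mem c hw, fun j => ?_⟩
        have h1 : ((c • e) j : Lp ℂ 2 ν) = c • e j := rfl
        rw [h1]
        filter_upwards [Lp.coeFn_smul c (e j), h j] with x h2 h3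
        rw [h2, Pi.smul_apply, h3]
        rfl }
  have hmem : ∀ e : E, e ∈ N' ↔ ∃ w ∈ N, ∀ j, (e j : X → ℂ) =ᵐ[ν] w j := fun e => Iff.rfl
  have hclosed : IsClosed (N' : Set E) := by
    refine IsSeqClosed.isClosed ?_
    intro es e hes hlim
    choose w hw hwe using fun m => (hmem (es m)).1 (hes m)
    refine (hmem e).2 ⟨fun j => (e j : X → ℂ), ?_, fun j => EventuallyEq.rfl⟩
    refine hcl w _ hw (fun j => Lp.memLp (e j)) fun j => ?_
    have h1 : Tendsto (fun m => es m j) atTop (𝓝 (e j)) :=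
      ((PiLp.continuous_apply 2 (fun _ : ι => Lp ℂ 2 ν) j).tendsto e).comp hlim
    have h2 : Tendsto (fun m => ‖es m j - e j‖ ^ 2) atTop (𝓝 0) := by
      have := (tendsto_iff_norm_sub_tendsto_zero.1 h1).pow 2
      simpa using this
    refine h2.congr fun m => ?_
    rw [hor_abs_norm_sq]
    refine integral_congr_ae ?_
    filter_upwards [Lp.coeFn_sub (es m j) (e j), hwe m j] with x h3 h4
    rw [h3, Pi.sub_apply, h4]
  have : CompleteSpace N' := hclosed.completeSpace_coe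
  let a : E := WithLp.toLp 2 fun j => (hα j).toLp (α j)
  have ha : ∀ j, a j = (hα j).toLp (α j) := fun j => rfl
  obtain ⟨b, hbN, hbmin⟩ := Submodule.exists_norm_eq_iInf_of_complete_subspace N'
    (completeSpace_coe_iff_isComplete.1 inferInstance) a
  have horth := (Submodule.norm_eq_iInf_iff_inner_eq_zero N' hbN).1 hbmin
  obtain ⟨β, hβN, hβ⟩ := (hmem b).1 hbN
  have hsub : ∀ j, (((a - b) j : Lp ℂ 2 ν) : X → ℂ) =ᵐ[ν] fun x => α j x - β j x := by
    intro j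
    have h1 : ((a - b) j : Lp ℂ 2 ν) = a j - b j := rfl
    rw [h1]
    filter_upwards [Lp.coeFn_sub (a j) (b j), (hα j).coeFn_toLp, hβ j] with x h2 h3 h4
    rw [h2, Pi.sub_apply, ha, h3, h4]
  refine ⟨β, hβN, ?_, ?_⟩
  · intro w hw
    let e : E := WithLp.toLp 2 fun j => (hN w hw j).toLp (w j)
    have he : e ∈ N' := (hmem e).2 ⟨w, hw, fun j => (hN w hw j).coeFn_toLp⟩
    have h1 := horth e he
    rw [PiLp.inner_apply] at h1
    have h2 : ∀ j, inner ℂ ((a - b) j) (e j) = conj (∫ x, (α j x - β j x) * conj (w j x) ∂ν) := by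
      intro j
      rw [L2.inner_def, ← integral_conj]
      refine integral_congr_ae ?_
      filter_upwards [hsub j, (hN w hw j).coeFn_toLp] with x h3 h4
      have h5 : ((e j : Lp ℂ 2 ν) : X → ℂ) x = w j x := h4
      rw [h3, h5, RCLike.inner_apply, map_mul, RCLike.conj_conj, mul_comm]
    simp only [h2] at h1
    rw [← map_sum] at h1
    exact (map_eq_zero _).1 h1
  · have h1 : ‖a‖ ^ 2 = ‖a - b‖ ^ 2 + ‖b‖ ^ 2 := by
      have h2 := norm_add_sq_eq_norm_sq_add_norm_sq_of_inner_eq_zero (a - b) b (horth b hbN)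
      rw [sub_add_cancel] at h2
      rw [sq, sq, sq]
      exact h2
    have h3 : ‖a - b‖ ^ 2 = ∑ j, ∫ x, ‖α j x - β j x‖ ^ 2 ∂ν := by
      rw [PiLp.norm_sq_eq_of_L2]
      refine Finset.sum_congr rfl fun j _ => ?_
      rw [hor_abs_norm_sq]
      refine integral_congr_ae ?_
      filter_upwards [hsub j] with x h4
      rw [h4]
    have h5 : ‖a‖ ^ 2 = ∑ j, ∫ x, ‖α j x‖ ^ 2 ∂ν := by
      rw [PiLp.norm_sq_eq_of_L2]
      refine Finset.sum_congr rfl fun j _ => ?_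
      rw [ha, hor_abs_norm_sq_toLp]
    rw [← h3, ← h5, h1]
    nlinarith [sq_nonneg ‖b‖]

end Claimed.Agent.R242
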