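/-
Row 242 (S0480), SCV layer, package HOR (Hörmander's L² theorem).   Architect: helper147.

HorCalc: THE CONTRACT.  The whole proof of HOR is written against an abstract "∂, ∂̄ calculus"
`RDCalc W n` on a topological measurable space `W`:
  `μ`   the volume,            `Sm`  the class of `C^∞` functions `W → ℂ`,
  `d j` = `∂/∂z_j`,            `db j` = `∂/∂z̄_j`      (total functions on `W → ℂ`, junk outside `Sm`).
The fields are exactly the facts about a Riemann domain used by HOR.  The instance for `(W, p, hp)` of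
`Defs.lean` (`μ = rdVol p`, `Sm = RdContDiff hp ∞`, `d = rdD hp`, `db = rdDb hp`) is `HorInst.lean`; its fields are
the lemmas of the RD kit (helper290).  Nothing else about `W` is ever used.

The only deep field is `lap` (local approximation): an `L²` form with compact support whose weak divergence
and weak curl are `L²` is the limit, in the graph norm, of test forms with support in a fixed compact set
(finite partition of unity into sheets + convolution in `Cn n`; constant coefficients, no weights).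

This file: contract + the definitions used in all `Hor*.lean` files.  No proofs here.
-/
import Mathlib

open MeasureTheory Complex
open scoped ContDiff ComplexConjugate ENNReal Topology

namespace Claimed.Agent.R242

/-- Abstract `∂, ∂̄` calculus (see the header). -/
structure RDCalc (W : Type*) [TopologicalSpace W] [MeasurableSpace W] (n : ℕ) where
  /-- volume -/
  μ : Measure W
  /-- smooth functions -/
  Sm : (W → ℂ) → Prop
  /-- `∂/∂z_j` -/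
  d : Fin n → (W → ℂ) → W → ℂ
  /-- `∂/∂z̄_j` -/
  db : Fin n → (W → ℂ) → W → ℂ
  fin_cpt : ∀ K : Set W, IsCompact K → μ K < ⊤
  sm_cont : ∀ {u : W → ℂ}, Sm u → Continuous u
  sm_const : ∀ c : ℂ, Sm fun _ => c
  sm_add : ∀ {u v : W → ℂ}, Sm u → Sm v → Sm fun x => u x + v x
  sm_mul : ∀ {u v : W → ℂ}, Sm u → Sm v → Sm fun x => u x * v x
  sm_conj : ∀ {u : W → ℂ}, Sm u → Sm fun x => conj (u x)
  sm_comp : ∀ {r : W → ℝ} {h : ℝ → ℝ}, Sm (fun x => (r x : ℂ)) → ContDiff ℝ ∞ h →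
    Sm fun x => ((h (r x) : ℝ) : ℂ)
  sm_d : ∀ {u : W → ℂ} (j : Fin n), Sm u → Sm (d j u)
  sm_db : ∀ {u : W → ℂ} (j : Fin n), Sm u → Sm (db j u)
  d_congr : ∀ {u v : W → ℂ} {x : W} (j : Fin n), u =ᶠ[𝓝 x] v → d j u x = d j v x
  db_congr : ∀ {u v : W → ℂ} {x : W} (j : Fin n), u =ᶠ[𝓝 x] v → db j u x = db j v x
  d_const : ∀ (j : Fin n) (c : ℂ) (x : W), d j (fun _ => c) x = 0
  db_const : ∀ (j : Fin n) (c : ℂ) (x : W), db j (fun _ => c) x = 0
  d_add : ∀ {u v : W → ℂ} (j : Fin n) (x : W), Sm u → Sm v →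
    d j (fun y => u y + v y) x = d j u x + d j v x
  db_add : ∀ {u v : W → ℂ} (j : Fin n) (x : W), Sm u → Sm v →
    db j (fun y => u y + v y) x = db j u x + db j v x
  d_mul : ∀ {u v : W → ℂ} (j : Fin n) (x : W), Sm u → Sm v →
    d j (fun y => u y * v y) x = d j u x * v x + u x * d j v x
  db_mul : ∀ {u v : W → ℂ} (j : Fin n) (x : W), Sm u → Sm v →
    db j (fun y => u y * v y) x = db j u x * v x + u x * db j v x
  d_conj : ∀ {u : W → ℂ} (j : Fin n) (x : W), Sm u → d j (fun y => conj (u y)) x = conj (db j u x)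
  db_conj : ∀ {u : W → ℂ} (j : Fin n) (x : W), Sm u → db j (fun y => conj (u y)) x = conj (d j u x)
  d_comp : ∀ {r : W → ℝ} {h : ℝ → ℝ} (j : Fin n) (x : W), Sm (fun y => (r y : ℂ)) → ContDiff ℝ ∞ h →
    d j (fun y => ((h (r y) : ℝ) : ℂ)) x = ((deriv h (r x) : ℝ) : ℂ) * d j (fun y => (r y : ℂ)) x
  db_comp : ∀ {r : W → ℝ} {h : ℝ → ℝ} (j : Fin n) (x : W), Sm (fun y => (r y : ℂ)) → ContDiff ℝ ∞ h →
    db j (fun y => ((h (r y) : ℝ) : ℂ)) x = ((deriv h (r x) : ℝ) : ℂ) * db j (fun y => (r y : ℂ)) x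
  d_db_comm : ∀ {u : W → ℂ} (j k : Fin n) (x : W), Sm u → d j (db k u) x = db k (d j u) x
  db_db_comm : ∀ {u : W → ℂ} (j k : Fin n) (x : W), Sm u → db j (db k u) x = db k (db j u) x
  int_d : ∀ {w : W → ℂ} (j : Fin n), Sm w → HasCompactSupport w → ∫ x, d j w x ∂μ = 0
  int_db : ∀ {w : W → ℂ} (j : Fin n), Sm w → HasCompactSupport w → ∫ x, db j w x ∂μ = 0
  /-- **LAP**: `b` an `L²` form vanishing outside the compact set `K`, with weak divergence `dv` and weak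
  curl `c` in `L²`, also vanishing outside `K`. -/
  lap : ∀ (K : Set W) (b : Fin n → W → ℂ) (dv : W → ℂ) (c : Fin n → Fin n → W → ℂ), IsCompact K →
    (∀ j, MemLp (b j) 2 μ) → MemLp dv 2 μ → (∀ j k, MemLp (c j k) 2 μ) →
    (∀ j, ∀ x ∉ K, b j x = 0) → (∀ x ∉ K, dv x = 0) → (∀ j k, ∀ x ∉ K, c j k x = 0) →
    (∀ v : W → ℂ, Sm v → HasCompactSupport v →
      ∫ x, ∑ j, b j x * d j v x ∂μ = - ∫ x, dv x * v x ∂μ) →
    (∀ v : W → ℂ, Sm v → HasCompactSupport v → ∀ j k,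
      ∫ x, (b j x * db k v x - b k x * db j v x) ∂μ = - ∫ x, c j k x * v x ∂μ) →
    ∃ K' : Set W, IsCompact K' ∧ ∀ ε : ℝ, 0 < ε → ∃ α : Fin n → W → ℂ,
      (∀ j, Sm (α j)) ∧ (∀ j, tsupport (α j) ⊆ K') ∧
      (∀ j, ∫ x, ‖α j x - b j x‖ ^ 2 ∂μ ≤ ε) ∧
      ∫ x, ‖∑ j, d j (α j) x - dv x‖ ^ 2 ∂μ ≤ ε ∧
      ∀ j k, ∫ x, ‖db k (α j) x - db j (α k) x - c j k x‖ ^ 2 ∂μ ≤ ε

namespace RDCalc

variable {W : Type*} [TopologicalSpace W] [MeasurableSpace W] {n : ℕ} (C : RDCalc W n)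

/-- smooth real function. -/
def SmR (φ : W → ℝ) : Prop := C.Sm fun x => (φ x : ℂ)

/-- test function: smooth with compact support. -/
def Test (v : W → ℂ) : Prop := C.Sm v ∧ HasCompactSupport v

/-- test `(0,1)`-form. -/
def TestF (α : Fin n → W → ℂ) : Prop := ∀ j, C.Test (α j)

/-- `∂φ/∂z_j` of a real function. -/
noncomputable def dR (j : Fin n) (φ : W → ℝ) (x : W) : ℂ := C.d j (fun y => (φ y : ℂ)) x

/-- `∂φ/∂z̄_j` of a real function. -/
noncomputable def dbR (j : Fin n) (φ : W → ℝ) (x : W) : ℂ := C.db j (fun y => (φ y : ℂ)) x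

/-- Levi form `∑ φ_{j k̄} a_j ā_k`. -/
noncomputable def levi (φ : W → ℝ) (x : W) (a : Fin n → ℂ) : ℝ :=
  (∑ j, ∑ k, C.d j (C.db k fun y => (φ y : ℂ)) x * a j * conj (a k)).re

/-- the weighted measure `e^{-φ} μ`. -/
noncomputable def Wt (φ : W → ℝ) : Measure W :=
  C.μ.withDensity fun x => ENNReal.ofReal (Real.exp (-φ x))

/-- `ϑ_φ α = ∑ (∂_jφ α_j - ∂_jα_j) = - e^{φ} ∑ ∂_j (e^{-φ} α_j)`: the formal adjoint of `∂̄` in `L²(e^{-φ})`. -/
noncomputable def theta (φ : W → ℝ) (α : Fin n → W → ℂ) (x : W) : ℂ :=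
  ∑ j, (C.dR j φ x * α j x - C.d j (α j) x)

/-- the formal adjoint of `∂̄ : L²(e^{-φ₁}) → L²(e^{-φ₂})`, namely `e^{φ₁-φ₂} ϑ_{φ₂}`. -/
noncomputable def adj (φ₁ φ₂ : W → ℝ) (α : Fin n → W → ℂ) (x : W) : ℂ :=
  (Real.exp (φ₁ x - φ₂ x) : ℂ) * C.theta φ₂ α x

/-- `(∂̄α)_{jk} = ∂̄_k α_j - ∂̄_j α_k`. -/
noncomputable def curl (α : Fin n → W → ℂ) (j k : Fin n) (x : W) : ℂ :=
  C.db k (α j) x - C.db j (α k) x

/-- locally square integrable. -/
def L2Loc (u : W → ℂ) : Prop :=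
  AEStronglyMeasurable u C.μ ∧
    ∀ K : Set W, IsCompact K → ∫⁻ x in K, ENNReal.ofReal (‖u x‖ ^ 2) ∂C.μ < ⊤

/-- `∂̄u = f` weakly. -/
def WeakDbar (u : W → ℂ) (f : Fin n → W → ℂ) : Prop :=
  ∀ v : W → ℂ, C.Test v → ∀ j, ∫ x, u x * C.db j v x ∂C.μ = - ∫ x, f j x * v x ∂C.μ

/-- `∂̄f = 0` weakly. -/
def WeakClosed (f : Fin n → W → ℂ) : Prop :=
  ∀ v : W → ℂ, C.Test v → ∀ j k, ∫ x, f j x * C.db k v x ∂C.μ = ∫ x, f k x * C.db j v x ∂C.μ

/-- `(∂̄b)_{jk} = c_{jk}` weakly. -/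
def WeakCurl (b : Fin n → W → ℂ) (c : Fin n → Fin n → W → ℂ) : Prop :=
  ∀ v : W → ℂ, C.Test v → ∀ j k,
    ∫ x, (b j x * C.db k v x - b k x * C.db j v x) ∂C.μ = - ∫ x, c j k x * v x ∂C.μ

/-- `∑ ∂_j b_j = dv` weakly. -/
def WeakDiv (b : Fin n → W → ℂ) (dv : W → ℂ) : Prop :=
  ∀ v : W → ℂ, C.Test v → ∫ x, ∑ j, b j x * C.d j v x ∂C.μ = - ∫ x, dv x * v x ∂C.μ

/-- `g` is the weak adjoint `T*β`, `T = ∂̄ : L²(e^{-φ₁}) → L²(e^{-φ₂})`. -/
def WeakAdj (φ₁ φ₂ : W → ℝ) (β : Fin n → W → ℂ) (g : W → ℂ) : Prop :=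
  ∀ u : W → ℂ, C.Test u →
    ∫ x, ∑ j, β j x * conj (C.db j u x) ∂(C.Wt φ₂) = ∫ x, g x * conj (u x) ∂(C.Wt φ₁)

end RDCalc

end Claimed.Agent.R242

/-! equation lemmas of this file, cited once here (rule 6) -/
namespace Claimed.Agent.R242

theorem r242_eqcite_SCV_HorCalc : True := by
  have := @Claimed.Agent.R242.RDCalc.WeakDiv.eq_1.{0}
  have := @Claimed.Agent.R242.RDCalc.curl.eq_1.{0}
  have := @Claimed.Agent.R242.RDCalc.L2Loc.eq_1.{0}
  have := @Claimed.Agent.R242.RDCalc.Test.eq_1.{0}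
  have := @Claimed.Agent.R242.RDCalc.adj.eq_1.{0}
  have := @Claimed.Agent.R242.RDCalc.WeakDbar.eq_1.{0}
  have := @Claimed.Agent.R242.RDCalc.levi.eq_1.{0}
  have := @Claimed.Agent.R242.RDCalc.dbR.eq_1.{0}
  have := @Claimed.Agent.R242.RDCalc.Wt.eq_1.{0}
  have := @Claimed.Agent.R242.RDCalc.WeakClosed.eq_1.{0}
  have := @Claimed.Agent.R242.RDCalc.theta.eq_1.{0}
  have := @Claimed.Agent.R242.RDCalc.WeakCurl.eq_1.{0}
  have := @Claimed.Agent.R242.RDCalc.WeakAdj.eq_1.{0}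
  have := @Claimed.Agent.R242.RDCalc.SmR.eq_1.{0}
  have := @Claimed.Agent.R242.RDCalc.TestF.eq_1.{0}
  have := @Claimed.Agent.R242.RDCalc.dR.eq_1.{0}
  have := @Claimed.Agent.R242.RDCalc.mk.congr_simp.{0}
  trivial

end Claimed.Agent.R242
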