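/-
Row 242, SCV layer, package HOR.  Architect: helper147.
HorKitA: derived ALGEBRA of the contract `RDCalc` (no measure theory).  All proofs are a few lines from the fields of `RDCalc`.

Leaves:  SCV-HOR-KIT-A1 = section `Alg`  (Sm / d / db: neg, sub, sums, constants, real functions, exp),
         SCV-HOR-KIT-A2 = section `Supp` (supports, test functions) + section `Levi` (Levi form calculus).

HINTS.  * `fun x => - u x = fun x => (-1) * u x` etc.; finite sums by `Finset.induction_on` (`classical`).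
* real functions: `C.SmR φ` unfolds to `C.Sm fun x => (φ x : ℂ)`; use `show C.Sm _`, `funext`, `push_cast`, e.g.
  `(fun x => ((φ x + φ' x : ℝ) : ℂ)) = fun x => (φ x : ℂ) + (φ' x : ℂ)`.
* `smR_comp`, `dR_comp`: the fields `sm_comp`, `d_comp`.   `exp`: `Real.contDiff_exp`, `Real.deriv_exp`.
* `dbR_eq_conj`: `db_conj` applied to `u = (φ : ℂ)`, `conj (φ x : ℂ) = φ x` (`Complex.conj_ofReal`).
* supports: `x ∉ tsupport u → u =ᶠ[𝓝 x] 0` (`notMem_tsupport_iff_eventuallyEq`), then `d_congr` + `d_const`.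
* Levi chain rule: `C.db k (χ∘ρ) = fun y => χ'(ρ y) * C.db k ρ y` (funext + `db_comp`), then `d_mul`, `d_comp` for `deriv χ`
  (`ContDiff ℝ ∞ (deriv χ)`: `contDiff_infty_iff_deriv`), `dbR_eq_conj`; `∑∑ (A_j conj A_k) a_j conj a_k = ‖∑ A_j a_j‖²`
  (`Complex.mul_conj`, `Complex.normSq_eq_norm_sq`, `Finset.sum_mul_sum`, `map_sum`).
-/
import Claimed.Agent.R242.SCV.HorCalc

open MeasureTheory Complex
open scoped ContDiff ComplexConjugate ENNReal Topology

namespace Claimed.Agent.R242

namespace RDCalc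

variable {W : Type*} [TopologicalSpace W] [MeasurableSpace W] {n : ℕ} (C : RDCalc W n)
  {u v : W → ℂ} {φ φ' : W → ℝ} {x : W}

section Alg

theorem sm_neg (hu : C.Sm u) : C.Sm fun x => - u x := by
  have := C.sm_mul (C.sm_const (-1)) hu
  simpa using this

theorem sm_sub (hu : C.Sm u) (hv : C.Sm v) : C.Sm fun x => u x - v x := by
  have := C.sm_add hu (C.sm_neg hv)
  simpa [sub_eq_add_neg] using this

theorem sm_const_mul (c : ℂ) (hu : C.Sm u) : C.Sm fun x => c * u x := by
  exact C.sm_mul (C.sm_const c) hu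

theorem sm_sum {ι : Type*} (s : Finset ι) (U : ι → W → ℂ) (h : ∀ i ∈ s, C.Sm (U i)) :
    C.Sm fun x => ∑ i ∈ s, U i x := by
  classical
  induction s using Finset.induction_on with
  | empty => simpa using C.sm_const 0
  | insert i s hi ih =>
    have h1 := C.sm_add (h i (Finset.mem_insert_self i s))
      (ih fun k hk => h k (Finset.mem_insert_of_mem hk))
    simpa [Finset.sum_insert hi] using h1

theorem d_neg (j : Fin n) (x : W) (hu : C.Sm u) : C.d j (fun y => - u y) x = - C.d j u x := by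
  have e : (fun y => - u y) = fun y => (-1 : ℂ) * u y := by
    funext y; ring
  rw [e, C.d_mul j x (C.sm_const (-1)) hu, C.d_const]
  ring

theorem db_neg (j : Fin n) (x : W) (hu : C.Sm u) : C.db j (fun y => - u y) x = - C.db j u x := by
  have e : (fun y => - u y) = fun y => (-1 : ℂ) * u y := by
    funext y; ring
  rw [e, C.db_mul j x (C.sm_const (-1)) hu, C.db_const]
  ring

theorem d_sub (j : Fin n) (x : W) (hu : C.Sm u) (hv : C.Sm v) :
    C.d j (fun y => u y - v y) x = C.d j u x - C.d j v x := by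
  have e : (fun y => u y - v y) = fun y => u y + (fun z => - v z) y := by
    funext y; ring
  rw [e, C.d_add j x hu (C.sm_neg hv), C.d_neg j x hv]
  ring

theorem db_sub (j : Fin n) (x : W) (hu : C.Sm u) (hv : C.Sm v) :
    C.db j (fun y => u y - v y) x = C.db j u x - C.db j v x := by
  have e : (fun y => u y - v y) = fun y => u y + (fun z => - v z) y := by
    funext y; ring
  rw [e, C.db_add j x hu (C.sm_neg hv), C.db_neg j x hv]
  ring

theorem d_const_mul (j : Fin n) (x : W) (c : ℂ) (hu : C.Sm u) :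
    C.d j (fun y => c * u y) x = c * C.d j u x := by
  rw [C.d_mul j x (C.sm_const c) hu, C.d_const]
  ring

theorem db_const_mul (j : Fin n) (x : W) (c : ℂ) (hu : C.Sm u) :
    C.db j (fun y => c * u y) x = c * C.db j u x := by
  rw [C.db_mul j x (C.sm_const c) hu, C.db_const]
  ring

theorem d_sum {ι : Type*} (j : Fin n) (x : W) (s : Finset ι) (U : ι → W → ℂ) (h : ∀ i ∈ s, C.Sm (U i)) :
    C.d j (fun y => ∑ i ∈ s, U i y) x = ∑ i ∈ s, C.d j (U i) x := by
  classical
  induction s using Finset.induction_on with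
  | empty => simpa using C.d_const j 0 x
  | insert i s hi ih =>
    have h1 := C.d_add j x (h i (Finset.mem_insert_self i s))
      (C.sm_sum s U fun k hk => h k (Finset.mem_insert_of_mem hk))
    rw [ih fun k hk => h k (Finset.mem_insert_of_mem hk)] at h1
    simpa [Finset.sum_insert hi] using h1

theorem db_sum {ι : Type*} (j : Fin n) (x : W) (s : Finset ι) (U : ι → W → ℂ) (h : ∀ i ∈ s, C.Sm (U i)) :
    C.db j (fun y => ∑ i ∈ s, U i y) x = ∑ i ∈ s, C.db j (U i) x := by
  classical
  induction s using Finset.induction_on with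
  | empty => simpa using C.db_const j 0 x
  | insert i s hi ih =>
    have h1 := C.db_add j x (h i (Finset.mem_insert_self i s))
      (C.sm_sum s U fun k hk => h k (Finset.mem_insert_of_mem hk))
    rw [ih fun k hk => h k (Finset.mem_insert_of_mem hk)] at h1
    simpa [Finset.sum_insert hi] using h1

/-! real functions -/

theorem smR_cont (hφ : C.SmR φ) : Continuous φ := by
  have h := Complex.continuous_re.comp (C.sm_cont hφ)
  simpa [Function.comp_def] using h

theorem smR_const (c : ℝ) : C.SmR fun _ => c := by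
  exact C.sm_const (c : ℂ)

theorem smR_add (hφ : C.SmR φ) (hφ' : C.SmR φ') : C.SmR fun x => φ x + φ' x := by
  have := C.sm_add hφ hφ'
  show C.Sm _
  simpa using this

theorem smR_sub (hφ : C.SmR φ) (hφ' : C.SmR φ') : C.SmR fun x => φ x - φ' x := by
  have := C.sm_sub hφ hφ'
  show C.Sm _
  simpa using this

theorem smR_neg (hφ : C.SmR φ) : C.SmR fun x => - φ x := by
  have := C.sm_neg hφ
  show C.Sm _
  simpa using this

theorem smR_mul (hφ : C.SmR φ) (hφ' : C.SmR φ') : C.SmR fun x => φ x * φ' x := by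
  have := C.sm_mul hφ hφ'
  show C.Sm _
  simpa using this

theorem smR_const_mul (c : ℝ) (hφ : C.SmR φ) : C.SmR fun x => c * φ x := by
  exact C.smR_mul (C.smR_const c) hφ

theorem smR_comp {h : ℝ → ℝ} (hφ : C.SmR φ) (hh : ContDiff ℝ ∞ h) : C.SmR fun x => h (φ x) := by
  exact C.sm_comp hφ hh

theorem sm_dR (j : Fin n) (hφ : C.SmR φ) : C.Sm (C.dR j φ) := by
  exact C.sm_d j hφ

theorem sm_dbR (j : Fin n) (hφ : C.SmR φ) : C.Sm (C.dbR j φ) := by
  exact C.sm_db j hφ

theorem dbR_eq_conj (j : Fin n) (x : W) (hφ : C.SmR φ) : C.dbR j φ x = conj (C.dR j φ x) := by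
  have h := C.db_conj j x hφ
  simp only [Complex.conj_ofReal] at h
  exact h

theorem dR_eq_conj (j : Fin n) (x : W) (hφ : C.SmR φ) : C.dR j φ x = conj (C.dbR j φ x) := by
  rw [C.dbR_eq_conj j x hφ, Complex.conj_conj]

theorem norm_dbR (j : Fin n) (x : W) (hφ : C.SmR φ) : ‖C.dbR j φ x‖ = ‖C.dR j φ x‖ := by
  rw [C.dbR_eq_conj j x hφ, Complex.norm_conj]

theorem dR_congr (j : Fin n) (h : φ =ᶠ[𝓝 x] φ') : C.dR j φ x = C.dR j φ' x := by
  exact C.d_congr j (h.mono fun y hy => by simp only [hy])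

theorem dbR_congr (j : Fin n) (h : φ =ᶠ[𝓝 x] φ') : C.dbR j φ x = C.dbR j φ' x := by
  exact C.db_congr j (h.mono fun y hy => by simp only [hy])

theorem dR_const (j : Fin n) (c : ℝ) (x : W) : C.dR j (fun _ => c) x = 0 := by
  exact C.d_const j (c : ℂ) x

theorem dbR_const (j : Fin n) (c : ℝ) (x : W) : C.dbR j (fun _ => c) x = 0 := by
  exact C.db_const j (c : ℂ) x

theorem dR_add (j : Fin n) (x : W) (hφ : C.SmR φ) (hφ' : C.SmR φ') :
    C.dR j (fun y => φ y + φ' y) x = C.dR j φ x + C.dR j φ' x := by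
  have h := C.d_add j x hφ hφ'
  unfold dR
  simpa only [Complex.ofReal_add] using h

theorem dR_sub (j : Fin n) (x : W) (hφ : C.SmR φ) (hφ' : C.SmR φ') :
    C.dR j (fun y => φ y - φ' y) x = C.dR j φ x - C.dR j φ' x := by
  have h := C.d_sub j x hφ hφ'
  unfold dR
  simpa only [Complex.ofReal_sub] using h

theorem dR_const_mul (j : Fin n) (x : W) (c : ℝ) (hφ : C.SmR φ) :
    C.dR j (fun y => c * φ y) x = c * C.dR j φ x := by
  have h := C.d_const_mul j x (c : ℂ) hφ
  unfold dR
  simpa only [Complex.ofReal_mul] using h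

theorem dR_comp {h : ℝ → ℝ} (j : Fin n) (x : W) (hφ : C.SmR φ) (hh : ContDiff ℝ ∞ h) :
    C.dR j (fun y => h (φ y)) x = (deriv h (φ x) : ℝ) * C.dR j φ x := by
  exact C.d_comp j x hφ hh

theorem dbR_comp {h : ℝ → ℝ} (j : Fin n) (x : W) (hφ : C.SmR φ) (hh : ContDiff ℝ ∞ h) :
    C.dbR j (fun y => h (φ y)) x = (deriv h (φ x) : ℝ) * C.dbR j φ x := by
  exact C.db_comp j x hφ hh

/-! exponentials of real functions (as complex valued functions) -/

theorem sm_exp (hφ : C.SmR φ) : C.Sm fun x => ((Real.exp (φ x) : ℝ) : ℂ) := by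
  exact C.sm_comp hφ Real.contDiff_exp

theorem d_exp (j : Fin n) (x : W) (hφ : C.SmR φ) :
    C.d j (fun y => ((Real.exp (φ y) : ℝ) : ℂ)) x = ((Real.exp (φ x) : ℝ) : ℂ) * C.dR j φ x := by
  have h := C.d_comp j x hφ Real.contDiff_exp
  rw [Real.deriv_exp] at h
  exact h

theorem db_exp (j : Fin n) (x : W) (hφ : C.SmR φ) :
    C.db j (fun y => ((Real.exp (φ y) : ℝ) : ℂ)) x = ((Real.exp (φ x) : ℝ) : ℂ) * C.dbR j φ x := by
  have h := C.db_comp j x hφ Real.contDiff_exp
  rw [Real.deriv_exp] at h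
  exact h

/-- multiplication by a real smooth function. -/
theorem d_ofReal_mul (j : Fin n) (x : W) (hφ : C.SmR φ) (hu : C.Sm u) :
    C.d j (fun y => (φ y : ℂ) * u y) x = C.dR j φ x * u x + (φ x : ℂ) * C.d j u x := by
  exact C.d_mul j x hφ hu

theorem db_ofReal_mul (j : Fin n) (x : W) (hφ : C.SmR φ) (hu : C.Sm u) :
    C.db j (fun y => (φ y : ℂ) * u y) x = C.dbR j φ x * u x + (φ x : ℂ) * C.db j u x := by
  exact C.db_mul j x hφ hu

end Alg

section Supp

theorem d_of_notMem_tsupport (j : Fin n) (hx : x ∉ tsupport u) : C.d j u x = 0 := by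
  have h : u =ᶠ[𝓝 x] fun _ => (0 : ℂ) := notMem_tsupport_iff_eventuallyEq.1 hx
  rw [C.d_congr j h, C.d_const]

theorem db_of_notMem_tsupport (j : Fin n) (hx : x ∉ tsupport u) : C.db j u x = 0 := by
  have h : u =ᶠ[𝓝 x] fun _ => (0 : ℂ) := notMem_tsupport_iff_eventuallyEq.1 hx
  rw [C.db_congr j h, C.db_const]

theorem tsupport_d_subset (j : Fin n) (u : W → ℂ) : tsupport (C.d j u) ⊆ tsupport u := by
  refine closure_minimal (fun x hx => ?_) (isClosed_tsupport u)
  by_contra hcon
  exact hx (C.d_of_notMem_tsupport j hcon)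

theorem tsupport_db_subset (j : Fin n) (u : W → ℂ) : tsupport (C.db j u) ⊆ tsupport u := by
  refine closure_minimal (fun x hx => ?_) (isClosed_tsupport u)
  by_contra hcon
  exact hx (C.db_of_notMem_tsupport j hcon)

theorem test_zero : C.Test fun _ => 0 := by
  exact ⟨C.sm_const 0, HasCompactSupport.zero⟩

theorem test_d (j : Fin n) (hu : C.Test u) : C.Test (C.d j u) := by
  exact ⟨C.sm_d j hu.1, hu.2.mono' (subset_closure.trans (C.tsupport_d_subset j u))⟩

theorem test_db (j : Fin n) (hu : C.Test u) : C.Test (C.db j u) := by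
  exact ⟨C.sm_db j hu.1, hu.2.mono' (subset_closure.trans (C.tsupport_db_subset j u))⟩

theorem test_add (hu : C.Test u) (hv : C.Test v) : C.Test fun x => u x + v x := by
  exact ⟨C.sm_add hu.1 hv.1, hu.2.add hv.2⟩

theorem test_sub (hu : C.Test u) (hv : C.Test v) : C.Test fun x => u x - v x := by
  have hn : C.Test fun x => - v x :=
    ⟨C.sm_neg hv.1, hv.2.comp_left (g := fun z : ℂ => -z) neg_zero⟩
  have := C.test_add hu hn
  simpa [sub_eq_add_neg] using this

theorem test_neg (hu : C.Test u) : C.Test fun x => - u x := by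
  exact ⟨C.sm_neg hu.1, hu.2.comp_left (g := fun z : ℂ => -z) neg_zero⟩

theorem test_const_mul (c : ℂ) (hu : C.Test u) : C.Test fun x => c * u x := by
  exact ⟨C.sm_const_mul c hu.1, hu.2.mul_left (f := fun _ => c)⟩

theorem test_conj (hu : C.Test u) : C.Test fun x => conj (u x) := by
  exact ⟨C.sm_conj hu.1, hu.2.comp_left (g := fun z : ℂ => conj z) (map_zero _)⟩

theorem test_mul_left (hu : C.Sm u) (hv : C.Test v) : C.Test fun x => u x * v x := by
  exact ⟨C.sm_mul hu hv.1, hv.2.mul_left (f := u)⟩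

theorem test_mul_right (hu : C.Test u) (hv : C.Sm v) : C.Test fun x => u x * v x := by
  exact ⟨C.sm_mul hu.1 hv, hu.2.mul_right (f' := v)⟩

theorem test_sum {ι : Type*} (s : Finset ι) (U : ι → W → ℂ) (h : ∀ i ∈ s, C.Test (U i)) :
    C.Test fun x => ∑ i ∈ s, U i x := by
  classical
  induction s using Finset.induction_on with
  | empty => simpa using C.test_zero
  | insert i s hi ih =>
    have h1 := C.test_add (h i (Finset.mem_insert_self i s))
      (ih fun k hk => h k (Finset.mem_insert_of_mem hk))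
    simpa [Finset.sum_insert hi] using h1

/-- a smooth function whose closed support lies in a compact set is a test function. -/
theorem test_of_tsupport_subset {K : Set W} (hK : IsCompact K) (hu : C.Sm u)
    (h : tsupport u ⊆ K) : C.Test u := by
  exact ⟨hu, hK.of_isClosed_subset (isClosed_tsupport u) h⟩

theorem test_theta {α : Fin n → W → ℂ} (hφ : C.SmR φ) (hα : C.TestF α) : C.Test (C.theta φ α) := by
  exact C.test_sum Finset.univ _ fun j _ =>
    C.test_sub (C.test_mul_left (C.sm_dR j hφ) (hα j)) (C.test_d j (hα j))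

theorem test_adj {α : Fin n → W → ℂ} (hφ : C.SmR φ) (hφ' : C.SmR φ') (hα : C.TestF α) :
    C.Test (C.adj φ φ' α) := by
  exact C.test_mul_left (C.sm_exp (C.smR_sub hφ hφ')) (C.test_theta hφ' hα)

theorem test_curl {α : Fin n → W → ℂ} (hα : C.TestF α) (j k : Fin n) : C.Test (C.curl α j k) := by
  exact C.test_sub (C.test_db k (hα j)) (C.test_db j (hα k))

end Supp

section Levi

theorem levi_congr (a : Fin n → ℂ) (h : φ =ᶠ[𝓝 x] φ') : C.levi φ x a = C.levi φ' x a := by
  have h2 : ∀ k, (C.db k fun y => (φ y : ℂ)) =ᶠ[𝓝 x] (C.db k fun y => (φ' y : ℂ)) := by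
    intro k
    refine h.eventuallyEq_nhds.mono fun y hy => ?_
    exact C.db_congr k (hy.mono fun z hz => by simp only [hz])
  unfold levi
  simp only [fun j k => C.d_congr j (h2 k)]

theorem levi_add (x : W) (a : Fin n → ℂ) (hφ : C.SmR φ) (hφ' : C.SmR φ') :
    C.levi (fun y => φ y + φ' y) x a = C.levi φ x a + C.levi φ' x a := by
  have e : ∀ k, (C.db k fun y => ((φ y + φ' y : ℝ) : ℂ)) =
      fun y => C.db k (fun z => (φ z : ℂ)) y + C.db k (fun z => (φ' z : ℂ)) y := by
    intro k
    funext y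
    have := C.db_add k y hφ hφ'
    simpa only [Complex.ofReal_add] using this
  unfold levi
  simp only [e, fun j k => C.d_add j x (C.sm_db k hφ) (C.sm_db k hφ')]
  rw [← Complex.add_re, ← Finset.sum_add_distrib]
  congr 1
  refine Finset.sum_congr rfl fun j _ => ?_
  rw [← Finset.sum_add_distrib]
  refine Finset.sum_congr rfl fun k _ => ?_
  ring

/-- chain rule for the Levi form. -/
theorem levi_comp {h : ℝ → ℝ} (x : W) (a : Fin n → ℂ) (hφ : C.SmR φ) (hh : ContDiff ℝ ∞ h) :
    C.levi (fun y => h (φ y)) x a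
      = deriv h (φ x) * C.levi φ x a + deriv (deriv h) (φ x) * ‖∑ j, a j * C.dR j φ x‖ ^ 2 := by
  have hh' : ContDiff ℝ ∞ (deriv h) := (contDiff_infty_iff_deriv.1 hh).2
  have e : ∀ k, (C.db k fun y => ((h (φ y) : ℝ) : ℂ)) =
      fun y => ((deriv h (φ y) : ℝ) : ℂ) * C.db k (fun z => (φ z : ℂ)) y := by
    intro k
    funext y
    exact C.db_comp k y hφ hh
  have e2 : ∀ j k, C.d j (C.db k fun y => ((h (φ y) : ℝ) : ℂ)) x =
      ((deriv (deriv h) (φ x) : ℝ) : ℂ) * C.dR j φ x * conj (C.dR k φ x) +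
        ((deriv h (φ x) : ℝ) : ℂ) * C.d j (C.db k fun z => (φ z : ℂ)) x := by
    intro j k
    rw [e k, C.d_mul j x (C.sm_comp hφ hh') (C.sm_db k hφ), C.d_comp j x hφ hh']
    have h3 : C.db k (fun z => (φ z : ℂ)) x = conj (C.dR k φ x) := C.dbR_eq_conj k x hφ
    rw [h3]
    rfl
  unfold levi
  simp only [e2]
  have key : ∑ j, ∑ k, (((deriv (deriv h) (φ x) : ℝ) : ℂ) * C.dR j φ x * conj (C.dR k φ x) +
        ((deriv h (φ x) : ℝ) : ℂ) * C.d j (C.db k fun z => (φ z : ℂ)) x) * a j * conj (a k) =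
      ((deriv h (φ x) : ℝ) : ℂ) * (∑ j, ∑ k, C.d j (C.db k fun z => (φ z : ℂ)) x * a j * conj (a k)) +
      ((deriv (deriv h) (φ x) : ℝ) : ℂ) *
        ((∑ j, a j * C.dR j φ x) * conj (∑ j, a j * C.dR j φ x)) := by
    rw [map_sum, Finset.sum_mul_sum, Finset.mul_sum, Finset.mul_sum, ← Finset.sum_add_distrib]
    refine Finset.sum_congr rfl fun j _ => ?_
    rw [Finset.mul_sum, Finset.mul_sum, ← Finset.sum_add_distrib]
    refine Finset.sum_congr rfl fun k _ => ?_
    rw [map_mul]
    ring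
  rw [key, Complex.add_re, Complex.re_ofReal_mul, Complex.re_ofReal_mul, Complex.mul_conj,
    Complex.ofReal_re, Complex.normSq_eq_norm_sq]

/-- `x ↦ levi φ x (α x)` is continuous with compact support for a test form `α`. -/
theorem continuous_levi {α : Fin n → W → ℂ} (hφ : C.SmR φ) (hα : ∀ j, C.Sm (α j)) :
    Continuous fun x => C.levi φ x fun j => α j x := by
  unfold levi
  refine Complex.continuous_re.comp ?_
  refine continuous_finsetSum _ fun j _ => continuous_finsetSum _ fun k _ => ?_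
  exact ((C.sm_cont (C.sm_d j (C.sm_db k hφ))).mul (C.sm_cont (hα j))).mul
    (C.sm_cont (C.sm_conj (hα k)))

theorem hasCompactSupport_levi {α : Fin n → W → ℂ} (hα : C.TestF α) :
    HasCompactSupport fun x => C.levi φ x fun j => α j x := by
  refine HasCompactSupport.intro' (K := ⋃ j, tsupport (α j))
    (isCompact_iUnion fun j => (hα j).2) (isClosed_iUnion_of_finite fun j => isClosed_tsupport _) ?_
  intro x hx
  have h0 : ∀ j, α j x = 0 := by
    intro j
    by_contra hcon
    exact hx (Set.mem_iUnion.2 ⟨j, subset_closure hcon⟩)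
  unfold levi
  simp [h0]

end Levi

end RDCalc

end Claimed.Agent.R242
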