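/-
Row 242, SCV layer, package HOR.  Architect: helper147.
HorKitB: MEASURE kit.   Section `L2`: elementary `L²` inequalities for honest functions and Bochner integrals (Mathlib only).
Section `Wt`: the weighted measures `C.Wt φ = e^{-φ} μ` of the contract.

Leaves:  SCV-HOR-KIT-B1 = section `L2`,   SCV-HOR-KIT-B2 = section `Wt`.

CONVENTION of the whole package: `u ∈ L²(ν)` is `MemLp u 2 ν`, its squared norm is the real number `∫ x, ‖u x‖ ^ 2 ∂ν`.

HINTS (L2).  `MemLp.integrable_mul`, `MemLp.integrable_sq`/`memLp_two_iff_integrable_sq_norm`, `MemLp.star`/`MemLp.conj`..;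
 Cauchy–Schwarz: `norm_integral_le_integral_norm` + `integral_mul_le_Lp_mul_Lq_of_nonneg Real.HolderConjugate.two_two`
 or via `L2.inner_def` and `norm_inner_le_norm`;  `‖a + b‖² ≤ (1 + 1/γ) ‖a‖² + (1 + γ) ‖b‖²` pointwise
 (`(‖a‖ + ‖b‖)² ≤ ..` because `2 s t ≤ s²/γ + γ t²`), then `integral_mono`;   Minkowski: `eLpNorm_add_le` + `MemLp.eLpNorm_eq_integral_rpow_norm`
 or from Cauchy–Schwarz.
HINTS (Wt).  `withDensity` API with the density `ENNReal.ofReal (Real.exp (-φ x))`, finite and positive everywhere: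
 `integral_withDensity_eq_integral_toReal_smul`, `integrable_withDensity_iff_integrable_smul'`, `lintegral_withDensity_eq_lintegral_mul_non_measurable`,
 `withDensity_absolutelyContinuous`, `withDensity_absolutelyContinuous'`, `withDensity_mono`, `aestronglyMeasurable_withDensity_iff`,
 `ae_withDensity_iff`;  change of weight: `C.Wt φ = (C.Wt φ').withDensity (ofReal (exp (φ' - φ)))` (`withDensity_mul`).
 On a compact set a continuous function is bounded (`IsCompact.exists_bound_of_continuousOn`, `IsCompact.bddAbove_image`).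
-/
import Claimed.Agent.R242.SCV.HorKitA

open MeasureTheory Complex
open scoped ContDiff ComplexConjugate ENNReal Topology

namespace Claimed.Agent.R242

section L2

variable {X : Type*} [MeasurableSpace X] {ν : Measure X} {u v : X → ℂ}

theorem hor_integrable_mul (hu : MemLp u 2 ν) (hv : MemLp v 2 ν) : Integrable (fun x => u x * v x) ν := by
  exact hu.integrable_mul hv

theorem hor_memLp_conj (hu : MemLp u 2 ν) : MemLp (fun x => conj (u x)) 2 ν := by
  exact hu.star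

theorem hor_integrable_mul_conj (hu : MemLp u 2 ν) (hv : MemLp v 2 ν) :
    Integrable (fun x => u x * conj (v x)) ν := by
  exact hor_integrable_mul hu (hor_memLp_conj hv)

theorem hor_integrable_nsq (hu : MemLp u 2 ν) : Integrable (fun x => ‖u x‖ ^ 2) ν := by
  exact (memLp_two_iff_integrable_sq_norm hu.1).1 hu

theorem hor_memLp_of_integrable_nsq (hm : AEStronglyMeasurable u ν) (h : Integrable (fun x => ‖u x‖ ^ 2) ν) :
    MemLp u 2 ν := by
  exact (memLp_two_iff_integrable_sq_norm hm).2 h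

theorem hor_lintegral_nsq (hu : MemLp u 2 ν) :
    ∫⁻ x, ENNReal.ofReal (‖u x‖ ^ 2) ∂ν = ENNReal.ofReal (∫ x, ‖u x‖ ^ 2 ∂ν) := by
  exact (ofReal_integral_eq_lintegral_ofReal (hor_integrable_nsq hu)
    (Filter.Eventually.of_forall fun x => by positivity)).symm

theorem hor_memLp_of_lintegral (hm : AEStronglyMeasurable u ν)
    (h : ∫⁻ x, ENNReal.ofReal (‖u x‖ ^ 2) ∂ν < ⊤) : MemLp u 2 ν := by
  refine hor_memLp_of_integrable_nsq hm ⟨hm.norm.pow 2, ?_⟩
  rw [hasFiniteIntegral_iff_ofReal (Filter.Eventually.of_forall fun x => by positivity)]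
  exact h

theorem hor_lintegral_nsq_lt_top (hu : MemLp u 2 ν) : ∫⁻ x, ENNReal.ofReal (‖u x‖ ^ 2) ∂ν < ⊤ := by
  rw [hor_lintegral_nsq hu]
  exact ENNReal.ofReal_lt_top

/-- Cauchy–Schwarz for nonnegative real functions. -/
theorem hor_cs_real {f g : X → ℝ} (hf : MemLp f 2 ν) (hg : MemLp g 2 ν) (hf0 : ∀ x, 0 ≤ f x)
    (hg0 : ∀ x, 0 ≤ g x) :
    (∫ x, f x * g x ∂ν) ^ 2 ≤ (∫ x, f x ^ 2 ∂ν) * ∫ x, g x ^ 2 ∂ν := by
  have h2 : ENNReal.ofReal 2 = 2 := by norm_num
  have h := integral_mul_le_Lp_mul_Lq_of_nonneg (μ := ν) Real.HolderConjugate.two_two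
    (Filter.Eventually.of_forall hf0) (Filter.Eventually.of_forall hg0) (by rw [h2]; exact hf)
    (by rw [h2]; exact hg)
  have e1 : ∀ F : X → ℝ, (∫ a, F a ^ (2 : ℝ) ∂ν) = ∫ a, F a ^ 2 ∂ν := by
    intro F
    refine integral_congr_ae (Filter.Eventually.of_forall fun x => ?_)
    exact Real.rpow_two (F x)
  rw [e1, e1, ← Real.sqrt_eq_rpow, ← Real.sqrt_eq_rpow] at h
  have hA : 0 ≤ ∫ x, f x ^ 2 ∂ν := integral_nonneg fun x => by positivity
  have hB : 0 ≤ ∫ x, g x ^ 2 ∂ν := integral_nonneg fun x => by positivity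
  have hI : 0 ≤ ∫ x, f x * g x ∂ν := integral_nonneg fun x => mul_nonneg (hf0 x) (hg0 x)
  calc (∫ x, f x * g x ∂ν) ^ 2
      ≤ (Real.sqrt (∫ x, f x ^ 2 ∂ν) * Real.sqrt (∫ x, g x ^ 2 ∂ν)) ^ 2 :=
        pow_le_pow_left₀ hI h 2
    _ = (∫ x, f x ^ 2 ∂ν) * ∫ x, g x ^ 2 ∂ν := by
        rw [mul_pow, Real.sq_sqrt hA, Real.sq_sqrt hB]

/-- Cauchy–Schwarz for the norms. -/
theorem hor_cs_norm (hu : MemLp u 2 ν) (hv : MemLp v 2 ν) :
    (∫ x, ‖u x‖ * ‖v x‖ ∂ν) ^ 2 ≤ (∫ x, ‖u x‖ ^ 2 ∂ν) * ∫ x, ‖v x‖ ^ 2 ∂ν :=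
  hor_cs_real hu.norm hv.norm (fun _ => norm_nonneg _) (fun _ => norm_nonneg _)

/-- Cauchy–Schwarz (bilinear form). -/
theorem hor_cs (hu : MemLp u 2 ν) (hv : MemLp v 2 ν) :
    ‖∫ x, u x * v x ∂ν‖ ^ 2 ≤ (∫ x, ‖u x‖ ^ 2 ∂ν) * ∫ x, ‖v x‖ ^ 2 ∂ν := by
  refine le_trans ?_ (hor_cs_norm hu hv)
  refine pow_le_pow_left₀ (norm_nonneg _) ?_ 2
  refine (norm_integral_le_integral_norm _).trans (le_of_eq ?_)
  refine integral_congr_ae (Filter.Eventually.of_forall fun x => ?_)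
  exact norm_mul _ _

/-- Cauchy–Schwarz (sesquilinear form). -/
theorem hor_cs_conj (hu : MemLp u 2 ν) (hv : MemLp v 2 ν) :
    ‖∫ x, u x * conj (v x) ∂ν‖ ^ 2 ≤ (∫ x, ‖u x‖ ^ 2 ∂ν) * ∫ x, ‖v x‖ ^ 2 ∂ν := by
  have h := hor_cs hu (hor_memLp_conj hv)
  simpa only [RCLike.norm_conj] using h

/-- Cauchy–Schwarz for `∫ √(F G)`. -/
theorem hor_cs_sqrt {F G : X → ℝ} (hF : Integrable F ν) (hG : Integrable G ν)
    (hF0 : ∀ x, 0 ≤ F x) (hG0 : ∀ x, 0 ≤ G x) :
    Integrable (fun x => Real.sqrt (F x * G x)) ν ∧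
      (∫ x, Real.sqrt (F x * G x) ∂ν) ^ 2 ≤ (∫ x, F x ∂ν) * ∫ x, G x ∂ν := by
  have key : ∀ H : X → ℝ, Integrable H ν → (∀ x, 0 ≤ H x) → MemLp (fun x => Real.sqrt (H x)) 2 ν := by
    intro H hH hH0
    have hm : AEStronglyMeasurable (fun x => Real.sqrt (H x)) ν :=
      Real.continuous_sqrt.comp_aestronglyMeasurable hH.1
    refine (memLp_two_iff_integrable_sq_norm hm).2 ?_
    refine hH.congr (Filter.Eventually.of_forall fun x => ?_)
    show H x = ‖Real.sqrt (H x)‖ ^ 2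
    rw [Real.norm_eq_abs, sq_abs, Real.sq_sqrt (hH0 x)]
  have e : (fun x => Real.sqrt (F x * G x)) = fun x => Real.sqrt (F x) * Real.sqrt (G x) := by
    funext x
    exact Real.sqrt_mul (hF0 x) _
  have h := hor_cs_real (key F hF hF0) (key G hG hG0) (fun _ => Real.sqrt_nonneg _)
    (fun _ => Real.sqrt_nonneg _)
  rw [e]
  refine ⟨(key F hF hF0).integrable_mul (key G hG hG0), ?_⟩
  have e1 : ∀ H : X → ℝ, (∀ x, 0 ≤ H x) → (∫ x, Real.sqrt (H x) ^ 2 ∂ν) = ∫ x, H x ∂ν := by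
    intro H hH0
    refine integral_congr_ae (Filter.Eventually.of_forall fun x => ?_)
    exact Real.sq_sqrt (hH0 x)
  rwa [e1 F hF0, e1 G hG0] at h

theorem hor_nsq_add_le (γ : ℝ) (hγ : 0 < γ) (hu : MemLp u 2 ν) (hv : MemLp v 2 ν) :
    ∫ x, ‖u x + v x‖ ^ 2 ∂ν ≤ (1 + 1 / γ) * ∫ x, ‖u x‖ ^ 2 ∂ν + (1 + γ) * ∫ x, ‖v x‖ ^ 2 ∂ν := by
  have hiu := hor_integrable_nsq hu
  have hiv := hor_integrable_nsq hv
  rw [← integral_const_mul, ← integral_const_mul,
    ← integral_add (hiu.const_mul _) (hiv.const_mul _)]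
  refine integral_mono (hor_integrable_nsq (hu.add hv)) ((hiu.const_mul _).add (hiv.const_mul _))
    fun x => ?_
  show ‖u x + v x‖ ^ 2 ≤ (1 + 1 / γ) * ‖u x‖ ^ 2 + (1 + γ) * ‖v x‖ ^ 2
  have h1 : ‖u x + v x‖ ^ 2 ≤ (‖u x‖ + ‖v x‖) ^ 2 :=
    pow_le_pow_left₀ (norm_nonneg _) (norm_add_le _ _) 2
  have h2 : 0 ≤ (‖u x‖ - γ * ‖v x‖) ^ 2 / γ := by positivity
  have h3 : (‖u x‖ - γ * ‖v x‖) ^ 2 / γ = ‖u x‖ ^ 2 / γ - 2 * ‖u x‖ * ‖v x‖ + γ * ‖v x‖ ^ 2 := by
    field_simp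
    ring
  have h4 : (1 + 1 / γ) * ‖u x‖ ^ 2 = ‖u x‖ ^ 2 + ‖u x‖ ^ 2 / γ := by
    field_simp
  nlinarith

/-- Minkowski. -/
theorem hor_sqrt_nsq_add_le (hu : MemLp u 2 ν) (hv : MemLp v 2 ν) :
    Real.sqrt (∫ x, ‖u x + v x‖ ^ 2 ∂ν)
      ≤ Real.sqrt (∫ x, ‖u x‖ ^ 2 ∂ν) + Real.sqrt (∫ x, ‖v x‖ ^ 2 ∂ν) := by
  have hiu := hor_integrable_nsq hu
  have hiv := hor_integrable_nsq hv
  have hiuv : Integrable (fun x => ‖u x‖ * ‖v x‖) ν := hu.norm.integrable_mul hv.norm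
  have hA : 0 ≤ ∫ x, ‖u x‖ ^ 2 ∂ν := integral_nonneg fun x => by positivity
  have hB : 0 ≤ ∫ x, ‖v x‖ ^ 2 ∂ν := integral_nonneg fun x => by positivity
  have hcs : ∫ x, ‖u x‖ * ‖v x‖ ∂ν ≤
      Real.sqrt (∫ x, ‖u x‖ ^ 2 ∂ν) * Real.sqrt (∫ x, ‖v x‖ ^ 2 ∂ν) := by
    rw [← Real.sqrt_mul hA]
    exact (le_abs_self _).trans (Real.abs_le_sqrt (hor_cs_norm hu hv))
  have h1 : ∫ x, ‖u x + v x‖ ^ 2 ∂ν ≤
      ∫ x, (‖u x‖ ^ 2 + 2 * (‖u x‖ * ‖v x‖) + ‖v x‖ ^ 2) ∂ν := by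
    refine integral_mono (hor_integrable_nsq (hu.add hv)) ((hiu.add (hiuv.const_mul 2)).add hiv)
      fun x => ?_
    show ‖u x + v x‖ ^ 2 ≤ ‖u x‖ ^ 2 + 2 * (‖u x‖ * ‖v x‖) + ‖v x‖ ^ 2
    have := pow_le_pow_left₀ (norm_nonneg _) (norm_add_le (u x) (v x)) 2
    nlinarith
  have h2 : ∫ x, (‖u x‖ ^ 2 + 2 * (‖u x‖ * ‖v x‖) + ‖v x‖ ^ 2) ∂ν =
      (∫ x, ‖u x‖ ^ 2 ∂ν) + 2 * (∫ x, ‖u x‖ * ‖v x‖ ∂ν) + ∫ x, ‖v x‖ ^ 2 ∂ν := by
    have hs : Integrable (fun x => ‖u x‖ ^ 2 + 2 * (‖u x‖ * ‖v x‖)) ν := hiu.add (hiuv.const_mul 2)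
    rw [integral_add hs hiv, integral_add hiu (hiuv.const_mul 2), integral_const_mul]
  refine Real.sqrt_le_iff.2 ⟨by positivity, ?_⟩
  rw [add_sq, Real.sq_sqrt hA, Real.sq_sqrt hB]
  rw [h2] at h1
  nlinarith

theorem hor_memLp_sum {ι : Type*} (s : Finset ι) (U : ι → X → ℂ) (hU : ∀ i ∈ s, MemLp (U i) 2 ν) :
    MemLp (fun x => ∑ i ∈ s, U i x) 2 ν := by
  exact memLp_finsetSum s hU

theorem hor_nsq_sum_le {ι : Type*} (s : Finset ι) (U : ι → X → ℂ) (hU : ∀ i ∈ s, MemLp (U i) 2 ν) :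
    ∫ x, ‖∑ i ∈ s, U i x‖ ^ 2 ∂ν ≤ s.card * ∑ i ∈ s, ∫ x, ‖U i x‖ ^ 2 ∂ν := by
  have hi : ∀ i ∈ s, Integrable (fun x => ‖U i x‖ ^ 2) ν := fun i hi => hor_integrable_nsq (hU i hi)
  rw [← integral_finsetSum s hi, ← integral_const_mul]
  refine integral_mono (hor_integrable_nsq (hor_memLp_sum s U hU))
    ((integrable_finsetSum s hi).const_mul _) fun x => ?_
  show ‖∑ i ∈ s, U i x‖ ^ 2 ≤ s.card * ∑ i ∈ s, ‖U i x‖ ^ 2
  exact (pow_le_pow_left₀ (norm_nonneg _) (norm_sum_le _ _) 2).trans sq_sum_le_card_mul_sum_sq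

/-- bounded measurable multiplier. -/
theorem hor_memLp_bdd_mul {w : X → ℂ} (c : ℝ) (hw : AEStronglyMeasurable w ν) (hwc : ∀ x, ‖w x‖ ≤ c)
    (hu : MemLp u 2 ν) : MemLp (fun x => w x * u x) 2 ν := by
  refine hu.of_le_mul (c := c) (hw.mul hu.1) (Filter.Eventually.of_forall fun x => ?_)
  rw [norm_mul]
  exact mul_le_mul_of_nonneg_right (hwc x) (norm_nonneg _)

theorem hor_nsq_bdd_mul_le {w : X → ℂ} (c : ℝ) (hwc : ∀ x, ‖w x‖ ≤ c) (hu : MemLp u 2 ν) :
    ∫ x, ‖w x * u x‖ ^ 2 ∂ν ≤ c ^ 2 * ∫ x, ‖u x‖ ^ 2 ∂ν := by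
  rw [← integral_const_mul]
  refine integral_mono_of_nonneg (Filter.Eventually.of_forall fun x => by positivity)
    ((hor_integrable_nsq hu).const_mul _) (Filter.Eventually.of_forall fun x => ?_)
  show ‖w x * u x‖ ^ 2 ≤ c ^ 2 * ‖u x‖ ^ 2
  rw [norm_mul, mul_pow]
  exact mul_le_mul_of_nonneg_right (pow_le_pow_left₀ (norm_nonneg _) (hwc x) 2) (by positivity)

end L2

namespace RDCalc

section Wt

variable {W : Type*} [TopologicalSpace W] [T2Space W] [MeasurableSpace W] [BorelSpace W] {n : ℕ}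
  (C : RDCalc W n)
  {u v : W → ℂ} {φ φ' : W → ℝ}

theorem wt_dens_measurable (hφ : Measurable φ) :
    Measurable fun x => ENNReal.ofReal (Real.exp (-φ x)) :=
  (Real.measurable_exp.comp hφ.neg).ennreal_ofReal

theorem wt_dens_toReal (φ : W → ℝ) (x : W) :
    (ENNReal.ofReal (Real.exp (-φ x))).toReal = Real.exp (-φ x) :=
  ENNReal.toReal_ofReal (Real.exp_pos _).le

theorem wt_dens_ne_zero (φ : W → ℝ) (x : W) : ENNReal.ofReal (Real.exp (-φ x)) ≠ 0 := by
  rw [Ne, ENNReal.ofReal_eq_zero, not_le]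
  exact Real.exp_pos _

theorem Wt_zero : C.Wt (fun _ => 0) = C.μ := by
  have e : (fun _ : W => ENNReal.ofReal (Real.exp (-(0 : ℝ)))) = 1 := by
    funext x
    simp
  unfold Wt
  rw [e, withDensity_one]

theorem Wt_mono (h : ∀ x, φ x ≤ φ' x) : C.Wt φ' ≤ C.Wt φ := by
  refine withDensity_mono (Filter.Eventually.of_forall fun x => ?_)
  exact ENNReal.ofReal_le_ofReal (Real.exp_le_exp.2 (neg_le_neg (h x)))

theorem ae_Wt_iff (hφ : Measurable φ) {P : W → Prop} : (∀ᵐ x ∂(C.Wt φ), P x) ↔ ∀ᵐ x ∂C.μ, P x := by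
  unfold Wt
  rw [ae_withDensity_iff (wt_dens_measurable hφ)]
  exact ⟨fun h => h.mono fun x hx => hx (wt_dens_ne_zero φ x), fun h => h.mono fun x hx _ => hx⟩

theorem aestronglyMeasurable_Wt_iff (hφ : Measurable φ) {E : Type*} [TopologicalSpace E] {F : W → E} :
    AEStronglyMeasurable F (C.Wt φ) ↔ AEStronglyMeasurable F C.μ := by
  constructor
  · intro h
    exact h.mono_ac (withDensity_absolutelyContinuous' (wt_dens_measurable hφ).aemeasurable
      (Filter.Eventually.of_forall fun x => wt_dens_ne_zero φ x))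
  · intro h
    exact h.mono_ac (withDensity_absolutelyContinuous _ _)

theorem integrable_Wt_iff (hφ : Measurable φ) {F : W → ℂ} :
    Integrable F (C.Wt φ) ↔ Integrable (fun x => F x * ((Real.exp (-φ x) : ℝ) : ℂ)) C.μ := by
  unfold Wt
  rw [integrable_withDensity_iff_integrable_smul' (wt_dens_measurable hφ)
    (Filter.Eventually.of_forall fun x => ENNReal.ofReal_lt_top)]
  refine integrable_congr (Filter.Eventually.of_forall fun x => ?_)
  show (ENNReal.ofReal (Real.exp (-φ x))).toReal • F x = F x * ((Real.exp (-φ x) : ℝ) : ℂ)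
  rw [wt_dens_toReal, Complex.real_smul, mul_comm]

theorem integrable_Wt_iff_real (hφ : Measurable φ) {F : W → ℝ} :
    Integrable F (C.Wt φ) ↔ Integrable (fun x => F x * Real.exp (-φ x)) C.μ := by
  unfold Wt
  rw [integrable_withDensity_iff_integrable_smul' (wt_dens_measurable hφ)
    (Filter.Eventually.of_forall fun x => ENNReal.ofReal_lt_top)]
  refine integrable_congr (Filter.Eventually.of_forall fun x => ?_)
  show (ENNReal.ofReal (Real.exp (-φ x))).toReal • F x = F x * Real.exp (-φ x)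
  rw [wt_dens_toReal, smul_eq_mul, mul_comm]

theorem integral_Wt (hφ : Measurable φ) (F : W → ℂ) :
    ∫ x, F x ∂(C.Wt φ) = ∫ x, F x * ((Real.exp (-φ x) : ℝ) : ℂ) ∂C.μ := by
  unfold Wt
  rw [integral_withDensity_eq_integral_toReal_smul (wt_dens_measurable hφ)
    (Filter.Eventually.of_forall fun x => ENNReal.ofReal_lt_top)]
  refine integral_congr_ae (Filter.Eventually.of_forall fun x => ?_)
  show (ENNReal.ofReal (Real.exp (-φ x))).toReal • F x = F x * ((Real.exp (-φ x) : ℝ) : ℂ)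
  rw [wt_dens_toReal, Complex.real_smul, mul_comm]

theorem integral_Wt_real (hφ : Measurable φ) (F : W → ℝ) :
    ∫ x, F x ∂(C.Wt φ) = ∫ x, F x * Real.exp (-φ x) ∂C.μ := by
  unfold Wt
  rw [integral_withDensity_eq_integral_toReal_smul (wt_dens_measurable hφ)
    (Filter.Eventually.of_forall fun x => ENNReal.ofReal_lt_top)]
  refine integral_congr_ae (Filter.Eventually.of_forall fun x => ?_)
  show (ENNReal.ofReal (Real.exp (-φ x))).toReal • F x = F x * Real.exp (-φ x)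
  rw [wt_dens_toReal, smul_eq_mul, mul_comm]

theorem lintegral_Wt (hφ : Measurable φ) (F : W → ℝ≥0∞) :
    ∫⁻ x, F x ∂(C.Wt φ) = ∫⁻ x, F x * ENNReal.ofReal (Real.exp (-φ x)) ∂C.μ := by
  unfold Wt
  rw [lintegral_withDensity_eq_lintegral_mul_non_measurable _ (wt_dens_measurable hφ)
    (Filter.Eventually.of_forall fun x => ENNReal.ofReal_lt_top)]
  refine lintegral_congr fun x => ?_
  rw [Pi.mul_apply, mul_comm]

/-- change of weight. -/
theorem integrable_Wt_change (hφ : Measurable φ) (hφ' : Measurable φ') {F : W → ℂ} :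
    Integrable F (C.Wt φ) ↔ Integrable (fun x => F x * ((Real.exp (φ' x - φ x) : ℝ) : ℂ)) (C.Wt φ') := by
  rw [C.integrable_Wt_iff hφ, C.integrable_Wt_iff hφ']
  refine integrable_congr (Filter.Eventually.of_forall fun x => ?_)
  show F x * ((Real.exp (-φ x) : ℝ) : ℂ) =
    F x * ((Real.exp (φ' x - φ x) : ℝ) : ℂ) * ((Real.exp (-φ' x) : ℝ) : ℂ)
  rw [mul_assoc, ← Complex.ofReal_mul, ← Real.exp_add]
  congr 3
  ring

theorem integral_Wt_change (hφ : Measurable φ) (hφ' : Measurable φ') (F : W → ℂ) :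
    ∫ x, F x ∂(C.Wt φ) = ∫ x, F x * ((Real.exp (φ' x - φ x) : ℝ) : ℂ) ∂(C.Wt φ') := by
  rw [C.integral_Wt hφ, C.integral_Wt hφ']
  refine integral_congr_ae (Filter.Eventually.of_forall fun x => ?_)
  show F x * ((Real.exp (-φ x) : ℝ) : ℂ) =
    F x * ((Real.exp (φ' x - φ x) : ℝ) : ℂ) * ((Real.exp (-φ' x) : ℝ) : ℂ)
  rw [mul_assoc, ← Complex.ofReal_mul, ← Real.exp_add]
  congr 3
  ring

theorem integrable_Wt_change_real (hφ : Measurable φ) (hφ' : Measurable φ') {F : W → ℝ} :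
    Integrable F (C.Wt φ) ↔ Integrable (fun x => F x * Real.exp (φ' x - φ x)) (C.Wt φ') := by
  rw [C.integrable_Wt_iff_real hφ, C.integrable_Wt_iff_real hφ']
  refine integrable_congr (Filter.Eventually.of_forall fun x => ?_)
  show F x * Real.exp (-φ x) = F x * Real.exp (φ' x - φ x) * Real.exp (-φ' x)
  rw [mul_assoc, ← Real.exp_add]
  congr 2
  ring

theorem integral_Wt_change_real (hφ : Measurable φ) (hφ' : Measurable φ') (F : W → ℝ) :
    ∫ x, F x ∂(C.Wt φ) = ∫ x, F x * Real.exp (φ' x - φ x) ∂(C.Wt φ') := by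
  rw [C.integral_Wt_real hφ, C.integral_Wt_real hφ']
  refine integral_congr_ae (Filter.Eventually.of_forall fun x => ?_)
  show F x * Real.exp (-φ x) = F x * Real.exp (φ' x - φ x) * Real.exp (-φ' x)
  rw [mul_assoc, ← Real.exp_add]
  congr 2
  ring

theorem memLp_Wt_change (hφ : Measurable φ) (hφ' : Measurable φ') :
    MemLp u 2 (C.Wt φ) ↔ MemLp (fun x => u x * ((Real.exp ((φ' x - φ x) / 2) : ℝ) : ℂ)) 2 (C.Wt φ') := by
  have hE : Measurable (fun x => ((Real.exp ((φ' x - φ x) / 2) : ℝ) : ℂ)) :=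
    Complex.measurable_ofReal.comp (Real.measurable_exp.comp ((hφ'.sub hφ).div_const 2))
  have hE' : Measurable (fun x => ((Real.exp (-((φ' x - φ x) / 2)) : ℝ) : ℂ)) :=
    Complex.measurable_ofReal.comp (Real.measurable_exp.comp ((hφ'.sub hφ).div_const 2).neg)
  have hm : AEStronglyMeasurable u (C.Wt φ) ↔
      AEStronglyMeasurable (fun x => u x * ((Real.exp ((φ' x - φ x) / 2) : ℝ) : ℂ)) (C.Wt φ') := by
    rw [C.aestronglyMeasurable_Wt_iff hφ, C.aestronglyMeasurable_Wt_iff hφ']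
    constructor
    · intro h
      exact h.mul hE.aestronglyMeasurable
    · intro h
      refine (h.mul hE'.aestronglyMeasurable).congr (Filter.Eventually.of_forall fun x => ?_)
      show u x * ((Real.exp ((φ' x - φ x) / 2) : ℝ) : ℂ) * ((Real.exp (-((φ' x - φ x) / 2)) : ℝ) : ℂ) = u x
      rw [mul_assoc, ← Complex.ofReal_mul, ← Real.exp_add, add_neg_cancel, Real.exp_zero,
        Complex.ofReal_one, mul_one]
  have hn : ∀ x, ‖u x‖ ^ 2 * Real.exp (φ' x - φ x) =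
      ‖u x * ((Real.exp ((φ' x - φ x) / 2) : ℝ) : ℂ)‖ ^ 2 := by
    intro x
    rw [norm_mul, Complex.norm_real, Real.norm_eq_abs, abs_of_pos (Real.exp_pos _), mul_pow, sq (Real.exp _),
      ← Real.exp_add, add_halves]
  constructor
  · intro h
    rw [memLp_two_iff_integrable_sq_norm (hm.1 h.1)]
    have h3 := (C.integrable_Wt_change_real hφ hφ').1 ((memLp_two_iff_integrable_sq_norm h.1).1 h)
    exact h3.congr (Filter.Eventually.of_forall hn)
  · intro h
    rw [memLp_two_iff_integrable_sq_norm (hm.2 h.1), C.integrable_Wt_change_real hφ hφ']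
    exact ((memLp_two_iff_integrable_sq_norm h.1).1 h).congr
      (Filter.Eventually.of_forall fun x => (hn x).symm)

theorem memLp_Wt_mono (h : ∀ x, φ x ≤ φ' x) (hu : MemLp u 2 (C.Wt φ)) : MemLp u 2 (C.Wt φ') := by
  exact hu.mono_measure (C.Wt_mono h)

theorem integral_Wt_mono {F : W → ℝ} (h : ∀ x, φ x ≤ φ' x) (hF0 : ∀ x, 0 ≤ F x) (hF : Integrable F (C.Wt φ)) :
    Integrable F (C.Wt φ') ∧ ∫ x, F x ∂(C.Wt φ') ≤ ∫ x, F x ∂(C.Wt φ) := by
  exact ⟨hF.mono_measure (C.Wt_mono h),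
    integral_mono_measure (C.Wt_mono h) (Filter.Eventually.of_forall hF0) hF⟩

theorem Wt_lt_top_of_isCompact (hφ : Continuous φ) {K : Set W} (hK : IsCompact K) : C.Wt φ K < ⊤ := by
  obtain ⟨c, hc⟩ := hK.exists_bound_of_continuousOn (f := fun x => Real.exp (-φ x))
    (Real.continuous_exp.comp hφ.neg).continuousOn
  unfold Wt
  rw [withDensity_apply _ hK.measurableSet]
  calc ∫⁻ x in K, ENNReal.ofReal (Real.exp (-φ x)) ∂C.μ
      ≤ ∫⁻ _ in K, ENNReal.ofReal c ∂C.μ :=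
        setLIntegral_mono' hK.measurableSet fun x hx =>
          ENNReal.ofReal_le_ofReal ((le_abs_self _).trans (hc x hx))
    _ = ENNReal.ofReal c * C.μ K := setLIntegral_const _ _
    _ < ⊤ := ENNReal.mul_lt_top ENNReal.ofReal_lt_top (C.fin_cpt K hK)

theorem memLp_Wt_of_continuous (hφ : Continuous φ) (hv : Continuous v) (hc : HasCompactSupport v) :
    MemLp v 2 (C.Wt φ) := by
  have : IsFiniteMeasureOnCompacts (C.Wt φ) := ⟨fun _ hK => C.Wt_lt_top_of_isCompact hφ hK⟩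
  exact hv.memLp_of_hasCompactSupport hc

theorem integrable_Wt_of_continuous (hφ : Continuous φ) (hv : Continuous v) (hc : HasCompactSupport v) :
    Integrable v (C.Wt φ) := by
  have : IsFiniteMeasureOnCompacts (C.Wt φ) := ⟨fun _ hK => C.Wt_lt_top_of_isCompact hφ hK⟩
  exact hv.integrable_of_hasCompactSupport hc

theorem integrable_Wt_of_continuous_real (hφ : Continuous φ) {F : W → ℝ} (hv : Continuous F)
    (hc : HasCompactSupport F) : Integrable F (C.Wt φ) := by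
  have : IsFiniteMeasureOnCompacts (C.Wt φ) := ⟨fun _ hK => C.Wt_lt_top_of_isCompact hφ hK⟩
  exact hv.integrable_of_hasCompactSupport hc

theorem test_memLp (hφ : Continuous φ) (hv : C.Test v) : MemLp v 2 (C.Wt φ) := by
  exact C.memLp_Wt_of_continuous hφ (C.sm_cont hv.1) hv.2

theorem test_integrable (hφ : Continuous φ) (hv : C.Test v) : Integrable v (C.Wt φ) := by
  exact C.integrable_Wt_of_continuous hφ (C.sm_cont hv.1) hv.2

theorem test_memLp_μ (hv : C.Test v) : MemLp v 2 C.μ := by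
  have h := C.test_memLp (φ := fun _ => 0) continuous_const hv
  rwa [C.Wt_zero] at h

theorem test_integrable_μ (hv : C.Test v) : Integrable v C.μ := by
  have h := C.test_integrable (φ := fun _ => 0) continuous_const hv
  rwa [C.Wt_zero] at h

/-- multiplication by a continuous function, when one of the two factors lives on a compact set. -/
theorem memLp_continuous_mul {w : W → ℂ} {K : Set W} (hK : IsCompact K) (hw : Continuous w)
    (h0 : ∀ x ∉ K, w x = 0 ∨ u x = 0) (hu : MemLp u 2 (C.Wt φ)) :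
    MemLp (fun x => w x * u x) 2 (C.Wt φ) := by
  obtain ⟨c, hc⟩ := hK.exists_bound_of_continuousOn hw.continuousOn
  have hc0 : ∀ x, ‖K.indicator w x‖ ≤ max c 0 := by
    intro x
    by_cases hx : x ∈ K
    · rw [Set.indicator_of_mem hx]
      exact (hc x hx).trans (le_max_left _ _)
    · rw [Set.indicator_of_notMem hx, norm_zero]
      exact le_max_right _ _
  have hm : AEStronglyMeasurable (K.indicator w) (C.Wt φ) :=
    (hw.measurable.indicator hK.measurableSet).aestronglyMeasurable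
  have h1 := hor_memLp_bdd_mul (max c 0) hm hc0 hu
  have e : (fun x => w x * u x) = fun x => K.indicator w x * u x := by
    funext x
    by_cases hx : x ∈ K
    · rw [Set.indicator_of_mem hx]
    · rw [Set.indicator_of_notMem hx, zero_mul]
      rcases h0 x hx with h | h
      · rw [h, zero_mul]
      · rw [h, mul_zero]
  rw [e]
  exact h1

/-- on a compact set all the weighted `L²` norms are equivalent. -/
theorem exists_nsq_Wt_le (hφ : Continuous φ) (hφ' : Continuous φ') {K : Set W} (hK : IsCompact K) :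
    ∃ c : ℝ, 0 ≤ c ∧ ∀ u : W → ℂ, (∀ x ∉ K, u x = 0) → MemLp u 2 (C.Wt φ) →
      MemLp u 2 (C.Wt φ') ∧ ∫ x, ‖u x‖ ^ 2 ∂(C.Wt φ') ≤ c * ∫ x, ‖u x‖ ^ 2 ∂(C.Wt φ) := by
  obtain ⟨c, hc⟩ := hK.exists_bound_of_continuousOn (f := fun x => Real.exp (φ x - φ' x))
    (Real.continuous_exp.comp (hφ.sub hφ')).continuousOn
  refine ⟨max c 0, le_max_right _ _, fun u h0 hu => ?_⟩
  have hm : AEStronglyMeasurable u (C.Wt φ') :=
    (C.aestronglyMeasurable_Wt_iff hφ'.measurable).2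
      ((C.aestronglyMeasurable_Wt_iff hφ.measurable).1 hu.1)
  have hi : Integrable (fun x => ‖u x‖ ^ 2) (C.Wt φ) := (memLp_two_iff_integrable_sq_norm hu.1).1 hu
  have hle : ∀ x, ‖u x‖ ^ 2 * Real.exp (φ x - φ' x) ≤ max c 0 * ‖u x‖ ^ 2 := by
    intro x
    by_cases hx : x ∈ K
    · rw [mul_comm]
      exact mul_le_mul_of_nonneg_right
        (((le_abs_self _).trans (hc x hx)).trans (le_max_left _ _)) (sq_nonneg _)
    · rw [h0 x hx]
      simp
  have hme : AEStronglyMeasurable (fun x => ‖u x‖ ^ 2 * Real.exp (φ x - φ' x)) (C.Wt φ) :=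
    (hu.1.norm.pow 2).mul (Real.measurable_exp.comp (hφ.measurable.sub hφ'.measurable)).aestronglyMeasurable
  have hi2 : Integrable (fun x => ‖u x‖ ^ 2 * Real.exp (φ x - φ' x)) (C.Wt φ) := by
    refine (hi.const_mul (max c 0)).mono' hme (Filter.Eventually.of_forall fun x => ?_)
    rw [Real.norm_eq_abs, abs_of_nonneg (mul_nonneg (sq_nonneg _) (Real.exp_pos _).le)]
    exact hle x
  refine ⟨(memLp_two_iff_integrable_sq_norm hm).2
    ((C.integrable_Wt_change_real hφ'.measurable hφ.measurable).2 hi2), ?_⟩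
  rw [C.integral_Wt_change_real hφ'.measurable hφ.measurable, ← integral_const_mul]
  exact integral_mono hi2 (hi.const_mul _) hle

theorem L2Loc_of_memLp_Wt (hφ : Continuous φ) (hu : MemLp u 2 (C.Wt φ)) : C.L2Loc u := by
  refine ⟨(C.aestronglyMeasurable_Wt_iff hφ.measurable).1 hu.1, fun K hK => ?_⟩
  obtain ⟨c, hc⟩ := hK.exists_bound_of_continuousOn (f := fun x => Real.exp (φ x))
    (Real.continuous_exp.comp hφ).continuousOn
  have hlt := hor_lintegral_nsq_lt_top hu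
  rw [C.lintegral_Wt hφ.measurable] at hlt
  calc ∫⁻ x in K, ENNReal.ofReal (‖u x‖ ^ 2) ∂C.μ
      ≤ ∫⁻ x in K, ENNReal.ofReal c *
          (ENNReal.ofReal (‖u x‖ ^ 2) * ENNReal.ofReal (Real.exp (-φ x))) ∂C.μ := by
        refine setLIntegral_mono' hK.measurableSet fun x hx => ?_
        have h1 : Real.exp (φ x) ≤ c := (le_abs_self _).trans (hc x hx)
        have hc0 : 0 ≤ c := (Real.exp_pos _).le.trans h1
        rw [← ENNReal.ofReal_mul (sq_nonneg _), ← ENNReal.ofReal_mul hc0]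
        refine ENNReal.ofReal_le_ofReal ?_
        have h2 : 1 ≤ c * Real.exp (-φ x) := by
          have h3 : Real.exp (φ x) * Real.exp (-φ x) = 1 := by
            rw [← Real.exp_add, add_neg_cancel, Real.exp_zero]
          rw [← h3]
          exact mul_le_mul_of_nonneg_right h1 (Real.exp_pos _).le
        calc ‖u x‖ ^ 2 = ‖u x‖ ^ 2 * 1 := (mul_one _).symm
          _ ≤ ‖u x‖ ^ 2 * (c * Real.exp (-φ x)) := mul_le_mul_of_nonneg_left h2 (sq_nonneg _)
          _ = c * (‖u x‖ ^ 2 * Real.exp (-φ x)) := by ring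
    _ ≤ ∫⁻ x, ENNReal.ofReal c *
          (ENNReal.ofReal (‖u x‖ ^ 2) * ENNReal.ofReal (Real.exp (-φ x))) ∂C.μ :=
        setLIntegral_le_lintegral _ _
    _ = ENNReal.ofReal c *
          ∫⁻ x, ENNReal.ofReal (‖u x‖ ^ 2) * ENNReal.ofReal (Real.exp (-φ x)) ∂C.μ :=
        lintegral_const_mul' _ _ ENNReal.ofReal_ne_top
    _ < ⊤ := ENNReal.mul_lt_top ENNReal.ofReal_lt_top hlt

/-- an `L²_loc` function times a continuous function with compact support is in every weighted `L²`. -/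
theorem L2Loc.memLp_mul (hφ : Continuous φ) (hu : C.L2Loc u) (hv : Continuous v) (hc : HasCompactSupport v) :
    MemLp (fun x => u x * v x) 2 (C.Wt φ) := by
  have hK : IsCompact (tsupport v) := hc
  have hm : AEStronglyMeasurable (fun x => u x * v x) (C.Wt φ) :=
    (C.aestronglyMeasurable_Wt_iff hφ.measurable).2 (hu.1.mul hv.measurable.aestronglyMeasurable)
  refine hor_memLp_of_lintegral hm ?_
  obtain ⟨c, hcb⟩ := hK.exists_bound_of_continuousOn (f := fun x => ‖v x‖ ^ 2 * Real.exp (-φ x))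
    ((hv.norm.pow 2).mul (Real.continuous_exp.comp hφ.neg)).continuousOn
  rw [C.lintegral_Wt hφ.measurable]
  calc ∫⁻ x, ENNReal.ofReal (‖u x * v x‖ ^ 2) * ENNReal.ofReal (Real.exp (-φ x)) ∂C.μ
      ≤ ∫⁻ x, (tsupport v).indicator
          (fun x => ENNReal.ofReal c * ENNReal.ofReal (‖u x‖ ^ 2)) x ∂C.μ := by
        refine lintegral_mono fun x => ?_
        by_cases hx : x ∈ tsupport v
        · rw [Set.indicator_of_mem hx]
          have h1 : ‖v x‖ ^ 2 * Real.exp (-φ x) ≤ c := (le_abs_self _).trans (hcb x hx)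
          have hc0 : 0 ≤ c := (mul_nonneg (sq_nonneg _) (Real.exp_pos _).le).trans h1
          rw [← ENNReal.ofReal_mul (sq_nonneg _), ← ENNReal.ofReal_mul hc0]
          refine ENNReal.ofReal_le_ofReal ?_
          rw [norm_mul, mul_pow, mul_assoc, mul_comm]
          exact mul_le_mul_of_nonneg_right h1 (sq_nonneg _)
        · rw [Set.indicator_of_notMem hx, image_eq_zero_of_notMem_tsupport hx]
          simp
    _ = ∫⁻ x in tsupport v, ENNReal.ofReal c * ENNReal.ofReal (‖u x‖ ^ 2) ∂C.μ :=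
        lintegral_indicator hK.measurableSet _
    _ = ENNReal.ofReal c * ∫⁻ x in tsupport v, ENNReal.ofReal (‖u x‖ ^ 2) ∂C.μ :=
        lintegral_const_mul' _ _ ENNReal.ofReal_ne_top
    _ < ⊤ := ENNReal.mul_lt_top ENNReal.ofReal_lt_top (hu.2 _ hK)

theorem L2Loc.integrable_mul (hφ : Continuous φ) (hu : C.L2Loc u) (hv : Continuous v)
    (hc : HasCompactSupport v) : Integrable (fun x => u x * v x) (C.Wt φ) := by
  have hK : IsCompact (tsupport v) := hc
  have h1 : MemLp (fun x => u x * v x) 2 (C.Wt φ) := L2Loc.memLp_mul C hφ hu hv hc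
  have h2 : MemLp ((tsupport v).indicator fun _ => (1 : ℂ)) 2 (C.Wt φ) :=
    memLp_indicator_const 2 hK.measurableSet 1 (Or.inr (C.Wt_lt_top_of_isCompact hφ hK).ne)
  refine (hor_integrable_mul h1 h2).congr (Filter.Eventually.of_forall fun x => ?_)
  show u x * v x * (tsupport v).indicator (fun _ => (1 : ℂ)) x = u x * v x
  by_cases hx : x ∈ tsupport v
  · rw [Set.indicator_of_mem hx, mul_one]
  · rw [Set.indicator_of_notMem hx, image_eq_zero_of_notMem_tsupport hx, mul_zero, mul_zero]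

theorem L2Loc.integrable_mul_μ (hu : C.L2Loc u) (hv : Continuous v) (hc : HasCompactSupport v) :
    Integrable (fun x => u x * v x) C.μ := by
  have h := L2Loc.integrable_mul C (φ := fun _ => 0) continuous_const hu hv hc
  rwa [C.Wt_zero] at h

end Wt

end RDCalc

end Claimed.Agent.R242
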