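/-
Row 242, SCV layer, package HOR.  Architect: helper147.
HorKitC: INTEGRATION BY PARTS in the contract, weighted versions, classical ⇒ weak.

One leaf:  SCV-HOR-KIT-C  (all lemmas of this file; each is 5–25 lines from HorKitA/HorKitB, usable sorried).

PLANS.
* `int_d_mul`: `C.int_d` for `w = u v` (test by `test_mul_left`), `d_mul`, `integral_add` (both terms are continuous with compact support:
  `test_integrable_μ`).
* `ibp_Wt`: write `∫ F ∂(C.Wt Φ) = ∫ F e^{-Φ} ∂μ` (`integral_Wt`), apply `C.int_db` to `w = u * conj w' * e^{-Φ}`: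
  `∂̄_k (u conj(w) e^{-Φ}) = ∂̄_k u conj(w) e^{-Φ} + u conj(∂_k w) e^{-Φ} - u conj(w) ∂̄_kΦ e^{-Φ}` and `∂̄_kΦ = conj (∂_kΦ)`
  (`db_mul`, `db_conj`, `db_exp` for `-Φ`, `dbR_eq_conj`).
* `adj_identity`: sum over `j` of `ibp_Wt` (conjugated) with weight `φ₂`, then change of weight `φ₂ → φ₁` (`integral_Wt_change`);
  `conj` of an integral: `integral_conj`.
* `weakClosed_db`: two integrations by parts + `db_db_comm`.
-/
import Claimed.Agent.R242.SCV.HorKitB

open MeasureTheory Complex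
open scoped ContDiff ComplexConjugate ENNReal Topology

namespace Claimed.Agent.R242

namespace RDCalc

variable {W : Type*} [TopologicalSpace W] [T2Space W] [MeasurableSpace W] [BorelSpace W] {n : ℕ}
  (C : RDCalc W n) {u v w : W → ℂ} {φ φ₁ φ₂ Φ : W → ℝ}

theorem int_d_mul (j : Fin n) (hu : C.Sm u) (hv : C.Test v) :
    ∫ x, C.d j u x * v x ∂C.μ = - ∫ x, u x * C.d j v x ∂C.μ := by
  have hw := C.test_mul_left hu hv
  have h0 := C.int_d j hw.1 hw.2
  have h1 : (fun x => C.d j (fun y => u y * v y) x) = fun x => C.d j u x * v x + u x * C.d j v x :=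
    funext fun x => C.d_mul j x hu hv.1
  rw [h1, integral_add (C.test_integrable_μ (C.test_mul_left (C.sm_d j hu) hv))
    (C.test_integrable_μ (C.test_mul_left hu (C.test_d j hv)))] at h0
  exact eq_neg_of_add_eq_zero_left h0

theorem int_db_mul (j : Fin n) (hu : C.Sm u) (hv : C.Test v) :
    ∫ x, C.db j u x * v x ∂C.μ = - ∫ x, u x * C.db j v x ∂C.μ := by
  have hw := C.test_mul_left hu hv
  have h0 := C.int_db j hw.1 hw.2
  have h1 : (fun x => C.db j (fun y => u y * v y) x) = fun x => C.db j u x * v x + u x * C.db j v x :=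
    funext fun x => C.db_mul j x hu hv.1
  rw [h1, integral_add (C.test_integrable_μ (C.test_mul_left (C.sm_db j hu) hv))
    (C.test_integrable_μ (C.test_mul_left hu (C.test_db j hv)))] at h0
  exact eq_neg_of_add_eq_zero_left h0

/-- `int_db_mul` when one of the two factors has compact support. -/
theorem int_db_mul_of_or (j : Fin n) (hu : C.Sm u) (hv : C.Sm v)
    (hc : HasCompactSupport u ∨ HasCompactSupport v) :
    ∫ x, C.db j u x * v x ∂C.μ = - ∫ x, u x * C.db j v x ∂C.μ := by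
  rcases hc with hc | hc
  · have h := C.int_db_mul j hv (⟨hu, hc⟩ : C.Test u)
    have e1 : (fun x => C.db j v x * u x) = fun x => u x * C.db j v x := funext fun x => mul_comm _ _
    have e2 : (fun x => v x * C.db j u x) = fun x => C.db j u x * v x := funext fun x => mul_comm _ _
    rw [e1, e2] at h
    rw [h, neg_neg]
  · exact C.int_db_mul j hu ⟨hv, hc⟩

theorem dbR_neg_hor (k : Fin n) (x : W) (hΦ : C.SmR Φ) :
    C.dbR k (fun y => - Φ y) x = - C.dbR k Φ x := by
  unfold RDCalc.dbR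
  have e : (fun y => ((- Φ y : ℝ) : ℂ)) = fun y => - (Φ y : ℂ) := funext fun y => by push_cast; rfl
  rw [e]
  exact C.db_neg k x hΦ

/-- weighted integration by parts: the adjoint of `∂̄_k` in `L²(e^{-Φ})` is `-δ_k`, `δ_k w = ∂_k w - ∂_kΦ w`. -/
theorem ibp_Wt (k : Fin n) (hΦ : C.SmR Φ) (hu : C.Sm u) (hw : C.Sm w)
    (hc : HasCompactSupport u ∨ HasCompactSupport w) :
    ∫ x, C.db k u x * conj (w x) ∂(C.Wt Φ)
      = - ∫ x, u x * conj (C.d k w x - C.dR k Φ x * w x) ∂(C.Wt Φ) := by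
  have hm : Measurable Φ := (C.smR_cont hΦ).measurable
  rw [C.integral_Wt hm, C.integral_Wt hm]
  have hE : C.Sm fun x => ((Real.exp (- Φ x) : ℝ) : ℂ) := C.sm_exp (C.smR_neg hΦ)
  have hcw : C.Sm fun x => conj (w x) := C.sm_conj hw
  have hG : C.Sm fun x => conj (w x) * ((Real.exp (- Φ x) : ℝ) : ℂ) := C.sm_mul hcw hE
  have hc' : HasCompactSupport u ∨
      HasCompactSupport fun x => conj (w x) * ((Real.exp (- Φ x) : ℝ) : ℂ) := by
    rcases hc with hc | hc
    · exact Or.inl hc
    · exact Or.inr (C.test_mul_right (C.test_conj ⟨hw, hc⟩) hE).2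
  have h := C.int_db_mul_of_or k hu hG hc'
  have e1 : (fun x => C.db k u x * conj (w x) * ((Real.exp (- Φ x) : ℝ) : ℂ)) =
      fun x => C.db k u x * (conj (w x) * ((Real.exp (- Φ x) : ℝ) : ℂ)) :=
    funext fun x => mul_assoc _ _ _
  have e2 : (fun x => u x * conj (C.d k w x - C.dR k Φ x * w x) * ((Real.exp (- Φ x) : ℝ) : ℂ)) =
      fun x => u x * C.db k (fun y => conj (w y) * ((Real.exp (- Φ y) : ℝ) : ℂ)) x := by
    funext x
    rw [C.db_mul k x hcw hE, C.db_conj k x hw, C.db_exp k x (C.smR_neg hΦ), C.dbR_neg_hor k x hΦ,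
      C.dbR_eq_conj k x hΦ, map_sub, map_mul]
    ring
  rw [e1, e2, h]

/-- the same, read from the other side. -/
theorem ibp_Wt' (k : Fin n) (hΦ : C.SmR Φ) (hu : C.Sm u) (hw : C.Sm w)
    (hc : HasCompactSupport u ∨ HasCompactSupport w) :
    ∫ x, (C.d k w x - C.dR k Φ x * w x) * conj (u x) ∂(C.Wt Φ)
      = - ∫ x, w x * conj (C.db k u x) ∂(C.Wt Φ) := by
  have h := congrArg conj (C.ibp_Wt k hΦ hu hw hc)
  rw [map_neg, ← integral_conj, ← integral_conj] at h
  have e1 : (fun x => conj (C.db k u x * conj (w x))) = fun x => w x * conj (C.db k u x) := by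
    funext x
    rw [map_mul, Complex.conj_conj, mul_comm]
  have e2 : (fun x => conj (u x * conj (C.d k w x - C.dR k Φ x * w x))) =
      fun x => (C.d k w x - C.dR k Φ x * w x) * conj (u x) := by
    funext x
    rw [map_mul, Complex.conj_conj, mul_comm]
  rw [e1, e2] at h
  rw [h, neg_neg]

/-- the formal adjoint is the adjoint: `⟨α, ∂̄u⟩_{φ₂} = ⟨adj α, u⟩_{φ₁}` for a test form `α` and smooth `u`. -/
theorem adj_identity {α : Fin n → W → ℂ} (hφ₁ : C.SmR φ₁) (hφ₂ : C.SmR φ₂) (hα : C.TestF α) (hu : C.Sm u) :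
    ∫ x, ∑ j, α j x * conj (C.db j u x) ∂(C.Wt φ₂) = ∫ x, C.adj φ₁ φ₂ α x * conj (u x) ∂(C.Wt φ₁) := by
  have hc₁ : Continuous φ₁ := C.smR_cont hφ₁
  have hc₂ : Continuous φ₂ := C.smR_cont hφ₂
  have hcu : C.Sm fun x => conj (u x) := C.sm_conj hu
  have hi1 : ∀ j ∈ (Finset.univ : Finset (Fin n)),
      Integrable (fun x => α j x * conj (C.db j u x)) (C.Wt φ₂) := fun j _ =>
    C.test_integrable hc₂ (C.test_mul_right (hα j) (C.sm_conj (C.sm_db j hu)))
  have hT : ∀ j, C.Test fun x => (C.dR j φ₂ x * α j x - C.d j (α j) x) * conj (u x) := fun j =>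
    C.test_mul_right (C.test_sub (C.test_mul_left (C.sm_dR j hφ₂) (hα j)) (C.test_d j (hα j))) hcu
  have hi2 : ∀ j ∈ (Finset.univ : Finset (Fin n)),
      Integrable (fun x => (C.dR j φ₂ x * α j x - C.d j (α j) x) * conj (u x)) (C.Wt φ₂) := fun j _ =>
    C.test_integrable hc₂ (hT j)
  have hj : ∀ j, ∫ x, α j x * conj (C.db j u x) ∂(C.Wt φ₂) =
      ∫ x, (C.dR j φ₂ x * α j x - C.d j (α j) x) * conj (u x) ∂(C.Wt φ₂) := by
    intro j
    have h := C.ibp_Wt' j hφ₂ hu (hα j).1 (Or.inr (hα j).2)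
    have e : (fun x => (C.dR j φ₂ x * α j x - C.d j (α j) x) * conj (u x)) =
        fun x => - ((C.d j (α j) x - C.dR j φ₂ x * α j x) * conj (u x)) := by
      funext x
      ring
    rw [e, integral_neg, h, neg_neg]
  rw [integral_finsetSum _ hi1, Finset.sum_congr rfl fun j _ => hj j, ← integral_finsetSum _ hi2,
    C.integral_Wt_change hc₂.measurable hc₁.measurable]
  refine integral_congr_ae (Filter.Eventually.of_forall fun x => ?_)
  simp only [RDCalc.adj, RDCalc.theta]
  rw [← Finset.sum_mul]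
  push_cast
  ring

theorem weakAdj_adj {α : Fin n → W → ℂ} (hφ₁ : C.SmR φ₁) (hφ₂ : C.SmR φ₂) (hα : C.TestF α) :
    C.WeakAdj φ₁ φ₂ α (C.adj φ₁ φ₂ α) :=
  fun _ hu => C.adj_identity hφ₁ hφ₂ hα hu.1

/-- classical `∂̄` is weak `∂̄`. -/
theorem weakDbar_db (hu : C.Sm u) : C.WeakDbar u fun j => C.db j u := by
  intro v hv j
  rw [C.int_db_mul j hu hv, neg_neg]

/-- `∂̄u` is weakly closed. -/
theorem weakClosed_db (hu : C.Sm u) : C.WeakClosed fun j => C.db j u := by
  intro v hv j k
  have h1 := C.int_db_mul k (C.sm_db j hu) hv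
  have h2 := C.int_db_mul j (C.sm_db k hu) hv
  have e : (fun x => C.db k (C.db j u) x * v x) = fun x => C.db j (C.db k u) x * v x :=
    funext fun x => by rw [C.db_db_comm k j x hu]
  rw [e, h2] at h1
  exact (neg_injective h1).symm

/-- the classical curl is the weak curl. -/
theorem weakCurl_curl {α : Fin n → W → ℂ} (hα : ∀ j, C.Sm (α j)) : C.WeakCurl α (C.curl α) := by
  intro v hv j k
  have h1 := C.int_db_mul k (hα j) hv
  have h2 := C.int_db_mul j (hα k) hv
  have i1 := C.test_integrable_μ (C.test_mul_left (hα j) (C.test_db k hv))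
  have i2 := C.test_integrable_μ (C.test_mul_left (hα k) (C.test_db j hv))
  have i3 := C.test_integrable_μ (C.test_mul_left (C.sm_db k (hα j)) hv)
  have i4 := C.test_integrable_μ (C.test_mul_left (C.sm_db j (hα k)) hv)
  have e : (fun x => C.curl α j k x * v x) =
      fun x => C.db k (α j) x * v x - C.db j (α k) x * v x := by
    funext x
    simp only [RDCalc.curl]
    ring
  rw [e, integral_sub i1 i2, integral_sub i3 i4, h1, h2]
  ring

theorem L2Loc_of_sm (hu : C.Sm u) : C.L2Loc u := by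
  have hc : Continuous u := C.sm_cont hu
  refine ⟨hc.aestronglyMeasurable, fun K hK => ?_⟩
  have hf : Continuous fun x => Real.toNNReal (‖u x‖ ^ 2) :=
    continuous_real_toNNReal.comp (hc.norm.pow 2)
  exact setLIntegral_lt_top_of_isCompact (C.fin_cpt K hK).ne hK hf

end RDCalc

end Claimed.Agent.R242
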