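/-
Row 242, SCV layer, package HOR.  Architect: helper147.
HorDen: DENSITY of test forms in the graph norm, compact support case (from the field `lap` of the contract).

Leaves:  SCV-HOR-DEN-A = `weakDiv_of_weakAdj`;       SCV-HOR-DEN-B = `density_cpt`.

PLANS.
* `weakDiv_of_weakAdj`.  Let `v` be a test function; `u := conj(v) e^{φ₂}` is a test function and
     `conj (∂̄_j u) = ∂_j (v e^{φ₂}) = e^{φ₂} (∂_j v + v ∂_jφ₂)`     (`db_mul`/`db_conj`/`db_exp` or `d_conj`, `d_mul`, `d_exp`),    `conj u = v e^{φ₂}`.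
  Insert in `h` and rewrite both sides as integrals w.r.t. `μ` (`integral_Wt`; `e^{φ₂} e^{-φ₂} = 1`, `e^{φ₂} e^{-φ₁} = e^{φ₂-φ₁}`):
     `∫ ∑ b_j (∂_j v + v ∂_jφ₂) dμ = ∫ g v e^{φ₂-φ₁} dμ`,   i.e.  `∫ ∑ b_j ∂_j v = - ∫ (∑ b_j ∂_jφ₂ - g e^{φ₂-φ₁}) v`.
  Integrability: `b_j`, `g` are `L²_loc` (`L2Loc_of_memLp_Wt`), the other factors are continuous with compact support (`L2Loc.integrable_mul_μ`).
* `density_cpt`.  (a) `b_j, dv := C.divOf φ₁ φ₂ b g, c_{jk}` vanish outside `K` and are in `L²(μ)` (`exists_nsq_Wt_le` with `φ' = 0`, `Wt_zero`, `memLp_continuous_mul`).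
  (b) `C.lap K b dv c ...` gives `K'` and, for every `ε' > 0`, a smooth `α` with `tsupport (α j) ⊆ K'` (a test form: `test_of_tsupport_subset`).
  (c) all differences vanish outside the compact set `K ∪ K'`; there the weighted norms are `≤ c ·` the unweighted ones (`exists_nsq_Wt_le`, from `Wt 0 = μ`), and
       `adj φ₁ φ₂ α - g = e^{φ₁-φ₂} [ ∑ ∂_jφ₂ (α_j - b_j) - (∑ ∂_jα_j - dv) ]`       (pointwise algebra, `e^{φ₁-φ₂} e^{φ₂-φ₁} = 1`),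
     whose `L²(μ)` norm squared is `≤ M (n+1) (∑ ∫|α_j - b_j|² + ∫|∑∂_jα_j - dv|²)`, `M` a bound on `K ∪ K'` of the continuous functions
     `e^{2(φ₁-φ₂)}(1 + ∑ |∂_jφ₂|²)` (`hor_nsq_sum_le`, `hor_nsq_bdd_mul_le` after replacing the multipliers by their truncations, or directly `integral_mono`).
  (d) choose `ε'` with `(constant) · ε' ≤ ε`.
-/
import Claimed.Agent.R242.SCV.HorKitC

open MeasureTheory Complex Filter
open scoped ContDiff ComplexConjugate ENNReal Topology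

namespace Claimed.Agent.R242

namespace RDCalc

variable {W : Type*} [TopologicalSpace W] [T2Space W] [MeasurableSpace W] [BorelSpace W] {n : ℕ}
  (C : RDCalc W n) {φ₁ φ₂ φ₃ : W → ℝ} {b : Fin n → W → ℂ} {g : W → ℂ} {c : Fin n → Fin n → W → ℂ}

/-- the weak divergence of a form `b` with weak adjoint `g`. -/
noncomputable def divOf (φ₁ φ₂ : W → ℝ) (b : Fin n → W → ℂ) (g : W → ℂ) (x : W) : ℂ :=
  ∑ j, b j x * C.dR j φ₂ x - g x * ((Real.exp (φ₂ x - φ₁ x) : ℝ) : ℂ)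

theorem weakDiv_of_weakAdj (hφ₁ : C.SmR φ₁) (hφ₂ : C.SmR φ₂)
    (hb : ∀ j, MemLp (b j) 2 (C.Wt φ₂)) (hg : MemLp g 2 (C.Wt φ₁)) (h : C.WeakAdj φ₁ φ₂ b g) :
    C.WeakDiv b (C.divOf φ₁ φ₂ b g) := by
  intro v hv
  have hc₁ : Continuous φ₁ := C.smR_cont hφ₁
  have hc₂ : Continuous φ₂ := C.smR_cont hφ₂
  have hbL : ∀ j, C.L2Loc (b j) := fun j => C.L2Loc_of_memLp_Wt hc₂ (hb j)
  have hgL : C.L2Loc g := C.L2Loc_of_memLp_Wt hc₁ hg
  have hE : C.Sm fun x => ((Real.exp (φ₂ x) : ℝ) : ℂ) := C.sm_exp hφ₂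
  have hu : C.Test fun x => conj (v x) * ((Real.exp (φ₂ x) : ℝ) : ℂ) :=
    C.test_mul_right (C.test_conj hv) hE
  have hdb : ∀ j x, conj (C.db j (fun y => conj (v y) * ((Real.exp (φ₂ y) : ℝ) : ℂ)) x) =
      ((Real.exp (φ₂ x) : ℝ) : ℂ) * (C.d j v x + C.dR j φ₂ x * v x) := by
    intro j x
    rw [C.db_mul j x (C.sm_conj hv.1) hE, C.db_conj j x hv.1, C.db_exp j x hφ₂,
      C.dbR_eq_conj j x hφ₂]
    simp only [map_add, map_mul, Complex.conj_conj, Complex.conj_ofReal]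
    ring
  have hcu : ∀ x, conj (conj (v x) * ((Real.exp (φ₂ x) : ℝ) : ℂ)) =
      v x * ((Real.exp (φ₂ x) : ℝ) : ℂ) := by
    intro x
    simp only [map_mul, Complex.conj_conj, Complex.conj_ofReal]
  have key := h _ hu
  rw [C.integral_Wt hc₂.measurable, C.integral_Wt hc₁.measurable] at key
  have hL : ∀ x, (∑ j, b j x * conj (C.db j (fun y => conj (v y) * ((Real.exp (φ₂ y) : ℝ) : ℂ)) x)) *
      ((Real.exp (-φ₂ x) : ℝ) : ℂ) =
      (∑ j, b j x * C.d j v x) + ∑ j, b j x * (C.dR j φ₂ x * v x) := by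
    intro x
    have e1 : ((Real.exp (φ₂ x) : ℝ) : ℂ) * ((Real.exp (-φ₂ x) : ℝ) : ℂ) = 1 := by
      rw [← Complex.ofReal_mul, ← Real.exp_add, add_neg_cancel, Real.exp_zero, Complex.ofReal_one]
    rw [Finset.sum_mul, ← Finset.sum_add_distrib]
    refine Finset.sum_congr rfl fun j _ => ?_
    rw [hdb j x]
    linear_combination (b j x * (C.d j v x + C.dR j φ₂ x * v x)) * e1
  have hR : ∀ x, g x * conj (conj (v x) * ((Real.exp (φ₂ x) : ℝ) : ℂ)) *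
      ((Real.exp (-φ₁ x) : ℝ) : ℂ) = g x * (((Real.exp (φ₂ x - φ₁ x) : ℝ) : ℂ) * v x) := by
    intro x
    have e2 : ((Real.exp (φ₂ x - φ₁ x) : ℝ) : ℂ) =
        ((Real.exp (φ₂ x) : ℝ) : ℂ) * ((Real.exp (-φ₁ x) : ℝ) : ℂ) := by
      rw [← Complex.ofReal_mul, ← Real.exp_add, sub_eq_add_neg]
    rw [hcu x, e2]
    ring
  simp only [hL, hR] at key
  have hi1 : Integrable (fun x => ∑ j, b j x * C.d j v x) C.μ :=
    integrable_finsetSum _ fun j _ =>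
      L2Loc.integrable_mul_μ C (hbL j) (C.sm_cont (C.test_d j hv).1) (C.test_d j hv).2
  have hi2 : Integrable (fun x => ∑ j, b j x * (C.dR j φ₂ x * v x)) C.μ :=
    integrable_finsetSum _ fun j _ =>
      L2Loc.integrable_mul_μ C (hbL j)
        (C.sm_cont (C.test_mul_left (C.sm_dR j hφ₂) hv).1) (C.test_mul_left (C.sm_dR j hφ₂) hv).2
  have ht3 : C.Test fun x => ((Real.exp (φ₂ x - φ₁ x) : ℝ) : ℂ) * v x :=
    C.test_mul_left (C.sm_exp (C.smR_sub hφ₂ hφ₁)) hv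
  have hi3 : Integrable (fun x => g x * (((Real.exp (φ₂ x - φ₁ x) : ℝ) : ℂ) * v x)) C.μ :=
    L2Loc.integrable_mul_μ C hgL (C.sm_cont ht3.1) ht3.2
  rw [integral_add hi1 hi2] at key
  have hdiv : ∀ x, C.divOf φ₁ φ₂ b g x * v x =
      (∑ j, b j x * (C.dR j φ₂ x * v x)) - g x * (((Real.exp (φ₂ x - φ₁ x) : ℝ) : ℂ) * v x) := by
    intro x
    unfold divOf
    rw [sub_mul, Finset.sum_mul]
    congr 1
    · exact Finset.sum_congr rfl fun j _ => by ring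
    · ring
  simp only [hdiv]
  rw [integral_sub hi2 hi3]
  linear_combination key

/-- multiplication by a continuous function on functions living on a compact set (unweighted). -/
theorem horden_mul_le {w : W → ℂ} {K : Set W} (hK : IsCompact K) (hw : Continuous w) :
    ∃ M : ℝ, 0 ≤ M ∧ ∀ u : W → ℂ, (∀ x ∉ K, u x = 0) → MemLp u 2 C.μ →
      MemLp (fun x => w x * u x) 2 C.μ ∧
        ∫ x, ‖w x * u x‖ ^ 2 ∂C.μ ≤ M * ∫ x, ‖u x‖ ^ 2 ∂C.μ := by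
  obtain ⟨c, hc⟩ := hK.exists_bound_of_continuousOn hw.continuousOn
  have hc0 : ∀ x, ‖K.indicator w x‖ ≤ max c 0 := by
    intro x
    by_cases hx : x ∈ K
    · rw [Set.indicator_of_mem hx]
      exact (hc x hx).trans (le_max_left _ _)
    · rw [Set.indicator_of_notMem hx, norm_zero]
      exact le_max_right _ _
  refine ⟨(max c 0) ^ 2, sq_nonneg _, fun u h0 hu => ?_⟩
  have hm : AEStronglyMeasurable (K.indicator w) C.μ :=
    (hw.measurable.indicator hK.measurableSet).aestronglyMeasurable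
  have e : ∀ x, w x * u x = K.indicator w x * u x := by
    intro x
    by_cases hx : x ∈ K
    · rw [Set.indicator_of_mem hx]
    · rw [Set.indicator_of_notMem hx, zero_mul, h0 x hx, mul_zero]
  simp only [e]
  exact ⟨hor_memLp_bdd_mul _ hm hc0 hu, hor_nsq_bdd_mul_le _ hc0 hu⟩

/-- from the unweighted norm to a weighted norm, on a compact set. -/
theorem horden_to_Wt {φ : W → ℝ} (hφ : Continuous φ) {K : Set W} (hK : IsCompact K) :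
    ∃ c : ℝ, 0 ≤ c ∧ ∀ u : W → ℂ, (∀ x ∉ K, u x = 0) → MemLp u 2 C.μ →
      MemLp u 2 (C.Wt φ) ∧ ∫ x, ‖u x‖ ^ 2 ∂(C.Wt φ) ≤ c * ∫ x, ‖u x‖ ^ 2 ∂C.μ := by
  have h := C.exists_nsq_Wt_le (φ := fun _ => 0) (φ' := φ) continuous_const hφ hK
  rwa [C.Wt_zero] at h

/-- from a weighted space to the unweighted one, on a compact set. -/
theorem horden_of_Wt {φ : W → ℝ} (hφ : Continuous φ) {K : Set W} (hK : IsCompact K) {u : W → ℂ}
    (h0 : ∀ x ∉ K, u x = 0) (hu : MemLp u 2 (C.Wt φ)) : MemLp u 2 C.μ := by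
  obtain ⟨c, -, h⟩ := C.exists_nsq_Wt_le (φ := φ) (φ' := fun _ => 0) hφ continuous_const hK
  have h1 := (h u h0 hu).1
  rwa [C.Wt_zero] at h1

omit [T2Space W] [BorelSpace W] in
/-- the pointwise identity behind `density_cpt`. -/
theorem horden_adj_sub (φ₁ φ₂ : W → ℝ) (α b : Fin n → W → ℂ) (g : W → ℂ) (x : W) :
    C.adj φ₁ φ₂ α x - g x =
      ∑ j, (((Real.exp (φ₁ x - φ₂ x) : ℝ) : ℂ) * C.dR j φ₂ x) * (α j x - b j x) +
        ((Real.exp (φ₁ x - φ₂ x) : ℝ) : ℂ) * (-(∑ j, C.d j (α j) x - C.divOf φ₁ φ₂ b g x)) := by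
  have hEE : ((Real.exp (φ₁ x - φ₂ x) : ℝ) : ℂ) * ((Real.exp (φ₂ x - φ₁ x) : ℝ) : ℂ) = 1 := by
    rw [← Complex.ofReal_mul, ← Real.exp_add]
    simp
  have e1 : ∑ j, (((Real.exp (φ₁ x - φ₂ x) : ℝ) : ℂ) * C.dR j φ₂ x) * (α j x - b j x) =
      ((Real.exp (φ₁ x - φ₂ x) : ℝ) : ℂ) *
        (∑ j, C.dR j φ₂ x * α j x - ∑ j, b j x * C.dR j φ₂ x) := by
    rw [← Finset.sum_sub_distrib, Finset.mul_sum]
    refine Finset.sum_congr rfl fun j _ => ?_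
    ring
  have e2 : C.theta φ₂ α x = ∑ j, C.dR j φ₂ x * α j x - ∑ j, C.d j (α j) x := by
    unfold theta
    rw [Finset.sum_sub_distrib]
  rw [e1]
  unfold adj divOf
  rw [e2]
  linear_combination (g x) * hEE

/-- **density, compact support case.** -/
theorem density_cpt (hφ₁ : C.SmR φ₁) (hφ₂ : C.SmR φ₂) (hφ₃ : C.SmR φ₃) {K : Set W} (hK : IsCompact K)
    (hb : ∀ j, MemLp (b j) 2 (C.Wt φ₂)) (hg : MemLp g 2 (C.Wt φ₁)) (hc : ∀ j k, MemLp (c j k) 2 (C.Wt φ₃))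
    (hb0 : ∀ j, ∀ x ∉ K, b j x = 0) (hg0 : ∀ x ∉ K, g x = 0) (hc0 : ∀ j k, ∀ x ∉ K, c j k x = 0)
    (hadj : C.WeakAdj φ₁ φ₂ b g) (hcurl : C.WeakCurl b c) (ε : ℝ) (hε : 0 < ε) :
    ∃ α : Fin n → W → ℂ, C.TestF α ∧ (∀ j, ∫ x, ‖α j x - b j x‖ ^ 2 ∂(C.Wt φ₂) ≤ ε) ∧
      ∫ x, ‖C.adj φ₁ φ₂ α x - g x‖ ^ 2 ∂(C.Wt φ₁) ≤ ε ∧
      ∀ j k, ∫ x, ‖C.curl α j k x - c j k x‖ ^ 2 ∂(C.Wt φ₃) ≤ ε := by
  classical
  have cφ₁ := C.smR_cont hφ₁
  have cφ₂ := C.smR_cont hφ₂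
  have cφ₃ := C.smR_cont hφ₃
  -- (a)
  have hbμ : ∀ j, MemLp (b j) 2 C.μ := fun j => C.horden_of_Wt cφ₂ hK (hb0 j) (hb j)
  have hgμ : MemLp g 2 C.μ := C.horden_of_Wt cφ₁ hK hg0 hg
  have hcμ : ∀ j k, MemLp (c j k) 2 C.μ := fun j k => C.horden_of_Wt cφ₃ hK (hc0 j k) (hc j k)
  have hdv0 : ∀ x ∉ K, C.divOf φ₁ φ₂ b g x = 0 := by
    intro x hx
    simp only [divOf, hg0 x hx, zero_mul, sub_zero]
    exact Finset.sum_eq_zero fun j _ => by rw [hb0 j x hx, zero_mul]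
  have cw : ∀ j, Continuous (C.dR j φ₂) := fun j => C.sm_cont (C.sm_dR j hφ₂)
  have cE' : Continuous fun x => ((Real.exp (φ₂ x - φ₁ x) : ℝ) : ℂ) :=
    C.sm_cont (C.sm_exp (C.smR_sub hφ₂ hφ₁))
  have cE : Continuous fun x => ((Real.exp (φ₁ x - φ₂ x) : ℝ) : ℂ) :=
    C.sm_cont (C.sm_exp (C.smR_sub hφ₁ hφ₂))
  have hdvμ : MemLp (C.divOf φ₁ φ₂ b g) 2 C.μ := by
    have h1 : ∀ j, MemLp (fun x => C.dR j φ₂ x * b j x) 2 C.μ := fun j => by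
      obtain ⟨M, -, h⟩ := C.horden_mul_le hK (cw j)
      exact (h _ (hb0 j) (hbμ j)).1
    have h2 : MemLp (fun x => ((Real.exp (φ₂ x - φ₁ x) : ℝ) : ℂ) * g x) 2 C.μ := by
      obtain ⟨M, -, h⟩ := C.horden_mul_le hK cE'
      exact (h _ hg0 hgμ).1
    have h3 := (hor_memLp_sum Finset.univ _ fun j _ => h1 j).sub h2
    have e : C.divOf φ₁ φ₂ b g = (fun x => ∑ j, C.dR j φ₂ x * b j x) -
        fun x => ((Real.exp (φ₂ x - φ₁ x) : ℝ) : ℂ) * g x := by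
      funext x
      simp only [divOf, Pi.sub_apply, mul_comm]
    rw [e]
    exact h3
  have hdiv : C.WeakDiv b (C.divOf φ₁ φ₂ b g) := C.weakDiv_of_weakAdj hφ₁ hφ₂ hb hg hadj
  -- (b)
  obtain ⟨K', hK', hlap⟩ := C.lap K b (C.divOf φ₁ φ₂ b g) c hK hbμ hdvμ hcμ hb0 hdv0 hc0
    (fun v hv hvc => hdiv v ⟨hv, hvc⟩) (fun v hv hvc j k => hcurl v ⟨hv, hvc⟩ j k)
  have hK2 : IsCompact (K ∪ K') := hK.union hK'
  obtain ⟨c₁, hc₁0, hc₁⟩ := C.horden_to_Wt cφ₁ hK2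
  obtain ⟨c₂, hc₂0, hc₂⟩ := C.horden_to_Wt cφ₂ hK2
  obtain ⟨c₃, hc₃0, hc₃⟩ := C.horden_to_Wt cφ₃ hK2
  have hMex := fun j => C.horden_mul_le hK2 (cE.mul (cw j))
  choose M hM0 hM using hMex
  obtain ⟨M₀, hM₀0, hM₀⟩ := C.horden_mul_le hK2 cE
  have hS0 : 0 ≤ ∑ j, M j := Finset.sum_nonneg fun j _ => hM0 j
  set A : ℝ := c₁ * (2 * (n * ∑ j, M j) + 2 * M₀) with hA
  have hA0 : 0 ≤ A := by positivity
  have hD : 0 < 1 + A + c₂ + c₃ := by positivity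
  have hε' : 0 < ε / (1 + A + c₂ + c₃) := by positivity
  have hle : ∀ t I : ℝ, 0 ≤ t → t ≤ 1 + A + c₂ + c₃ → I ≤ ε / (1 + A + c₂ + c₃) → t * I ≤ ε := by
    intro t I ht htD hI
    calc t * I ≤ t * (ε / (1 + A + c₂ + c₃)) := mul_le_mul_of_nonneg_left hI ht
      _ ≤ (1 + A + c₂ + c₃) * (ε / (1 + A + c₂ + c₃)) := mul_le_mul_of_nonneg_right htD hε'.le
      _ = ε := mul_div_cancel₀ _ hD.ne'
  obtain ⟨α, hαs, hαK, h1, h2, h3⟩ := hlap _ hε'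
  have hαt : C.TestF α := fun j => C.test_of_tsupport_subset hK' (hαs j) (hαK j)
  have hnK : ∀ x ∉ K ∪ K', x ∉ K := fun x hx h => hx (Or.inl h)
  have hnt : ∀ x ∉ K ∪ K', ∀ j, x ∉ tsupport (α j) := fun x hx j h => hx (Or.inr (hαK j h))
  -- the differences
  have hu0 : ∀ j, ∀ x ∉ K ∪ K', α j x - b j x = 0 := fun j x hx => by
    rw [image_eq_zero_of_notMem_tsupport (hnt x hx j), hb0 j x (hnK x hx), sub_zero]
  have huμ : ∀ j, MemLp (fun x => α j x - b j x) 2 C.μ := fun j =>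
    (C.test_memLp_μ (hαt j)).sub (hbμ j)
  have hr0 : ∀ x ∉ K ∪ K', -(∑ j, C.d j (α j) x - C.divOf φ₁ φ₂ b g x) = 0 := fun x hx => by
    rw [hdv0 x (hnK x hx), sub_zero, neg_eq_zero]
    exact Finset.sum_eq_zero fun j _ => C.d_of_notMem_tsupport j (hnt x hx j)
  have hrμ : MemLp (fun x => -(∑ j, C.d j (α j) x - C.divOf φ₁ φ₂ b g x)) 2 C.μ :=
    ((C.test_memLp_μ (C.test_sum Finset.univ _ fun j _ => C.test_d j (hαt j))).sub hdvμ).neg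
  refine ⟨α, hαt, fun j => ?_, ?_, fun j k => ?_⟩
  · exact ((hc₂ _ (hu0 j) (huμ j)).2).trans (hle _ _ hc₂0 (by linarith) (h1 j))
  · simp only [C.horden_adj_sub φ₁ φ₂ α b g]
    have hU : ∀ j, MemLp (fun x => (((Real.exp (φ₁ x - φ₂ x) : ℝ) : ℂ) * C.dR j φ₂ x) *
        (α j x - b j x)) 2 C.μ := fun j => (hM j _ (hu0 j) (huμ j)).1
    have hUs := hor_memLp_sum Finset.univ _ fun j _ => hU j
    have hV := (hM₀ _ hr0 hrμ).1
    have hvan : ∀ x ∉ K ∪ K',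
        ∑ j, (((Real.exp (φ₁ x - φ₂ x) : ℝ) : ℂ) * C.dR j φ₂ x) * (α j x - b j x) +
        ((Real.exp (φ₁ x - φ₂ x) : ℝ) : ℂ) *
          (-(∑ j, C.d j (α j) x - C.divOf φ₁ φ₂ b g x)) = 0 := fun x hx => by
      rw [hr0 x hx, mul_zero, add_zero]
      exact Finset.sum_eq_zero fun j _ => by rw [hu0 j x hx, mul_zero]
    refine ((hc₁ _ hvan (hUs.add hV)).2).trans ?_
    have b1 := hor_nsq_add_le 1 one_pos hUs hV
    have b2 := hor_nsq_sum_le Finset.univ _ fun j _ => hU j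
    have b3 : ∑ j, ∫ x, ‖(((Real.exp (φ₁ x - φ₂ x) : ℝ) : ℂ) * C.dR j φ₂ x) *
        (α j x - b j x)‖ ^ 2 ∂C.μ ≤ (∑ j, M j) * (ε / (1 + A + c₂ + c₃)) := by
      rw [Finset.sum_mul]
      exact Finset.sum_le_sum fun j _ => ((hM j _ (hu0 j) (huμ j)).2).trans
        (mul_le_mul_of_nonneg_left (h1 j) (hM0 j))
    have b4 : ∫ x, ‖((Real.exp (φ₁ x - φ₂ x) : ℝ) : ℂ) *
        (-(∑ j, C.d j (α j) x - C.divOf φ₁ φ₂ b g x))‖ ^ 2 ∂C.μ ≤
        M₀ * (ε / (1 + A + c₂ + c₃)) := by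
      refine ((hM₀ _ hr0 hrμ).2).trans (mul_le_mul_of_nonneg_left ?_ hM₀0)
      simpa only [norm_neg] using h2
    rw [Finset.card_univ, Fintype.card_fin] at b2
    have b5 : (n : ℝ) * ∑ j, ∫ x, ‖(((Real.exp (φ₁ x - φ₂ x) : ℝ) : ℂ) * C.dR j φ₂ x) *
        (α j x - b j x)‖ ^ 2 ∂C.μ ≤ n * ((∑ j, M j) * (ε / (1 + A + c₂ + c₃))) :=
      mul_le_mul_of_nonneg_left b3 (Nat.cast_nonneg n)
    have b6 : ∫ x, ‖∑ j, (((Real.exp (φ₁ x - φ₂ x) : ℝ) : ℂ) * C.dR j φ₂ x) * (α j x - b j x) +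
        ((Real.exp (φ₁ x - φ₂ x) : ℝ) : ℂ) *
          (-(∑ j, C.d j (α j) x - C.divOf φ₁ φ₂ b g x))‖ ^ 2 ∂C.μ ≤
        (2 * (n * ∑ j, M j) + 2 * M₀) * (ε / (1 + A + c₂ + c₃)) := by
      rw [show (1 + 1 / (1 : ℝ)) = 2 by norm_num, show (1 + (1 : ℝ)) = 2 by norm_num] at b1
      linarith [b1, b2, b4, b5]
    calc c₁ * _ ≤ c₁ * ((2 * (n * ∑ j, M j) + 2 * M₀) * (ε / (1 + A + c₂ + c₃))) :=
          mul_le_mul_of_nonneg_left b6 hc₁0
      _ = A * (ε / (1 + A + c₂ + c₃)) := by rw [hA]; ring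
      _ ≤ ε := hle _ _ hA0 (by linarith) le_rfl
  · have hv0 : ∀ x ∉ K ∪ K', C.curl α j k x - c j k x = 0 := fun x hx => by
      unfold curl
      rw [C.db_of_notMem_tsupport k (hnt x hx j), C.db_of_notMem_tsupport j (hnt x hx k),
        hc0 j k x (hnK x hx)]
      simp
    have hvμ : MemLp (fun x => C.curl α j k x - c j k x) 2 C.μ :=
      (C.test_memLp_μ (C.test_curl hαt j k)).sub (hcμ j k)
    exact ((hc₃ _ hv0 hvμ).2).trans (hle _ _ hc₃0 (by linarith) (h3 j k))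

end RDCalc

end Claimed.Agent.R242
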