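/-
Row 242, SCV layer, package HOR.  Architect: helper147.
HorBI: the BASIC IDENTITY (Bochner–Kodaira–Morrey–Kohn–Hörmander) for test forms, one weight `Φ`.

Notation: `δ_j w = ∂_j w - ∂_jΦ w` (`C.del Φ j w`), so `C.theta Φ α = - ∑ δ_j α_j`; `Φ_{j k̄} = ∂_j ∂̄_k Φ`.

Leaves:  SCV-HOR-BI-A = `del_*`, `bi_comm`, `bi_cross`;     SCV-HOR-BI-B = `bi_pointwise`, `basic_identity`, `basic_ineq`.

PLANS.
* `bi_comm` (pointwise): `∂̄_k (δ_j w) = δ_j (∂̄_k w) - Φ_{j k̄} w`.  Expand with `db_sub`, `db_mul`, `d_db_comm` (for `w` and for `Φ`).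
* `bi_cross`: with `ibp_Wt` (`u := δ_j α_j`, `w := α_k`):  `∫ δ_jα_j conj(δ_kα_k) = - ∫ ∂̄_k(δ_jα_j) conj α_k`
     `= ∫ Φ_{jk̄} α_j conj α_k - ∫ δ_j(∂̄_kα_j) conj α_k`   (`bi_comm`; all integrands are continuous with compact support)
  and with `ibp_Wt'` (`w := ∂̄_kα_j`, `u := α_k`, index `j`):  `∫ δ_j(∂̄_kα_j) conj α_k = - ∫ ∂̄_kα_j conj(∂̄_jα_k)`.
* `bi_pointwise`: for a matrix `A : Fin n → Fin n → ℂ`:  `∑∑ Re (A j k conj (A k j)) = ∑∑ ‖A j k‖² - ½ ∑∑ ‖A j k - A k j‖²`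
  (`Complex.sq_norm`, `normSq_sub`, swap the sums `Finset.sum_comm`).
* `basic_identity`: `‖theta‖² = ∑_j ∑_k δ_jα_j conj(δ_kα_k)` (as complex numbers: `Complex.mul_conj`, `Finset.sum_mul_sum`), integrate
  (`integral_finset_sum`), use `bi_cross`, take real parts (`integral_re`-type lemmas: `integral_re`, `RCLike.re`, or `integral_ofReal`), `bi_pointwise`.
-/
import Claimed.Agent.R242.SCV.HorKitC

open MeasureTheory Complex
open scoped ContDiff ComplexConjugate ENNReal Topology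

namespace Claimed.Agent.R242

namespace RDCalc

variable {W : Type*} [TopologicalSpace W] [T2Space W] [MeasurableSpace W] [BorelSpace W] {n : ℕ}
  (C : RDCalc W n) {w : W → ℂ} {Φ : W → ℝ} {α : Fin n → W → ℂ}

/-- `δ_j w = ∂_j w - ∂_jΦ w`. -/
noncomputable def del (Φ : W → ℝ) (j : Fin n) (w : W → ℂ) (x : W) : ℂ := C.d j w x - C.dR j Φ x * w x

theorem sm_del (j : Fin n) (hΦ : C.SmR Φ) (hw : C.Sm w) : C.Sm (C.del Φ j w) :=
  C.sm_sub (C.sm_d j hw) (C.sm_mul (C.sm_dR j hΦ) hw)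

theorem test_del (j : Fin n) (hΦ : C.SmR Φ) (hw : C.Test w) : C.Test (C.del Φ j w) :=
  C.test_sub (C.test_d j hw) (C.test_mul_left (C.sm_dR j hΦ) hw)

theorem theta_eq_neg_sum_del (Φ : W → ℝ) (α : Fin n → W → ℂ) (x : W) :
    C.theta Φ α x = - ∑ j, C.del Φ j (α j) x := by
  unfold theta del
  rw [← Finset.sum_neg_distrib]
  refine Finset.sum_congr rfl fun j _ => ?_
  ring

/-- the commutator `[δ_j, ∂̄_k] = Φ_{j k̄}`. -/
theorem bi_comm (j k : Fin n) (x : W) (hΦ : C.SmR Φ) (hw : C.Sm w) :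
    C.db k (C.del Φ j w) x
      = C.del Φ j (C.db k w) x - C.d j (C.db k fun y => (Φ y : ℂ)) x * w x := by
  have h1 : C.db k (C.del Φ j w) x
      = C.db k (C.d j w) x - (C.db k (C.dR j Φ) x * w x + C.dR j Φ x * C.db k w x) := by
    have h2 := C.db_sub (u := C.d j w) (v := fun y => C.dR j Φ y * w y) k x (C.sm_d j hw)
      (C.sm_mul (C.sm_dR j hΦ) hw)
    rw [C.db_mul k x (C.sm_dR j hΦ) hw] at h2
    exact h2
  have h3 : C.d j (C.db k fun y => (Φ y : ℂ)) x = C.db k (C.dR j Φ) x := C.d_db_comm j k x hΦ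
  rw [h1, h3]
  unfold del
  rw [C.d_db_comm j k x hw]
  ring

theorem bi_cross (j k : Fin n) (hΦ : C.SmR Φ) (hα : C.TestF α) :
    ∫ x, C.del Φ j (α j) x * conj (C.del Φ k (α k) x) ∂(C.Wt Φ)
      = ∫ x, C.d j (C.db k fun y => (Φ y : ℂ)) x * α j x * conj (α k x) ∂(C.Wt Φ)
        + ∫ x, C.db k (α j) x * conj (C.db j (α k) x) ∂(C.Wt Φ) := by
  have hc := C.smR_cont hΦ
  have hΦjk : C.Sm (C.d j (C.db k fun y => (Φ y : ℂ))) := C.sm_d j (C.sm_db k hΦ)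
  -- first integration by parts
  have h1 := C.ibp_Wt (u := C.del Φ j (α j)) (w := α k) k hΦ (C.sm_del j hΦ (hα j).1) (hα k).1
    (Or.inr (hα k).2)
  have h1' : ∫ x, C.del Φ j (α j) x * conj (C.del Φ k (α k) x) ∂(C.Wt Φ)
      = - ∫ x, C.db k (C.del Φ j (α j)) x * conj (α k x) ∂(C.Wt Φ) := by
    rw [h1, neg_neg]
    rfl
  -- second integration by parts
  have h2 := C.ibp_Wt' (u := α k) (w := C.db k (α j)) j hΦ (hα k).1 (C.sm_db k (hα j).1)
    (Or.inl (hα k).2)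
  have h2' : ∫ x, C.del Φ j (C.db k (α j)) x * conj (α k x) ∂(C.Wt Φ)
      = - ∫ x, C.db k (α j) x * conj (C.db j (α k) x) ∂(C.Wt Φ) := h2
  have hi1 : Integrable (fun x => C.del Φ j (C.db k (α j)) x * conj (α k x)) (C.Wt Φ) :=
    C.test_integrable hc (C.test_mul_left (C.sm_del j hΦ (C.sm_db k (hα j).1))
      (C.test_conj (hα k)))
  have hi2 : Integrable (fun x => C.d j (C.db k fun y => (Φ y : ℂ)) x * α j x * conj (α k x))
      (C.Wt Φ) :=
    C.test_integrable hc (C.test_mul_left (C.sm_mul hΦjk (hα j).1) (C.test_conj (hα k)))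
  have h3 : ∫ x, C.db k (C.del Φ j (α j)) x * conj (α k x) ∂(C.Wt Φ)
      = ∫ x, C.del Φ j (C.db k (α j)) x * conj (α k x) ∂(C.Wt Φ)
        - ∫ x, C.d j (C.db k fun y => (Φ y : ℂ)) x * α j x * conj (α k x) ∂(C.Wt Φ) := by
    rw [← integral_sub hi1 hi2]
    refine integral_congr_ae (Filter.Eventually.of_forall fun x => ?_)
    show C.db k (C.del Φ j (α j)) x * conj (α k x) = _
    rw [C.bi_comm j k x hΦ (hα j).1]
    ring
  rw [h1', h3, h2']
  ring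

theorem bi_nsq_sub (a b : ℂ) : ‖a - b‖ ^ 2 = ‖a‖ ^ 2 + ‖b‖ ^ 2 - 2 * (a * conj b).re := by
  rw [← Complex.normSq_eq_norm_sq, ← Complex.normSq_eq_norm_sq, ← Complex.normSq_eq_norm_sq,
    Complex.normSq_sub]

theorem bi_pointwise (A : Fin n → Fin n → ℂ) :
    ∑ j, ∑ k, (A j k * conj (A k j)).re
      = ∑ j, ∑ k, ‖A j k‖ ^ 2 - (1 / 2) * ∑ j, ∑ k, ‖A j k - A k j‖ ^ 2 := by
  have h1 : ∀ j k, ‖A j k - A k j‖ ^ 2
      = ‖A j k‖ ^ 2 + ‖A k j‖ ^ 2 - 2 * (A j k * conj (A k j)).re := fun j k =>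
    bi_nsq_sub (A j k) (A k j)
  simp only [h1, Finset.sum_sub_distrib, Finset.sum_add_distrib, ← Finset.mul_sum]
  rw [Finset.sum_comm (f := fun j k => ‖A k j‖ ^ 2)]
  ring

/-- **the basic identity.** -/
theorem basic_identity (hΦ : C.SmR Φ) (hα : C.TestF α) :
    ∫ x, ‖C.theta Φ α x‖ ^ 2 ∂(C.Wt Φ) + (1 / 2) * ∑ j, ∑ k, ∫ x, ‖C.curl α j k x‖ ^ 2 ∂(C.Wt Φ)
      = ∫ x, C.levi Φ x (fun j => α j x) ∂(C.Wt Φ) + ∑ j, ∑ k, ∫ x, ‖C.db k (α j) x‖ ^ 2 ∂(C.Wt Φ) := by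
  have hc := C.smR_cont hΦ
  have hΦjk : ∀ j k, C.Sm (C.d j (C.db k fun y => (Φ y : ℂ))) := fun j k =>
    C.sm_d j (C.sm_db k hΦ)
  have hD : ∀ j, C.Test (C.del Φ j (α j)) := fun j => C.test_del j hΦ (hα j)
  -- the three families of integrands
  have hi1 : ∀ j k, Integrable (fun x => C.del Φ j (α j) x * conj (C.del Φ k (α k) x)) (C.Wt Φ) :=
    fun j k => C.test_integrable hc (C.test_mul_left (hD j).1 (C.test_conj (hD k)))
  have hi2 : ∀ j k, Integrable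
      (fun x => C.d j (C.db k fun y => (Φ y : ℂ)) x * α j x * conj (α k x)) (C.Wt Φ) := fun j k =>
    C.test_integrable hc (C.test_mul_left (C.sm_mul (hΦjk j k) (hα j).1) (C.test_conj (hα k)))
  have hi3 : ∀ j k, Integrable (fun x => C.db k (α j) x * conj (C.db j (α k) x)) (C.Wt Φ) :=
    fun j k => C.test_integrable hc
      (C.test_mul_left (C.sm_db k (hα j).1) (C.test_conj (C.test_db j (hα k))))
  have hre : ∀ {F : W → ℂ}, Integrable F (C.Wt Φ) →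
      ∫ x, (F x).re ∂(C.Wt Φ) = (∫ x, F x ∂(C.Wt Φ)).re := fun {F} hF =>
    Complex.reCLM.integral_comp_comm hF
  have hire : ∀ {F : W → ℂ}, Integrable F (C.Wt Φ) → Integrable (fun x => (F x).re) (C.Wt Φ) :=
    fun {F} hF => hF.re
  -- `bi_cross`, real parts
  have hcross : ∀ j k, ∫ x, (C.del Φ j (α j) x * conj (C.del Φ k (α k) x)).re ∂(C.Wt Φ)
      = ∫ x, (C.d j (C.db k fun y => (Φ y : ℂ)) x * α j x * conj (α k x)).re ∂(C.Wt Φ)
        + ∫ x, (C.db k (α j) x * conj (C.db j (α k) x)).re ∂(C.Wt Φ) := by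
    intro j k
    rw [hre (hi1 j k), hre (hi2 j k), hre (hi3 j k), C.bi_cross j k hΦ hα, Complex.add_re]
  -- the norm of `theta`
  have hθ : ∫ x, ‖C.theta Φ α x‖ ^ 2 ∂(C.Wt Φ)
      = ∑ j, ∑ k, ∫ x, (C.del Φ j (α j) x * conj (C.del Φ k (α k) x)).re ∂(C.Wt Φ) := by
    have h1 : ∀ x, ‖C.theta Φ α x‖ ^ 2
        = ∑ j, ∑ k, (C.del Φ j (α j) x * conj (C.del Φ k (α k) x)).re := by
      intro x
      have h2 : ((‖C.theta Φ α x‖ ^ 2 : ℝ) : ℂ) = C.theta Φ α x * conj (C.theta Φ α x) := by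
        rw [Complex.mul_conj, Complex.normSq_eq_norm_sq]
      have h3 := congrArg Complex.re h2
      rw [Complex.ofReal_re] at h3
      rw [h3, C.theta_eq_neg_sum_del, map_neg, neg_mul_neg, map_sum, Finset.sum_mul_sum,
        Complex.re_sum]
      refine Finset.sum_congr rfl fun j _ => ?_
      rw [Complex.re_sum]
    simp only [h1]
    rw [integral_finsetSum _ (fun j _ => integrable_finsetSum _ (fun k _ => hire (hi1 j k)))]
    refine Finset.sum_congr rfl fun j _ => ?_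
    rw [integral_finsetSum _ (fun k _ => hire (hi1 j k))]
  -- the Levi form
  have hL : ∫ x, C.levi Φ x (fun j => α j x) ∂(C.Wt Φ)
      = ∑ j, ∑ k, ∫ x, (C.d j (C.db k fun y => (Φ y : ℂ)) x * α j x * conj (α k x)).re
          ∂(C.Wt Φ) := by
    have h1 : ∀ x, C.levi Φ x (fun j => α j x)
        = ∑ j, ∑ k, (C.d j (C.db k fun y => (Φ y : ℂ)) x * α j x * conj (α k x)).re := by
      intro x
      unfold levi
      rw [Complex.re_sum]
      refine Finset.sum_congr rfl fun j _ => ?_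
      rw [Complex.re_sum]
    simp only [h1]
    rw [integral_finsetSum _ (fun j _ => integrable_finsetSum _ (fun k _ => hire (hi2 j k)))]
    refine Finset.sum_congr rfl fun j _ => ?_
    rw [integral_finsetSum _ (fun k _ => hire (hi2 j k))]
  -- the cross terms
  have hN : ∀ j k, Integrable (fun x => ‖C.db k (α j) x‖ ^ 2) (C.Wt Φ) := fun j k =>
    hor_integrable_nsq (C.test_memLp hc (C.test_db k (hα j)))
  have hCu : ∀ j k, Integrable (fun x => ‖C.curl α j k x‖ ^ 2) (C.Wt Φ) := fun j k =>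
    hor_integrable_nsq (C.test_memLp hc (C.test_curl hα j k))
  have h3 : ∀ j k, ∫ x, (C.db k (α j) x * conj (C.db j (α k) x)).re ∂(C.Wt Φ)
      = (1 / 2) * (∫ x, ‖C.db k (α j) x‖ ^ 2 ∂(C.Wt Φ) + ∫ x, ‖C.db j (α k) x‖ ^ 2 ∂(C.Wt Φ)
          - ∫ x, ‖C.curl α j k x‖ ^ 2 ∂(C.Wt Φ)) := by
    intro j k
    have hadd : Integrable (fun x => ‖C.db k (α j) x‖ ^ 2 + ‖C.db j (α k) x‖ ^ 2) (C.Wt Φ) :=
      (hN j k).add (hN k j)
    rw [← integral_add (hN j k) (hN k j), ← integral_sub hadd (hCu j k), ← integral_const_mul]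
    refine integral_congr_ae (Filter.Eventually.of_forall fun x => ?_)
    show (C.db k (α j) x * conj (C.db j (α k) x)).re
      = 1 / 2 * (‖C.db k (α j) x‖ ^ 2 + ‖C.db j (α k) x‖ ^ 2 - ‖C.curl α j k x‖ ^ 2)
    unfold curl
    rw [bi_nsq_sub]
    ring
  rw [hθ, hL]
  simp only [hcross, h3, Finset.sum_add_distrib, Finset.sum_sub_distrib, ← Finset.mul_sum]
  rw [Finset.sum_comm (f := fun j k => ∫ x, ‖C.db j (α k) x‖ ^ 2 ∂(C.Wt Φ))]
  ring

/-- **the basic inequality.** -/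
theorem basic_ineq (hΦ : C.SmR Φ) (hα : C.TestF α) :
    ∫ x, C.levi Φ x (fun j => α j x) ∂(C.Wt Φ)
      ≤ ∫ x, ‖C.theta Φ α x‖ ^ 2 ∂(C.Wt Φ)
        + (1 / 2) * ∑ j, ∑ k, ∫ x, ‖C.curl α j k x‖ ^ 2 ∂(C.Wt Φ) := by
  have h := C.basic_identity hΦ hα
  have h0 : 0 ≤ ∑ j, ∑ k, ∫ x, ‖C.db k (α j) x‖ ^ 2 ∂(C.Wt Φ) :=
    Finset.sum_nonneg fun j _ => Finset.sum_nonneg fun k _ => integral_nonneg fun x => by positivity
  linarith

end RDCalc

end Claimed.Agent.R242
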