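/-
Row 242, SCV layer, package HOR.  Architect: helper147.
HorWDef: the bundle of AUXILIARY WEIGHTS used for one test form (definitions only).

Given the weight `φ`, the datum `f`, a number `γ > 0` and an open set `S` (a neighbourhood of the support of the test form):
  `Φ = φ + χ∘ρ`, `ψ = κ∘ρ`, cut-off functions `η i`;  three weights  `φ₁ = Φ - 2ψ`, `φ₂ = Φ - ψ`, `φ₃ = Φ`
for the complex   `L²(φ₁) --∂̄--> L²(φ₂)^n --∂̄--> L²(φ₃)^{n×n}`.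
Existence: `HorWt.lean`.   Use: `HorEst`, `HorCut`, `HorPair`, `HorStar`.
-/
import Claimed.Agent.R242.SCV.HorCalc

open MeasureTheory Complex Filter
open scoped ContDiff ComplexConjugate ENNReal Topology

namespace Claimed.Agent.R242

/-- auxiliary weights (see the header). -/
structure HorWts {W : Type*} [TopologicalSpace W] [MeasurableSpace W] {n : ℕ} (C : RDCalc W n)
    (φ : W → ℝ) (f : Fin n → W → ℂ) (γ : ℝ) (S : Set W) where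
  Φ : W → ℝ
  ψ : W → ℝ
  η : ℕ → W → ℝ
  smΦ : C.SmR Φ
  smψ : C.SmR ψ
  smη : ∀ i, C.SmR (η i)
  cptη : ∀ i, HasCompactSupport (η i)
  η0 : ∀ i x, 0 ≤ η i x
  η1 : ∀ i x, η i x ≤ 1
  /-- every point has a neighbourhood on which `η i = 1`, for `i` large. -/
  ηev : ∀ x, ∀ᶠ i in atTop, ∀ᶠ y in 𝓝 x, η i y = 1
  /-- `|∂̄η_i|² ≤ e^ψ`. -/
  ηd : ∀ i x, ∑ j, ‖C.dbR j (η i) x‖ ^ 2 ≤ Real.exp (ψ x)
  /-- `i∂∂̄Φ ≥ i∂∂̄φ + (1+γ) i∂ψ∧∂̄ψ`. -/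
  lev : ∀ x a, C.levi φ x a + (1 + γ) * ‖∑ j, a j * C.dR j ψ x‖ ^ 2 ≤ C.levi Φ x a
  le : ∀ x, φ x ≤ Φ x - 2 * ψ x
  eqΦ : ∀ x ∈ S, Φ x = φ x
  eqψ : ∀ x ∈ S, ψ x = 0
  fL2 : ∀ j, MemLp (f j) 2 (C.Wt fun x => Φ x - ψ x)

namespace HorWts

variable {W : Type*} [TopologicalSpace W] [MeasurableSpace W] {n : ℕ} {C : RDCalc W n}
  {φ : W → ℝ} {f : Fin n → W → ℂ} {γ : ℝ} {S : Set W}

/-- `φ₁ = Φ - 2ψ`. -/
def φ₁ (P : HorWts C φ f γ S) : W → ℝ := fun x => P.Φ x - 2 * P.ψ x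

/-- `φ₂ = Φ - ψ`. -/
def φ₂ (P : HorWts C φ f γ S) : W → ℝ := fun x => P.Φ x - P.ψ x

end HorWts

end Claimed.Agent.R242
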