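/-
Row 242, SCV layer, package HOR.  Architect: helper147.
HorEst: the THREE-WEIGHT ESTIMATE for test forms.

Leaves:  SCV-HOR-EST-A = `HorWts.sm_φ₁`, `sm_φ₂`, `theta_split`, `est_levi`;      SCV-HOR-EST-B = `est_pair`.     (`est_test` is proved glue.)

PLANS.
* `theta_split` (pointwise):  `ϑ_Φ α = e^{ψ} adj α + ∑ α_j ∂_jψ`, because `adj φ₁ φ₂ α = e^{φ₁-φ₂} ϑ_{φ₂} α = e^{-ψ} (ϑ_Φ α - ∑ ∂_jψ α_j)` (`dR_sub`).
* `est_levi`:  `∫ levi φ(α) e^{-Φ} ≤ ∫ (levi Φ(α) - (1+γ)|∑ α_j ∂_jψ|²) e^{-Φ}`           (`P.lev`)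
      `≤ ∫ |ϑ_Φ α|² e^{-Φ} + ½∑∑∫|curl|² e^{-Φ} - (1+γ) ∫ |∑ α_j ∂_jψ|² e^{-Φ}`            (`basic_ineq`)
      `≤ (1+1/γ) ∫ |e^{ψ} adj α|² e^{-Φ} + ½∑∑∫|curl|² e^{-Φ}`                              (`theta_split`, `hor_nsq_add_le`)
  and `∫ |e^ψ adj α|² e^{-Φ} = ∫ |adj α|² e^{-φ₁}` (`integral_Wt_change_real`).  All integrands are continuous with compact support.
* `est_pair`: everything w.r.t. `μ` (`integral_Wt`): a.e.  `‖∑ f_j conj α_j‖ e^{-φ₂} ≤ √(B levi φ(α)) e^{-Φ+ψ} = √((B e^{-φ₁}) (levi φ(α) e^{-Φ}))`,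
  then `norm_integral_le_integral_norm`, `integral_mono_of_nonneg`, `hor_cs_sqrt`.
-/
import Claimed.Agent.R242.SCV.HorBI
import Claimed.Agent.R242.SCV.HorWDef

open MeasureTheory Complex Filter
open scoped ContDiff ComplexConjugate ENNReal Topology

namespace Claimed.Agent.R242

variable {W : Type*} [TopologicalSpace W] [T2Space W] [MeasurableSpace W] [BorelSpace W] {n : ℕ}
  {C : RDCalc W n} {φ : W → ℝ} {f : Fin n → W → ℂ} {γ : ℝ} {S : Set W} {α : Fin n → W → ℂ}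

theorem HorWts.sm_φ₁ (P : HorWts C φ f γ S) : C.SmR P.φ₁ := by
  exact C.smR_sub P.smΦ (C.smR_const_mul 2 P.smψ)

theorem HorWts.sm_φ₂ (P : HorWts C φ f γ S) : C.SmR P.φ₂ := by
  exact C.smR_sub P.smΦ P.smψ

theorem HorWts.theta_split (P : HorWts C φ f γ S) (α : Fin n → W → ℂ) (x : W) :
    C.theta P.Φ α x
      = ((Real.exp (P.ψ x) : ℝ) : ℂ) * C.adj P.φ₁ P.φ₂ α x + ∑ j, α j x * C.dR j P.ψ x := by
  have h1 : ∀ j, C.dR j P.φ₂ x = C.dR j P.Φ x - C.dR j P.ψ x := fun j =>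
    C.dR_sub j x P.smΦ P.smψ
  have h2 : C.theta P.φ₂ α x = C.theta P.Φ α x - ∑ j, α j x * C.dR j P.ψ x := by
    unfold RDCalc.theta
    rw [← Finset.sum_sub_distrib]
    refine Finset.sum_congr rfl fun j _ => ?_
    rw [h1]
    ring
  have h3 : ((Real.exp (P.ψ x) : ℝ) : ℂ) * ((Real.exp (P.φ₁ x - P.φ₂ x) : ℝ) : ℂ) = 1 := by
    rw [← Complex.ofReal_mul, ← Real.exp_add]
    have : P.ψ x + (P.φ₁ x - P.φ₂ x) = 0 := by
      unfold HorWts.φ₁ HorWts.φ₂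
      ring
    rw [this, Real.exp_zero, Complex.ofReal_one]
  unfold RDCalc.adj
  rw [← mul_assoc]
  have h3' : ((Real.exp (P.ψ x) : ℝ) : ℂ) * (Real.exp (P.φ₁ x - P.φ₂ x) : ℂ) = 1 := by
    exact_mod_cast h3
  rw [h3', one_mul, h2]
  ring

theorem HorWts.est_levi (P : HorWts C φ f γ S) (hφ : C.SmR φ) (hγ : 0 < γ) (hα : C.TestF α) :
    ∫ x, C.levi φ x (fun j => α j x) ∂(C.Wt P.Φ)
      ≤ (1 + 1 / γ) * ∫ x, ‖C.adj P.φ₁ P.φ₂ α x‖ ^ 2 ∂(C.Wt P.φ₁)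
        + (1 / 2) * ∑ j, ∑ k, ∫ x, ‖C.curl α j k x‖ ^ 2 ∂(C.Wt P.Φ) := by
  have hc := C.smR_cont P.smΦ
  have hc1 := C.smR_cont P.sm_φ₁
  have hαs : ∀ j, C.Sm (α j) := fun j => (hα j).1
  -- the two pieces of `theta`
  have hu : C.Test fun x => ((Real.exp (P.ψ x) : ℝ) : ℂ) * C.adj P.φ₁ P.φ₂ α x :=
    C.test_mul_left (C.sm_exp P.smψ) (C.test_adj P.sm_φ₁ P.sm_φ₂ hα)
  have hs : C.Test fun x => ∑ j, α j x * C.dR j P.ψ x :=
    C.test_sum Finset.univ _ fun j _ => C.test_mul_right (hα j) (C.sm_dR j P.smψ)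
  have huL := C.test_memLp hc hu
  have hsL := C.test_memLp hc hs
  have hiφ : Integrable (fun x => C.levi φ x fun j => α j x) (C.Wt P.Φ) :=
    C.integrable_Wt_of_continuous_real hc (C.continuous_levi hφ hαs) (C.hasCompactSupport_levi hα)
  have hiΦ : Integrable (fun x => C.levi P.Φ x fun j => α j x) (C.Wt P.Φ) :=
    C.integrable_Wt_of_continuous_real hc (C.continuous_levi P.smΦ hαs)
      (C.hasCompactSupport_levi hα)
  have his := hor_integrable_nsq hsL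
  -- step 1
  have s1 : ∫ x, C.levi φ x (fun j => α j x) ∂(C.Wt P.Φ)
      + (1 + γ) * ∫ x, ‖∑ j, α j x * C.dR j P.ψ x‖ ^ 2 ∂(C.Wt P.Φ)
      ≤ ∫ x, C.levi P.Φ x (fun j => α j x) ∂(C.Wt P.Φ) := by
    rw [← integral_const_mul, ← integral_add hiφ (his.const_mul _)]
    exact integral_mono (hiφ.add (his.const_mul _)) hiΦ fun x => P.lev x fun j => α j x
  -- step 2
  have s2 := C.basic_ineq P.smΦ hα
  -- step 3
  have s3 : ∫ x, ‖C.theta P.Φ α x‖ ^ 2 ∂(C.Wt P.Φ)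
      ≤ (1 + 1 / γ) * ∫ x, ‖((Real.exp (P.ψ x) : ℝ) : ℂ) * C.adj P.φ₁ P.φ₂ α x‖ ^ 2 ∂(C.Wt P.Φ)
        + (1 + γ) * ∫ x, ‖∑ j, α j x * C.dR j P.ψ x‖ ^ 2 ∂(C.Wt P.Φ) := by
    have := hor_nsq_add_le γ hγ huL hsL
    simpa only [← P.theta_split α] using this
  -- step 4
  have s4 : ∫ x, ‖((Real.exp (P.ψ x) : ℝ) : ℂ) * C.adj P.φ₁ P.φ₂ α x‖ ^ 2 ∂(C.Wt P.Φ)
      = ∫ x, ‖C.adj P.φ₁ P.φ₂ α x‖ ^ 2 ∂(C.Wt P.φ₁) := by
    rw [C.integral_Wt_change_real hc1.measurable hc.measurable]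
    refine integral_congr_ae (Filter.Eventually.of_forall fun x => ?_)
    show ‖((Real.exp (P.ψ x) : ℝ) : ℂ) * C.adj P.φ₁ P.φ₂ α x‖ ^ 2
      = ‖C.adj P.φ₁ P.φ₂ α x‖ ^ 2 * Real.exp (P.Φ x - P.φ₁ x)
    have e : P.Φ x - P.φ₁ x = P.ψ x + P.ψ x := by
      unfold HorWts.φ₁
      ring
    rw [norm_mul, Complex.norm_real, Real.norm_eq_abs, abs_of_pos (Real.exp_pos _), e, Real.exp_add]
    ring
  rw [s4] at s3
  linarith

theorem HorWts.est_pair (P : HorWts C φ f γ S) (hφ : C.SmR φ) (hφl : ∀ x a, 0 ≤ C.levi φ x a)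
    (B : W → ℝ) (hB : Measurable B) (hB0 : ∀ x, 0 ≤ B x)
    (hfB : ∀ᵐ x ∂C.μ, ∀ a : Fin n → ℂ, ‖∑ j, f j x * conj (a j)‖ ^ 2 ≤ B x * C.levi φ x a)
    (hBi : Integrable B (C.Wt P.φ₁)) (hα : C.TestF α) :
    ‖∫ x, ∑ j, f j x * conj (α j x) ∂(C.Wt P.φ₂)‖ ^ 2
      ≤ (∫ x, B x ∂(C.Wt P.φ₁)) * ∫ x, C.levi φ x (fun j => α j x) ∂(C.Wt P.Φ) := by
  have hc := C.smR_cont P.smΦ
  have hc1 := C.smR_cont P.sm_φ₁
  have hc2 := C.smR_cont P.sm_φ₂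
  have hαs : ∀ j, C.Sm (α j) := fun j => (hα j).1
  have hiL : Integrable (fun x => C.levi φ x fun j => α j x) (C.Wt P.Φ) :=
    C.integrable_Wt_of_continuous_real hc (C.continuous_levi hφ hαs) (C.hasCompactSupport_levi hα)
  have hF := (C.integrable_Wt_iff_real hc1.measurable).1 hBi
  have hG := (C.integrable_Wt_iff_real hc.measurable).1 hiL
  obtain ⟨hsi, hcs⟩ := hor_cs_sqrt hF hG (fun x => mul_nonneg (hB0 x) (Real.exp_pos _).le)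
    (fun x => mul_nonneg (hφl x _) (Real.exp_pos _).le)
  rw [← C.integral_Wt_real hc1.measurable, ← C.integral_Wt_real hc.measurable] at hcs
  refine le_trans ?_ hcs
  refine pow_le_pow_left₀ (norm_nonneg _) ?_ 2
  refine (norm_integral_le_integral_norm _).trans ?_
  rw [C.integral_Wt_real hc2.measurable]
  refine integral_mono_of_nonneg
    (Filter.Eventually.of_forall fun x => mul_nonneg (norm_nonneg _) (Real.exp_pos _).le) hsi ?_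
  filter_upwards [hfB] with x hx
  have h1 := hx fun j => α j x
  have e : B x * Real.exp (-P.φ₁ x) * (C.levi φ x (fun j => α j x) * Real.exp (-P.Φ x))
      = (B x * C.levi φ x fun j => α j x) * Real.exp (-P.φ₂ x) ^ 2 := by
    have : Real.exp (-P.φ₁ x) * Real.exp (-P.Φ x) = Real.exp (-P.φ₂ x) ^ 2 := by
      rw [← Real.exp_add, sq, ← Real.exp_add]
      congr 1
      unfold HorWts.φ₁ HorWts.φ₂
      ring
    rw [← this]
    ring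
  show ‖∑ j, f j x * conj (α j x)‖ * Real.exp (-P.φ₂ x)
    ≤ Real.sqrt (B x * Real.exp (-P.φ₁ x) * (C.levi φ x (fun j => α j x) * Real.exp (-P.Φ x)))
  rw [e]
  refine Real.le_sqrt_of_sq_le ?_
  rw [mul_pow]
  exact mul_le_mul_of_nonneg_right h1 (by positivity)

/-- **the estimate for test forms.** -/
theorem HorWts.est_test (P : HorWts C φ f γ S) (hφ : C.SmR φ) (hφl : ∀ x a, 0 ≤ C.levi φ x a) (hγ : 0 < γ)
    (B : W → ℝ) (hB : Measurable B) (hB0 : ∀ x, 0 ≤ B x)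
    (hfB : ∀ᵐ x ∂C.μ, ∀ a : Fin n → ℂ, ‖∑ j, f j x * conj (a j)‖ ^ 2 ≤ B x * C.levi φ x a)
    (hBi : Integrable B (C.Wt P.φ₁)) (hα : C.TestF α) :
    ‖∫ x, ∑ j, f j x * conj (α j x) ∂(C.Wt P.φ₂)‖ ^ 2
      ≤ (∫ x, B x ∂(C.Wt P.φ₁)) *
        ((1 + 1 / γ) * ∫ x, ‖C.adj P.φ₁ P.φ₂ α x‖ ^ 2 ∂(C.Wt P.φ₁)
          + (1 / 2) * ∑ j, ∑ k, ∫ x, ‖C.curl α j k x‖ ^ 2 ∂(C.Wt P.Φ)) :=
  (P.est_pair hφ hφl B hB hB0 hfB hBi hα).trans
    (mul_le_mul_of_nonneg_left (P.est_levi hφ hγ hα) (integral_nonneg hB0))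

end Claimed.Agent.R242
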