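/-
Row 242, SCV layer, package HOR.  Architect: helper147.
HorPair: density of test forms in the graph norm (general case) and the ESTIMATE OF THE PAIRING for `L²` forms.

Leaves:  SCV-HOR-PAIR-A = `HorWts.density` (glue of `cut_limit`, `cut_adj`, `cut_curl`, `cut_memLp`, `cut_vanish`, `density_cpt`);
         SCV-HOR-PAIR-B = `HorWts.pair_estimate` (limit argument).

PLANS.
* `density`.  `ε/4`: `P.cut_limit` gives `i`; `b := η_i β`, `g' := cutAdj ..`, `c := cutCurl ..`, `K := tsupport (η i)` (compact by `P.cptη i`);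
  `C.density_cpt` with `φ₃ := P.Φ` and `ε/4` gives `α`; `∫‖x + y‖² ≤ 2∫‖x‖² + 2∫‖y‖²` (`hor_nsq_add_le 1`) with
  `α_j - β_j = (α_j - b_j) + (b_j - β_j)`, `adj α - g = (adj α - g') + (g' - g)`, `curl α = (curl α - c) + c`.
* `pair_estimate`.  `X := ∫ ∑ f_j conj β_j`, `F_j := ∫‖f_j‖²`, `G := ∫‖g‖²`, `M := ∫ B`.  For `ε > 0` and `α` from `density`:
     `‖X - ∫ ∑ f_j conj α_j‖ ≤ ∑_j √F_j √ε`                                 (`hor_cs_conj`, `integral_finset_sum`)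
     `√(∫‖adj α‖²) ≤ √G + √ε`                                                (`hor_sqrt_nsq_add_le`)
     `‖∫ ∑ f_j conj α_j‖² ≤ M ((1+1/γ)(√G + √ε)² + n² ε / 2)`                 (`P.est_test`)
  so `‖X‖ ≤ r ε := (∑ √F_j) √ε + √(M ((1+1/γ)(√G+√ε)² + n² ε/2))`; `r` is continuous, `r 0 = √(M (1+1/γ) G)`; let `ε → 0+`
  (`ge_of_tendsto` along `𝓝[>] 0`), then square (`Real.sq_sqrt`).
-/
import Claimed.Agent.R242.SCV.HorEst
import Claimed.Agent.R242.SCV.HorCut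
import Claimed.Agent.R242.SCV.HorDen

open MeasureTheory Complex Filter
open scoped ContDiff ComplexConjugate ENNReal Topology

namespace Claimed.Agent.R242

variable {W : Type*} [TopologicalSpace W] [T2Space W] [MeasurableSpace W] [BorelSpace W] {n : ℕ}
  {C : RDCalc W n} {φ : W → ℝ} {f : Fin n → W → ℂ} {γ : ℝ} {S : Set W}
  {β : Fin n → W → ℂ} {g : W → ℂ}

/-- **density of test forms in the graph norm.** -/
theorem HorWts.density (P : HorWts C φ f γ S)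
    (hβ : ∀ j, MemLp (β j) 2 (C.Wt P.φ₂)) (hg : MemLp g 2 (C.Wt P.φ₁))
    (hcl : C.WeakClosed β) (hadj : C.WeakAdj P.φ₁ P.φ₂ β g) (ε : ℝ) (hε : 0 < ε) :
    ∃ α : Fin n → W → ℂ, C.TestF α ∧ (∀ j, ∫ x, ‖α j x - β j x‖ ^ 2 ∂(C.Wt P.φ₂) ≤ ε) ∧
      ∫ x, ‖C.adj P.φ₁ P.φ₂ α x - g x‖ ^ 2 ∂(C.Wt P.φ₁) ≤ ε ∧
      ∀ j k, ∫ x, ‖C.curl α j k x‖ ^ 2 ∂(C.Wt P.Φ) ≤ ε := by
  have hε4 : 0 < ε / 4 := by positivity
  have hc1 : Continuous P.φ₁ := C.smR_cont P.sm_φ₁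
  have hc2 : Continuous P.φ₂ := C.smR_cont P.sm_φ₂
  have hc3 : Continuous P.Φ := C.smR_cont P.smΦ
  obtain ⟨i, l1, l2, l3⟩ := P.cut_limit hβ hg (ε / 4) hε4
  obtain ⟨m1, m2, m3⟩ := P.cut_memLp hβ hg i
  obtain ⟨α, hα, a1, a2, a3⟩ := C.density_cpt P.sm_φ₁ P.sm_φ₂ P.smΦ (P.cptη i) m1 m2 m3
    (fun j x hx => (P.cut_vanish β g i x hx).1 j) (fun x hx => (P.cut_vanish β g i x hx).2.1)
    (fun j k x hx => (P.cut_vanish β g i x hx).2.2 j k)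
    (C.cut_adj P.sm_φ₁ P.sm_φ₂ (P.smη i) hβ hg hadj) (C.cut_curl P.sm_φ₂ (P.smη i) hβ hcl)
    (ε / 4) hε4
  have hαL : ∀ j, MemLp (α j) 2 (C.Wt P.φ₂) := fun j => C.test_memLp hc2 (hα j)
  have hadjL : MemLp (C.adj P.φ₁ P.φ₂ α) 2 (C.Wt P.φ₁) :=
    C.test_memLp hc1 (C.test_adj P.sm_φ₁ P.sm_φ₂ hα)
  have hcurlL : ∀ j k, MemLp (C.curl α j k) 2 (C.Wt P.Φ) := fun j k =>
    C.test_memLp hc3 (C.test_curl hα j k)
  refine ⟨α, hα, fun j => ?_, ?_, fun j k => ?_⟩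
  · have h := hor_nsq_add_le 1 one_pos ((hαL j).sub (m1 j)) ((m1 j).sub (hβ j))
    have e : (fun x => ‖(α j - fun x => (P.η i x : ℂ) * β j x) x
        + ((fun x => (P.η i x : ℂ) * β j x) - β j) x‖ ^ 2) = fun x => ‖α j x - β j x‖ ^ 2 := by
      funext x
      simp only [Pi.sub_apply, sub_add_sub_cancel]
    rw [e] at h
    have h1 : ∫ x, ‖(α j - fun x => (P.η i x : ℂ) * β j x) x‖ ^ 2 ∂(C.Wt P.φ₂) ≤ ε / 4 := a1 j
    have h2 : ∫ x, ‖((fun x => (P.η i x : ℂ) * β j x) - β j) x‖ ^ 2 ∂(C.Wt P.φ₂) ≤ ε / 4 := l1 j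
    have e1 : (1 : ℝ) + 1 / 1 = 2 := by norm_num
    have e2 : (1 : ℝ) + 1 = 2 := by norm_num
    rw [e1, e2] at h
    linarith
  · have h := hor_nsq_add_le 1 one_pos (hadjL.sub m2) (m2.sub hg)
    have e : (fun x => ‖(C.adj P.φ₁ P.φ₂ α - C.cutAdj P.φ₁ P.φ₂ (P.η i) β g) x
        + (C.cutAdj P.φ₁ P.φ₂ (P.η i) β g - g) x‖ ^ 2)
        = fun x => ‖C.adj P.φ₁ P.φ₂ α x - g x‖ ^ 2 := by
      funext x
      simp only [Pi.sub_apply, sub_add_sub_cancel]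
    rw [e] at h
    have h1 : ∫ x, ‖(C.adj P.φ₁ P.φ₂ α - C.cutAdj P.φ₁ P.φ₂ (P.η i) β g) x‖ ^ 2 ∂(C.Wt P.φ₁)
        ≤ ε / 4 := a2
    have h2 : ∫ x, ‖(C.cutAdj P.φ₁ P.φ₂ (P.η i) β g - g) x‖ ^ 2 ∂(C.Wt P.φ₁) ≤ ε / 4 := l2
    have e1 : (1 : ℝ) + 1 / 1 = 2 := by norm_num
    have e2 : (1 : ℝ) + 1 = 2 := by norm_num
    rw [e1, e2] at h
    linarith
  · have h := hor_nsq_add_le 1 one_pos ((hcurlL j k).sub (m3 j k)) (m3 j k)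
    have e : (fun x => ‖(C.curl α j k - C.cutCurl (P.η i) β j k) x
        + C.cutCurl (P.η i) β j k x‖ ^ 2) = fun x => ‖C.curl α j k x‖ ^ 2 := by
      funext x
      simp only [Pi.sub_apply, sub_add_cancel]
    rw [e] at h
    have h1 : ∫ x, ‖(C.curl α j k - C.cutCurl (P.η i) β j k) x‖ ^ 2 ∂(C.Wt P.Φ) ≤ ε / 4 := a3 j k
    have h2 := l3 j k
    have e1 : (1 : ℝ) + 1 / 1 = 2 := by norm_num
    have e2 : (1 : ℝ) + 1 = 2 := by norm_num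
    rw [e1, e2] at h
    linarith

/-- **the estimate of the pairing** `⟨f, β⟩_{φ₂}` for a weakly closed `β ∈ L²(φ₂)` with weak adjoint `g ∈ L²(φ₁)`. -/
theorem HorWts.pair_estimate (P : HorWts C φ f γ S) (hφ : C.SmR φ) (hφl : ∀ x a, 0 ≤ C.levi φ x a)
    (hγ : 0 < γ) (B : W → ℝ) (hB : Measurable B) (hB0 : ∀ x, 0 ≤ B x)
    (hfB : ∀ᵐ x ∂C.μ, ∀ a : Fin n → ℂ, ‖∑ j, f j x * conj (a j)‖ ^ 2 ≤ B x * C.levi φ x a)
    (hBi : Integrable B (C.Wt P.φ₁))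
    (hβ : ∀ j, MemLp (β j) 2 (C.Wt P.φ₂)) (hg : MemLp g 2 (C.Wt P.φ₁))
    (hcl : C.WeakClosed β) (hadj : C.WeakAdj P.φ₁ P.φ₂ β g) :
    ‖∫ x, ∑ j, f j x * conj (β j x) ∂(C.Wt P.φ₂)‖ ^ 2
      ≤ (∫ x, B x ∂(C.Wt P.φ₁)) * ((1 + 1 / γ) * ∫ x, ‖g x‖ ^ 2 ∂(C.Wt P.φ₁)) := by
  have hf : ∀ j, MemLp (f j) 2 (C.Wt P.φ₂) := P.fL2
  have hc1 : Continuous P.φ₁ := C.smR_cont P.sm_φ₁
  have hc2 : Continuous P.φ₂ := C.smR_cont P.sm_φ₂
  set G := ∫ x, ‖g x‖ ^ 2 ∂(C.Wt P.φ₁) with hG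
  set M := ∫ x, B x ∂(C.Wt P.φ₁) with hM
  set Sf := ∑ j, Real.sqrt (∫ x, ‖f j x‖ ^ 2 ∂(C.Wt P.φ₂)) with hSf
  set X := ∫ x, ∑ j, f j x * conj (β j x) ∂(C.Wt P.φ₂) with hX
  have hG0 : 0 ≤ G := integral_nonneg fun x => by positivity
  have hM0 : 0 ≤ M := integral_nonneg hB0
  have hγ' : 0 ≤ 1 + 1 / γ := by positivity
  have hr : ∀ ε, 0 < ε → ‖X‖ ≤ Sf * Real.sqrt ε +
      Real.sqrt (M * ((1 + 1 / γ) * (Real.sqrt G + Real.sqrt ε) ^ 2 + (n : ℝ) ^ 2 * ε / 2)) := by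
    intro ε hε
    obtain ⟨α, hα, h1, h2, h3⟩ := P.density hβ hg hcl hadj ε hε
    have hαL : ∀ j, MemLp (α j) 2 (C.Wt P.φ₂) := fun j => C.test_memLp hc2 (hα j)
    have hadjL : MemLp (C.adj P.φ₁ P.φ₂ α) 2 (C.Wt P.φ₁) :=
      C.test_memLp hc1 (C.test_adj P.sm_φ₁ P.sm_φ₂ hα)
    set Xα := ∫ x, ∑ j, f j x * conj (α j x) ∂(C.Wt P.φ₂) with hXα
    have e1 : ‖X - Xα‖ ≤ Sf * Real.sqrt ε := by
      have hi : ∀ j, Integrable (fun x => f j x * conj (β j x)) (C.Wt P.φ₂) :=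
        fun j => hor_integrable_mul_conj (hf j) (hβ j)
      have hi' : ∀ j, Integrable (fun x => f j x * conj (α j x)) (C.Wt P.φ₂) :=
        fun j => hor_integrable_mul_conj (hf j) (hαL j)
      have e : X - Xα = ∑ j, ∫ x, f j x * conj ((β j - α j) x) ∂(C.Wt P.φ₂) := by
        rw [hX, hXα, integral_finsetSum _ (fun j _ => hi j), integral_finsetSum _ (fun j _ => hi' j),
          ← Finset.sum_sub_distrib]
        refine Finset.sum_congr rfl fun j _ => ?_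
        rw [← integral_sub (hi j) (hi' j)]
        refine integral_congr_ae (Eventually.of_forall fun x => ?_)
        simp only [Pi.sub_apply, map_sub]
        ring
      rw [e, hSf, Finset.sum_mul]
      refine (norm_sum_le _ _).trans (Finset.sum_le_sum fun j _ => ?_)
      have hcs := hor_cs_conj (hf j) ((hβ j).sub (hαL j))
      have hF0 : 0 ≤ ∫ x, ‖f j x‖ ^ 2 ∂(C.Wt P.φ₂) := integral_nonneg fun x => by positivity
      have hle : ∫ x, ‖(β j - α j) x‖ ^ 2 ∂(C.Wt P.φ₂) ≤ ε := by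
        refine le_trans (le_of_eq ?_) (h1 j)
        refine integral_congr_ae (Eventually.of_forall fun x => ?_)
        simp only [Pi.sub_apply]
        rw [norm_sub_rev]
      rw [← Real.sqrt_mul hF0]
      exact (le_abs_self _).trans
        (Real.abs_le_sqrt (hcs.trans (mul_le_mul_of_nonneg_left hle hF0)))
    have e2 : Real.sqrt (∫ x, ‖C.adj P.φ₁ P.φ₂ α x‖ ^ 2 ∂(C.Wt P.φ₁)) ≤ Real.sqrt G + Real.sqrt ε := by
      have hm := hor_sqrt_nsq_add_le (hadjL.sub hg) hg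
      have e : (fun x => ‖(C.adj P.φ₁ P.φ₂ α - g) x + g x‖ ^ 2) =
          fun x => ‖C.adj P.φ₁ P.φ₂ α x‖ ^ 2 := by
        funext x
        simp only [Pi.sub_apply, sub_add_cancel]
      rw [e] at hm
      have h2' : ∫ x, ‖(C.adj P.φ₁ P.φ₂ α - g) x‖ ^ 2 ∂(C.Wt P.φ₁) ≤ ε := h2
      calc Real.sqrt (∫ x, ‖C.adj P.φ₁ P.φ₂ α x‖ ^ 2 ∂(C.Wt P.φ₁))
          ≤ Real.sqrt (∫ x, ‖(C.adj P.φ₁ P.φ₂ α - g) x‖ ^ 2 ∂(C.Wt P.φ₁)) + Real.sqrt G := hm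
        _ ≤ Real.sqrt ε + Real.sqrt G := add_le_add (Real.sqrt_le_sqrt h2') le_rfl
        _ = Real.sqrt G + Real.sqrt ε := add_comm _ _
    have e3 := P.est_test hφ hφl hγ B hB hB0 hfB hBi hα
    have e4 : ∫ x, ‖C.adj P.φ₁ P.φ₂ α x‖ ^ 2 ∂(C.Wt P.φ₁) ≤ (Real.sqrt G + Real.sqrt ε) ^ 2 := by
      have h0 : 0 ≤ ∫ x, ‖C.adj P.φ₁ P.φ₂ α x‖ ^ 2 ∂(C.Wt P.φ₁) :=
        integral_nonneg fun x => by positivity
      calc ∫ x, ‖C.adj P.φ₁ P.φ₂ α x‖ ^ 2 ∂(C.Wt P.φ₁)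
          = Real.sqrt (∫ x, ‖C.adj P.φ₁ P.φ₂ α x‖ ^ 2 ∂(C.Wt P.φ₁)) ^ 2 := (Real.sq_sqrt h0).symm
        _ ≤ (Real.sqrt G + Real.sqrt ε) ^ 2 := pow_le_pow_left₀ (Real.sqrt_nonneg _) e2 2
    have e5 : ∑ j, ∑ k, ∫ x, ‖C.curl α j k x‖ ^ 2 ∂(C.Wt P.Φ) ≤ (n : ℝ) ^ 2 * ε := by
      calc ∑ j, ∑ k, ∫ x, ‖C.curl α j k x‖ ^ 2 ∂(C.Wt P.Φ)
          ≤ ∑ _j : Fin n, ∑ _k : Fin n, ε :=
            Finset.sum_le_sum fun j _ => Finset.sum_le_sum fun k _ => h3 j k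
        _ = (n : ℝ) ^ 2 * ε := by
            simp only [Finset.sum_const, Finset.card_univ, Fintype.card_fin, nsmul_eq_mul]
            ring
    have e6 : ‖Xα‖ ≤
        Real.sqrt (M * ((1 + 1 / γ) * (Real.sqrt G + Real.sqrt ε) ^ 2 + (n : ℝ) ^ 2 * ε / 2)) := by
      refine (le_abs_self _).trans
        (Real.abs_le_sqrt (e3.trans (mul_le_mul_of_nonneg_left ?_ hM0)))
      have := mul_le_mul_of_nonneg_left e4 hγ'
      linarith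
    calc ‖X‖ = ‖(X - Xα) + Xα‖ := by rw [sub_add_cancel]
      _ ≤ ‖X - Xα‖ + ‖Xα‖ := norm_add_le _ _
      _ ≤ _ := add_le_add e1 e6
  have hrc : Continuous fun ε : ℝ => Sf * Real.sqrt ε +
      Real.sqrt (M * ((1 + 1 / γ) * (Real.sqrt G + Real.sqrt ε) ^ 2 + (n : ℝ) ^ 2 * ε / 2)) := by
    fun_prop
  have hlim := (hrc.continuousAt (x := 0)).tendsto.mono_left
    (nhdsWithin_le_nhds (s := Set.Ioi (0 : ℝ)))
  have hle := ge_of_tendsto hlim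
    (by filter_upwards [self_mem_nhdsWithin] with ε hε using hr ε hε)
  simp only [Real.sqrt_zero, mul_zero, add_zero, zero_div, zero_add, Real.sq_sqrt hG0] at hle
  calc ‖X‖ ^ 2 ≤ Real.sqrt (M * ((1 + 1 / γ) * G)) ^ 2 := pow_le_pow_left₀ (norm_nonneg _) hle 2
    _ = M * ((1 + 1 / γ) * G) := Real.sq_sqrt (by positivity)

end Claimed.Agent.R242
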