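/-
Row 242, SCV layer, package HOR.  Architect: helper147.
HorStar: the DUAL INEQUALITY `(*)_γ` for one test form `α` supported in `S`, from a bundle of auxiliary weights `P`.

Leaves:  SCV-HOR-STAR-A = `tendsto_integral_mul`, `weakClosed_add`, `weakClosed_smul`, `weakClosed_zero`, `closedForms_closed`, `db_mem_closedForms`;
         SCV-HOR-STAR-B = `HorWts.local_pair`, `local_adj`, `local_nsq`;
         SCV-HOR-STAR-C = `HorWts.star` (glue).

PLANS.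
* `tendsto_integral_mul`:  `∫ (w_m - w₀) ζ dμ = ∫ (w_m - w₀) (ζ e^{φ}) ∂(Wt φ)` (`integral_Wt`), Cauchy–Schwarz `hor_cs`
  (`ζ e^{φ}` is continuous with compact support: `memLp_Wt_of_continuous`), squeeze.
* `weakClosed_add`: `integral_add`; integrability from `L2Loc_of_memLp_Wt` + `L2Loc.integrable_mul_μ` (`∂̄_k v` is a test function).
* `closedForms_closed`: pass to the limit in `∫ w_m j ∂̄_k v = ∫ w_m k ∂̄_j v` with `tendsto_integral_mul`, `tendsto_nhds_unique`.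
* `db_mem_closedForms`: `test_db`, `test_memLp`, `weakClosed_db`.
* `local_*`: if `x ∈ S`: `P.φ₂ = φ`, `P.φ₁ = φ` at `x` and `P.φ₂ =ᶠ[𝓝 x] φ` (`S` is open) so `dR j P.φ₂ x = dR j φ x` (`dR_congr`);
  if `x ∉ S` then `x ∉ tsupport (α j)`, so `α j x = 0` and `d j (α j) x = 0` (`image_eq_zero_of_notMem_tsupport`, `d_of_notMem_tsupport`).
  For the integrals: `integral_Wt` / `integral_Wt_real` and pointwise equality of the integrands.
* `star`.  `N := C.closedForms P.sm_φ₂`, `ν := C.Wt P.φ₂`.  `hor_l2_proj ν N _ (closedForms_closed ..) α _` gives `β ∈ N` with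
  `∑ ∫ (α_j - β_j) conj w_j = 0` for `w ∈ N`.
   (i)  `w := f ∈ N` (`P.fL2`, `hfc`):  `∫ ∑ f_j conj α_j = ∫ ∑ f_j conj β_j`   (conjugate the relation: `integral_conj`; `integral_finset_sum`, `integral_sub`);
   (ii) `w := ∂̄u ∈ N`:  `∫ ∑ β_j conj ∂̄_j u = ∫ ∑ α_j conj ∂̄_j u = ∫ adj α conj u ∂(Wt φ₁)` (`adj_identity`), i.e. `WeakAdj P.φ₁ P.φ₂ β (adj α)`;
   (iii) `P.pair_estimate` with `g := adj α` (`test_adj`, `test_memLp`), `hBi` transported by `integral_Wt_mono` and `P.le`;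
   (iv) `local_pair`, `local_nsq`, and `∫ B ∂(Wt φ₁) ≤ ∫ B ∂(Wt φ)`.
-/
import Claimed.Agent.R242.SCV.HorPair
import Claimed.Agent.R242.SCV.HorAbs

open MeasureTheory Complex Filter
open scoped ContDiff ComplexConjugate ENNReal Topology

namespace Claimed.Agent.R242

variable {W : Type*} [TopologicalSpace W] [T2Space W] [MeasurableSpace W] [BorelSpace W] {n : ℕ}

namespace RDCalc

variable (C : RDCalc W n) {φ : W → ℝ}

/-- `L²(e^{-φ})` convergence implies convergence of the integrals against continuous functions with compact support. -/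
theorem tendsto_integral_mul (hφ : Continuous φ) (w : ℕ → W → ℂ) (w₀ : W → ℂ)
    (hw : ∀ m, MemLp (w m) 2 (C.Wt φ)) (hw₀ : MemLp w₀ 2 (C.Wt φ))
    (hlim : Tendsto (fun m => ∫ x, ‖w m x - w₀ x‖ ^ 2 ∂(C.Wt φ)) atTop (𝓝 0))
    (ζ : W → ℂ) (hζ : Continuous ζ) (hζc : HasCompactSupport ζ) :
    Tendsto (fun m => ∫ x, w m x * ζ x ∂C.μ) atTop (𝓝 (∫ x, w₀ x * ζ x ∂C.μ)) := by
  set ξ : W → ℂ := fun x => ζ x * ((Real.exp (φ x) : ℝ) : ℂ) with hξ
  have hξc : Continuous ξ :=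
    hζ.mul (Complex.continuous_ofReal.comp (Real.continuous_exp.comp hφ))
  have hξs : HasCompactSupport ξ := hζc.mul_right
  have hξL : MemLp ξ 2 (C.Wt φ) := C.memLp_Wt_of_continuous hφ hξc hξs
  have key : ∀ u : W → ℂ, ∫ x, u x * ζ x ∂C.μ = ∫ x, u x * ξ x ∂(C.Wt φ) := by
    intro u
    rw [C.integral_Wt hφ.measurable]
    refine integral_congr_ae (Eventually.of_forall fun x => ?_)
    simp only [hξ]
    have : ((Real.exp (φ x) : ℝ) : ℂ) * ((Real.exp (-φ x) : ℝ) : ℂ) = 1 := by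
      rw [← Complex.ofReal_mul, ← Real.exp_add]; simp
    rw [mul_assoc, mul_assoc, this, mul_one]
  simp only [key]
  rw [tendsto_iff_norm_sub_tendsto_zero]
  have hb : ∀ m, ‖∫ x, w m x * ξ x ∂(C.Wt φ) - ∫ x, w₀ x * ξ x ∂(C.Wt φ)‖
      ≤ Real.sqrt ((∫ x, ‖w m x - w₀ x‖ ^ 2 ∂(C.Wt φ)) * ∫ x, ‖ξ x‖ ^ 2 ∂(C.Wt φ)) := by
    intro m
    rw [← integral_sub (hor_integrable_mul (hw m) hξL) (hor_integrable_mul hw₀ hξL)]
    have e : (fun x => w m x * ξ x - w₀ x * ξ x) = fun x => (w m x - w₀ x) * ξ x := by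
      funext x; ring
    rw [e]
    apply Real.le_sqrt_of_sq_le
    exact hor_cs (u := fun x => w m x - w₀ x) ((hw m).sub hw₀) hξL
  have hl : Tendsto (fun m => Real.sqrt ((∫ x, ‖w m x - w₀ x‖ ^ 2 ∂(C.Wt φ))
      * ∫ x, ‖ξ x‖ ^ 2 ∂(C.Wt φ))) atTop (𝓝 0) := by
    have := (Real.continuous_sqrt.tendsto _).comp (hlim.mul_const (∫ x, ‖ξ x‖ ^ 2 ∂(C.Wt φ)))
    simpa [Function.comp_def] using this
  exact squeeze_zero (fun m => norm_nonneg _) hb hl

theorem weakClosed_zero : C.WeakClosed (0 : Fin n → W → ℂ) := by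
  intro v _ j k
  simp

theorem weakClosed_add (hφ : C.SmR φ) {w w' : Fin n → W → ℂ} (hw : ∀ j, MemLp (w j) 2 (C.Wt φ))
    (hw' : ∀ j, MemLp (w' j) 2 (C.Wt φ)) (h : C.WeakClosed w) (h' : C.WeakClosed w') :
    C.WeakClosed (w + w') := by
  intro v hv j k
  have hc := C.smR_cont hφ
  have hi : ∀ (u : Fin n → W → ℂ), (∀ j, MemLp (u j) 2 (C.Wt φ)) → ∀ j k,
      Integrable (fun x => u j x * C.db k v x) C.μ := fun u hu j k =>
    L2Loc.integrable_mul_μ C (C.L2Loc_of_memLp_Wt hc (hu j)) (C.sm_cont (C.test_db k hv).1)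
      (C.test_db k hv).2
  simp only [Pi.add_apply, add_mul]
  rw [integral_add (hi w hw j k) (hi w' hw' j k), integral_add (hi w hw k j) (hi w' hw' k j),
    h v hv j k, h' v hv j k]

theorem weakClosed_smul (c : ℂ) {w : Fin n → W → ℂ} (h : C.WeakClosed w) : C.WeakClosed (c • w) := by
  intro v hv j k
  simp only [Pi.smul_apply, smul_eq_mul, mul_assoc]
  rw [integral_const_mul, integral_const_mul, h v hv j k]

/-- the space of weakly closed forms in `L²(e^{-φ})`. -/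
def closedForms (hφ : C.SmR φ) : Submodule ℂ (Fin n → W → ℂ) where
  carrier := {w | (∀ j, MemLp (w j) 2 (C.Wt φ)) ∧ C.WeakClosed w}
  add_mem' := fun {w w'} hw hw' =>
    ⟨fun j => (hw.1 j).add (hw'.1 j), C.weakClosed_add hφ hw.1 hw'.1 hw.2 hw'.2⟩
  zero_mem' := ⟨fun _ => MemLp.zero, C.weakClosed_zero⟩
  smul_mem' := fun c w hw => ⟨fun j => (hw.1 j).const_smul c, C.weakClosed_smul c hw.2⟩

theorem mem_closedForms (hφ : C.SmR φ) {w : Fin n → W → ℂ} :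
    w ∈ C.closedForms hφ ↔ (∀ j, MemLp (w j) 2 (C.Wt φ)) ∧ C.WeakClosed w := Iff.rfl

theorem closedForms_closed (hφ : C.SmR φ) (w : ℕ → Fin n → W → ℂ) (w₀ : Fin n → W → ℂ)
    (hw : ∀ m, w m ∈ C.closedForms hφ) (hw₀ : ∀ j, MemLp (w₀ j) 2 (C.Wt φ))
    (hlim : ∀ j, Tendsto (fun m => ∫ x, ‖w m j x - w₀ j x‖ ^ 2 ∂(C.Wt φ)) atTop (𝓝 0)) :
    w₀ ∈ C.closedForms hφ := by
  refine ⟨hw₀, fun v hv j k => ?_⟩
  have hc := C.smR_cont hφ
  have h1 := C.tendsto_integral_mul hc (fun m => w m j) (w₀ j) (fun m => (hw m).1 j) (hw₀ j) (hlim j)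
    (C.db k v) (C.sm_cont (C.test_db k hv).1) (C.test_db k hv).2
  have h2 := C.tendsto_integral_mul hc (fun m => w m k) (w₀ k) (fun m => (hw m).1 k) (hw₀ k) (hlim k)
    (C.db j v) (C.sm_cont (C.test_db j hv).1) (C.test_db j hv).2
  have e : (fun m => ∫ x, w m j x * C.db k v x ∂C.μ) = fun m => ∫ x, w m k x * C.db j v x ∂C.μ := by
    funext m; exact (hw m).2 v hv j k
  rw [e] at h1
  exact tendsto_nhds_unique h1 h2

theorem db_mem_closedForms (hφ : C.SmR φ) {u : W → ℂ} (hu : C.Test u) :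
    (fun j => C.db j u) ∈ C.closedForms hφ :=
  ⟨fun j => C.test_memLp (C.smR_cont hφ) (C.test_db j hu), C.weakClosed_db hu.1⟩

end RDCalc

variable {C : RDCalc W n} {φ : W → ℝ} {f : Fin n → W → ℂ} {γ : ℝ} {S : Set W} {α : Fin n → W → ℂ}

theorem HorWts.local_pair (P : HorWts C φ f γ S) (hφ : C.SmR φ) (hαS : ∀ j, tsupport (α j) ⊆ S) :
    ∫ x, ∑ j, f j x * conj (α j x) ∂(C.Wt P.φ₂) = ∫ x, ∑ j, f j x * conj (α j x) ∂(C.Wt φ) := by
  rw [C.integral_Wt (C.smR_cont P.sm_φ₂).measurable, C.integral_Wt (C.smR_cont hφ).measurable]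
  refine integral_congr_ae (Eventually.of_forall fun x => ?_)
  by_cases hx : x ∈ S
  · have e : P.φ₂ x = φ x := by
      show P.Φ x - P.ψ x = φ x
      rw [P.eqΦ x hx, P.eqψ x hx, sub_zero]
    simp only [e]
  · have h0 : ∀ j, α j x = 0 := fun j => image_eq_zero_of_notMem_tsupport (fun h => hx (hαS j h))
    simp [h0]

omit [T2Space W] [BorelSpace W] in
theorem hor_star_theta_zero (C : RDCalc W n) (φ' : W → ℝ) (hαS : ∀ j, tsupport (α j) ⊆ S) {x : W}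
    (hx : x ∉ S) : C.theta φ' α x = 0 := by
  unfold RDCalc.theta
  refine Finset.sum_eq_zero fun j _ => ?_
  have hj : x ∉ tsupport (α j) := fun h => hx (hαS j h)
  rw [image_eq_zero_of_notMem_tsupport hj, C.d_of_notMem_tsupport j hj, mul_zero, sub_zero]

theorem HorWts.local_adj (P : HorWts C φ f γ S) (hS : IsOpen S) (hαS : ∀ j, tsupport (α j) ⊆ S) (x : W) :
    C.adj P.φ₁ P.φ₂ α x = C.theta φ α x := by
  unfold RDCalc.adj
  by_cases hx : x ∈ S
  · have e1 : P.φ₁ x - P.φ₂ x = 0 := by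
      show (P.Φ x - 2 * P.ψ x) - (P.Φ x - P.ψ x) = 0
      rw [P.eqψ x hx]
      ring
    have e2 : P.φ₂ =ᶠ[𝓝 x] φ := by
      filter_upwards [hS.mem_nhds hx] with y hy
      show P.Φ y - P.ψ y = φ y
      rw [P.eqΦ y hy, P.eqψ y hy, sub_zero]
    rw [e1, Real.exp_zero, Complex.ofReal_one, one_mul]
    unfold RDCalc.theta
    refine Finset.sum_congr rfl fun j _ => ?_
    rw [C.dR_congr j e2]
  · rw [hor_star_theta_zero C _ hαS hx, hor_star_theta_zero C _ hαS hx, mul_zero]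

theorem HorWts.local_nsq (P : HorWts C φ f γ S) (hS : IsOpen S) (hφ : C.SmR φ)
    (hαS : ∀ j, tsupport (α j) ⊆ S) :
    ∫ x, ‖C.adj P.φ₁ P.φ₂ α x‖ ^ 2 ∂(C.Wt P.φ₁) = ∫ x, ‖C.theta φ α x‖ ^ 2 ∂(C.Wt φ) := by
  simp only [HorWts.local_adj P hS hαS]
  rw [C.integral_Wt_real (C.smR_cont P.sm_φ₁).measurable, C.integral_Wt_real (C.smR_cont hφ).measurable]
  refine integral_congr_ae (Eventually.of_forall fun x => ?_)
  by_cases hx : x ∈ S
  · have e : P.φ₁ x = φ x := by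
      show P.Φ x - 2 * P.ψ x = φ x
      rw [P.eqΦ x hx, P.eqψ x hx, mul_zero, sub_zero]
    simp only [e]
  · simp only [hor_star_theta_zero C _ hαS hx]
    simp

/-- pairing of tuples: if `∑ ∫ (a_j - b_j) conj w_j = 0` then `∫ ∑ a_j conj w_j = ∫ ∑ b_j conj w_j`. -/
theorem hor_star_pair_eq {X : Type*} [MeasurableSpace X] {ν : Measure X} {a b w : Fin n → X → ℂ}
    (ha : ∀ j, MemLp (a j) 2 ν) (hb : ∀ j, MemLp (b j) 2 ν) (hw : ∀ j, MemLp (w j) 2 ν)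
    (h : ∑ j, ∫ x, (a j x - b j x) * conj (w j x) ∂ν = 0) :
    ∫ x, ∑ j, a j x * conj (w j x) ∂ν = ∫ x, ∑ j, b j x * conj (w j x) ∂ν := by
  have hia : ∀ j ∈ (Finset.univ : Finset (Fin n)), Integrable (fun x => a j x * conj (w j x)) ν :=
    fun j _ => hor_integrable_mul_conj (ha j) (hw j)
  have hib : ∀ j ∈ (Finset.univ : Finset (Fin n)), Integrable (fun x => b j x * conj (w j x)) ν :=
    fun j _ => hor_integrable_mul_conj (hb j) (hw j)
  rw [integral_finsetSum _ hia, integral_finsetSum _ hib, ← sub_eq_zero, ← Finset.sum_sub_distrib, ← h]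
  refine Finset.sum_congr rfl fun j hj => ?_
  rw [← integral_sub (hia j hj) (hib j hj)]
  refine integral_congr_ae (Eventually.of_forall fun x => ?_)
  show a j x * conj (w j x) - b j x * conj (w j x) = (a j x - b j x) * conj (w j x)
  ring

/-- the conjugate pairing. -/
theorem hor_star_pair_conj {X : Type*} [MeasurableSpace X] {ν : Measure X} (a w : Fin n → X → ℂ) :
    ∫ x, ∑ j, w j x * conj (a j x) ∂ν = conj (∫ x, ∑ j, a j x * conj (w j x) ∂ν) := by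
  rw [← integral_conj]
  refine integral_congr_ae (Eventually.of_forall fun x => ?_)
  show ∑ j, w j x * conj (a j x) = conj (∑ j, a j x * conj (w j x))
  rw [map_sum]
  refine Finset.sum_congr rfl fun j _ => ?_
  rw [map_mul, Complex.conj_conj, mul_comm]

/-- **the dual inequality with the constant `1 + 1/γ`.** -/
theorem HorWts.star (P : HorWts C φ f γ S) (hS : IsOpen S) (hφ : C.SmR φ)
    (hφl : ∀ x a, 0 ≤ C.levi φ x a) (hγ : 0 < γ) (hfc : C.WeakClosed f)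
    (B : W → ℝ) (hB : Measurable B) (hB0 : ∀ x, 0 ≤ B x)
    (hfB : ∀ᵐ x ∂C.μ, ∀ a : Fin n → ℂ, ‖∑ j, f j x * conj (a j)‖ ^ 2 ≤ B x * C.levi φ x a)
    (hBi : Integrable B (C.Wt φ)) (hα : C.TestF α) (hαS : ∀ j, tsupport (α j) ⊆ S) :
    ‖∫ x, ∑ j, f j x * conj (α j x) ∂(C.Wt φ)‖ ^ 2
      ≤ (∫ x, B x ∂(C.Wt φ)) * ((1 + 1 / γ) * ∫ x, ‖C.theta φ α x‖ ^ 2 ∂(C.Wt φ)) := by
  have hc1 := C.smR_cont P.sm_φ₁
  have hc2 := C.smR_cont P.sm_φ₂
  have hαL : ∀ j, MemLp (α j) 2 (C.Wt P.φ₂) := fun j => C.test_memLp hc2 (hα j)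
  obtain ⟨β, hβN, horth, _⟩ := hor_l2_proj (C.Wt P.φ₂) (C.closedForms P.sm_φ₂)
    (fun w hw j => hw.1 j)
    (fun w w₀ hw hw₀ hlim => C.closedForms_closed P.sm_φ₂ w w₀ hw hw₀ hlim) α hαL
  have hfN : f ∈ C.closedForms P.sm_φ₂ := ⟨P.fL2, hfc⟩
  -- (i)
  have h1 : ∫ x, ∑ j, f j x * conj (α j x) ∂(C.Wt P.φ₂) = ∫ x, ∑ j, f j x * conj (β j x) ∂(C.Wt P.φ₂) := by
    rw [hor_star_pair_conj α f, hor_star_pair_conj β f,
      hor_star_pair_eq hαL hβN.1 hfN.1 (horth f hfN)]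
  -- (ii)
  have h2 : C.WeakAdj P.φ₁ P.φ₂ β (C.adj P.φ₁ P.φ₂ α) := by
    intro u hu
    have hN := C.db_mem_closedForms P.sm_φ₂ hu
    rw [← hor_star_pair_eq hαL hβN.1 hN.1 (horth _ hN)]
    exact C.adj_identity P.sm_φ₁ P.sm_φ₂ hα hu.1
  -- (iii)
  have hBm := C.integral_Wt_mono (φ := φ) (φ' := P.φ₁) P.le hB0 hBi
  have h3 := P.pair_estimate hφ hφl hγ B hB hB0 hfB hBm.1 hβN.1
    (C.test_memLp hc1 (C.test_adj P.sm_φ₁ P.sm_φ₂ hα)) hβN.2 h2
  -- (iv)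
  rw [← HorWts.local_pair P hφ hαS, h1]
  refine h3.trans ?_
  rw [HorWts.local_nsq P hS hφ hαS]
  refine mul_le_mul_of_nonneg_right hBm.2 ?_
  have : 0 ≤ ∫ x, ‖C.theta φ α x‖ ^ 2 ∂(C.Wt φ) := integral_nonneg fun x => sq_nonneg _
  positivity

end Claimed.Agent.R242
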