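/-
Row 242, SCV layer, package HOR.  Architect: helper147.
HorReal: real-variable and measure-theoretic lemmas for the construction of the auxiliary weights.  Mathlib only, no contract.

Leaves (independent of each other; later ones may use the earlier STATEMENTS):
  SCV-HOR-REAL-A : `hor_lba_*`, `hor_deriv_smoothTransition_bdd`, `hor_smooth_majorant`, `hor_contDiff_primitive`,
                   `hor_smooth_mono_majorant`, `hor_majorant`
  SCV-HOR-REAL-B : `hor_convex_weight`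
  SCV-HOR-REAL-C : `hor_real_weights`
  SCV-HOR-REAL-D : `hor_exists_lam`

PLANS.
* `hor_smooth_majorant`: `exists_contDiff_forall_mem_convex_of_local_const` with `t s := Set.Ici (q s)`.
* `hor_majorant`: the same lemma with `t s := {c | ∀ x, ρ x ≤ s → q x ≤ c}` (convex); local constant near `s`: an upper bound of `q` on
  the compact set `{ρ ≤ s + 1}`.
* `hor_contDiff_primitive`: `contDiff_infty_iff_deriv` (or `contDiff_succ_iff_deriv` + induction); `deriv = h` by
  `Continuous.deriv_integral` / `intervalIntegral.integral_hasDerivAt_right`.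
* `hor_smooth_mono_majorant`: `m` a smooth majorant of `q`; `E t := m a ^ 2 + 1 + ∫ r in a..t, (1 + deriv m r ^ 2)`;
  `E' = 1 + m'² ≥ max 0 m'`, `E a ≥ max 0 (m a)`, so `E ≥ 0`, `E - m ≥ 0` on `[a, ∞)` (monotonicity from the sign of the derivative).
* `hor_convex_weight`: `a'' := (a + a') / 2`, `σ t := Real.smoothTransition ((t - a) / (a'' - a))`; `E₀` := mono majorant of `τ₀` (base point `a`);
  `c₀ := E₀ a' / (a' - a'')`; `E₁` := mono majorant of `max (τ₁ t) (max (deriv E₀ t) c₀)`; `s := σ * E₁`; `χ t := ∫ r in a..t, s r`.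
  `χ' = s ≥ 0`; `χ'' = σ' E₁ + σ E₁' ≥ 0` (`σ' = 0` left of `a`, `E₁ ≥ 0` right of `a`); for `t ≥ a'`: `χ' = E₁ ≥ τ₁` and
  `χ t ≥ ∫_{a''}^{a'} E₁ + ∫_{a'}^{t} E₁ ≥ (a' - a'') c₀ + (E₀ t - E₀ a') = E₀ t ≥ τ₀ t`; for `t ≤ a'`: `τ₀, τ₁ ≤ 0 ≤ χ, χ'`.
* `hor_real_weights`: `m` smooth majorant of `max (mG t) 0`; `κ t := Real.smoothTransition (2 * (t - a) - 1) * m t` (`= 0` for `t ≤ a + 1/2`,
  `= m t` for `t ≥ a + 1`, and `exp κ ≥ κ + 1`); apply `hor_convex_weight` with `a' := a + 1/2`,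
  `τ₁ t := (1 + γ) * (deriv κ t)^2 * max (mG t) 0`, `τ₀ t := max (2 * κ t) (if t < a + 1 then 0 else κ t + lam t)`.
* `hor_exists_lam`: `k t := ⌈t⌉₊`, `lam t := k t * log 2 + log (1 + (ν {ρ ≤ k t}).toReal)`; pointwise
  `exp (-lam (ρ x)) ≤ ∑' k, 2^{-k} / (1 + ν_k) * 1_{ρ ≤ k}(x)` (one term), `lintegral_tsum`, geometric series.
-/
import Mathlib

open MeasureTheory Filter
open scoped ContDiff ENNReal Topology

namespace Claimed.Agent.R242

/-- locally bounded above. -/
def HorLBA (q : ℝ → ℝ) : Prop := ∀ t, ∃ c, ∀ᶠ s in 𝓝 t, q s ≤ c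

theorem hor_lba_of_continuous {q : ℝ → ℝ} (h : Continuous q) : HorLBA q := by
  intro t
  refine ⟨q t + 1, ?_⟩
  have := h.continuousAt.eventually_lt (f := q) (g := fun _ => q t + 1) (x₀ := t) continuousAt_const
    (by linarith)
  exact this.mono fun s hs => hs.le

theorem hor_lba_of_monotone {q : ℝ → ℝ} (h : Monotone q) : HorLBA q := by
  intro t
  refine ⟨q (t + 1), ?_⟩
  have : ∀ᶠ s in 𝓝 t, s < t + 1 := eventually_lt_nhds (by linarith)
  exact this.mono fun s hs => h hs.le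

theorem hor_lba_max {q r : ℝ → ℝ} (hq : HorLBA q) (hr : HorLBA r) : HorLBA fun t => max (q t) (r t) := by
  intro t
  obtain ⟨c, hc⟩ := hq t
  obtain ⟨d, hd⟩ := hr t
  refine ⟨max c d, ?_⟩
  filter_upwards [hc, hd] with s h1 h2
  exact max_le_max h1 h2

theorem hor_lba_add {q r : ℝ → ℝ} (hq : HorLBA q) (hr : HorLBA r) : HorLBA fun t => q t + r t := by
  intro t
  obtain ⟨c, hc⟩ := hq t
  obtain ⟨d, hd⟩ := hr t
  refine ⟨c + d, ?_⟩
  filter_upwards [hc, hd] with s h1 h2
  exact add_le_add h1 h2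

theorem hor_lba_mul {q r : ℝ → ℝ} (hq : Continuous q) (hq0 : ∀ t, 0 ≤ q t) (hr : HorLBA r) :
    HorLBA fun t => q t * r t := by
  intro t
  obtain ⟨c, hc⟩ := hor_lba_of_continuous hq t
  obtain ⟨d, hd⟩ := hr t
  refine ⟨c * max d 0, ?_⟩
  filter_upwards [hc, hd] with s h1 h2
  calc q s * r s ≤ q s * max d 0 := mul_le_mul_of_nonneg_left (h2.trans (le_max_left _ _)) (hq0 s)
    _ ≤ c * max d 0 := mul_le_mul_of_nonneg_right h1 (le_max_right _ _)

theorem hor_lba_ite {q r : ℝ → ℝ} (P : ℝ → Prop) [DecidablePred P] (hq : HorLBA q) (hr : HorLBA r) :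
    HorLBA fun t => if P t then q t else r t := by
  intro t
  obtain ⟨c, hc⟩ := hq t
  obtain ⟨d, hd⟩ := hr t
  refine ⟨max c d, ?_⟩
  filter_upwards [hc, hd] with s h1 h2
  split_ifs
  · exact h1.trans (le_max_left _ _)
  · exact h2.trans (le_max_right _ _)

/-- the derivative of the standard transition function is bounded. -/
theorem hor_deriv_smoothTransition_bdd :
    ∃ Θ : ℝ, 0 ≤ Θ ∧ ∀ s, |deriv Real.smoothTransition s| ≤ Θ := by
  have hc : Continuous (deriv Real.smoothTransition) :=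
    (Real.smoothTransition.contDiff (n := 1)).continuous_deriv le_rfl
  obtain ⟨C, hC⟩ := (isCompact_Icc (a := (0:ℝ)) (b := 1)).exists_bound_of_continuousOn
    hc.continuousOn
  refine ⟨max C 0, le_max_right _ _, fun s => ?_⟩
  by_cases hs : s ∈ Set.Icc (0:ℝ) 1
  · exact (hC s hs).trans (le_max_left _ _)
  · have h0 : deriv Real.smoothTransition s = 0 := by
      rw [Set.mem_Icc, not_and_or, not_le, not_le] at hs
      rcases hs with hs | hs
      · have : Real.smoothTransition =ᶠ[𝓝 s] fun _ => 0 := by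
          filter_upwards [eventually_lt_nhds hs] with x hx
          exact Real.smoothTransition.zero_of_nonpos hx.le
        rw [this.deriv_eq]; simp
      · have : Real.smoothTransition =ᶠ[𝓝 s] fun _ => 1 := by
          filter_upwards [eventually_gt_nhds hs] with x hx
          exact Real.smoothTransition.one_of_one_le hx.le
        rw [this.deriv_eq]; simp
    rw [h0, abs_zero]; exact le_max_right _ _

theorem hor_deriv_smoothTransition_nonneg (s : ℝ) : 0 ≤ deriv Real.smoothTransition s :=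
  Real.smoothTransition.monotone.deriv_nonneg

theorem hor_exists_contDiff_of_local_const (t : ℝ → Set ℝ) (ht : ∀ x, Convex ℝ (t x))
    (Hloc : ∀ x : ℝ, ∃ c : ℝ, ∀ᶠ y in 𝓝 x, c ∈ t y) :
    ∃ g : ℝ → ℝ, ContDiff ℝ ∞ g ∧ ∀ x, g x ∈ t x := by
  obtain ⟨g, hg⟩ := exists_contMDiffMap_forall_mem_convex_of_local_const (n := (⊤ : ℕ∞))
    (modelWithCornersSelf ℝ ℝ) ht Hloc
  exact ⟨g, g.contMDiff.contDiff, hg⟩

/-- a locally bounded function has a smooth majorant. -/
theorem hor_smooth_majorant (q : ℝ → ℝ) (hq : HorLBA q) :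
    ∃ m : ℝ → ℝ, ContDiff ℝ ∞ m ∧ ∀ t, q t ≤ m t := by
  exact hor_exists_contDiff_of_local_const (fun s => Set.Ici (q s)) (fun s => convex_Ici _) hq

/-- the primitive of a smooth function is smooth. -/
theorem hor_contDiff_primitive (a : ℝ) (h : ℝ → ℝ) (hh : ContDiff ℝ ∞ h) :
    ContDiff ℝ ∞ (fun t => ∫ r in a..t, h r) ∧ ∀ t, deriv (fun t => ∫ r in a..t, h r) t = h t := by
  have hd : ∀ t, HasDerivAt (fun t => ∫ r in a..t, h r) (h t) t := fun t =>
    intervalIntegral.integral_hasDerivAt_right (hh.continuous.intervalIntegrable _ _)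
      (hh.continuous.stronglyMeasurableAtFilter _ _) hh.continuous.continuousAt
  have hd' : deriv (fun t => ∫ r in a..t, h r) = h := funext fun t => (hd t).deriv
  refine ⟨?_, fun t => (hd t).deriv⟩
  rw [contDiff_infty_iff_deriv]
  refine ⟨fun t => (hd t).differentiableAt, ?_⟩
  rw [hd']
  exact hh

/-- smooth nondecreasing majorant on `[a, ∞)`. -/
theorem hor_smooth_mono_majorant (a : ℝ) (q : ℝ → ℝ) (hq : HorLBA q) :
    ∃ E : ℝ → ℝ, ContDiff ℝ ∞ E ∧ (∀ t, 0 ≤ deriv E t) ∧ (∀ t, a ≤ t → 0 ≤ E t) ∧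
      ∀ t, a ≤ t → q t ≤ E t := by
  obtain ⟨m, hm, hqm⟩ := hor_smooth_majorant q hq
  have hm' : ContDiff ℝ ∞ (deriv m) := (contDiff_infty_iff_deriv.1 hm).2
  have hmd : Differentiable ℝ m := (contDiff_infty_iff_deriv.1 hm).1
  have hh : ContDiff ℝ ∞ (fun r => 1 + deriv m r ^ 2) := contDiff_const.add (hm'.pow 2)
  obtain ⟨hI, hI'⟩ := hor_contDiff_primitive a _ hh
  have hId : Differentiable ℝ (fun t => ∫ r in a..t, (1 + deriv m r ^ 2)) :=
    (contDiff_infty_iff_deriv.1 hI).1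
  set E : ℝ → ℝ := fun t => m a ^ 2 + 1 + ∫ r in a..t, (1 + deriv m r ^ 2) with hE
  have hEc : ContDiff ℝ ∞ E := contDiff_const.add hI
  have hEd : Differentiable ℝ E := (contDiff_infty_iff_deriv.1 hEc).1
  have hE' : ∀ t, deriv E t = 1 + deriv m t ^ 2 := by
    intro t
    rw [hE, deriv_const_add, hI']
  have hEa : E a = m a ^ 2 + 1 := by simp [hE]
  have hmono : Monotone E := monotone_of_deriv_nonneg hEd (fun t => by rw [hE']; positivity)
  have hmono2 : Monotone (fun t => E t - m t) := by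
    refine monotone_of_deriv_nonneg (hEd.sub hmd) (fun t => ?_)
    rw [deriv_fun_sub hEd.differentiableAt hmd.differentiableAt, hE']
    nlinarith [sq_nonneg (deriv m t - 1)]
  refine ⟨E, hEc, fun t => by rw [hE']; positivity, fun t ht => ?_, fun t ht => ?_⟩
  · have := hmono ht
    rw [hEa] at this
    nlinarith [sq_nonneg (m a)]
  · have := hmono2 ht
    simp only [hEa] at this
    have h2 := hqm t
    nlinarith [sq_nonneg (m a - 1)]

/-- a continuous function on a space with a compact exhaustion `ρ` is dominated by a smooth function of `ρ`. -/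
theorem hor_majorant {X : Type*} [TopologicalSpace X] (ρ : X → ℝ)
    (hρc : ∀ t, IsCompact {x | ρ x ≤ t}) (q : X → ℝ) (hq : Continuous q) :
    ∃ m : ℝ → ℝ, ContDiff ℝ ∞ m ∧ ∀ x, q x ≤ m (ρ x) := by
  have h1 : ∀ s : ℝ, Convex ℝ {c : ℝ | ∀ x, ρ x ≤ s → q x ≤ c} := by
    intro s
    have : {c : ℝ | ∀ x, ρ x ≤ s → q x ≤ c} = ⋂ x, ⋂ (_ : ρ x ≤ s), Set.Ici (q x) := by
      ext c; simp
    rw [this]
    exact convex_iInter₂ fun x _ => convex_Ici _
  have h2 : ∀ s : ℝ, ∃ c : ℝ, ∀ᶠ s' in 𝓝 s, c ∈ {c : ℝ | ∀ x, ρ x ≤ s' → q x ≤ c} := by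
    intro s
    obtain ⟨c, hc⟩ := (hρc (s + 1)).bddAbove_image hq.continuousOn
    refine ⟨c, ?_⟩
    filter_upwards [eventually_lt_nhds (show s < s + 1 by linarith)] with s' hs' x hx
    exact hc ⟨x, hx.trans hs'.le, rfl⟩
  obtain ⟨m, hm, hmem⟩ := hor_exists_contDiff_of_local_const
    (fun s => {c | ∀ x, ρ x ≤ s → q x ≤ c}) h1 h2
  exact ⟨m, hm, fun x => hmem (ρ x) x le_rfl⟩

/-- smooth convex nondecreasing function, `0` on `(-∞, a]`, dominating prescribed data that are `≤ 0` on `(-∞, a']`. -/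
theorem hor_convex_weight (a a' : ℝ) (haa : a < a') (τ₀ τ₁ : ℝ → ℝ) (h₀ : HorLBA τ₀) (h₁ : HorLBA τ₁)
    (h₀' : ∀ t ≤ a', τ₀ t ≤ 0) (h₁' : ∀ t ≤ a', τ₁ t ≤ 0) :
    ∃ χ : ℝ → ℝ, ContDiff ℝ ∞ χ ∧ (∀ t ≤ a, χ t = 0) ∧ (∀ t, 0 ≤ deriv χ t) ∧
      (∀ t, 0 ≤ deriv (deriv χ) t) ∧ (∀ t, τ₀ t ≤ χ t) ∧ ∀ t, τ₁ t ≤ deriv χ t := by
  set a'' : ℝ := (a + a') / 2 with ha''
  have h1 : a < a'' := by rw [ha'']; linarith
  have h2 : a'' < a' := by rw [ha'']; linarith
  -- the transition
  set σ : ℝ → ℝ := fun t => Real.smoothTransition ((t - a) / (a'' - a)) with hσ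
  have hσc : ContDiff ℝ ∞ σ :=
    Real.smoothTransition.contDiff.comp ((contDiff_id.sub contDiff_const).div_const _)
  have hσ0 : ∀ t ≤ a, σ t = 0 := by
    intro t ht
    apply Real.smoothTransition.zero_of_nonpos
    exact div_nonpos_of_nonpos_of_nonneg (by linarith) (by linarith)
  have hσ1 : ∀ t, a'' ≤ t → σ t = 1 := by
    intro t ht
    apply Real.smoothTransition.one_of_one_le
    rw [le_div_iff₀ (by linarith)]
    linarith
  have hσnn : ∀ t, 0 ≤ σ t := fun t => Real.smoothTransition.nonneg _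
  have hσm : Monotone σ := by
    intro x y hxy
    apply Real.smoothTransition.monotone
    exact div_le_div_of_nonneg_right (by linarith) (by linarith)
  -- the majorants
  obtain ⟨E₀, hE₀c, hE₀', hE₀nn, hE₀⟩ := hor_smooth_mono_majorant a τ₀ h₀
  have hE₀d : Differentiable ℝ E₀ := (contDiff_infty_iff_deriv.1 hE₀c).1
  have hE₀dc : Continuous (deriv E₀) := (contDiff_infty_iff_deriv.1 hE₀c).2.continuous
  set c₀ : ℝ := E₀ a' / (a' - a'') with hc₀
  obtain ⟨E₁, hE₁c, hE₁', hE₁nn, hE₁⟩ := hor_smooth_mono_majorant a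
    (fun t => max (τ₁ t) (max (deriv E₀ t) c₀))
    (hor_lba_max h₁ (hor_lba_max (hor_lba_of_continuous hE₀dc)
      (hor_lba_of_continuous continuous_const)))
  have hE₁d : Differentiable ℝ E₁ := (contDiff_infty_iff_deriv.1 hE₁c).1
  have hE₁m : Monotone E₁ := monotone_of_deriv_nonneg hE₁d hE₁'
  -- the density
  set s : ℝ → ℝ := fun t => σ t * E₁ t with hs
  have hsc : ContDiff ℝ ∞ s := hσc.mul hE₁c
  have hs0 : ∀ t ≤ a, s t = 0 := fun t ht => by rw [hs]; simp only [hσ0 t ht, zero_mul]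
  have hsnn : ∀ t, 0 ≤ s t := by
    intro t
    rcases le_total t a with ht | ht
    · rw [hs0 t ht]
    · exact mul_nonneg (hσnn t) (hE₁nn t ht)
  have hsm : Monotone s := by
    intro x y hxy
    rcases le_total x a with hx | hx
    · rw [hs0 x hx]; exact hsnn y
    · exact mul_le_mul (hσm hxy) (hE₁m hxy) (hE₁nn x hx) (hσnn y)
  have hs1 : ∀ t, a'' ≤ t → s t = E₁ t := fun t ht => by rw [hs]; simp only [hσ1 t ht, one_mul]
  obtain ⟨hχc, hχ'⟩ := hor_contDiff_primitive a s hsc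
  set χ : ℝ → ℝ := fun t => ∫ r in a..t, s r with hχ
  have hχd : Differentiable ℝ χ := (contDiff_infty_iff_deriv.1 hχc).1
  have hχ'' : deriv χ = s := funext hχ'
  have hχ0 : ∀ t ≤ a, χ t = 0 := by
    intro t ht
    have : ∫ r in a..t, s r = ∫ r in a..t, (0 : ℝ) := by
      apply intervalIntegral.integral_congr
      intro r hr
      rw [Set.uIcc_of_ge ht] at hr
      exact hs0 r hr.2
    rw [hχ]; simp only [this, intervalIntegral.integral_zero]
  have hχm : Monotone χ := monotone_of_deriv_nonneg hχd (fun t => by rw [hχ']; exact hsnn t)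
  have hχnn : ∀ t, 0 ≤ χ t := by
    intro t
    rcases le_total t a with ht | ht
    · rw [hχ0 t ht]
    · rw [← hχ0 a le_rfl]; exact hχm ht
  refine ⟨χ, hχc, hχ0, fun t => by rw [hχ']; exact hsnn t, fun t => ?_, fun t => ?_, fun t => ?_⟩
  · rw [hχ'']; exact hsm.deriv_nonneg
  · rcases le_total t a' with ht | ht
    · exact (h₀' t ht).trans (hχnn t)
    · -- `χ a' ≥ E₀ a'`
      have hA : MonotoneOn (fun t => χ t - c₀ * t) (Set.Icc a'' a') := by
        refine monotoneOn_of_deriv_nonneg (convex_Icc _ _) ?_ ?_ ?_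
        · exact (hχd.continuous.sub (continuous_const.mul continuous_id)).continuousOn
        · exact (hχd.sub (differentiable_id.const_mul _)).differentiableOn
        · intro x hx
          rw [interior_Icc] at hx
          have e1 : deriv (fun t => χ t - c₀ * t) x = s x - c₀ := by
            have := ((hχd x).hasDerivAt.sub ((hasDerivAt_id x).const_mul c₀)).deriv
            rw [hχ' x, mul_one] at this
            exact this
          rw [e1, hs1 x hx.1.le]
          have := hE₁ x (h1.le.trans hx.1.le)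
          have h3 : c₀ ≤ max (τ₁ x) (max (deriv E₀ x) c₀) :=
            (le_max_right _ _).trans (le_max_right _ _)
          linarith
      have hA' := hA (Set.left_mem_Icc.2 h2.le) (Set.right_mem_Icc.2 h2.le) h2.le
      simp only at hA'
      have hc : c₀ * (a' - a'') = E₀ a' := by
        rw [hc₀]; exact div_mul_cancel₀ _ (by linarith : a' - a'' ≠ 0)
      have hχa' : E₀ a' ≤ χ a' := by
        have := hχnn a''
        nlinarith
      have hB : MonotoneOn (fun t => χ t - E₀ t) (Set.Ici a') := by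
        refine monotoneOn_of_deriv_nonneg (convex_Ici _) ?_ ?_ ?_
        · exact (hχd.continuous.sub hE₀d.continuous).continuousOn
        · exact (hχd.sub hE₀d).differentiableOn
        · intro x hx
          rw [interior_Ici] at hx
          have hx' : a' < x := hx
          rw [deriv_fun_sub (hχd x) (hE₀d x), hχ' x, hs1 x (h2.le.trans hx'.le)]
          have := hE₁ x (h1.le.trans (h2.le.trans hx'.le))
          have h3 : deriv E₀ x ≤ max (τ₁ x) (max (deriv E₀ x) c₀) :=
            (le_max_left _ _).trans (le_max_right _ _)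
          linarith
      have hB' := hB (Set.mem_Ici.2 le_rfl) (Set.mem_Ici.2 ht) ht
      simp only at hB'
      have := hE₀ t (haa.le.trans ht)
      linarith
  · rw [hχ']
    rcases le_total t a' with ht | ht
    · exact (h₁' t ht).trans (hsnn t)
    · rw [hs1 t (h2.le.trans ht)]
      exact (le_max_left _ _).trans (hE₁ t (haa.le.trans ht))

/-- the functions `χ, κ` of the auxiliary weights `Φ = φ + χ ∘ ρ`, `ψ = κ ∘ ρ`. -/
theorem hor_real_weights (a γ : ℝ) (hγ : 0 < γ) (mG lam : ℝ → ℝ) (hmG : HorLBA mG) (hlam : HorLBA lam) :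
    ∃ χ κ : ℝ → ℝ, ContDiff ℝ ∞ χ ∧ ContDiff ℝ ∞ κ ∧
      (∀ t ≤ a, χ t = 0) ∧ (∀ t ≤ a, κ t = 0) ∧ (∀ t, 0 ≤ κ t) ∧
      (∀ t, a + 1 ≤ t → mG t ≤ Real.exp (κ t)) ∧
      (∀ t, 0 ≤ deriv χ t) ∧ (∀ t, 0 ≤ deriv (deriv χ) t) ∧
      (∀ t, (1 + γ) * (deriv κ t) ^ 2 * mG t ≤ deriv χ t) ∧
      (∀ t, 2 * κ t ≤ χ t) ∧ ∀ t, a + 1 ≤ t → κ t + lam t ≤ χ t := by
  have hconst : ∀ c : ℝ, HorLBA fun _ => c := fun c => hor_lba_of_continuous continuous_const
  obtain ⟨m, hmc, hm⟩ := hor_smooth_majorant (fun t => max (mG t) 0) (hor_lba_max hmG (hconst 0))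
  set κ : ℝ → ℝ := fun t => Real.smoothTransition (2 * (t - a) - 1) * m t with hκ
  have hκc : ContDiff ℝ ∞ κ :=
    (Real.smoothTransition.contDiff.comp
      ((contDiff_const.mul (contDiff_id.sub contDiff_const)).sub contDiff_const)).mul hmc
  have hκ'c : Continuous (deriv κ) := (contDiff_infty_iff_deriv.1 hκc).2.continuous
  have hκ0 : ∀ t ≤ a + 1 / 2, κ t = 0 := by
    intro t ht
    have : Real.smoothTransition (2 * (t - a) - 1) = 0 :=
      Real.smoothTransition.zero_of_nonpos (by linarith)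
    rw [hκ]; simp only [this, zero_mul]
  have hκ1 : ∀ t, a + 1 ≤ t → κ t = m t := by
    intro t ht
    have : Real.smoothTransition (2 * (t - a) - 1) = 1 :=
      Real.smoothTransition.one_of_one_le (by linarith)
    rw [hκ]; simp only [this, one_mul]
  have hκnn : ∀ t, 0 ≤ κ t := fun t =>
    mul_nonneg (Real.smoothTransition.nonneg _) ((le_max_right _ _).trans (hm t))
  have hκ'0 : ∀ t ≤ a + 1 / 2, deriv κ t = 0 := by
    intro t ht
    have : IsLocalMin κ t := Filter.Eventually.of_forall fun x => by rw [hκ0 t ht]; exact hκnn x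
    exact this.deriv_eq_zero
  obtain ⟨χ, hχc, hχ0, hχ', hχ'', hχτ₀, hχτ₁⟩ := hor_convex_weight a (a + 1 / 2) (by linarith)
    (fun t => max (2 * κ t) (if t < a + 1 then 0 else κ t + lam t))
    (fun t => ((1 + γ) * (deriv κ t) ^ 2) * max (mG t) 0)
    (hor_lba_max (hor_lba_of_continuous (continuous_const.mul hκc.continuous))
      (hor_lba_ite _ (hconst 0) (hor_lba_add (hor_lba_of_continuous hκc.continuous) hlam)))
    (hor_lba_mul (continuous_const.mul (hκ'c.pow 2)) (fun t => by positivity)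
      (hor_lba_max hmG (hconst 0)))
    (fun t ht => by
      rw [hκ0 t ht, if_pos (by linarith)]; simp)
    (fun t ht => by
      rw [hκ'0 t ht]; simp)
  refine ⟨χ, κ, hχc, hκc, hχ0, fun t ht => hκ0 t (by linarith), hκnn, fun t ht => ?_, hχ', hχ'',
    fun t => ?_, fun t => ?_, fun t ht => ?_⟩
  · rw [hκ1 t ht]
    have h1 := hm t
    have h2 : mG t ≤ max (mG t) 0 := le_max_left _ _
    have h3 := Real.add_one_le_exp (m t)
    linarith
  · refine le_trans ?_ (hχτ₁ t)
    exact mul_le_mul_of_nonneg_left (le_max_left _ _) (by positivity)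
  · exact (le_max_left _ _).trans (hχτ₀ t)
  · refine le_trans ?_ (hχτ₀ t)
    rw [if_neg (by linarith)]
    exact le_max_right _ _

/-- a measure that is finite on the sublevel sets of `ρ` becomes finite after multiplication by `exp (-lam ∘ ρ)`. -/
theorem hor_exists_lam {X : Type*} [MeasurableSpace X] (ν : Measure X) (ρ : X → ℝ) (hρ : Measurable ρ)
    (hfin : ∀ t, ν {x | ρ x ≤ t} < ⊤) :
    ∃ lam : ℝ → ℝ, Monotone lam ∧ (∀ t, 0 ≤ lam t) ∧
      ∫⁻ x, ENNReal.ofReal (Real.exp (-lam (ρ x))) ∂ν < ⊤ := by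
  set v : ℕ → ℝ := fun k => (ν {x | ρ x ≤ (k : ℝ)}).toReal with hv
  have hvnn : ∀ k, 0 ≤ v k := fun k => ENNReal.toReal_nonneg
  have hvm : Monotone v := by
    intro j k hjk
    apply ENNReal.toReal_mono (hfin _).ne
    apply measure_mono
    intro x hx
    have hx' : ρ x ≤ (j : ℝ) := hx
    have hjk' : (j : ℝ) ≤ k := by exact_mod_cast hjk
    exact hx'.trans hjk'
  have hvν : ∀ k : ℕ, ν {x | ρ x ≤ (k : ℝ)} = ENNReal.ofReal (v k) := fun k =>
    (ENNReal.ofReal_toReal (hfin _).ne).symm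
  set L : ℕ → ℝ := fun k => k * Real.log 2 + Real.log (1 + v k) with hL
  have hlog2 : 0 < Real.log 2 := Real.log_pos (by norm_num)
  have hLm : Monotone L := by
    intro j k hjk
    have h1 : (j : ℝ) ≤ k := by exact_mod_cast hjk
    have h2 : Real.log (1 + v j) ≤ Real.log (1 + v k) :=
      Real.log_le_log (by linarith [hvnn j]) (by linarith [hvm hjk])
    simp only [hL]
    nlinarith
  have hLnn : ∀ k, 0 ≤ L k := by
    intro k
    have h2 : 0 ≤ Real.log (1 + v k) := Real.log_nonneg (by linarith [hvnn k])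
    simp only [hL]
    positivity
  have hLexp : ∀ k, Real.exp (-L k) = (1 / 2) ^ k / (1 + v k) := by
    intro k
    have hpos : 0 < 1 + v k := by linarith [hvnn k]
    simp only [hL]
    rw [neg_add, Real.exp_add, Real.exp_neg (Real.log _), Real.exp_log hpos, ← neg_mul,
      mul_comm (-(k:ℝ)), Real.exp_mul, Real.exp_log (by norm_num), Real.rpow_neg (by norm_num),
      Real.rpow_natCast, one_div, inv_pow, div_eq_mul_inv]
  refine ⟨fun t => L ⌈t⌉₊, fun s t hst => hLm (Nat.ceil_mono hst), fun t => hLnn _, ?_⟩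
  have hmeas : ∀ k : ℕ, MeasurableSet {x | ρ x ≤ (k : ℝ)} := fun k => hρ measurableSet_Iic
  calc ∫⁻ x, ENNReal.ofReal (Real.exp (-L ⌈ρ x⌉₊)) ∂ν
      ≤ ∫⁻ x, ∑' k : ℕ, ({x | ρ x ≤ (k : ℝ)}).indicator
          (fun _ => ENNReal.ofReal (Real.exp (-L k))) x ∂ν := by
        apply lintegral_mono
        intro x
        refine le_trans ?_ (ENNReal.le_tsum ⌈ρ x⌉₊)
        have hx : x ∈ {y | ρ y ≤ ((⌈ρ x⌉₊ : ℕ) : ℝ)} := Nat.le_ceil (ρ x)
        rw [Set.indicator_of_mem hx]
    _ = ∑' k : ℕ, ENNReal.ofReal (Real.exp (-L k)) * ν {x | ρ x ≤ (k : ℝ)} := by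
        rw [lintegral_tsum (fun k => (measurable_const.indicator (hmeas k)).aemeasurable)]
        congr 1
        ext k
        rw [lintegral_indicator_const (hmeas k)]
    _ ≤ ∑' k : ℕ, ENNReal.ofReal ((1 / 2) ^ k) := by
        apply ENNReal.tsum_le_tsum
        intro k
        have hpos : 0 < 1 + v k := by linarith [hvnn k]
        rw [hvν k, ← ENNReal.ofReal_mul (Real.exp_pos _).le, hLexp]
        apply ENNReal.ofReal_le_ofReal
        rw [div_mul_eq_mul_div, div_le_iff₀ hpos]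
        have : (0:ℝ) ≤ (1 / 2) ^ k := by positivity
        nlinarith [hvnn k]
    _ = ENNReal.ofReal (∑' k : ℕ, (1 / 2 : ℝ) ^ k) :=
        (ENNReal.ofReal_tsum_of_nonneg (fun k => by positivity) summable_geometric_two).symm
    _ < ⊤ := ENNReal.ofReal_lt_top

end Claimed.Agent.R242
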