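/-
Row 242, SCV layer, package HOR.  Architect: helper147.
HorWt: EXISTENCE of the auxiliary weights `HorWts C φ f γ {ρ < a}` from a smooth exhaustion `ρ` with Levi form `≥ |a|²`.

Leaves:  SCV-HOR-WT-A = `horEta_*` (cut-off functions);     SCV-HOR-WT-B = `exists_lam_L2Loc`, `memLp_of_lam`;
         SCV-HOR-WT-C = `levi_weights`;                      (`exists_horWts` is proved glue.)

PLANS.
* `horEta ρ a i = h ∘ ρ` with `h t = 1 - Real.smoothTransition (t - (a + 1 + i))`, smooth (`Real.smoothTransition.contDiff`), `deriv h t = - deriv smoothTransition (t - ..)`.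
  `smR_comp`, `dbR_comp`.  Support: `horEta ≠ 0 → ρ x < a + 2 + i` (`Real.smoothTransition.one_of_one_le`), the set `{ρ ≤ a + 2 + i}` is compact and closed
  (`HasCompactSupport.of_support_subset_isCompact` / `HasCompactSupport.intro`).  `= 1` on the open set `{ρ < a + 1 + i}` (`Real.smoothTransition.zero_of_nonpos`).
  `deriv smoothTransition s = 0` for `s < 0` (locally constant: `Filter.EventuallyEq.deriv_eq`).
* `exists_lam_L2Loc`: for each `j` apply `hor_exists_lam` to `ν_j := C.μ.withDensity (‖f j‖² e^{-φ})` (finite on `{ρ ≤ t}`: compact, `e^{-φ}` bounded there, `hf`);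
  `lam := ∑ j, lam_j` (each `≥ 0`, so `e^{-lam} ≤ e^{-lam_j}`).  The density need not be measurable: `f j` is a.e. measurable
  (`lintegral_withDensity_eq_lintegral_mul₀` ..), or replace `f j` by `(hf j).1.mk`.
* `memLp_of_lam`: `hor_memLp_of_lintegral` + `lintegral_Wt`; split `1 ≤ 1_{ρ ≤ a'} + 1_{ρ > a'}`:
  `e^{-φ-h(ρ)} ≤ 1_{ρ ≤ a'} e^{-φ} + e^{-φ-lam(ρ)}`; the first part is finite as above.
* `levi_weights`: `levi_add`, `levi_comp`:  `levi Φ = levi φ + χ'(ρ) levi ρ + χ''(ρ) ‖∑ a_j ∂_jρ‖² ≥ levi φ + χ'(ρ) ∑‖a_j‖²`;   `dR_comp`: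
  `‖∑ a_j ∂_j(κ∘ρ)‖² = κ'(ρ)² ‖∑ a_j ∂_jρ‖² ≤ κ'(ρ)² (∑‖a_j‖²)(∑‖∂_jρ‖²)` (Cauchy–Schwarz: `Finset.sum_mul_sq_le_sq_mul_sq` after `norm_sum_le`).
-/
import Claimed.Agent.R242.SCV.HorKitC
import Claimed.Agent.R242.SCV.HorWDef
import Claimed.Agent.R242.SCV.HorReal

open MeasureTheory Complex Filter
open scoped ContDiff ComplexConjugate ENNReal Topology

namespace Claimed.Agent.R242

variable {W : Type*} [TopologicalSpace W] [T2Space W] [MeasurableSpace W] [BorelSpace W] {n : ℕ}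
  (C : RDCalc W n) {ρ φ : W → ℝ}

/-- the cut-off functions `η_i = 1 - θ(ρ - (a + 1 + i))`. -/
noncomputable def horEta (ρ : W → ℝ) (a : ℝ) (i : ℕ) (x : W) : ℝ :=
  1 - Real.smoothTransition (ρ x - (a + 1 + i))

theorem horEtaH_contDiff (c : ℝ) : ContDiff ℝ ∞ (fun t : ℝ => 1 - Real.smoothTransition (t - c)) :=
  contDiff_const.sub (Real.smoothTransition.contDiff.comp (contDiff_id.sub contDiff_const))

theorem horEtaH_deriv (c t : ℝ) :
    deriv (fun t : ℝ => 1 - Real.smoothTransition (t - c)) t = - deriv Real.smoothTransition (t - c) := by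
  rw [deriv_const_sub, deriv_comp_sub_const]

theorem horEta_deriv_smoothTransition_of_neg {s : ℝ} (hs : s < 0) : deriv Real.smoothTransition s = 0 := by
  have h : Real.smoothTransition =ᶠ[𝓝 s] fun _ => (0 : ℝ) := by
    filter_upwards [Iio_mem_nhds hs] with t ht
    exact Real.smoothTransition.zero_of_nonpos (le_of_lt ht)
  rw [h.deriv_eq, deriv_const]

theorem horEta_sm (hρ : C.SmR ρ) (a : ℝ) (i : ℕ) : C.SmR (horEta ρ a i) := by
  exact C.smR_comp (h := fun t : ℝ => 1 - Real.smoothTransition (t - (a + 1 + i))) hρ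
    (horEtaH_contDiff (a + 1 + i))

theorem horEta_cpt (hρ : Continuous ρ) (hρc : ∀ t, IsCompact {x | ρ x ≤ t}) (a : ℝ) (i : ℕ) :
    HasCompactSupport (horEta ρ a i) := by
  refine HasCompactSupport.intro (hρc (a + 2 + i)) fun x hx => ?_
  have hx' : a + 2 + i < ρ x := not_le.1 hx
  unfold horEta
  rw [Real.smoothTransition.one_of_one_le (by linarith), sub_self]

theorem horEta_nonneg (ρ : W → ℝ) (a : ℝ) (i : ℕ) (x : W) : 0 ≤ horEta ρ a i x := by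
  unfold horEta
  linarith [Real.smoothTransition.le_one (ρ x - (a + 1 + i))]

theorem horEta_le_one (ρ : W → ℝ) (a : ℝ) (i : ℕ) (x : W) : horEta ρ a i x ≤ 1 := by
  unfold horEta
  linarith [Real.smoothTransition.nonneg (ρ x - (a + 1 + i))]

theorem horEta_ev (hρ : Continuous ρ) (a : ℝ) (x : W) :
    ∀ᶠ i in atTop, ∀ᶠ y in 𝓝 x, horEta ρ a i y = 1 := by
  obtain ⟨N, hN⟩ := exists_nat_gt (ρ x - a - 1)
  filter_upwards [eventually_ge_atTop N] with i hi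
  have hi' : (N : ℝ) ≤ i := by exact_mod_cast hi
  have hx : ρ x < a + 1 + i := by linarith
  filter_upwards [hρ.continuousAt.eventually_lt continuousAt_const hx] with y hy
  unfold horEta
  rw [Real.smoothTransition.zero_of_nonpos (by linarith), sub_zero]

/-- `|∂̄η_i|² ≤ Θ² |∂ρ|²`, and `∂̄η_i = 0` on `{ρ < a + 1}`. -/
theorem horEta_bound (hρ : C.SmR ρ) {Θ : ℝ} (hΘ : ∀ s, |deriv Real.smoothTransition s| ≤ Θ)
    (a : ℝ) (i : ℕ) (x : W) :
    ∑ j, ‖C.dbR j (horEta ρ a i) x‖ ^ 2 ≤ Θ ^ 2 * ∑ j, ‖C.dR j ρ x‖ ^ 2 ∧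
      (ρ x < a + 1 → ∑ j, ‖C.dbR j (horEta ρ a i) x‖ ^ 2 = 0) := by
  have hd : ∀ j, C.dbR j (horEta ρ a i) x
      = ((- deriv Real.smoothTransition (ρ x - (a + 1 + i)) : ℝ) : ℂ) * C.dbR j ρ x := by
    intro j
    have h := C.dbR_comp j x hρ (horEtaH_contDiff (a + 1 + i))
    rw [horEtaH_deriv] at h
    exact h
  have hn : ∀ j, ‖C.dbR j (horEta ρ a i) x‖ ^ 2
      = (deriv Real.smoothTransition (ρ x - (a + 1 + i))) ^ 2 * ‖C.dR j ρ x‖ ^ 2 := by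
    intro j
    rw [hd j, norm_mul, C.norm_dbR j x hρ, Complex.norm_real, Real.norm_eq_abs, abs_neg, mul_pow,
      sq_abs]
  simp only [hn, ← Finset.mul_sum]
  constructor
  · refine mul_le_mul_of_nonneg_right ?_ (Finset.sum_nonneg fun j _ => by positivity)
    rw [← sq_abs]
    exact pow_le_pow_left₀ (abs_nonneg _) (hΘ _) 2
  · intro hx
    have hi : (0 : ℝ) ≤ i := Nat.cast_nonneg i
    rw [horEta_deriv_smoothTransition_of_neg (by linarith)]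
    simp

/-- an `L²_loc` function is in `L²(e^{-φ})` on compact sets. -/
theorem horWt_setLIntegral_lt_top (hφ : Continuous φ) {u : W → ℂ} (hu : C.L2Loc u) {K : Set W}
    (hK : IsCompact K) :
    ∫⁻ x in K, ENNReal.ofReal (‖u x‖ ^ 2) * ENNReal.ofReal (Real.exp (-φ x)) ∂C.μ < ⊤ := by
  obtain ⟨c, hc⟩ := hK.exists_bound_of_continuousOn (f := fun x => Real.exp (-φ x))
    (Real.continuous_exp.comp hφ.neg).continuousOn
  calc ∫⁻ x in K, ENNReal.ofReal (‖u x‖ ^ 2) * ENNReal.ofReal (Real.exp (-φ x)) ∂C.μ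
      ≤ ∫⁻ x in K, ENNReal.ofReal (‖u x‖ ^ 2) * ENNReal.ofReal c ∂C.μ :=
        setLIntegral_mono' hK.measurableSet fun x hx =>
          mul_le_mul_right (ENNReal.ofReal_le_ofReal ((le_abs_self _).trans (hc x hx))) _
    _ = (∫⁻ x in K, ENNReal.ofReal (‖u x‖ ^ 2) ∂C.μ) * ENNReal.ofReal c :=
        lintegral_mul_const' _ _ ENNReal.ofReal_ne_top
    _ < ⊤ := ENNReal.mul_lt_top (hu.2 K hK) ENNReal.ofReal_lt_top

theorem exists_lam_L2Loc (hφ : Continuous φ) (hρ : Continuous ρ) (hρc : ∀ t, IsCompact {x | ρ x ≤ t})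
    (f : Fin n → W → ℂ) (hf : ∀ j, C.L2Loc (f j)) :
    ∃ lam : ℝ → ℝ, Monotone lam ∧ (∀ t, 0 ≤ lam t) ∧ ∀ j,
      ∫⁻ x, ENNReal.ofReal (‖f j x‖ ^ 2) * ENNReal.ofReal (Real.exp (-φ x - lam (ρ x))) ∂C.μ < ⊤ := by
  classical
  have hex : ∀ j, ∃ lam : ℝ → ℝ, Monotone lam ∧ (∀ t, 0 ≤ lam t) ∧
      ∫⁻ x, ENNReal.ofReal (‖f j x‖ ^ 2) *
        (ENNReal.ofReal (Real.exp (-φ x)) * ENNReal.ofReal (Real.exp (-lam (ρ x)))) ∂C.μ < ⊤ := by
    intro j
    set g : W → ℂ := (hf j).1.mk (f j) with hg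
    have hgm : StronglyMeasurable g := (hf j).1.stronglyMeasurable_mk
    have hfg : f j =ᵐ[C.μ] g := (hf j).1.ae_eq_mk
    set D : W → ℝ≥0∞ := fun x => ENNReal.ofReal (‖g x‖ ^ 2) * ENNReal.ofReal (Real.exp (-φ x)) with hD
    have hDm : Measurable D :=
      ((hgm.measurable.norm.pow_const 2).ennreal_ofReal).mul
        ((Real.measurable_exp.comp hφ.measurable.neg).ennreal_ofReal)
    have hDt : ∀ᵐ x ∂C.μ, D x < ⊤ :=
      Filter.Eventually.of_forall fun x => ENNReal.mul_lt_top ENNReal.ofReal_lt_top ENNReal.ofReal_lt_top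
    have hfin : ∀ t, (C.μ.withDensity D) {x | ρ x ≤ t} < ⊤ := by
      intro t
      rw [withDensity_apply _ (hρc t).measurableSet]
      refine lt_of_eq_of_lt ?_ (horWt_setLIntegral_lt_top C hφ (hf j) (hρc t))
      refine lintegral_congr_ae (ae_restrict_of_ae ?_)
      filter_upwards [hfg] with x hx
      rw [hD, hx]
    obtain ⟨lam, h1, h2, h3⟩ := hor_exists_lam (C.μ.withDensity D) ρ hρ.measurable hfin
    refine ⟨lam, h1, h2, lt_of_eq_of_lt ?_ h3⟩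
    rw [lintegral_withDensity_eq_lintegral_mul_non_measurable _ hDm hDt]
    refine lintegral_congr_ae ?_
    filter_upwards [hfg] with x hx
    rw [Pi.mul_apply, hD, hx, mul_assoc]
  choose lam h1 h2 h3 using hex
  refine ⟨fun t => ∑ j, lam j t, fun s t hst => Finset.sum_le_sum fun j _ => h1 j hst,
    fun t => Finset.sum_nonneg fun j _ => h2 j t, fun j => lt_of_le_of_lt ?_ (h3 j)⟩
  refine lintegral_mono fun x => ?_
  refine mul_le_mul_right ?_ _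
  rw [← ENNReal.ofReal_mul (Real.exp_pos _).le, ← Real.exp_add]
  refine ENNReal.ofReal_le_ofReal (Real.exp_le_exp.2 ?_)
  have h4 : lam j (ρ x) ≤ ∑ j, lam j (ρ x) :=
    Finset.single_le_sum (f := fun j => lam j (ρ x)) (fun i _ => h2 i _) (Finset.mem_univ j)
  linarith

theorem memLp_of_lam (hφ : Continuous φ) (hρ : Continuous ρ) (hρc : ∀ t, IsCompact {x | ρ x ≤ t})
    (u : W → ℂ) (hu : C.L2Loc u) (lam : ℝ → ℝ)
    (hlam : ∫⁻ x, ENNReal.ofReal (‖u x‖ ^ 2) * ENNReal.ofReal (Real.exp (-φ x - lam (ρ x))) ∂C.μ < ⊤)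
    (h : ℝ → ℝ) (hh : Continuous h) (h0 : ∀ t, 0 ≤ h t) (a' : ℝ) (hle : ∀ t, a' ≤ t → lam t ≤ h t) :
    MemLp u 2 (C.Wt fun x => φ x + h (ρ x)) := by
  have hm : Measurable fun x => φ x + h (ρ x) := (hφ.add (hh.comp hρ)).measurable
  refine hor_memLp_of_lintegral ((C.aestronglyMeasurable_Wt_iff hm).2 hu.1) ?_
  rw [C.lintegral_Wt hm, ← lintegral_add_compl _ (hρc a').measurableSet]
  refine ENNReal.add_lt_top.2 ⟨?_, ?_⟩
  · refine lt_of_le_of_lt ?_ (horWt_setLIntegral_lt_top C hφ hu (hρc a'))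
    refine setLIntegral_mono' (hρc a').measurableSet fun x _ => mul_le_mul_right ?_ _
    refine ENNReal.ofReal_le_ofReal (Real.exp_le_exp.2 ?_)
    linarith [h0 (ρ x)]
  · refine lt_of_le_of_lt ?_ hlam
    refine le_trans ?_ (setLIntegral_le_lintegral {x | ρ x ≤ a'}ᶜ _)
    refine setLIntegral_mono' (hρc a').measurableSet.compl fun x hx => mul_le_mul_right ?_ _
    refine ENNReal.ofReal_le_ofReal (Real.exp_le_exp.2 ?_)
    have hx' : a' < ρ x := not_le.1 hx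
    linarith [hle (ρ x) hx'.le]

theorem levi_weights (hρ : C.SmR ρ) (hρl : ∀ x a, ∑ j, ‖a j‖ ^ 2 ≤ C.levi ρ x a) (hφ : C.SmR φ)
    {χ κ mG : ℝ → ℝ} {γ : ℝ} (hγ : 0 < γ) (hχ : ContDiff ℝ ∞ χ) (hκ : ContDiff ℝ ∞ κ)
    (hχ1 : ∀ t, 0 ≤ deriv χ t) (hχ2 : ∀ t, 0 ≤ deriv (deriv χ) t)
    (hmG : ∀ x, ∑ j, ‖C.dR j ρ x‖ ^ 2 ≤ mG (ρ x))
    (hχκ : ∀ t, (1 + γ) * (deriv κ t) ^ 2 * mG t ≤ deriv χ t) (x : W) (a : Fin n → ℂ) :
    C.levi φ x a + (1 + γ) * ‖∑ j, a j * C.dR j (fun y => κ (ρ y)) x‖ ^ 2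
      ≤ C.levi (fun y => φ y + χ (ρ y)) x a := by
  have e1 := C.levi_add x a hφ (C.smR_comp hρ hχ)
  have e2 := C.levi_comp x a hρ hχ
  rw [e1, e2]
  set S : ℂ := ∑ j, a j * C.dR j ρ x with hS
  have e3 : ∑ j, a j * C.dR j (fun y => κ (ρ y)) x = ((deriv κ (ρ x) : ℝ) : ℂ) * S := by
    rw [hS, Finset.mul_sum]
    refine Finset.sum_congr rfl fun j _ => ?_
    rw [C.dR_comp j x hρ hκ]
    ring
  rw [e3, norm_mul, Complex.norm_real, Real.norm_eq_abs, mul_pow, sq_abs]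
  set A : ℝ := ∑ j, ‖a j‖ ^ 2 with hA
  set G : ℝ := ∑ j, ‖C.dR j ρ x‖ ^ 2 with hG
  have hA0 : 0 ≤ A := Finset.sum_nonneg fun j _ => by positivity
  have hG0 : 0 ≤ G := Finset.sum_nonneg fun j _ => by positivity
  have hCS : ‖S‖ ^ 2 ≤ A * G := by
    have h1 : ‖S‖ ≤ ∑ j, ‖a j‖ * ‖C.dR j ρ x‖ := by
      refine (norm_sum_le _ _).trans (le_of_eq ?_)
      exact Finset.sum_congr rfl fun j _ => norm_mul _ _
    calc ‖S‖ ^ 2 ≤ (∑ j, ‖a j‖ * ‖C.dR j ρ x‖) ^ 2 := pow_le_pow_left₀ (norm_nonneg _) h1 2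
      _ ≤ A * G := Finset.sum_mul_sq_le_sq_mul_sq _ _ _
  have h1 : (1 + γ) * ((deriv κ (ρ x)) ^ 2 * ‖S‖ ^ 2) ≤ deriv χ (ρ x) * A := by
    have hk0 : 0 ≤ (1 + γ) * (deriv κ (ρ x)) ^ 2 := by positivity
    calc (1 + γ) * ((deriv κ (ρ x)) ^ 2 * ‖S‖ ^ 2)
        = ((1 + γ) * (deriv κ (ρ x)) ^ 2) * ‖S‖ ^ 2 := by ring
      _ ≤ ((1 + γ) * (deriv κ (ρ x)) ^ 2) * (A * mG (ρ x)) :=
          mul_le_mul_of_nonneg_left (hCS.trans (mul_le_mul_of_nonneg_left (hmG x) hA0)) hk0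
      _ = ((1 + γ) * (deriv κ (ρ x)) ^ 2 * mG (ρ x)) * A := by ring
      _ ≤ deriv χ (ρ x) * A := mul_le_mul_of_nonneg_right (hχκ _) hA0
  have h2 : deriv χ (ρ x) * A ≤ deriv χ (ρ x) * C.levi ρ x a :=
    mul_le_mul_of_nonneg_left (hρl x a) (hχ1 _)
  have h3 : 0 ≤ deriv (deriv χ) (ρ x) * ‖S‖ ^ 2 := mul_nonneg (hχ2 _) (by positivity)
  linarith

/-- **existence of the auxiliary weights.** -/
theorem exists_horWts (hρ : C.SmR ρ) (hρc : ∀ t, IsCompact {x | ρ x ≤ t})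
    (hρl : ∀ x a, ∑ j, ‖a j‖ ^ 2 ≤ C.levi ρ x a) (hφ : C.SmR φ)
    (f : Fin n → W → ℂ) (hf : ∀ j, C.L2Loc (f j)) (a γ : ℝ) (hγ : 0 < γ) :
    Nonempty (HorWts C φ f γ {x | ρ x < a}) := by
  have hρk := C.smR_cont hρ
  have hφk := C.smR_cont hφ
  obtain ⟨Θ, hΘ0, hΘ⟩ := hor_deriv_smoothTransition_bdd
  obtain ⟨lam, hlamm, hlam0, hlam⟩ := exists_lam_L2Loc C hφk hρk hρc f hf
  have hGc : Continuous fun x => (1 + Θ ^ 2) * ∑ j, ‖C.dR j ρ x‖ ^ 2 :=
    continuous_const.mul (continuous_finset_sum _ fun j _ =>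
      ((C.sm_cont (C.sm_dR j hρ)).norm.pow 2))
  obtain ⟨m, hm, hmG⟩ := hor_majorant ρ hρc _ hGc
  obtain ⟨χ, κ, hχ, hκ, hχa, hκa, hκ0, hκe, hχ1, hχ2, hχκ, hχ2κ, hχlam⟩ :=
    hor_real_weights a γ hγ m lam (hor_lba_of_continuous hm.continuous) (hor_lba_of_monotone hlamm)
  have hG0 : ∀ x, 0 ≤ ∑ j, ‖C.dR j ρ x‖ ^ 2 := fun x => Finset.sum_nonneg fun j _ => by positivity
  have hm1 : ∀ x, ∑ j, ‖C.dR j ρ x‖ ^ 2 ≤ m (ρ x) := fun x => by
    have := hmG x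
    nlinarith [hG0 x, sq_nonneg Θ]
  have hm2 : ∀ x, Θ ^ 2 * ∑ j, ‖C.dR j ρ x‖ ^ 2 ≤ m (ρ x) := fun x => by
    have := hmG x
    nlinarith [hG0 x, sq_nonneg Θ]
  refine ⟨{
    Φ := fun x => φ x + χ (ρ x)
    ψ := fun x => κ (ρ x)
    η := horEta ρ a
    smΦ := C.smR_add hφ (C.smR_comp hρ hχ)
    smψ := C.smR_comp hρ hκ
    smη := horEta_sm C hρ a
    cptη := horEta_cpt hρk hρc a
    η0 := horEta_nonneg ρ a
    η1 := horEta_le_one ρ a
    ηev := horEta_ev hρk a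
    ηd := fun i x => ?_
    lev := levi_weights C hρ hρl hφ hγ hχ hκ hχ1 hχ2 hm1 hχκ
    le := fun x => by have := hχ2κ (ρ x); linarith
    eqΦ := fun x hx => by simp [hχa (ρ x) (le_of_lt hx)]
    eqψ := fun x hx => hκa (ρ x) (le_of_lt hx)
    fL2 := fun j => ?_ }⟩
  · obtain ⟨h1, h2⟩ := horEta_bound C hρ hΘ a i x
    rcases lt_or_ge (ρ x) (a + 1) with hx | hx
    · rw [h2 hx]; exact (Real.exp_pos _).le
    · exact h1.trans ((hm2 x).trans (hκe _ hx))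
  · have := memLp_of_lam C hφk hρk hρc (f j) (hf j) lam (hlam j) (fun t => χ t - κ t)
      (hχ.continuous.sub hκ.continuous) (fun t => by have := hχ2κ t; have := hκ0 t; linarith) (a + 1)
      (fun t ht => by have := hχlam t ht; linarith)
    have e : (fun x => φ x + χ (ρ x) - κ (ρ x)) = fun x => φ x + (χ (ρ x) - κ (ρ x)) := by
      funext x; ring
    rw [e]; exact this

end Claimed.Agent.R242
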