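/-
Row 242, SCV layer, package HOR.  Architect: helper147.
HorMain: the dual inequality with the sharp constant, Riesz, and HÖRMANDER'S THEOREM in the contract.

Leaves:  SCV-HOR-MAIN-A = `RDCalc.star_v`;     SCV-HOR-MAIN-B = `horT_add`, `horT_smul`, `horL_add`, `horL_smul`, `horT_memLp`, `RDCalc.hormander`.
(`RDCalc.star` is proved glue.)

PLANS.
* `star_v`.  Apply `C.star` to the test form `α_j := e^{φ} conj(v_j)` (`sm_exp`, `test_mul_left`, `test_conj`):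
    `∑ f_j conj(α_j) = e^{φ} ∑ f_j v_j`, so `∫ ∑ f_j conj α_j ∂(Wt φ) = ∫ ∑ f_j v_j dμ` (`integral_Wt`, `e^{φ} e^{-φ} = 1`);
    `ϑ_φ α = ∑ (∂_jφ α_j - ∂_j α_j) = - e^{φ} ∑ conj(∂̄_j v_j)` (`d_mul`, `d_exp`, `d_conj`), so `‖ϑ_φ α‖ = ‖e^{φ} ∑ ∂̄_j v_j‖` (`norm_neg`, `RCLike.norm_conj`, `map_sum`).
* `hormander`.  `hor_l2_riesz (C.Wt φ) (C.horT φ) _ (C.horL f hf) (∫ B) _ _` (bound = `star_v`, `norm_neg`) gives `u`.
  For a test function `v` and an index `j` take `V := Pi.single j v ∈ C.testForms` (`Function.update`/`Pi.single_apply`; `C.test_zero`):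
    `∑ k, ∂̄_k (V k) = ∂̄_j v` (`Finset.sum_eq_single j`, `db_const`), `∑ i, f_i V_i = f_j v`,
    `∫ u (-(e^{φ} ∂̄_j v)) ∂(Wt φ) = - ∫ u ∂̄_j v dμ` (`integral_Wt`).
-/
import Claimed.Agent.R242.SCV.HorStar
import Claimed.Agent.R242.SCV.HorWt

open MeasureTheory Complex Filter
open scoped ContDiff ComplexConjugate ENNReal Topology

namespace Claimed.Agent.R242

namespace RDCalc

variable {W : Type*} [TopologicalSpace W] [T2Space W] [MeasurableSpace W] [BorelSpace W] {n : ℕ}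
  (C : RDCalc W n) {ρ φ : W → ℝ} {f : Fin n → W → ℂ}

/-- **the dual inequality `(*)`, sharp constant.** -/
theorem star (hρ : C.SmR ρ) (hρc : ∀ t, IsCompact {x | ρ x ≤ t})
    (hρl : ∀ x a, ∑ j, ‖a j‖ ^ 2 ≤ C.levi ρ x a) (hφ : C.SmR φ) (hφl : ∀ x a, 0 ≤ C.levi φ x a)
    (hf : ∀ j, C.L2Loc (f j)) (hfc : C.WeakClosed f)
    (B : W → ℝ) (hB : Measurable B) (hB0 : ∀ x, 0 ≤ B x)
    (hfB : ∀ᵐ x ∂C.μ, ∀ a : Fin n → ℂ, ‖∑ j, f j x * conj (a j)‖ ^ 2 ≤ B x * C.levi φ x a)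
    (hBi : Integrable B (C.Wt φ)) {α : Fin n → W → ℂ} (hα : C.TestF α) :
    ‖∫ x, ∑ j, f j x * conj (α j x) ∂(C.Wt φ)‖ ^ 2
      ≤ (∫ x, B x ∂(C.Wt φ)) * ∫ x, ‖C.theta φ α x‖ ^ 2 ∂(C.Wt φ) := by
  have hρk := C.smR_cont hρ
  -- a sublevel set containing the supports
  obtain ⟨a, ha⟩ : ∃ a : ℝ, ∀ j, tsupport (α j) ⊆ {x | ρ x < a} := by
    have hK : IsCompact (⋃ j, tsupport (α j)) := isCompact_iUnion fun j => (hα j).2
    obtain ⟨c, hc⟩ := (hK.image hρk).bddAbove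
    refine ⟨c + 1, fun j x hx => ?_⟩
    have : ρ x ≤ c := hc ⟨x, Set.mem_iUnion.2 ⟨j, hx⟩, rfl⟩
    show ρ x < c + 1
    linarith
  have hS : IsOpen {x | ρ x < a} := isOpen_lt hρk continuous_const
  set X := ‖∫ x, ∑ j, f j x * conj (α j x) ∂(C.Wt φ)‖ ^ 2
  set M := ∫ x, B x ∂(C.Wt φ)
  set T := ∫ x, ‖C.theta φ α x‖ ^ 2 ∂(C.Wt φ)
  have hM : 0 ≤ M := integral_nonneg hB0
  have hT : 0 ≤ T := integral_nonneg fun x => by positivity
  have key : ∀ γ : ℝ, 0 < γ → X ≤ M * ((1 + 1 / γ) * T) := fun γ hγ => by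
    obtain ⟨P⟩ := exists_horWts C hρ hρc hρl hφ f hf a γ hγ
    exact P.star hS hφ hφl hγ hfc B hB hB0 hfB hBi hα ha
  refine le_of_forall_pos_le_add fun ε hε => ?_
  have hMT : 0 ≤ M * T := mul_nonneg hM hT
  have := key ((M * T + 1) / ε) (by positivity)
  have e : M * ((1 + 1 / ((M * T + 1) / ε)) * T) = M * T + ε * (M * T / (M * T + 1)) := by
    field_simp
  rw [e] at this
  have h1 : M * T / (M * T + 1) ≤ 1 := by
    rw [div_le_one (by positivity)]; linarith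
  nlinarith

/-- the dual inequality in the form used for Riesz: `v_j = e^{-φ} conj α_j`. -/
theorem star_v (hρ : C.SmR ρ) (hρc : ∀ t, IsCompact {x | ρ x ≤ t})
    (hρl : ∀ x a, ∑ j, ‖a j‖ ^ 2 ≤ C.levi ρ x a) (hφ : C.SmR φ) (hφl : ∀ x a, 0 ≤ C.levi φ x a)
    (hf : ∀ j, C.L2Loc (f j)) (hfc : C.WeakClosed f)
    (B : W → ℝ) (hB : Measurable B) (hB0 : ∀ x, 0 ≤ B x)
    (hfB : ∀ᵐ x ∂C.μ, ∀ a : Fin n → ℂ, ‖∑ j, f j x * conj (a j)‖ ^ 2 ≤ B x * C.levi φ x a)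
    (hBi : Integrable B (C.Wt φ)) {v : Fin n → W → ℂ} (hv : C.TestF v) :
    ‖∫ x, ∑ j, f j x * v j x ∂C.μ‖ ^ 2
      ≤ (∫ x, B x ∂(C.Wt φ)) *
        ∫ x, ‖((Real.exp (φ x) : ℝ) : ℂ) * ∑ k, C.db k (v k) x‖ ^ 2 ∂(C.Wt φ) := by
  have hα : C.TestF fun j x => ((Real.exp (φ x) : ℝ) : ℂ) * conj (v j x) := fun j =>
    C.test_mul_left (C.sm_exp hφ) (C.test_conj (hv j))
  have h := C.star hρ hρc hρl hφ hφl hf hfc B hB hB0 hfB hBi hα
  have hE : ∀ x, ((Real.exp (φ x) : ℝ) : ℂ) * ((Real.exp (-φ x) : ℝ) : ℂ) = 1 := fun x => by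
    rw [← Complex.ofReal_mul, ← Real.exp_add, add_neg_cancel, Real.exp_zero, Complex.ofReal_one]
  have e1 : ∫ x, ∑ j, f j x * conj (((Real.exp (φ x) : ℝ) : ℂ) * conj (v j x)) ∂(C.Wt φ)
      = ∫ x, ∑ j, f j x * v j x ∂C.μ := by
    rw [C.integral_Wt (C.smR_cont hφ).measurable]
    refine integral_congr_ae (Filter.Eventually.of_forall fun x => ?_)
    show (∑ j, f j x * conj (((Real.exp (φ x) : ℝ) : ℂ) * conj (v j x))) *
      ((Real.exp (-φ x) : ℝ) : ℂ) = ∑ j, f j x * v j x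
    rw [Finset.sum_mul]
    refine Finset.sum_congr rfl fun j _ => ?_
    rw [map_mul, Complex.conj_ofReal, Complex.conj_conj]
    calc f j x * (((Real.exp (φ x) : ℝ) : ℂ) * v j x) * ((Real.exp (-φ x) : ℝ) : ℂ)
        = f j x * v j x * (((Real.exp (φ x) : ℝ) : ℂ) * ((Real.exp (-φ x) : ℝ) : ℂ)) := by ring
      _ = f j x * v j x := by rw [hE, mul_one]
  have e2 : ∀ x, ‖C.theta φ (fun j x => ((Real.exp (φ x) : ℝ) : ℂ) * conj (v j x)) x‖
      = ‖((Real.exp (φ x) : ℝ) : ℂ) * ∑ k, C.db k (v k) x‖ := by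
    intro x
    have e3 : C.theta φ (fun j x => ((Real.exp (φ x) : ℝ) : ℂ) * conj (v j x)) x
        = -(((Real.exp (φ x) : ℝ) : ℂ) * conj (∑ k, C.db k (v k) x)) := by
      unfold theta
      rw [map_sum, Finset.mul_sum, ← Finset.sum_neg_distrib]
      refine Finset.sum_congr rfl fun j _ => ?_
      rw [C.d_mul j x (C.sm_exp hφ) (C.sm_conj (hv j).1), C.d_exp j x hφ, C.d_conj j x (hv j).1]
      ring
    rw [e3, norm_neg, norm_mul, norm_mul, RCLike.norm_conj]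
  rw [e1] at h
  simp only [e2] at h
  exact h

/-- the module of test forms. -/
def testForms : Submodule ℂ (Fin n → W → ℂ) where
  carrier := {v | C.TestF v}
  add_mem' := fun hv hw j => C.test_add (hv j) (hw j)
  zero_mem' := fun _ => C.test_zero
  smul_mem' := fun c _ hv j => C.test_const_mul c (hv j)

/-- `v ↦ - e^{φ} ∑ ∂̄_k v_k`. -/
noncomputable def horTfun (φ : W → ℝ) (v : Fin n → W → ℂ) : W → ℂ :=
  fun x => -(((Real.exp (φ x) : ℝ) : ℂ) * ∑ k, C.db k (v k) x)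

theorem horT_add (φ : W → ℝ) {v w : Fin n → W → ℂ} (hv : C.TestF v) (hw : C.TestF w) :
    C.horTfun φ (v + w) = C.horTfun φ v + C.horTfun φ w := by
  funext x
  have h : ∀ k, C.db k ((v + w) k) x = C.db k (v k) x + C.db k (w k) x := fun k =>
    C.db_add k x (hv k).1 (hw k).1
  show -(((Real.exp (φ x) : ℝ) : ℂ) * ∑ k, C.db k ((v + w) k) x)
    = -(((Real.exp (φ x) : ℝ) : ℂ) * ∑ k, C.db k (v k) x)
      + -(((Real.exp (φ x) : ℝ) : ℂ) * ∑ k, C.db k (w k) x)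
  simp only [h, Finset.sum_add_distrib]
  ring

theorem horT_smul (φ : W → ℝ) (c : ℂ) {v : Fin n → W → ℂ} (hv : C.TestF v) :
    C.horTfun φ (c • v) = c • C.horTfun φ v := by
  funext x
  have h : ∀ k, C.db k ((c • v) k) x = c * C.db k (v k) x := fun k =>
    C.db_const_mul k x c (hv k).1
  show -(((Real.exp (φ x) : ℝ) : ℂ) * ∑ k, C.db k ((c • v) k) x)
    = c * -(((Real.exp (φ x) : ℝ) : ℂ) * ∑ k, C.db k (v k) x)
  simp only [h, ← Finset.mul_sum]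
  ring

theorem horT_memLp (hφ : C.SmR φ) {v : Fin n → W → ℂ} (hv : C.TestF v) :
    MemLp (C.horTfun φ v) 2 (C.Wt φ) :=
  C.test_memLp (C.smR_cont hφ) (C.test_neg (C.test_mul_left (C.sm_exp hφ)
    (C.test_sum Finset.univ (fun k => C.db k (v k)) fun k _ => C.test_db k (hv k))))

theorem horL_add (hf : ∀ j, C.L2Loc (f j)) {v w : Fin n → W → ℂ} (hv : C.TestF v) (hw : C.TestF w) :
    ∫ x, ∑ j, f j x * (v + w) j x ∂C.μ
      = ∫ x, ∑ j, f j x * v j x ∂C.μ + ∫ x, ∑ j, f j x * w j x ∂C.μ := by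
  have hi : ∀ {v : Fin n → W → ℂ}, C.TestF v → Integrable (fun x => ∑ j, f j x * v j x) C.μ :=
    fun {v} hv => integrable_finsetSum _ fun j _ =>
      L2Loc.integrable_mul_μ C (hf j) (C.sm_cont (hv j).1) (hv j).2
  rw [← integral_add (hi hv) (hi hw)]
  refine integral_congr_ae (Filter.Eventually.of_forall fun x => ?_)
  show ∑ j, f j x * (v j x + w j x) = ∑ j, f j x * v j x + ∑ j, f j x * w j x
  rw [← Finset.sum_add_distrib]
  exact Finset.sum_congr rfl fun j _ => mul_add _ _ _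

theorem horL_smul (f : Fin n → W → ℂ) (c : ℂ) (v : Fin n → W → ℂ) :
    ∫ x, ∑ j, f j x * (c • v) j x ∂C.μ = c • ∫ x, ∑ j, f j x * v j x ∂C.μ := by
  rw [← integral_smul]
  refine integral_congr_ae (Filter.Eventually.of_forall fun x => ?_)
  show ∑ j, f j x * (c * v j x) = c * ∑ j, f j x * v j x
  rw [Finset.mul_sum]
  exact Finset.sum_congr rfl fun j _ => by ring

/-- `T` as a linear map on test forms. -/
noncomputable def horT (φ : W → ℝ) : C.testForms →ₗ[ℂ] (W → ℂ) where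
  toFun v := C.horTfun φ v.1
  map_add' v w := C.horT_add φ v.2 w.2
  map_smul' c v := C.horT_smul φ c v.2

/-- `v ↦ ∫ ∑ f_j v_j` as a linear map on test forms. -/
noncomputable def horL (f : Fin n → W → ℂ) (hf : ∀ j, C.L2Loc (f j)) : C.testForms →ₗ[ℂ] ℂ where
  toFun v := ∫ x, ∑ j, f j x * v.1 j x ∂C.μ
  map_add' v w := C.horL_add hf v.2 w.2
  map_smul' c v := C.horL_smul f c v.1

/-- **Hörmander's theorem in the contract.** -/
theorem hormander (hρ : C.SmR ρ) (hρc : ∀ t, IsCompact {x | ρ x ≤ t})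
    (hρl : ∀ x a, ∑ j, ‖a j‖ ^ 2 ≤ C.levi ρ x a) (hφ : C.SmR φ) (hφl : ∀ x a, 0 ≤ C.levi φ x a)
    (hf : ∀ j, C.L2Loc (f j)) (hfc : C.WeakClosed f)
    (B : W → ℝ) (hB : Measurable B) (hB0 : ∀ x, 0 ≤ B x)
    (hfB : ∀ᵐ x ∂C.μ, ∀ a : Fin n → ℂ, ‖∑ j, f j x * conj (a j)‖ ^ 2 ≤ B x * C.levi φ x a)
    (hBi : Integrable B (C.Wt φ)) :
    ∃ u : W → ℂ, MemLp u 2 (C.Wt φ) ∧ C.WeakDbar u f ∧
      ∫ x, ‖u x‖ ^ 2 ∂(C.Wt φ) ≤ ∫ x, B x ∂(C.Wt φ) := by
  classical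
  obtain ⟨u, hu, hle, heq⟩ := hor_l2_riesz (C.Wt φ) (C.horT φ) (fun a => C.horT_memLp hφ a.2)
    (C.horL f hf) (∫ x, B x ∂(C.Wt φ)) (integral_nonneg hB0) (fun a => by
      have h := C.star_v hρ hρc hρl hφ hφl hf hfc B hB hB0 hfB hBi a.2
      have e : ∀ x, ‖C.horT φ a x‖ = ‖((Real.exp (φ x) : ℝ) : ℂ) * ∑ k, C.db k (a.1 k) x‖ :=
        fun x => norm_neg _
      simp only [e]
      exact h)
  refine ⟨u, hu, ?_, hle⟩
  intro v hv j
  have hV : C.TestF (Pi.single j v : Fin n → W → ℂ) := by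
    intro k
    by_cases hk : k = j
    · subst hk
      rw [Pi.single_eq_same]
      exact hv
    · rw [Pi.single_eq_of_ne hk]
      exact C.test_zero
  have h := heq ⟨Pi.single j v, hV⟩
  have hE : ∀ x, ((Real.exp (φ x) : ℝ) : ℂ) * ((Real.exp (-φ x) : ℝ) : ℂ) = 1 := fun x => by
    rw [← Complex.ofReal_mul, ← Real.exp_add, add_neg_cancel, Real.exp_zero, Complex.ofReal_one]
  have e1 : ∫ x, u x * C.horT φ ⟨Pi.single j v, hV⟩ x ∂(C.Wt φ) = - ∫ x, u x * C.db j v x ∂C.μ := by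
    rw [C.integral_Wt (C.smR_cont hφ).measurable, ← integral_neg]
    refine integral_congr_ae (Filter.Eventually.of_forall fun x => ?_)
    show u x * -(((Real.exp (φ x) : ℝ) : ℂ) * ∑ k, C.db k ((Pi.single j v : Fin n → W → ℂ) k) x) *
      ((Real.exp (-φ x) : ℝ) : ℂ) = -(u x * C.db j v x)
    rw [Finset.sum_eq_single j, Pi.single_eq_same]
    · calc u x * -(((Real.exp (φ x) : ℝ) : ℂ) * C.db j v x) * ((Real.exp (-φ x) : ℝ) : ℂ)
          = -(u x * C.db j v x) * (((Real.exp (φ x) : ℝ) : ℂ) * ((Real.exp (-φ x) : ℝ) : ℂ)) := by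
            ring
        _ = -(u x * C.db j v x) := by rw [hE, mul_one]
    · intro k _ hk
      rw [Pi.single_eq_of_ne hk]
      exact C.db_const k 0 x
    · intro hj
      exact absurd (Finset.mem_univ j) hj
  have e2 : C.horL f hf ⟨Pi.single j v, hV⟩ = ∫ x, f j x * v x ∂C.μ := by
    refine integral_congr_ae (Filter.Eventually.of_forall fun x => ?_)
    show ∑ i, f i x * (Pi.single j v : Fin n → W → ℂ) i x = f j x * v x
    rw [Finset.sum_eq_single j, Pi.single_eq_same]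
    · intro k _ hk
      rw [Pi.single_eq_of_ne hk]
      exact mul_zero _
    · intro hj
      exact absurd (Finset.mem_univ j) hj
  rw [e1, e2] at h
  rw [← h, neg_neg]

end RDCalc

end Claimed.Agent.R242
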