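/-
Row 242, SCV layer, RD kit 5a/5.  Moll: mollification on `Cn n`, `L²` convergence, weak first order relations
with constant coefficients pass to the mollified functions; local approximation theorem on `Cn n`.
Blueprint: helper290.  Leaves: SCV-MOLL-A (sections 1,2), SCV-MOLL-B (sections 3,4).

Plan.
* sections 1, 2:  Claimed/Agent/R259/WsMol.lean (sorry-free, on main) proves EXACTLY these facts for a finite
  dimensional INNER PRODUCT space (`wsRho`, `wsMol`, `wsMol_contDiff`, `wsMol_eLpNorm_le`, `wsMol_tendsto_eLpNorm`,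
  `wsMol_support_subset` ...).  `Cn n` has the sup norm, so COPY the proofs (do not import) replacing the inner
  product hypothesis by nothing: `ContDiffBump` works on every finite dimensional normed space.
  `moll k u x = ∫ ρ_k(x - t) u(t) dt = (ρ_k ⋆[lsmul ℝ ℝ] u) x` (`convolution_flip`‑type change of variables,
  `Complex.real_smul`).
* `dz_moll`: `HasCompactSupport.hasFDerivAt_convolution_left` (derivative falls on `ρ_k`), then
  `fderiv (fun s => ρ_k (x - s)) t = - fderiv ρ_k (x - t)`.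
* section 4 is glue: `α i j = moll i (β j)`; `∑ dz j (moll i (β j)) = moll i d` by `dz_moll` and `WeakDiv` tested with
  `v = fun s => ρ_i (x - s)`; then `moll_tendsto`.  Supports: `L' = cthickening δ L ⊆ U` for small `δ`
  (`IsCompact.exists_cthickening_subset_open`), drop the first indices (`i ↦ i + i₀`).
-/
import Claimed.Agent.R242.SCV.WirtB

open MeasureTheory Complex Filter
open scoped ContDiff ComplexConjugate ENNReal Topology

namespace Claimed.Agent.R242

variable {n : ℕ}

/-! ### 1. The mollifiers -/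

/-- the `k`-th bump: inner radius `1/(2(k+1))`, outer radius `1/(k+1)`. -/
noncomputable def mlB (n k : ℕ) : ContDiffBump (0 : Cn n) where
  rIn := 1 / (2 * ((k : ℝ) + 1))
  rOut := 1 / ((k : ℝ) + 1)
  rIn_pos := by positivity
  rIn_lt_rOut := by
    have h : (0:ℝ) < (k:ℝ) + 1 := by positivity
    rw [div_lt_div_iff₀ (by positivity) h]
    linarith

/-- the `k`-th mollifier. -/
noncomputable def mlRho (k : ℕ) : Cn n → ℝ := (mlB n k).normed volume

/-- mollification at scale `1/(k+1)`. -/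
noncomputable def moll (k : ℕ) (u : Cn n → ℂ) : Cn n → ℂ :=
  fun x => ∫ t, (mlRho k (x - t) : ℂ) * u t

theorem mlRho_contDiff (k : ℕ) : ContDiff ℝ ∞ (mlRho k : Cn n → ℝ) :=
  (mlB n k).contDiff_normed

theorem mlRho_nonneg (k : ℕ) (x : Cn n) : 0 ≤ mlRho k x := (mlB n k).nonneg_normed x

theorem mlRho_integral (k : ℕ) : ∫ x : Cn n, mlRho k x = 1 := (mlB n k).integral_normed

theorem mll_rho_support (k : ℕ) :
    Function.support (mlRho k : Cn n → ℝ) = Metric.ball 0 (1 / ((k : ℝ) + 1)) :=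
  (mlB n k).support_normed_eq

theorem mlRho_eq_zero {k : ℕ} {x : Cn n} (hx : 1 / ((k : ℝ) + 1) ≤ ‖x‖) : mlRho k x = 0 := by
  by_contra h
  have h1 : x ∈ Function.support (mlRho k : Cn n → ℝ) := h
  rw [mll_rho_support, Metric.mem_ball, dist_zero_right] at h1
  exact absurd h1 (not_lt.2 hx)

theorem mlRho_hasCompactSupport (k : ℕ) : HasCompactSupport (mlRho k : Cn n → ℝ) :=
  (mlB n k).hasCompactSupport_normed

theorem mll_rho_integrable (k : ℕ) : Integrable (mlRho k : Cn n → ℝ) volume :=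
  (mlB n k).integrable_normed

/-- the test function `s ↦ ρ_k (x - s)`. -/
theorem mlRho_sub_contDiff (k : ℕ) (x : Cn n) :
    ContDiff ℝ ∞ (fun s : Cn n => (mlRho k (x - s) : ℂ)) :=
  Complex.ofRealCLM.contDiff.comp ((mlRho_contDiff k).comp (contDiff_const.sub contDiff_id))

theorem mlRho_sub_hasCompactSupport (k : ℕ) (x : Cn n) :
    HasCompactSupport (fun s : Cn n => (mlRho k (x - s) : ℂ)) := by
  have h1 : HasCompactSupport (fun s : Cn n => mlRho k (x - s)) :=
    (mlRho_hasCompactSupport k).comp_homeomorph (Homeomorph.subLeft x)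
  exact h1.comp_left (g := fun r : ℝ => (r : ℂ)) Complex.ofReal_zero

/-! ### 2. Mollification -/

theorem mll_eq_conv (k : ℕ) (u : Cn n → ℂ) :
    moll k u = MeasureTheory.convolution (mlRho k : Cn n → ℝ) u
      (ContinuousLinearMap.lsmul ℝ ℝ) volume := by
  funext x
  rw [convolution_lsmul_swap]
  unfold moll
  simp only [Complex.real_smul]

theorem mll_eq (k : ℕ) (u : Cn n → ℂ) (x : Cn n) : moll k u x = ∫ y, mlRho k (x - y) • u y := by
  unfold moll
  simp only [Complex.real_smul]

theorem mll_eq' (k : ℕ) (u : Cn n → ℂ) (x : Cn n) : moll k u x = ∫ y, mlRho k y • u (x - y) := by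
  rw [mll_eq_conv, convolution_lsmul]

theorem mll_exists (k : ℕ) {u : Cn n → ℂ} (hu : LocallyIntegrable u volume) :
    ConvolutionExists (mlRho k : Cn n → ℝ) u (ContinuousLinearMap.lsmul ℝ ℝ) volume :=
  (mlRho_hasCompactSupport k).convolutionExists_left _ (mlRho_contDiff k).continuous hu

theorem mll_integrable_swap (k : ℕ) {u : Cn n → ℂ} (hu : LocallyIntegrable u volume) (x : Cn n) :
    Integrable (fun y => mlRho k (x - y) • u y) volume :=
  (mll_exists k hu x).integrable_swap

theorem moll_congr_ae (k : ℕ) {u v : Cn n → ℂ} (h : u =ᵐ[volume] v) : moll k u = moll k v := by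
  funext x
  unfold moll
  refine integral_congr_ae ?_
  filter_upwards [h] with y hy
  rw [hy]

theorem moll_contDiff (k : ℕ) {u : Cn n → ℂ} (hu : LocallyIntegrable u volume) :
    ContDiff ℝ ∞ (moll k u) := by
  rw [mll_eq_conv]
  exact (mlRho_hasCompactSupport k).contDiff_convolution_left _ (mlRho_contDiff k) hu

theorem moll_add (k : ℕ) {u v : Cn n → ℂ} (hu : LocallyIntegrable u volume)
    (hv : LocallyIntegrable v volume) :
    moll k (fun z => u z + v z) = fun z => moll k u z + moll k v z := by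
  funext x
  simp only [mll_eq, smul_add]
  exact integral_add (mll_integrable_swap k hu x) (mll_integrable_swap k hv x)

theorem moll_sub (k : ℕ) {u v : Cn n → ℂ} (hu : LocallyIntegrable u volume)
    (hv : LocallyIntegrable v volume) :
    moll k (fun z => u z - v z) = fun z => moll k u z - moll k v z := by
  funext x
  simp only [mll_eq, smul_sub]
  exact integral_sub (mll_integrable_swap k hu x) (mll_integrable_swap k hv x)

/-- support: `moll k u` vanishes at distance `≥ 1/(k+1)` from a set carrying `u`. -/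
theorem moll_eq_zero_off (k : ℕ) {u : Cn n → ℂ} {L : Set (Cn n)} (hu : ∀ z ∉ L, u z = 0)
    {x : Cn n} (hx : x ∉ Metric.cthickening (1 / ((k : ℝ) + 1)) L) : moll k u x = 0 := by
  unfold moll
  rw [← integral_zero (Cn n) ℂ (μ := volume)]
  refine integral_congr_ae (Eventually.of_forall fun t => ?_)
  by_cases ht : t ∈ L
  · have h1 : mlRho k (x - t) = 0 := by
      apply mlRho_eq_zero
      by_contra hlt
      apply hx
      refine Metric.mem_cthickening_of_dist_le x t _ L ht ?_
      rw [dist_eq_norm]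
      exact (not_le.1 hlt).le
    simp [h1]
  · simp [hu t ht]

/-- the probability measure `ρ_k dx`. -/
noncomputable def mllNu (n k : ℕ) : Measure (Cn n) :=
  volume.withDensity (fun y => ENNReal.ofReal (mlRho k y))

theorem mllNu_prob (n k : ℕ) : IsProbabilityMeasure (mllNu n k) := by
  constructor
  unfold mllNu
  rw [withDensity_apply _ MeasurableSet.univ, Measure.restrict_univ,
    ← ofReal_integral_eq_lintegral_ofReal (mll_rho_integrable k)
      (Eventually.of_forall (mlRho_nonneg k)), mlRho_integral, ENNReal.ofReal_one]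

theorem mll_enorm_le (k : ℕ) {f : Cn n → ℂ} (hf : StronglyMeasurable f) (x : Cn n) :
    ‖moll k f x‖ₑ ≤ ∫⁻ y, ‖f (x - y)‖ₑ ∂(mllNu n k) := by
  rw [mll_eq']
  refine (enorm_integral_le_lintegral_enorm _).trans ?_
  unfold mllNu
  have hm : Measurable fun y => ‖f (x - y)‖ₑ :=
    (hf.comp_measurable (measurable_const.sub measurable_id)).enorm
  rw [lintegral_withDensity_eq_lintegral_mul _
    (mlRho_contDiff k).continuous.measurable.ennreal_ofReal hm]
  refine le_of_eq (lintegral_congr fun y => ?_)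
  rw [enorm_smul, Pi.mul_apply, Real.enorm_of_nonneg (mlRho_nonneg k y)]

theorem mll_enorm_rpow_le (k : ℕ) {p : ℝ} (hp : 1 ≤ p) {f : Cn n → ℂ} (hf : StronglyMeasurable f)
    (x : Cn n) : ‖moll k f x‖ₑ ^ p ≤ ∫⁻ y, ‖f (x - y)‖ₑ ^ p ∂(mllNu n k) := by
  have := mllNu_prob n k
  have hp0 : 0 < p := lt_of_lt_of_le one_pos hp
  have hm : StronglyMeasurable fun y => f (x - y) :=
    hf.comp_measurable (measurable_const.sub measurable_id)
  have h1 := eLpNorm'_le_eLpNorm'_of_exponent_le (f := fun y => f (x - y)) one_pos hp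
    (mllNu n k) hm.aestronglyMeasurable
  simp only [eLpNorm', ENNReal.rpow_one, div_one] at h1
  calc ‖moll k f x‖ₑ ^ p ≤ (∫⁻ y, ‖f (x - y)‖ₑ ∂(mllNu n k)) ^ p :=
        ENNReal.rpow_le_rpow (mll_enorm_le k hf x) hp0.le
    _ ≤ ((∫⁻ y, ‖f (x - y)‖ₑ ^ p ∂(mllNu n k)) ^ (1 / p)) ^ p := ENNReal.rpow_le_rpow h1 hp0.le
    _ = ∫⁻ y, ‖f (x - y)‖ₑ ^ p ∂(mllNu n k) := by
        rw [← ENNReal.rpow_mul, one_div, inv_mul_cancel₀ hp0.ne', ENNReal.rpow_one]

/-- YOUNG's inequality for the mollifier. -/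
theorem mll_lintegral_rpow_le (k : ℕ) {p : ℝ} (hp : 1 ≤ p) {f : Cn n → ℂ}
    (hf : AEStronglyMeasurable f volume) :
    ∫⁻ x, ‖moll k f x‖ₑ ^ p ≤ ∫⁻ x, ‖f x‖ₑ ^ p := by
  have := mllNu_prob n k
  have hp0 : 0 < p := lt_of_lt_of_le one_pos hp
  set f' := hf.mk f with hf'
  have hsm : StronglyMeasurable f' := hf.stronglyMeasurable_mk
  have hae : f =ᵐ[volume] f' := hf.ae_eq_mk
  rw [moll_congr_ae k hae]
  have hR : ∫⁻ x, ‖f x‖ₑ ^ p = ∫⁻ x, ‖f' x‖ₑ ^ p := by
    refine lintegral_congr_ae ?_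
    filter_upwards [hae] with x hx
    rw [hx]
  rw [hR]
  have hm2 : Measurable (Function.uncurry fun (x y : Cn n) => ‖f' (x - y)‖ₑ ^ p) := by
    have : StronglyMeasurable fun z : Cn n × Cn n => f' (z.1 - z.2) :=
      hsm.comp_measurable (measurable_fst.sub measurable_snd)
    exact this.enorm.pow_const p
  calc ∫⁻ x, ‖moll k f' x‖ₑ ^ p ≤ ∫⁻ x, ∫⁻ y, ‖f' (x - y)‖ₑ ^ p ∂(mllNu n k) :=
        lintegral_mono fun x => mll_enorm_rpow_le k hp hsm x
    _ = ∫⁻ y, (∫⁻ x, ‖f' (x - y)‖ₑ ^ p) ∂(mllNu n k) := lintegral_lintegral_swap hm2.aemeasurable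
    _ = ∫⁻ y, (∫⁻ x, ‖f' x‖ₑ ^ p) ∂(mllNu n k) := by
        refine lintegral_congr fun y => ?_
        exact lintegral_sub_right_eq_self (fun x => ‖f' x‖ₑ ^ p) y
    _ = ∫⁻ x, ‖f' x‖ₑ ^ p := by
        rw [lintegral_const, measure_univ, mul_one]

theorem moll_eLpNorm_le (k : ℕ) {u : Cn n → ℂ} (hu : AEStronglyMeasurable u volume) :
    eLpNorm (moll k u) 2 volume ≤ eLpNorm u 2 volume := by
  rw [eLpNorm_eq_lintegral_rpow_enorm_toReal (by norm_num) (by norm_num),
    eLpNorm_eq_lintegral_rpow_enorm_toReal (by norm_num) (by norm_num)]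
  refine ENNReal.rpow_le_rpow (mll_lintegral_rpow_le k ?_ hu) (by positivity)
  norm_num

theorem mll_aesm (k : ℕ) {u : Cn n → ℂ} (hu : LocallyIntegrable u volume) :
    AEStronglyMeasurable (moll k u) volume :=
  (moll_contDiff k hu).continuous.aestronglyMeasurable

theorem moll_memLp (k : ℕ) {u : Cn n → ℂ} (hu : MemLp u 2 volume) : MemLp (moll k u) 2 volume :=
  ⟨mll_aesm k (hu.locallyIntegrable (by norm_num)), (moll_eLpNorm_le k hu.1).trans_lt hu.2⟩

theorem mll_dist_le (k : ℕ) {f : Cn n → ℂ} (hf : AEStronglyMeasurable f volume) {x : Cn n} {ε : ℝ}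
    (h : ∀ y ∈ Metric.ball x (1 / ((k : ℝ) + 1)), dist (f y) (f x) ≤ ε) :
    dist (moll k f x) (f x) ≤ ε := by
  rw [mll_eq_conv]
  exact (mlB n k).dist_normed_convolution_le hf h

theorem mll_tendstoUniformly {f : Cn n → ℂ} (hf : UniformContinuous f) :
    TendstoUniformly (fun k => moll k f) f atTop := by
  rw [Metric.tendstoUniformly_iff]
  intro ε hε
  obtain ⟨δ, hδ, hd⟩ := Metric.uniformContinuous_iff.1 hf (ε / 2) (half_pos hε)
  have h1 : ∀ᶠ k : ℕ in atTop, 1 / ((k : ℝ) + 1) < δ :=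
    (tendsto_one_div_add_atTop_nhds_zero_nat (𝕜 := ℝ)).eventually (gt_mem_nhds hδ)
  filter_upwards [h1] with k hk x
  rw [dist_comm]
  refine lt_of_le_of_lt (mll_dist_le k hf.continuous.aestronglyMeasurable ?_) (half_lt_self hε)
  intro y hy
  exact (hd (lt_trans (Metric.mem_ball.1 hy) hk)).le

theorem mll_one_div_le_one (k : ℕ) : 1 / ((k : ℝ) + 1) ≤ 1 := by
  rw [div_le_one (by positivity)]
  have : (0:ℝ) ≤ k := Nat.cast_nonneg k
  linarith

/-- mollification of a continuous compactly supported function converges in `L²`. -/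
theorem mll_tendsto_of_continuous {h : Cn n → ℂ} (hc : Continuous h) (hs : HasCompactSupport h) :
    Tendsto (fun k => eLpNorm (fun x => moll k h x - h x) 2 volume) atTop (𝓝 0) := by
  set K := Metric.cthickening 1 (tsupport h) with hK
  have hKc : IsCompact K := hs.isCompact.cthickening
  have hsub : ∀ k, Function.support (fun x => moll k h x - h x) ⊆ K := by
    intro k x hx
    by_contra hx'
    apply hx
    have h1 : moll k h x = 0 := by
      refine moll_eq_zero_off k (L := tsupport h) (fun z hz => image_eq_zero_of_notMem_tsupport hz)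
        fun hx'' => hx' ?_
      exact Metric.cthickening_mono (mll_one_div_le_one k) _ hx''
    have h2 : h x = 0 := by
      by_contra h0
      exact hx' (Metric.self_subset_cthickening _ (subset_tsupport _ h0))
    simp [h1, h2]
  have hunif := Metric.tendstoUniformly_iff.1
    (mll_tendstoUniformly (hs.uniformContinuous_of_continuous hc))
  have hfin : volume K ^ (2 : ℝ≥0∞).toReal⁻¹ ≠ ⊤ :=
    ENNReal.rpow_ne_top_of_nonneg (by positivity) hKc.measure_lt_top.ne
  rw [ENNReal.tendsto_nhds_zero]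
  intro ε hε
  obtain ⟨δ, hδ, hδε⟩ : ∃ δ : ℝ, 0 < δ ∧
      volume K ^ (2 : ℝ≥0∞).toReal⁻¹ * ENNReal.ofReal δ ≤ ε := by
    have ht : Tendsto (fun δ : ℝ => volume K ^ (2 : ℝ≥0∞).toReal⁻¹ * ENNReal.ofReal δ)
        (𝓝[>] 0) (𝓝 0) := by
      have h1 : Tendsto (fun δ : ℝ => ENNReal.ofReal δ) (𝓝 0) (𝓝 0) := by
        simpa using (ENNReal.continuous_ofReal.tendsto 0)
      have h2 := ENNReal.Tendsto.const_mul (a := volume K ^ (2 : ℝ≥0∞).toReal⁻¹) h1 (Or.inr hfin)
      rw [mul_zero] at h2
      exact h2.mono_left nhdsWithin_le_nhds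
    have h3 := (ht.eventually (ge_mem_nhds hε)).and self_mem_nhdsWithin
    obtain ⟨δ, h4, h5⟩ := h3.exists
    exact ⟨δ, h5, h4⟩
  filter_upwards [hunif δ hδ] with k hk
  rw [← eLpNorm_restrict_eq_of_support_subset (hsub k)]
  refine (eLpNorm_le_of_ae_bound (C := δ) (Eventually.of_forall fun x => ?_)).trans ?_
  · have := hk x
    rw [dist_comm, dist_eq_norm] at this
    exact this.le
  · rw [Measure.restrict_apply MeasurableSet.univ, Set.univ_inter]
    exact hδε

theorem moll_tendsto {u : Cn n → ℂ} (hu : MemLp u 2 volume) :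
    Tendsto (fun k => eLpNorm (fun x => moll k u x - u x) 2 volume) atTop (𝓝 0) := by
  have hp : (1 : ℝ≥0∞) ≤ 2 := by norm_num
  rw [ENNReal.tendsto_nhds_zero]
  intro ε hε
  have hε3 : ε / 3 ≠ 0 := (ENNReal.div_pos hε.ne' (by simp)).ne'
  obtain ⟨h, hs, hfh, hc, hm⟩ := hu.exists_hasCompactSupport_eLpNorm_sub_le (by norm_num) hε3
  have hfl := hu.locallyIntegrable hp
  have hhl := hm.locallyIntegrable hp
  have h1 := (ENNReal.tendsto_nhds_zero.1
    (mll_tendsto_of_continuous hc hs)) (ε / 3) (pos_iff_ne_zero.2 hε3)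
  filter_upwards [h1] with k hk
  have hdec : (fun x => moll k u x - u x) =
      (moll k (fun x => u x - h x) + (fun x => moll k h x - h x)) + (fun x => h x - u x) := by
    funext x
    simp only [Pi.add_apply, moll_sub k hfl hhl]
    abel
  have hfh' : eLpNorm (fun x => u x - h x) 2 volume ≤ ε / 3 := hfh
  have hfh'' : eLpNorm (fun x => h x - u x) 2 volume ≤ ε / 3 := by
    have : (fun x => h x - u x) = -(fun x => u x - h x) := by
      funext x; simp
    rw [this, eLpNorm_neg]
    exact hfh'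
  have hsubm : AEStronglyMeasurable (fun x => u x - h x) volume := hu.1.sub hm.1
  rw [hdec]
  calc eLpNorm ((moll k (fun x => u x - h x) + (fun x => moll k h x - h x))
          + (fun x => h x - u x)) 2 volume
      ≤ eLpNorm (moll k (fun x => u x - h x) + (fun x => moll k h x - h x)) 2 volume
          + eLpNorm (fun x => h x - u x) 2 volume :=
        eLpNorm_add_le (((mll_aesm k (hfl.sub hhl))).add
          ((mll_aesm k hhl).sub hm.1)) (hm.1.sub hu.1) hp
    _ ≤ (eLpNorm (moll k (fun x => u x - h x)) 2 volume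
          + eLpNorm (fun x => moll k h x - h x) 2 volume)
          + eLpNorm (fun x => h x - u x) 2 volume := by
        gcongr
        exact eLpNorm_add_le (mll_aesm k (hfl.sub hhl))
          ((mll_aesm k hhl).sub hm.1) hp
    _ ≤ (ε / 3 + ε / 3) + ε / 3 := by
        gcongr
        exact (moll_eLpNorm_le k hsubm).trans hfh'
    _ = ε := by
        rw [← two_mul, ← add_one_mul]
        norm_num
        exact ENNReal.mul_div_cancel (by simp) (by simp)

/-! ### 3. Derivatives of mollifications -/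

/-- integrability of the integrands above. -/
theorem integrable_mul_test {u v : Cn n → ℂ} (hu : LocallyIntegrable u volume) (hv : Continuous v)
    (hc : HasCompactSupport v) : Integrable (fun t => u t * v t) volume := by
  have hK : IsCompact (tsupport v) := hc
  have h1 : IntegrableOn (fun t => u t * v t) (tsupport v) volume :=
    (hu.integrableOn_isCompact hK).mul_continuousOn hv.continuousOn hK
  refine (integrableOn_iff_integrable_of_support_subset ?_).1 h1
  intro t ht
  refine subset_tsupport v ?_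
  intro h0
  exact ht (by simp [h0])

theorem mll_fderiv (k : ℕ) {u : Cn n → ℂ} (hu : LocallyIntegrable u volume) (x v : Cn n) :
    fderiv ℝ (moll k u) x v = ∫ t, (fderiv ℝ (mlRho k) (x - t) v : ℂ) * u t := by
  have hc1 : ContDiff ℝ 1 (mlRho k : Cn n → ℝ) := (mlRho_contDiff k).of_le (by exact_mod_cast le_top)
  have h1 := (mlRho_hasCompactSupport (n := n) k).hasFDerivAt_convolution_left
    (ContinuousLinearMap.lsmul ℝ ℝ : ℝ →L[ℝ] ℂ →L[ℝ] ℂ) hc1 hu x (μ := volume)
  rw [mll_eq_conv, h1.fderiv, convolution_eq_swap]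
  have hex : ConvolutionExists (fderiv ℝ (mlRho k : Cn n → ℝ)) u
      ((ContinuousLinearMap.lsmul ℝ ℝ : ℝ →L[ℝ] ℂ →L[ℝ] ℂ).precompL (Cn n)) volume :=
    ((mlRho_hasCompactSupport (n := n) k).fderiv ℝ).convolutionExists_left _
      (hc1.continuous_fderiv one_ne_zero) hu
  rw [ContinuousLinearMap.integral_apply (hex x).integrable_swap]
  refine integral_congr_ae (Eventually.of_forall fun t => ?_)
  simp [ContinuousLinearMap.precompL_apply, Complex.real_smul]

theorem mll_fderiv_test (k : ℕ) (x t v : Cn n) :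
    fderiv ℝ (fun s : Cn n => (mlRho k (x - s) : ℂ)) t v
      = -(fderiv ℝ (mlRho k) (x - t) v : ℂ) := by
  have hd : DifferentiableAt ℝ (mlRho k : Cn n → ℝ) (x - t) :=
    ((mlRho_contDiff k).differentiable (by simp)).differentiableAt
  have h1 : HasFDerivAt (fun s : Cn n => x - s) (-(ContinuousLinearMap.id ℝ (Cn n))) t :=
    (hasFDerivAt_id t).const_sub x
  have h2 : HasFDerivAt (fun s : Cn n => mlRho k (x - s))
      ((fderiv ℝ (mlRho k) (x - t)).comp (-(ContinuousLinearMap.id ℝ (Cn n)))) t :=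
    hd.hasFDerivAt.comp t h1
  have h3 : HasFDerivAt (fun s : Cn n => (mlRho k (x - s) : ℂ))
      (Complex.ofRealCLM.comp
        ((fderiv ℝ (mlRho k) (x - t)).comp (-(ContinuousLinearMap.id ℝ (Cn n))))) t :=
    Complex.ofRealCLM.hasFDerivAt.comp t h2
  rw [h3.fderiv]
  simp

theorem mll_fderiv_integrable (k : ℕ) {u : Cn n → ℂ} (hu : LocallyIntegrable u volume)
    (x v : Cn n) :
    Integrable (fun t => u t * fderiv ℝ (fun s : Cn n => (mlRho k (x - s) : ℂ)) t v) volume := by
  have hcd := mlRho_sub_contDiff (n := n) k x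
  have hc1 : ContDiff ℝ 1 (fun s : Cn n => (mlRho k (x - s) : ℂ)) :=
    hcd.of_le (by exact_mod_cast le_top)
  refine integrable_mul_test hu ?_ ?_
  · exact (hc1.continuous_fderiv one_ne_zero).clm_apply continuous_const
  · exact ((mlRho_sub_hasCompactSupport k x).fderiv ℝ).comp_left
      (g := fun L : Cn n →L[ℝ] ℂ => L v) (by simp)

theorem mll_fderiv' (k : ℕ) {u : Cn n → ℂ} (hu : LocallyIntegrable u volume) (x v : Cn n) :
    fderiv ℝ (moll k u) x v
      = - ∫ t, u t * fderiv ℝ (fun s : Cn n => (mlRho k (x - s) : ℂ)) t v := by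
  rw [mll_fderiv k hu, ← integral_neg]
  refine integral_congr_ae (Eventually.of_forall fun t => ?_)
  simp only [mll_fderiv_test]
  ring

theorem dz_moll (k : ℕ) {u : Cn n → ℂ} (hu : LocallyIntegrable u volume) (j : Fin n) (x : Cn n) :
    dz j (moll k u) x = - ∫ t, u t * dz j (fun s : Cn n => (mlRho k (x - s) : ℂ)) t := by
  unfold dz
  rw [mll_fderiv' k hu, mll_fderiv' k hu]
  have e : ∀ t, u t * ((fderiv ℝ (fun s : Cn n => (mlRho k (x - s) : ℂ)) t (Pi.single j 1)
      - I * fderiv ℝ (fun s : Cn n => (mlRho k (x - s) : ℂ)) t (Pi.single j I)) / 2)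
      = (1 / 2 : ℂ) * (u t * fderiv ℝ (fun s : Cn n => (mlRho k (x - s) : ℂ)) t (Pi.single j 1)
        - I * (u t * fderiv ℝ (fun s : Cn n => (mlRho k (x - s) : ℂ)) t (Pi.single j I))) := by
    intro t; ring
  simp only [e]
  rw [integral_const_mul, integral_sub (mll_fderiv_integrable k hu x _)
    ((mll_fderiv_integrable k hu x _).const_mul I), integral_const_mul]
  ring

theorem dzb_moll (k : ℕ) {u : Cn n → ℂ} (hu : LocallyIntegrable u volume) (j : Fin n)
    (x : Cn n) :
    dzb j (moll k u) x = - ∫ t, u t * dzb j (fun s : Cn n => (mlRho k (x - s) : ℂ)) t := by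
  unfold dzb
  rw [mll_fderiv' k hu, mll_fderiv' k hu]
  have e : ∀ t, u t * ((fderiv ℝ (fun s : Cn n => (mlRho k (x - s) : ℂ)) t (Pi.single j 1)
      + I * fderiv ℝ (fun s : Cn n => (mlRho k (x - s) : ℂ)) t (Pi.single j I)) / 2)
      = (1 / 2 : ℂ) * (u t * fderiv ℝ (fun s : Cn n => (mlRho k (x - s) : ℂ)) t (Pi.single j 1)
        + I * (u t * fderiv ℝ (fun s : Cn n => (mlRho k (x - s) : ℂ)) t (Pi.single j I))) := by
    intro t; ring
  simp only [e]
  rw [integral_const_mul, integral_add (mll_fderiv_integrable k hu x _)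
    ((mll_fderiv_integrable k hu x _).const_mul I), integral_const_mul]
  ring

theorem mll_dz_integrable (k : ℕ) {u : Cn n → ℂ} (hu : LocallyIntegrable u volume) (j : Fin n)
    (x : Cn n) :
    Integrable (fun t => u t * dz j (fun s : Cn n => (mlRho k (x - s) : ℂ)) t) volume := by
  unfold dz
  have e : ∀ t, u t * ((fderiv ℝ (fun s : Cn n => (mlRho k (x - s) : ℂ)) t (Pi.single j 1)
      - I * fderiv ℝ (fun s : Cn n => (mlRho k (x - s) : ℂ)) t (Pi.single j I)) / 2)
      = (1 / 2 : ℂ) * (u t * fderiv ℝ (fun s : Cn n => (mlRho k (x - s) : ℂ)) t (Pi.single j 1)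
        - I * (u t * fderiv ℝ (fun s : Cn n => (mlRho k (x - s) : ℂ)) t (Pi.single j I))) := by
    intro t; ring
  simp only [e]
  exact ((mll_fderiv_integrable k hu x _).sub
    ((mll_fderiv_integrable k hu x _).const_mul I)).const_mul _

theorem mll_dzb_integrable (k : ℕ) {u : Cn n → ℂ} (hu : LocallyIntegrable u volume) (j : Fin n)
    (x : Cn n) :
    Integrable (fun t => u t * dzb j (fun s : Cn n => (mlRho k (x - s) : ℂ)) t) volume := by
  unfold dzb
  have e : ∀ t, u t * ((fderiv ℝ (fun s : Cn n => (mlRho k (x - s) : ℂ)) t (Pi.single j 1)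
      + I * fderiv ℝ (fun s : Cn n => (mlRho k (x - s) : ℂ)) t (Pi.single j I)) / 2)
      = (1 / 2 : ℂ) * (u t * fderiv ℝ (fun s : Cn n => (mlRho k (x - s) : ℂ)) t (Pi.single j 1)
        + I * (u t * fderiv ℝ (fun s : Cn n => (mlRho k (x - s) : ℂ)) t (Pi.single j I))) := by
    intro t; ring
  simp only [e]
  exact ((mll_fderiv_integrable k hu x _).add
    ((mll_fderiv_integrable k hu x _).const_mul I)).const_mul _

/-! ### 4. Weak divergence and curl; local approximation on `Cn n` -/

/-- `∑ ∂_j β_j = d` in the sense of distributions. -/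
def WeakDiv (β : Fin n → Cn n → ℂ) (d : Cn n → ℂ) : Prop :=
  ∀ v : Cn n → ℂ, ContDiff ℝ ∞ v → HasCompactSupport v →
    ∫ z, ∑ j, β j z * dz j v z = - ∫ z, d z * v z

/-- `∂̄_k β_j - ∂̄_j β_k = h_{jk}` in the sense of distributions. -/
def WeakCurl (β : Fin n → Cn n → ℂ) (h : Fin n → Fin n → Cn n → ℂ) : Prop :=
  ∀ v : Cn n → ℂ, ContDiff ℝ ∞ v → HasCompactSupport v → ∀ j k,
    ∫ z, (β j z * dzb k v z - β k z * dzb j v z) = - ∫ z, h j k z * v z

theorem sum_dz_moll (k : ℕ) {β : Fin n → Cn n → ℂ} {d : Cn n → ℂ}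
    (hβ : ∀ j, LocallyIntegrable (β j) volume) (hdiv : WeakDiv β d) (x : Cn n) :
    ∑ j, dz j (moll k (β j)) x = moll k d x := by
  have h1 := hdiv _ (mlRho_sub_contDiff k x) (mlRho_sub_hasCompactSupport k x)
  rw [integral_finsetSum _ (fun j _ => mll_dz_integrable k (hβ j) j x)] at h1
  simp only [dz_moll k (hβ _), Finset.sum_neg_distrib, h1, neg_neg]
  unfold moll
  simp only [mul_comm]

theorem curl_moll (k : ℕ) {β : Fin n → Cn n → ℂ} {h : Fin n → Fin n → Cn n → ℂ}
    (hβ : ∀ j, LocallyIntegrable (β j) volume) (hcurl : WeakCurl β h) (i j : Fin n) (x : Cn n) :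
    dzb j (moll k (β i)) x - dzb i (moll k (β j)) x = moll k (h i j) x := by
  have h1 := hcurl _ (mlRho_sub_contDiff k x) (mlRho_sub_hasCompactSupport k x) i j
  rw [integral_sub (mll_dzb_integrable k (hβ i) j x) (mll_dzb_integrable k (hβ j) i x)] at h1
  rw [dzb_moll k (hβ i), dzb_moll k (hβ j)]
  have h2 : moll k (h i j) x = ∫ z, h i j z * (mlRho k (x - z) : ℂ) := by
    unfold moll
    simp only [mul_comm]
  rw [h2]
  linear_combination -h1

/-- **Local approximation on `Cn n`.** -/
theorem lap_Cn {β : Fin n → Cn n → ℂ} {d : Cn n → ℂ} {h : Fin n → Fin n → Cn n → ℂ}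
    (hβ : ∀ j, MemLp (β j) 2 volume) (hd : MemLp d 2 volume) (hh : ∀ j k, MemLp (h j k) 2 volume)
    (hdiv : WeakDiv β d) (hcurl : WeakCurl β h)
    {L U : Set (Cn n)} (hL : IsCompact L) (hU : IsOpen U) (hLU : L ⊆ U)
    (hβL : ∀ j, ∀ z ∉ L, β j z = 0) :
    ∃ (α : ℕ → Fin n → Cn n → ℂ) (L' : Set (Cn n)), IsCompact L' ∧ L' ⊆ U ∧
      (∀ i j, ContDiff ℝ ∞ (α i j)) ∧ (∀ i j, ∀ z ∉ L', α i j z = 0) ∧
      (∀ j, Tendsto (fun i => eLpNorm (fun z => α i j z - β j z) 2 volume) atTop (𝓝 0)) ∧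
      Tendsto (fun i => eLpNorm (fun z => ∑ j, dz j (α i j) z - d z) 2 volume) atTop (𝓝 0) ∧
      ∀ j k, Tendsto (fun i => eLpNorm (fun z => dzb k (α i j) z - dzb j (α i k) z - h j k z) 2
        volume) atTop (𝓝 0) := by
  obtain ⟨δ, hδ, hδU⟩ := hL.exists_cthickening_subset_open hU hLU
  obtain ⟨i₀, hi₀⟩ := exists_nat_one_div_lt hδ
  have hloc : ∀ j, LocallyIntegrable (β j) volume := fun j =>
    (hβ j).locallyIntegrable (by norm_num)
  refine ⟨fun i j => moll (i + i₀) (β j), Metric.cthickening δ L, hL.cthickening, hδU,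
    fun i j => moll_contDiff _ (hloc j), ?_, ?_, ?_, ?_⟩
  · intro i j z hz
    refine moll_eq_zero_off _ (hβL j) (fun hz' => hz ?_)
    refine Metric.cthickening_mono ?_ L hz'
    refine le_trans ?_ hi₀.le
    have h0 : (0:ℝ) < (i₀ : ℝ) + 1 := by positivity
    apply one_div_le_one_div_of_le h0
    push_cast
    have : (0:ℝ) ≤ (i : ℝ) := Nat.cast_nonneg i
    linarith
  · intro j
    exact (moll_tendsto (hβ j)).comp (tendsto_add_atTop_nat i₀)
  · have e : (fun i => eLpNorm (fun z => ∑ j, dz j (moll (i + i₀) (β j)) z - d z) 2 volume)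
        = (fun k => eLpNorm (fun x => moll k d x - d x) 2 volume) ∘ (fun i => i + i₀) := by
      funext i
      simp only [Function.comp, sum_dz_moll _ hloc hdiv]
    rw [e]
    exact (moll_tendsto hd).comp (tendsto_add_atTop_nat i₀)
  · intro j k
    have e : (fun i => eLpNorm (fun z => dzb k (moll (i + i₀) (β j)) z
          - dzb j (moll (i + i₀) (β k)) z - h j k z) 2 volume)
        = (fun m => eLpNorm (fun x => moll m (h j k) x - h j k x) 2 volume)
          ∘ (fun i => i + i₀) := by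
      funext i
      simp only [Function.comp, curl_moll _ hloc hcurl]
    rw [e]
    exact (moll_tendsto (hh j k)).comp (tendsto_add_atTop_nat i₀)

end Claimed.Agent.R242
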