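/-
Row 242, SCV layer, RD kit 3/5.  RdSheet: push/pull of functions between a sheet and `Cn n`, bump functions,
finite partitions of unity over compact sets.
Blueprint: helper290.  Leaves: SCV-RD-SHEET-A (section 1 push), -B (section 2 pull), -C (section 3 bumps).
RdGerm, RdMeas may be used while sorried.

Plan.
* `rdPush e w = indicator e.target (w ∘ e.symm)`.  If `w = 0` off a compact `K ⊆ e.source` then `p '' K` is a
  compact (so closed) subset of the open set `e.target`; `Cn n = e.target ∪ (p '' K)ᶜ`; on the first open set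
  `rdPush e w = w ∘ e.symm` (use `rdContDiffAt_iff_sheet`, `rdD_eq_sheet`), on the second it vanishes identically.
* `rdPull p e g = indicator e.source (g ∘ p)`.  If `g = 0` off a compact `L ⊆ e.target` then `e.symm '' L` is
  compact, hence closed (`T2Space W`), `W = e.source ∪ (e.symm '' L)ᶜ`; use `rdLoc_comp`, `rdD_comp`, `rdD_congr`.
* integrals: `lintegral_sheet`, `integral_sheet` + `setLIntegral_eq_of...`/`integral_indicator`.
* bump at `x`: pull back a `ContDiffBump (p x)` with `closedBall (p x) rOut ⊆ e.target ∩ e.symm ⁻¹' U`.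
* partition: cover `K` by the open sets `{b_x = 1}°`, finite subcover `x_1..x_m`,
  `χ_i = b_i ∏_{j<i} (1 - b_j)`,  `∑ χ_i = 1 - ∏ (1 - b_j)`  (`Fin.prod`/`Finset.prod_range` telescoping,
  e.g. `Finset.prod_one_sub_ordered` or induction on `m`).
-/
import Claimed.Agent.R242.SCV.RdMeas

open MeasureTheory Complex Filter
open scoped ContDiff ComplexConjugate ENNReal Topology

namespace Claimed.Agent.R242

variable {n : ℕ} {W : Type*} [TopologicalSpace W] {p : W → Cn n} (hp : IsLocalHomeomorph p)

/-- push a function on `W` to `Cn n` through the sheet `e` (zero outside `e.target`). -/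
noncomputable def rdPush {F : Type*} [Zero F] (e : OpenPartialHomeomorph W (Cn n)) (w : W → F) :
    Cn n → F := e.target.indicator fun z => w (e.symm z)

/-- pull a function on `Cn n` back to `W` through the sheet `e` (zero outside `e.source`). -/
noncomputable def rdPull {F : Type*} [Zero F] (p : W → Cn n) (e : OpenPartialHomeomorph W (Cn n))
    (g : Cn n → F) : W → F := e.source.indicator fun x => g (p x)

variable {e : OpenPartialHomeomorph W (Cn n)} (he : IsSheet p e)

/-! ### 1. Push -/

section push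
variable {F : Type*}

theorem rdPush_of_mem [Zero F] (w : W → F) {z : Cn n} (hz : z ∈ e.target) :
    rdPush e w z = w (e.symm z) := by
  exact Set.indicator_of_mem hz _

theorem rdPush_of_notMem [Zero F] (w : W → F) {z : Cn n} (hz : z ∉ e.target) :
    rdPush e w z = 0 := by
  exact Set.indicator_of_notMem hz _

include he in
theorem rdPush_proj [Zero F] (w : W → F) {x : W} (hx : x ∈ e.source) : rdPush e w (p x) = w x := by
  have hx' : p x ∈ e.target := by
    have := e.map_source hx
    rwa [he] at this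
  rw [rdPush_of_mem w hx', he.symm_apply hx]

include he in
theorem rdPush_eq_zero_off [Zero F] {w : W → F} {K : Set W} (hw : ∀ x ∉ K, w x = 0) {z : Cn n}
    (hz : z ∉ p '' K) : rdPush e w z = 0 := by
  by_cases hzt : z ∈ e.target
  · rw [rdPush_of_mem w hzt]
    apply hw
    intro hK
    exact hz ⟨e.symm z, hK, he.apply_symm hzt⟩
  · exact rdPush_of_notMem w hzt

theorem rdPush_add [AddZeroClass F] (u v : W → F) :
    rdPush e (fun x => u x + v x) = fun z => rdPush e u z + rdPush e v z := by
  funext z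
  by_cases hz : z ∈ e.target
  · simp only [rdPush_of_mem _ hz]
  · simp only [rdPush_of_notMem _ hz, add_zero]

theorem rdPush_sub [AddGroup F] (u v : W → F) :
    rdPush e (fun x => u x - v x) = fun z => rdPush e u z - rdPush e v z := by
  funext z
  by_cases hz : z ∈ e.target
  · simp only [rdPush_of_mem _ hz]
  · simp only [rdPush_of_notMem _ hz, sub_zero]

theorem rdPush_mul [MulZeroClass F] (u v : W → F) :
    rdPush e (fun x => u x * v x) = fun z => rdPush e u z * rdPush e v z := by
  funext z
  by_cases hz : z ∈ e.target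
  · simp only [rdPush_of_mem _ hz]
  · simp only [rdPush_of_notMem _ hz, mul_zero]

theorem rdPush_conj (u : W → ℂ) :
    rdPush e (fun x => conj (u x)) = fun z => conj (rdPush e u z) := by
  funext z
  by_cases hz : z ∈ e.target
  · simp only [rdPush_of_mem _ hz]
  · simp only [rdPush_of_notMem _ hz, map_zero]

theorem rdPush_comp_zero {F' : Type*} [Zero F] [Zero F'] (H : F → F') (hH : H 0 = 0) (u : W → F) :
    rdPush e (fun x => H (u x)) = fun z => H (rdPush e u z) := by
  funext z
  by_cases hz : z ∈ e.target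
  · simp only [rdPush_of_mem _ hz]
  · simp only [rdPush_of_notMem _ hz, hH]

include he in
/-- multiplication by a pull-back. -/
theorem rdPush_mul_comp [MulZeroClass F] (u : W → F) (g : Cn n → F) :
    rdPush e (fun x => u x * g (p x)) = fun z => rdPush e u z * g z := by
  funext z
  by_cases hz : z ∈ e.target
  · simp only [rdPush_of_mem _ hz, he.apply_symm hz]
  · simp only [rdPush_of_notMem _ hz, zero_mul]

variable {K : Set W} (hK : IsCompact K) (hKe : K ⊆ e.source)

include he hK hKe in
theorem isCompact_image_sheet : IsCompact (p '' K) ∧ p '' K ⊆ e.target := by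
  have hc : ContinuousOn p K := by
    have := e.continuousOn.mono hKe
    rwa [he] at this
  refine ⟨hK.image_of_continuousOn hc, ?_⟩
  rw [← he.image_source]
  exact Set.image_mono hKe

include he hK hKe in
theorem tsupport_rdPush_subset [Zero F] {w : W → F} (hw : ∀ x ∉ K, w x = 0) :
    tsupport (rdPush e w) ⊆ p '' K := by
  have hcl : IsClosed (p '' K) := (isCompact_image_sheet he hK hKe).1.isClosed
  refine closure_minimal ?_ hcl
  intro z hz
  by_contra hzK
  exact hz (rdPush_eq_zero_off he hw hzK)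

include he hK hKe in
theorem hasCompactSupport_rdPush [Zero F] {w : W → F} (hw : ∀ x ∉ K, w x = 0) :
    HasCompactSupport (rdPush e w) := by
  exact (isCompact_image_sheet he hK hKe).1.of_isClosed_subset (isClosed_tsupport _)
    (tsupport_rdPush_subset he hK hKe hw)

include he hK hKe in
theorem contDiff_rdPush [NormedAddCommGroup F] [NormedSpace ℝ F] {k : WithTop ℕ∞} {w : W → F}
    (hw : ∀ x ∉ K, w x = 0) (hwk : RdContDiff hp k w) : ContDiff ℝ k (rdPush e w) := by
  rw [contDiff_iff_contDiffAt]
  intro z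
  by_cases hz : z ∈ e.target
  · have h1 : rdPush e w =ᶠ[𝓝 z] fun y => w (e.symm y) := by
      filter_upwards [e.open_target.mem_nhds hz] with y hy
      exact rdPush_of_mem w hy
    have h2 := (rdContDiffAt_iff_sheet hp w he (e.map_target hz)).1 (hwk (e.symm z))
    rw [he.apply_symm hz] at h2
    exact h2.congr_of_eventuallyEq h1
  · have hcl : IsClosed (p '' K) := (isCompact_image_sheet he hK hKe).1.isClosed
    have hzK : z ∉ p '' K := fun h => hz ((isCompact_image_sheet he hK hKe).2 h)
    have h1 : rdPush e w =ᶠ[𝓝 z] fun _ => (0 : F) := by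
      filter_upwards [hcl.isOpen_compl.mem_nhds hzK] with y hy
      exact rdPush_eq_zero_off he hw hy
    exact contDiffAt_const.congr_of_eventuallyEq h1

include he hK hKe in
theorem dz_rdPush {w : W → ℂ} (hw : ∀ x ∉ K, w x = 0) (j : Fin n) :
    dz j (rdPush e w) = rdPush e (rdD hp j w) := by
  funext z
  by_cases hz : z ∈ e.target
  · have h1 : rdPush e w =ᶠ[𝓝 z] fun y => w (e.symm y) := by
      filter_upwards [e.open_target.mem_nhds hz] with y hy
      exact rdPush_of_mem w hy
    rw [dz_congr h1, rdPush_of_mem _ hz, rdD_eq_sheet hp j w he (e.map_target hz),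
      he.apply_symm hz]
  · have hcl : IsClosed (p '' K) := (isCompact_image_sheet he hK hKe).1.isClosed
    have hzK : z ∉ p '' K := fun h => hz ((isCompact_image_sheet he hK hKe).2 h)
    have h1 : rdPush e w =ᶠ[𝓝 z] fun _ => (0 : ℂ) := by
      filter_upwards [hcl.isOpen_compl.mem_nhds hzK] with y hy
      exact rdPush_eq_zero_off he hw hy
    rw [dz_congr h1, dz_const, rdPush_of_notMem _ hz]

include he hK hKe in
theorem dzb_rdPush {w : W → ℂ} (hw : ∀ x ∉ K, w x = 0) (j : Fin n) :
    dzb j (rdPush e w) = rdPush e (rdDb hp j w) := by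
  funext z
  by_cases hz : z ∈ e.target
  · have h1 : rdPush e w =ᶠ[𝓝 z] fun y => w (e.symm y) := by
      filter_upwards [e.open_target.mem_nhds hz] with y hy
      exact rdPush_of_mem w hy
    rw [dzb_congr h1, rdPush_of_mem _ hz, rdDb_eq_sheet hp j w he (e.map_target hz),
      he.apply_symm hz]
  · have hcl : IsClosed (p '' K) := (isCompact_image_sheet he hK hKe).1.isClosed
    have hzK : z ∉ p '' K := fun h => hz ((isCompact_image_sheet he hK hKe).2 h)
    have h1 : rdPush e w =ᶠ[𝓝 z] fun _ => (0 : ℂ) := by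
      filter_upwards [hcl.isOpen_compl.mem_nhds hzK] with y hy
      exact rdPush_eq_zero_off he hw hy
    rw [dzb_congr h1, dzb_const, rdPush_of_notMem _ hz]

/-- derivatives of a function vanishing off a closed set `K` vanish off `K`. -/
theorem rdD_eq_zero_off {K : Set W} (hK : IsClosed K) {w : W → ℂ} (hw : ∀ x ∉ K, w x = 0)
    (j : Fin n) : ∀ x ∉ K, rdD hp j w x = 0 := by
  intro x hx
  have h1 : w =ᶠ[𝓝 x] fun _ => (0 : ℂ) := by
    filter_upwards [hK.isOpen_compl.mem_nhds hx] with y hy
    exact hw y hy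
  rw [rdD_congr hp h1, rdD_const]

theorem rdDb_eq_zero_off {K : Set W} (hK : IsClosed K) {w : W → ℂ} (hw : ∀ x ∉ K, w x = 0)
    (j : Fin n) : ∀ x ∉ K, rdDb hp j w x = 0 := by
  intro x hx
  have h1 : w =ᶠ[𝓝 x] fun _ => (0 : ℂ) := by
    filter_upwards [hK.isOpen_compl.mem_nhds hx] with y hy
    exact hw y hy
  rw [rdDb_congr hp h1, rdDb_const]

end push

section pushInt
variable [SecondCountableTopology W] [MeasurableSpace W] [BorelSpace W]

include hp he in
theorem lintegral_rdPush {g : W → ℝ≥0∞} (hg : ∀ x ∉ e.source, g x = 0) :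
    ∫⁻ z, rdPush e g z = ∫⁻ x, g x ∂(rdVol p) := by
  have h1 : ∫⁻ z, rdPush e g z = ∫⁻ z in e.target, g (e.symm z) :=
    lintegral_indicator e.open_target.measurableSet _
  have h2 : ∫⁻ x, g x ∂(rdVol p) = ∫⁻ x in e.source, g x ∂(rdVol p) := by
    rw [← lintegral_indicator e.open_source.measurableSet]
    congr 1
    funext x
    by_cases hx : x ∈ e.source
    · rw [Set.indicator_of_mem hx]
    · rw [Set.indicator_of_notMem hx, hg x hx]
  rw [h1, h2, lintegral_sheet hp he]

include hp he in
theorem integral_rdPush {F : Type*} [NormedAddCommGroup F] [NormedSpace ℝ F] {g : W → F}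
    (hg : ∀ x ∉ e.source, g x = 0) : ∫ z, rdPush e g z = ∫ x, g x ∂(rdVol p) := by
  have h1 : ∫ z, rdPush e g z = ∫ z in e.target, g (e.symm z) :=
    integral_indicator e.open_target.measurableSet
  have h2 : ∫ x, g x ∂(rdVol p) = ∫ x in e.source, g x ∂(rdVol p) := by
    rw [← integral_indicator e.open_source.measurableSet]
    congr 1
    funext x
    by_cases hx : x ∈ e.source
    · rw [Set.indicator_of_mem hx]
    · rw [Set.indicator_of_notMem hx, hg x hx]
  rw [h1, h2, integral_sheet hp he]

include hp he in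
theorem aestronglyMeasurable_rdPush {F : Type*} [NormedAddCommGroup F] {g : W → F}
    (hg : AEStronglyMeasurable g (rdVol p)) : AEStronglyMeasurable (rdPush e g) volume := by
  have h1 := (aestronglyMeasurable_sheet_iff hp he g).1 hg.restrict
  exact (aestronglyMeasurable_indicator_iff e.open_target.measurableSet).2 h1

include hp he in
theorem integrable_rdPush {F : Type*} [NormedAddCommGroup F] {g : W → F}
    (hg : Integrable g (rdVol p)) : Integrable (rdPush e g) volume := by
  have h1 := (integrableOn_sheet_iff hp he g).1 hg.integrableOn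
  exact (integrable_indicator_iff e.open_target.measurableSet).2 h1

end pushInt

/-! ### 2. Pull -/

section pull
variable {F : Type*}

theorem rdPull_of_mem [Zero F] (g : Cn n → F) {x : W} (hx : x ∈ e.source) :
    rdPull p e g x = g (p x) := by
  exact Set.indicator_of_mem hx _

theorem rdPull_of_notMem [Zero F] (g : Cn n → F) {x : W} (hx : x ∉ e.source) :
    rdPull p e g x = 0 := by
  exact Set.indicator_of_notMem hx _

include he in
theorem rdPush_rdPull [Zero F] {g : Cn n → F} (hg : ∀ z ∉ e.target, g z = 0) :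
    rdPush e (rdPull p e g) = g := by
  funext z
  by_cases hz : z ∈ e.target
  · rw [rdPush_of_mem _ hz, rdPull_of_mem _ (e.map_target hz), he.apply_symm hz]
  · rw [rdPush_of_notMem _ hz, hg z hz]

include he in
theorem rdPull_rdPush [Zero F] {w : W → F} (hw : ∀ x ∉ e.source, w x = 0) :
    rdPull p e (rdPush e w) = w := by
  funext x
  by_cases hx : x ∈ e.source
  · rw [rdPull_of_mem _ hx, rdPush_proj he w hx]
  · rw [rdPull_of_notMem _ hx, hw x hx]

include he in
theorem rdPull_eq_zero_off [Zero F] {g : Cn n → F} {L : Set (Cn n)} (hg : ∀ z ∉ L, g z = 0)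
    {x : W} (hx : x ∉ e.symm '' L) : rdPull p e g x = 0 := by
  by_cases hxs : x ∈ e.source
  · rw [rdPull_of_mem g hxs]
    apply hg
    intro hL
    exact hx ⟨p x, hL, he.symm_apply hxs⟩
  · exact rdPull_of_notMem g hxs

variable [T2Space W] {L : Set (Cn n)} (hL : IsCompact L) (hLe : L ⊆ e.target)

include hL hLe in
omit [T2Space W] in
theorem isCompact_symm_image_sheet : IsCompact (e.symm '' L) ∧ e.symm '' L ⊆ e.source := by
  refine ⟨hL.image_of_continuousOn (e.continuousOn_symm.mono hLe), ?_⟩
  rintro _ ⟨z, hz, rfl⟩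
  exact e.map_target (hLe hz)

include he hL hLe in
theorem tsupport_rdPull_subset [Zero F] {g : Cn n → F} (hg : ∀ z ∉ L, g z = 0) :
    tsupport (rdPull p e g) ⊆ e.symm '' L := by
  have hcl : IsClosed (e.symm '' L) := (isCompact_symm_image_sheet hL hLe).1.isClosed
  refine closure_minimal ?_ hcl
  intro x hx
  by_contra hxL
  exact hx (rdPull_eq_zero_off he hg hxL)

include he hL hLe in
theorem hasCompactSupport_rdPull [Zero F] {g : Cn n → F} (hg : ∀ z ∉ L, g z = 0) :
    HasCompactSupport (rdPull p e g) := by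
  exact (isCompact_symm_image_sheet hL hLe).1.of_isClosed_subset (isClosed_tsupport _)
    (tsupport_rdPull_subset he hL hLe hg)

include he hL hLe in
theorem rdContDiff_rdPull [NormedAddCommGroup F] [NormedSpace ℝ F] {k : WithTop ℕ∞}
    {g : Cn n → F} (hg : ∀ z ∉ L, g z = 0) (hgk : ContDiff ℝ k g) :
    RdContDiff hp k (rdPull p e g) := by
  intro x
  by_cases hx : x ∈ e.source
  · have h1 : (fun y => g (p y)) =ᶠ[𝓝 x] rdPull p e g := by
      filter_upwards [e.open_source.mem_nhds hx] with y hy
      exact (rdPull_of_mem g hy).symm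
    exact (rdContDiff_comp hp hgk x).congr hp h1
  · have hcl : IsClosed (e.symm '' L) := (isCompact_symm_image_sheet hL hLe).1.isClosed
    have hxL : x ∉ e.symm '' L := fun h => hx ((isCompact_symm_image_sheet hL hLe).2 h)
    have h1 : (fun _ => (0 : F)) =ᶠ[𝓝 x] rdPull p e g := by
      filter_upwards [hcl.isOpen_compl.mem_nhds hxL] with y hy
      exact (rdPull_eq_zero_off he hg hy).symm
    exact (rdContDiff_const hp (0 : F) x).congr hp h1

include he hL hLe in
theorem rdD_rdPull {g : Cn n → ℂ} (hg : ∀ z ∉ L, g z = 0) (j : Fin n) :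
    rdD hp j (rdPull p e g) = rdPull p e (dz j g) := by
  funext x
  by_cases hx : x ∈ e.source
  · have h1 : rdPull p e g =ᶠ[𝓝 x] fun y => g (p y) := by
      filter_upwards [e.open_source.mem_nhds hx] with y hy
      exact rdPull_of_mem g hy
    rw [rdD_congr hp h1, rdD_comp, rdPull_of_mem _ hx]
  · have hcl : IsClosed (e.symm '' L) := (isCompact_symm_image_sheet hL hLe).1.isClosed
    have hxL : x ∉ e.symm '' L := fun h => hx ((isCompact_symm_image_sheet hL hLe).2 h)
    have h1 : rdPull p e g =ᶠ[𝓝 x] fun _ => (0 : ℂ) := by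
      filter_upwards [hcl.isOpen_compl.mem_nhds hxL] with y hy
      exact rdPull_eq_zero_off he hg hy
    rw [rdD_congr hp h1, rdD_const, rdPull_of_notMem _ hx]

include he hL hLe in
theorem rdDb_rdPull {g : Cn n → ℂ} (hg : ∀ z ∉ L, g z = 0) (j : Fin n) :
    rdDb hp j (rdPull p e g) = rdPull p e (dzb j g) := by
  funext x
  by_cases hx : x ∈ e.source
  · have h1 : rdPull p e g =ᶠ[𝓝 x] fun y => g (p y) := by
      filter_upwards [e.open_source.mem_nhds hx] with y hy
      exact rdPull_of_mem g hy
    rw [rdDb_congr hp h1, rdDb_comp, rdPull_of_mem _ hx]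
  · have hcl : IsClosed (e.symm '' L) := (isCompact_symm_image_sheet hL hLe).1.isClosed
    have hxL : x ∉ e.symm '' L := fun h => hx ((isCompact_symm_image_sheet hL hLe).2 h)
    have h1 : rdPull p e g =ᶠ[𝓝 x] fun _ => (0 : ℂ) := by
      filter_upwards [hcl.isOpen_compl.mem_nhds hxL] with y hy
      exact rdPull_eq_zero_off he hg hy
    rw [rdDb_congr hp h1, rdDb_const, rdPull_of_notMem _ hx]

end pull

section pullInt
variable [SecondCountableTopology W] [MeasurableSpace W] [BorelSpace W]

include hp he in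
theorem lintegral_rdPull {g : Cn n → ℝ≥0∞} (hg : ∀ z ∉ e.target, g z = 0) :
    ∫⁻ x, rdPull p e g x ∂(rdVol p) = ∫⁻ z, g z := by
  have h1 : ∫⁻ x, rdPull p e g x ∂(rdVol p) = ∫⁻ x in e.source, g (p x) ∂(rdVol p) :=
    lintegral_indicator e.open_source.measurableSet _
  have h2 : ∫⁻ z, g z = ∫⁻ z in e.target, g z := by
    rw [← lintegral_indicator e.open_target.measurableSet]
    congr 1
    funext z
    by_cases hz : z ∈ e.target
    · rw [Set.indicator_of_mem hz]
    · rw [Set.indicator_of_notMem hz, hg z hz]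
  rw [h1, h2, lintegral_sheet' hp he]

include hp he in
theorem integral_rdPull {F : Type*} [NormedAddCommGroup F] [NormedSpace ℝ F] {g : Cn n → F}
    (hg : ∀ z ∉ e.target, g z = 0) : ∫ x, rdPull p e g x ∂(rdVol p) = ∫ z, g z := by
  have h1 : ∫ x, rdPull p e g x ∂(rdVol p) = ∫ x in e.source, g (p x) ∂(rdVol p) :=
    integral_indicator e.open_source.measurableSet
  have h2 : ∫ z, g z = ∫ z in e.target, g z := by
    rw [← integral_indicator e.open_target.measurableSet]
    congr 1
    funext z
    by_cases hz : z ∈ e.target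
    · rw [Set.indicator_of_mem hz]
    · rw [Set.indicator_of_notMem hz, hg z hz]
  rw [h1, h2, integral_sheet' hp he]

end pullInt

/-! ### 3. Bump functions, cut-offs, partitions of unity -/

section bump
variable [T2Space W]

/-- smooth bump function at `x` supported in a given neighbourhood. -/
theorem exists_rd_bump (x : W) {U : Set W} (hU : U ∈ 𝓝 x) :
    ∃ b : W → ℝ, RdContDiff hp ∞ b ∧ HasCompactSupport b ∧ tsupport b ⊆ U ∧
      (∀ y, 0 ≤ b y ∧ b y ≤ 1) ∧ b =ᶠ[𝓝 x] fun _ => 1 := by
  set e := rdSheet hp x with he_def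
  have he : IsSheet p e := isSheet_rdSheet hp x
  have hx : x ∈ e.source := mem_rdSheet_source hp x
  have hpx : p x ∈ e.target := by
    have := e.map_source hx
    rwa [he] at this
  -- an open neighbourhood of `p x` in the target whose pull-back lies in `U`
  have hN : e.target ∩ e.symm ⁻¹' (interior U) ∈ 𝓝 (p x) := by
    have hopen : IsOpen (e.target ∩ e.symm ⁻¹' (interior U)) :=
      e.isOpen_inter_preimage_symm isOpen_interior
    refine hopen.mem_nhds ⟨hpx, ?_⟩
    show e.symm (p x) ∈ interior U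
    rw [he.symm_apply hx]
    exact mem_interior_iff_mem_nhds.2 hU
  obtain ⟨r, hr, hball⟩ := Metric.nhds_basis_closedBall.mem_iff.1 hN
  let f : ContDiffBump (p x) := ⟨r / 2, r, by positivity, by linarith⟩
  have hL : IsCompact (Metric.closedBall (p x) r) := isCompact_closedBall _ _
  have hLe : Metric.closedBall (p x) r ⊆ e.target := fun z hz => (hball hz).1
  have hg : ∀ z ∉ Metric.closedBall (p x) r, f z = 0 := by
    intro z hz
    apply f.zero_of_le_dist
    rw [Metric.mem_closedBall, not_le] at hz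
    exact hz.le
  refine ⟨rdPull p e f, rdContDiff_rdPull hp he hL hLe hg f.contDiff,
    hasCompactSupport_rdPull he hL hLe hg, ?_, ?_, ?_⟩
  · refine (tsupport_rdPull_subset he hL hLe hg).trans ?_
    rintro _ ⟨z, hz, rfl⟩
    exact interior_subset (hball hz).2
  · intro y
    by_cases hy : y ∈ e.source
    · rw [rdPull_of_mem _ hy]
      exact ⟨f.nonneg, f.le_one⟩
    · rw [rdPull_of_notMem _ hy]
      exact ⟨le_rfl, zero_le_one⟩
  · have hc : ContinuousAt p x := hp.continuous.continuousAt
    have h1 : ∀ᶠ y in 𝓝 x, p y ∈ Metric.closedBall (p x) (r / 2) :=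
      hc (Metric.closedBall_mem_nhds _ (by positivity))
    filter_upwards [h1, e.open_source.mem_nhds hx] with y hy hys
    rw [rdPull_of_mem _ hys]
    exact f.one_of_mem_closedBall hy

omit [T2Space W] in
/-- finite products of real `C^k` functions. -/
theorem rdContDiff_prod_real {k : WithTop ℕ∞} {ι : Type*} (s : Finset ι) {u : ι → W → ℝ}
    (hu : ∀ i ∈ s, RdContDiff hp k (u i)) : RdContDiff hp k (fun y => ∏ i ∈ s, u i y) := by
  classical
  induction s using Finset.induction_on with
  | empty => simpa using rdContDiff_const hp (1 : ℝ)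
  | insert a s ha ih =>
    have h1 := (hu a (Finset.mem_insert_self a s)).mul_real hp
      (ih fun i hi => hu i (Finset.mem_insert_of_mem hi))
    have h2 : (fun y => ∏ i ∈ insert a s, u i y) = fun y => u a y * ∏ i ∈ s, u i y := by
      funext y
      rw [Finset.prod_insert ha]
    rw [h2]
    exact h1

/-- finite smooth partition of unity near a compact set, subordinate to sheets inside `U`. -/
theorem exists_rd_partition {K U : Set W} (hK : IsCompact K) (hU : IsOpen U) (hKU : K ⊆ U) :
    ∃ (m : ℕ) (e : Fin m → OpenPartialHomeomorph W (Cn n)) (χ : Fin m → W → ℝ),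
      (∀ i, IsSheet p (e i)) ∧ (∀ i, RdContDiff hp ∞ (χ i)) ∧ (∀ i, HasCompactSupport (χ i)) ∧
      (∀ i, tsupport (χ i) ⊆ (e i).source ∩ U) ∧ (∀ i y, 0 ≤ χ i y) ∧ (∀ y, ∑ i, χ i y ≤ 1) ∧
      ∀ᶠ y in 𝓝ˢ K, ∑ i, χ i y = 1 := by
  classical
  -- bumps at the points of `W`
  have hb : ∀ x : W, ∃ b : W → ℝ, RdContDiff hp ∞ b ∧ HasCompactSupport b ∧
      (x ∈ K → tsupport b ⊆ (rdSheet hp x).source ∩ U) ∧
      (∀ y, 0 ≤ b y ∧ b y ≤ 1) ∧ b =ᶠ[𝓝 x] fun _ => 1 := by
    intro x
    by_cases hx : x ∈ K
    · have hN : (rdSheet hp x).source ∩ U ∈ 𝓝 x :=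
        Filter.inter_mem ((rdSheet hp x).open_source.mem_nhds (mem_rdSheet_source hp x))
          (hU.mem_nhds (hKU hx))
      obtain ⟨b, h1, h2, h3, h4, h5⟩ := exists_rd_bump hp x hN
      exact ⟨b, h1, h2, fun _ => h3, h4, h5⟩
    · obtain ⟨b, h1, h2, _, h4, h5⟩ := exists_rd_bump hp x Filter.univ_mem
      exact ⟨b, h1, h2, fun h => absurd h hx, h4, h5⟩
  choose b hb1 hb2 hb3 hb4 hb5 using hb
  obtain ⟨t, htK, hcov⟩ := hK.elim_nhds_subcover (fun x => interior {y | b x y = 1})
    (fun x _ => interior_mem_nhds.2 (hb5 x))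
  let x : Fin t.card → W := fun i => (t.equivFin.symm i : W)
  have hxK : ∀ i, x i ∈ K := fun i => htK _ (t.equivFin.symm i).2
  let χ : Fin t.card → W → ℝ := fun i y =>
    b (x i) y * ∏ j ∈ Finset.univ with j < i, (1 - b (x j) y)
  have hsum : ∀ y, ∑ i, χ i y = 1 - ∏ i, (1 - b (x i) y) := by
    intro y
    have := Finset.prod_one_sub_ordered (Finset.univ : Finset (Fin t.card)) (fun i => b (x i) y)
    rw [this]
    ring
  refine ⟨t.card, fun i => rdSheet hp (x i), χ, fun i => isSheet_rdSheet hp _, ?_, ?_, ?_, ?_, ?_,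
    ?_⟩
  · intro i
    exact (hb1 (x i)).mul_real hp (rdContDiff_prod_real hp _
      fun j _ => (rdContDiff_const hp (1 : ℝ)).sub hp (hb1 (x j)))
  · intro i
    exact (hb2 (x i)).mul_right
  · intro i
    exact (tsupport_mul_subset_left (f := b (x i))).trans (hb3 (x i) (hxK i))
  · intro i y
    exact mul_nonneg (hb4 (x i) y).1
      (Finset.prod_nonneg fun j _ => sub_nonneg.2 (hb4 (x j) y).2)
  · intro y
    rw [hsum y]
    have : 0 ≤ ∏ i, (1 - b (x i) y) := Finset.prod_nonneg fun j _ => sub_nonneg.2 (hb4 (x j) y).2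
    linarith
  · have hopen : IsOpen (⋃ z ∈ t, interior {y | b z y = 1}) :=
      isOpen_biUnion fun _ _ => isOpen_interior
    filter_upwards [hopen.mem_nhdsSet.2 hcov] with y hy
    rw [hsum y]
    obtain ⟨z, hz, hyz⟩ := Set.mem_iUnion₂.1 hy
    have h1 : y ∈ {y | b z y = 1} := interior_subset hyz
    have h1 : b z y = 1 := h1
    have h2 : x (t.equivFin ⟨z, hz⟩) = z := by
      show ((t.equivFin.symm (t.equivFin ⟨z, hz⟩) : t) : W) = z
      rw [Equiv.symm_apply_apply]
    have h3 : ∏ i, (1 - b (x i) y) = 0 := by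
      refine Finset.prod_eq_zero (Finset.mem_univ (t.equivFin ⟨z, hz⟩)) ?_
      rw [h2, h1, sub_self]
    rw [h3, sub_zero]

/-- smooth cut-off equal to `1` near a compact set. -/
theorem exists_rd_cutoff {K U : Set W} (hK : IsCompact K) (hU : IsOpen U) (hKU : K ⊆ U) :
    ∃ χ : W → ℝ, RdContDiff hp ∞ χ ∧ HasCompactSupport χ ∧ tsupport χ ⊆ U ∧
      (∀ y, 0 ≤ χ y ∧ χ y ≤ 1) ∧ ∀ᶠ y in 𝓝ˢ K, χ y = 1 := by
  obtain ⟨m, e, χ, _, h2, h3, h4, h5, h6, h7⟩ := exists_rd_partition hp hK hU hKU
  have hcpt : IsCompact (⋃ i, tsupport (χ i)) := isCompact_iUnion fun i => h3 i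
  have hsupp : Function.support (fun y => ∑ i, χ i y) ⊆ ⋃ i, tsupport (χ i) := by
    intro y hy
    by_contra hne
    apply hy
    refine Finset.sum_eq_zero fun i _ => ?_
    by_contra h0
    exact hne (Set.mem_iUnion.2 ⟨i, subset_tsupport _ h0⟩)
  refine ⟨fun y => ∑ i, χ i y, RdContDiff.sum hp _ fun i _ => h2 i,
    HasCompactSupport.of_support_subset_isCompact hcpt hsupp, ?_, ?_, h7⟩
  · refine (closure_minimal hsupp hcpt.isClosed).trans ?_
    exact Set.iUnion_subset fun i => (h4 i).trans Set.inter_subset_right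
  · intro y
    exact ⟨Finset.sum_nonneg fun i _ => h5 i y, h6 y⟩

end bump

end Claimed.Agent.R242
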