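/-
Row 242, SCV layer, RD kit 4/5.  RdIbp: integration by parts on `Cn n` and on a Riemann domain; classical
derivatives are weak derivatives.
Blueprint: helper290.  Leaves: SCV-RD-IBP-A (sections 1,2), SCV-RD-IBP-B (section 3).
RdGerm, RdMeas, RdSheet, WirtA/B may be used while sorried.

Plan.
* section 1: `integral_mul_fderiv_eq_neg_fderiv_mul_of_integrable` (Mathlib, `𝕜 = ℂ`‑valued functions on the real
  space `Cn n`, `μ = volume`) with `f = 1` on a neighbourhood... simpler: apply it to `f = g`, `g = θ` a bump equal to 1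
  on `tsupport g`; or apply it directly to the pair `(u, v)` (all three products are continuous with compact support).
  `dz`, `dzb` are ℂ-linear combinations of `fderiv ℝ g z (single j 1)`, `fderiv ℝ g z (single j I)`.
* section 2: `w ∈ C¹_c(W)`, `K = tsupport w`, partition of unity `χ_i` of `exists_rd_partition`:
  `w = ∑ χ_i w`, `rdD j w = ∑ rdD j (χ_i w)`, each `χ_i w` is supported in a compact subset of the sheet `e i`:
  `∫ rdD j (χ_i w) = ∫ rdPush (rdD j (χ_i w)) = ∫ dz j (rdPush (χ_i w)) = 0`.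
* section 3: Leibniz (`rdD_mul`) + section 2.
-/
import Claimed.Agent.R242.SCV.RdSheet

open MeasureTheory Complex Filter
open scoped ContDiff ComplexConjugate ENNReal Topology

set_option linter.unusedSectionVars false

namespace Claimed.Agent.R242

/-! ### 1. `Cn n` -/

section Euclid
variable {n : ℕ}

theorem rdIbp_continuous_fderiv_apply {g : Cn n → ℂ} (hg : ContDiff ℝ 1 g) (v : Cn n) :
    Continuous fun z => fderiv ℝ g z v :=
  (hg.continuous_fderiv one_ne_zero).clm_apply continuous_const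

theorem rdIbp_integrable_fderiv_apply {g : Cn n → ℂ} (hg : ContDiff ℝ 1 g) (hc : HasCompactSupport g)
    (v : Cn n) : Integrable fun z => fderiv ℝ g z v :=
  (rdIbp_continuous_fderiv_apply hg v).integrable_of_hasCompactSupport (hc.fderiv_apply (𝕜 := ℝ) v)

theorem rdIbp_integral_fderiv_apply {g : Cn n → ℂ} (hg : ContDiff ℝ 1 g) (hc : HasCompactSupport g)
    (v : Cn n) : ∫ z, fderiv ℝ g z v = 0 := by
  have h := integral_mul_fderiv_eq_neg_fderiv_mul_of_integrable (μ := (volume : Measure (Cn n)))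
    (f := fun _ : Cn n => (1 : ℂ)) (g := g) (v := v) (by simp)
    (by simpa using rdIbp_integrable_fderiv_apply hg hc v)
    (by simpa using hg.continuous.integrable_of_hasCompactSupport hc)
    (fun x _ => differentiableAt_const _) (fun x _ => (hg.differentiable one_ne_zero) x)
  simpa using h

theorem rdIbp_continuous_dz {g : Cn n → ℂ} (hg : ContDiff ℝ 1 g) (j : Fin n) : Continuous (dz j g) := by
  unfold dz
  exact ((rdIbp_continuous_fderiv_apply hg _).sub
    (continuous_const.mul (rdIbp_continuous_fderiv_apply hg _))).div_const _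

theorem rdIbp_continuous_dzb {g : Cn n → ℂ} (hg : ContDiff ℝ 1 g) (j : Fin n) : Continuous (dzb j g) := by
  unfold dzb
  exact ((rdIbp_continuous_fderiv_apply hg _).add
    (continuous_const.mul (rdIbp_continuous_fderiv_apply hg _))).div_const _

theorem integral_dz_eq_zero {g : Cn n → ℂ} (hg : ContDiff ℝ 1 g) (hc : HasCompactSupport g)
    (j : Fin n) : ∫ z, dz j g z = 0 := by
  unfold dz
  rw [integral_div, integral_sub (rdIbp_integrable_fderiv_apply hg hc _)
    ((rdIbp_integrable_fderiv_apply hg hc _).const_mul _), integral_const_mul,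
    rdIbp_integral_fderiv_apply hg hc, rdIbp_integral_fderiv_apply hg hc]
  simp

theorem integral_dzb_eq_zero {g : Cn n → ℂ} (hg : ContDiff ℝ 1 g) (hc : HasCompactSupport g)
    (j : Fin n) : ∫ z, dzb j g z = 0 := by
  unfold dzb
  rw [integral_div, integral_add (rdIbp_integrable_fderiv_apply hg hc _)
    ((rdIbp_integrable_fderiv_apply hg hc _).const_mul _), integral_const_mul,
    rdIbp_integral_fderiv_apply hg hc, rdIbp_integral_fderiv_apply hg hc]
  simp

theorem integral_dz_mul {u v : Cn n → ℂ} (hu : ContDiff ℝ 1 u) (hv : ContDiff ℝ 1 v)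
    (hc : HasCompactSupport v) (j : Fin n) :
    ∫ z, dz j u z * v z = - ∫ z, u z * dz j v z := by
  have h0 := integral_dz_eq_zero (hu.mul hv) (hc.mul_left (f := u)) j
  have h1 : dz j (fun x => u x * v x) = fun z => dz j u z * v z + u z * dz j v z := by
    funext z
    exact dz_mul (hu.differentiable one_ne_zero z) (hv.differentiable one_ne_zero z)
  have i1 : Integrable fun z => dz j u z * v z :=
    ((rdIbp_continuous_dz hu j).mul hv.continuous).integrable_of_hasCompactSupport hc.mul_left
  have hcd : HasCompactSupport (dz j v) := by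
    refine HasCompactSupport.intro hc fun z hz => ?_
    have : v =ᶠ[𝓝 z] fun _ => 0 := by
      filter_upwards [(isClosed_tsupport v).isOpen_compl.mem_nhds hz] with y hy
      exact image_eq_zero_of_notMem_tsupport hy
    rw [dz_congr this j, dz_const]
  have i2 : Integrable fun z => u z * dz j v z :=
    (hu.continuous.mul (rdIbp_continuous_dz hv j)).integrable_of_hasCompactSupport hcd.mul_left
  rw [h1, integral_add i1 i2] at h0
  exact eq_neg_of_add_eq_zero_left h0

theorem integral_dzb_mul {u v : Cn n → ℂ} (hu : ContDiff ℝ 1 u) (hv : ContDiff ℝ 1 v)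
    (hc : HasCompactSupport v) (j : Fin n) :
    ∫ z, dzb j u z * v z = - ∫ z, u z * dzb j v z := by
  have h0 := integral_dzb_eq_zero (hu.mul hv) (hc.mul_left (f := u)) j
  have h1 : dzb j (fun x => u x * v x) = fun z => dzb j u z * v z + u z * dzb j v z := by
    funext z
    exact dzb_mul (hu.differentiable one_ne_zero z) (hv.differentiable one_ne_zero z)
  have i1 : Integrable fun z => dzb j u z * v z :=
    ((rdIbp_continuous_dzb hu j).mul hv.continuous).integrable_of_hasCompactSupport hc.mul_left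
  have hcd : HasCompactSupport (dzb j v) := by
    refine HasCompactSupport.intro hc fun z hz => ?_
    have : v =ᶠ[𝓝 z] fun _ => 0 := by
      filter_upwards [(isClosed_tsupport v).isOpen_compl.mem_nhds hz] with y hy
      exact image_eq_zero_of_notMem_tsupport hy
    rw [dzb_congr this j, dzb_const]
  have i2 : Integrable fun z => u z * dzb j v z :=
    (hu.continuous.mul (rdIbp_continuous_dzb hv j)).integrable_of_hasCompactSupport hcd.mul_left
  rw [h1, integral_add i1 i2] at h0
  exact eq_neg_of_add_eq_zero_left h0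

theorem rdIbp_ofReal_sq (c : ℂ) : ENNReal.ofReal (‖c‖ ^ 2) = ((‖c‖₊ ^ 2 : NNReal) : ℝ≥0∞) := by
  rw [ENNReal.ofReal, ENNReal.coe_inj]
  ext
  simp

end Euclid


variable {n : ℕ} {W : Type*} [TopologicalSpace W] [T2Space W] [SecondCountableTopology W]
  [MeasurableSpace W] [BorelSpace W] {p : W → Cn n} (hp : IsLocalHomeomorph p)

include hp

/-! ### 2. `∫ ∂_j w = 0` on `W` -/

/-- continuous functions with compact support are integrable. -/
theorem integrable_of_continuous_compactSupport {F : Type*} [NormedAddCommGroup F] {w : W → F}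
    (hw : Continuous w) (hc : HasCompactSupport w) : Integrable w (rdVol p) := by
  have := rdVol_isFiniteMeasureOnCompacts hp
  exact hw.integrable_of_hasCompactSupport hc

theorem RdTest.hasCompactSupport_rdD {w : W → ℂ} (hw : HasCompactSupport w) (j : Fin n) :
    HasCompactSupport (rdD hp j w) :=
  HasCompactSupport.intro hw
    (rdD_eq_zero_off hp (isClosed_tsupport w) (fun _ hx => image_eq_zero_of_notMem_tsupport hx) j)

theorem RdTest.hasCompactSupport_rdDb {w : W → ℂ} (hw : HasCompactSupport w) (j : Fin n) :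
    HasCompactSupport (rdDb hp j w) :=
  HasCompactSupport.intro hw
    (rdDb_eq_zero_off hp (isClosed_tsupport w) (fun _ hx => image_eq_zero_of_notMem_tsupport hx) j)

theorem RdTest.rdD {k m : WithTop ℕ∞} {w : W → ℂ} (hw : RdTest hp m w) (h : k + 1 ≤ m)
    (j : Fin n) : RdTest hp k (Claimed.Agent.R242.rdD hp j w) :=
  ⟨RdContDiff.rdD hp hw.1 h j, RdTest.hasCompactSupport_rdD hp hw.2 j⟩

theorem RdTest.rdDb {k m : WithTop ℕ∞} {w : W → ℂ} (hw : RdTest hp m w) (h : k + 1 ≤ m)
    (j : Fin n) : RdTest hp k (Claimed.Agent.R242.rdDb hp j w) :=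
  ⟨RdContDiff.rdDb hp hw.1 h j, RdTest.hasCompactSupport_rdDb hp hw.2 j⟩

theorem RdTest.mul_left {k : WithTop ℕ∞} {u w : W → ℂ} (hu : RdContDiff hp k u)
    (hw : RdTest hp k w) : RdTest hp k (fun x => u x * w x) :=
  ⟨RdContDiff.mul hp hu hw.1, hw.2.mul_left⟩

/-- a `C¹` function supported in a compact subset of a sheet -/
theorem rdIbp_integral_rdD_sheet {e : OpenPartialHomeomorph W (Cn n)} (he : IsSheet p e) {K : Set W}
    (hK : IsCompact K) (hKe : K ⊆ e.source) {w : W → ℂ} (hw : RdContDiff hp 1 w) (h0 : ∀ x ∉ K, w x = 0)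
    (j : Fin n) : ∫ x, rdD hp j w x ∂(rdVol p) = 0 := by
  have h1 : ∀ x ∉ e.source, rdD hp j w x = 0 := fun x hx =>
    rdD_eq_zero_off hp hK.isClosed h0 j x fun hxK => hx (hKe hxK)
  rw [← integral_rdPush hp he h1, ← dz_rdPush hp he hK hKe h0 j]
  exact integral_dz_eq_zero (contDiff_rdPush hp he hK hKe h0 hw) (hasCompactSupport_rdPush he hK hKe h0) j

theorem rdIbp_integral_rdDb_sheet {e : OpenPartialHomeomorph W (Cn n)} (he : IsSheet p e) {K : Set W}
    (hK : IsCompact K) (hKe : K ⊆ e.source) {w : W → ℂ} (hw : RdContDiff hp 1 w) (h0 : ∀ x ∉ K, w x = 0)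
    (j : Fin n) : ∫ x, rdDb hp j w x ∂(rdVol p) = 0 := by
  have h1 : ∀ x ∉ e.source, rdDb hp j w x = 0 := fun x hx =>
    rdDb_eq_zero_off hp hK.isClosed h0 j x fun hxK => hx (hKe hxK)
  rw [← integral_rdPush hp he h1, ← dzb_rdPush hp he hK hKe h0 j]
  exact integral_dzb_eq_zero (contDiff_rdPush hp he hK hKe h0 hw) (hasCompactSupport_rdPush he hK hKe h0) j

/-- decomposition of a test function by a partition of unity subordinate to sheets -/
theorem rdIbp_decomp {w : W → ℂ} (hw : RdTest hp 1 w) :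
    ∃ (m : ℕ) (e : Fin m → OpenPartialHomeomorph W (Cn n)) (K : Fin m → Set W) (wi : Fin m → W → ℂ),
      (∀ i, IsSheet p (e i)) ∧ (∀ i, IsCompact (K i)) ∧ (∀ i, K i ⊆ (e i).source) ∧
      (∀ i, RdContDiff hp 1 (wi i)) ∧ (∀ i, ∀ x ∉ K i, wi i x = 0) ∧ w = fun x => ∑ i, wi i x := by
  obtain ⟨m, e, χ, he, hχ, hχc, hχs, -, -, hsum⟩ :=
    exists_rd_partition hp hw.2 isOpen_univ (Set.subset_univ _)
  refine ⟨m, e, fun i => tsupport (χ i), fun i x => (χ i x : ℂ) * w x, he, hχc,
    fun i => (hχs i).trans Set.inter_subset_left, fun i => ?_, fun i x hx => ?_, ?_⟩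
  · exact RdContDiff.mul hp (RdContDiff.ofReal hp (RdContDiff.of_le hp (hχ i) (by exact_mod_cast le_top))) hw.1
  · show (χ i x : ℂ) * w x = 0
    rw [image_eq_zero_of_notMem_tsupport hx]
    simp
  · funext x
    rw [← Finset.sum_mul]
    by_cases hx : x ∈ tsupport w
    · have h1 : ∑ i, χ i x = 1 := (Filter.Eventually.self_of_nhdsSet hsum) x hx
      have h2 : ∑ i, (χ i x : ℂ) = 1 := by exact_mod_cast h1
      rw [h2, one_mul]
    · rw [image_eq_zero_of_notMem_tsupport hx, mul_zero]

theorem integral_rdD_eq_zero {w : W → ℂ} (hw : RdTest hp 1 w) (j : Fin n) :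
    ∫ x, rdD hp j w x ∂(rdVol p) = 0 := by
  obtain ⟨m, e, K, wi, he, hK, hKe, hwi, h0, rfl⟩ := rdIbp_decomp hp hw
  have h1 : rdD hp j (fun x => ∑ i, wi i x) = fun x => ∑ i, rdD hp j (wi i) x := by
    funext x
    exact rdD_sum hp Finset.univ wi fun i _ => hwi i x
  rw [h1, integral_finsetSum]
  · exact Finset.sum_eq_zero fun i _ => rdIbp_integral_rdD_sheet hp (he i) (hK i) (hKe i) (hwi i) (h0 i) j
  · intro i _
    exact integrable_of_continuous_compactSupport hp
      (RdContDiff.continuous hp (RdContDiff.rdD hp (k := 0) (hwi i) (by simp) j))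
      (HasCompactSupport.intro (hK i) (rdD_eq_zero_off hp (hK i).isClosed (h0 i) j))

theorem integral_rdDb_eq_zero {w : W → ℂ} (hw : RdTest hp 1 w) (j : Fin n) :
    ∫ x, rdDb hp j w x ∂(rdVol p) = 0 := by
  obtain ⟨m, e, K, wi, he, hK, hKe, hwi, h0, rfl⟩ := rdIbp_decomp hp hw
  have h1 : rdDb hp j (fun x => ∑ i, wi i x) = fun x => ∑ i, rdDb hp j (wi i) x := by
    funext x
    exact rdDb_sum hp Finset.univ wi fun i _ => hwi i x
  rw [h1, integral_finsetSum]
  · exact Finset.sum_eq_zero fun i _ => rdIbp_integral_rdDb_sheet hp (he i) (hK i) (hKe i) (hwi i) (h0 i) j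
  · intro i _
    exact integrable_of_continuous_compactSupport hp
      (RdContDiff.continuous hp (RdContDiff.rdDb hp (k := 0) (hwi i) (by simp) j))
      (HasCompactSupport.intro (hK i) (rdDb_eq_zero_off hp (hK i).isClosed (h0 i) j))

/-! ### 3. Integration by parts, classical ⇒ weak -/

theorem integral_rdD_mul {u v : W → ℂ} (hu : RdContDiff hp 1 u) (hv : RdTest hp 1 v) (j : Fin n) :
    ∫ x, rdD hp j u x * v x ∂(rdVol p) = - ∫ x, u x * rdD hp j v x ∂(rdVol p) := by
  have h0 := integral_rdD_eq_zero hp (RdTest.mul_left hp hu hv) j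
  have h1 : rdD hp j (fun x => u x * v x) = fun x => rdD hp j u x * v x + u x * rdD hp j v x := by
    funext x
    exact rdD_mul hp (hu x) (hv.1 x)
  have i1 : Integrable (fun x => rdD hp j u x * v x) (rdVol p) :=
    integrable_of_continuous_compactSupport hp
      ((RdContDiff.continuous hp (RdContDiff.rdD hp (k := 0) hu (by simp) j)).mul
        (RdContDiff.continuous hp hv.1)) hv.2.mul_left
  have i2 : Integrable (fun x => u x * rdD hp j v x) (rdVol p) :=
    integrable_of_continuous_compactSupport hp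
      ((RdContDiff.continuous hp hu).mul
        (RdContDiff.continuous hp (RdContDiff.rdD hp (k := 0) hv.1 (by simp) j)))
      (RdTest.hasCompactSupport_rdD hp hv.2 j).mul_left
  rw [h1, integral_add i1 i2] at h0
  exact eq_neg_of_add_eq_zero_left h0

theorem integral_rdDb_mul {u v : W → ℂ} (hu : RdContDiff hp 1 u) (hv : RdTest hp 1 v)
    (j : Fin n) :
    ∫ x, rdDb hp j u x * v x ∂(rdVol p) = - ∫ x, u x * rdDb hp j v x ∂(rdVol p) := by
  have h0 := integral_rdDb_eq_zero hp (RdTest.mul_left hp hu hv) j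
  have h1 : rdDb hp j (fun x => u x * v x) = fun x => rdDb hp j u x * v x + u x * rdDb hp j v x := by
    funext x
    exact rdDb_mul hp (hu x) (hv.1 x)
  have i1 : Integrable (fun x => rdDb hp j u x * v x) (rdVol p) :=
    integrable_of_continuous_compactSupport hp
      ((RdContDiff.continuous hp (RdContDiff.rdDb hp (k := 0) hu (by simp) j)).mul
        (RdContDiff.continuous hp hv.1)) hv.2.mul_left
  have i2 : Integrable (fun x => u x * rdDb hp j v x) (rdVol p) :=
    integrable_of_continuous_compactSupport hp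
      ((RdContDiff.continuous hp hu).mul
        (RdContDiff.continuous hp (RdContDiff.rdDb hp (k := 0) hv.1 (by simp) j)))
      (RdTest.hasCompactSupport_rdDb hp hv.2 j).mul_left
  rw [h1, integral_add i1 i2] at h0
  exact eq_neg_of_add_eq_zero_left h0

/-- classical `∂̄` is weak `∂̄` (this is `rdWeakDbar_of_contDiff` of Main.lean). -/
theorem rdWeakDbarK_of_contDiff {g : W → ℂ} (hg : RdContDiff hp 1 g) {k : WithTop ℕ∞}
    (hk : 1 ≤ k) : RdWeakDbarK hp k g (fun j => rdDb hp j g) := by
  intro v hv j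
  have h := integral_rdDb_mul hp hg ⟨RdContDiff.of_le hp hv.1 hk, hv.2⟩ j
  rw [h, neg_neg]

/-- `∂̄ g` is weakly closed. -/
theorem rdWeakClosed_of_contDiff {g : W → ℂ} (hg : RdContDiff hp 2 g) :
    RdWeakClosed hp (fun j => rdDb hp j g) := by
  intro v hv j k
  have hv1 : RdTest hp 1 v := ⟨RdContDiff.of_le hp hv.1 (by exact_mod_cast le_top), hv.2⟩
  have h12 : (1 : WithTop ℕ∞) + 1 ≤ 2 := by norm_num
  have h1 := integral_rdDb_mul hp (RdContDiff.rdDb hp hg h12 j) hv1 k
  have h2 := integral_rdDb_mul hp (RdContDiff.rdDb hp hg h12 k) hv1 j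
  have h3 : (fun x => rdDb hp k (rdDb hp j g) x * v x) = fun x => rdDb hp j (rdDb hp k g) x * v x := by
    funext x
    rw [rdDb_rdDb_comm hp (hg x) k j]
  rw [h3, h2, neg_inj] at h1
  exact h1.symm

/-- continuous functions are locally `L²`. -/
theorem rdL2Loc_of_continuous {g : W → ℂ} (hg : Continuous g) : RdL2Loc p g := by
  have := rdVol_isFiniteMeasureOnCompacts hp
  refine ⟨hg.aestronglyMeasurable, fun K hK => ?_⟩
  simp only [rdIbp_ofReal_sq]
  exact setLIntegral_lt_top_of_isCompact hK.measure_lt_top.ne hK (hg.nnnorm.pow 2)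

theorem rdIbp_memLp {g : W → ℂ} (hg : RdL2Loc p g) {K : Set W} (hK : IsCompact K) :
    MemLp g 2 ((rdVol p).restrict K) := by
  refine ⟨hg.1.restrict, ?_⟩
  rw [eLpNorm_lt_top_iff_lintegral_rpow_enorm_lt_top two_ne_zero ENNReal.ofNat_ne_top]
  have h := hg.2 K hK
  refine lt_of_eq_of_lt (lintegral_congr fun x => ?_) h
  rw [rdIbp_ofReal_sq]
  simp [enorm_eq_nnnorm]

/-- locally `L²` functions are locally integrable. -/
theorem RdL2Loc.locallyIntegrable {g : W → ℂ} (hg : RdL2Loc p g) :
    LocallyIntegrable g (rdVol p) := by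
  have := rdVol_isFiniteMeasureOnCompacts hp
  have := rd_locallyCompactSpace hp
  rw [locallyIntegrable_iff]
  intro K hK
  have : IsFiniteMeasure ((rdVol p).restrict K) := ⟨by
    rw [Measure.restrict_apply_univ]
    exact hK.measure_lt_top⟩
  exact (rdIbp_memLp hp hg hK).integrable (by norm_num)

/-- a locally `L²` function times a continuous compactly supported one is integrable. -/
theorem RdL2Loc.integrable_mul {g v : W → ℂ} (hg : RdL2Loc p g) (hv : Continuous v)
    (hc : HasCompactSupport v) : Integrable (fun x => g x * v x) (rdVol p) := by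
  have := rd_locallyCompactSpace hp
  have h1 : IntegrableOn g (tsupport v) (rdVol p) :=
    (locallyIntegrable_iff.1 (RdL2Loc.locallyIntegrable hp hg)) _ hc
  obtain ⟨C, hC⟩ := hc.exists_bound_of_continuous hv
  have h2 : IntegrableOn (fun x => g x * v x) (tsupport v) (rdVol p) :=
    Integrable.mul_bdd (c := C) h1 hv.aestronglyMeasurable (Filter.Eventually.of_forall hC)
  refine (integrableOn_iff_integrable_of_support_subset ?_).1 h2
  intro x hx
  by_contra hxv
  exact hx (by simp [image_eq_zero_of_notMem_tsupport hxv])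

/-- `L²(e^{-φ})` with `φ` continuous is contained in `L²_loc`. -/
theorem rdL2Loc_of_lintegral_rdVolW {φ : W → ℝ} (hφ : Continuous φ) {g : W → ℂ}
    (hm : AEStronglyMeasurable g (rdVol p))
    (hg : ∫⁻ x, ENNReal.ofReal (‖g x‖ ^ 2) ∂(rdVolW p φ) < ⊤) : RdL2Loc p g := by
  refine ⟨hm, fun K hK => ?_⟩
  rw [lintegral_rdVolW hφ.measurable] at hg
  obtain ⟨C, hC⟩ := hK.exists_bound_of_continuousOn hφ.continuousOn
  have hle : ∀ x ∈ K, ENNReal.ofReal (‖g x‖ ^ 2) ≤
      ENNReal.ofReal (Real.exp C) * (ENNReal.ofReal (Real.exp (-φ x)) * ENNReal.ofReal (‖g x‖ ^ 2)) := by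
    intro x hx
    rw [← mul_assoc, ← ENNReal.ofReal_mul (Real.exp_pos _).le, ← Real.exp_add]
    have h1 : (1 : ℝ) ≤ Real.exp (C + -φ x) := by
      apply Real.one_le_exp
      have := hC x hx
      rw [Real.norm_eq_abs] at this
      linarith [le_abs_self (φ x)]
    calc ENNReal.ofReal (‖g x‖ ^ 2) = 1 * ENNReal.ofReal (‖g x‖ ^ 2) := (one_mul _).symm
      _ ≤ _ := by
        gcongr
        rw [← ENNReal.ofReal_one]
        exact ENNReal.ofReal_le_ofReal h1
  calc ∫⁻ x in K, ENNReal.ofReal (‖g x‖ ^ 2) ∂(rdVol p)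
      ≤ ∫⁻ x in K, ENNReal.ofReal (Real.exp C) *
          (ENNReal.ofReal (Real.exp (-φ x)) * ENNReal.ofReal (‖g x‖ ^ 2)) ∂(rdVol p) :=
        setLIntegral_mono' hK.measurableSet hle
    _ ≤ ∫⁻ x, ENNReal.ofReal (Real.exp C) *
          (ENNReal.ofReal (Real.exp (-φ x)) * ENNReal.ofReal (‖g x‖ ^ 2)) ∂(rdVol p) :=
        setLIntegral_le_lintegral _ _
    _ = ENNReal.ofReal (Real.exp C) *
          ∫⁻ x, ENNReal.ofReal (Real.exp (-φ x)) * ENNReal.ofReal (‖g x‖ ^ 2) ∂(rdVol p) :=
        lintegral_const_mul' _ _ ENNReal.ofReal_ne_top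
    _ < ⊤ := ENNReal.mul_lt_top ENNReal.ofReal_lt_top hg

end Claimed.Agent.R242
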