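/-
Row 242, SCV layer, RD kit 5b/5.  RdLap: LOCAL APPROXIMATION on a Riemann domain (the only place where
mollifiers meet `W`).   Blueprint: helper290.
Leaves: SCV-RD-LAP-A (section 1), SCV-RD-LAP-B (section 2): PROVED (helper54); SCV-RD-LAP-C (sections 3,4).
All earlier kit files may be used while sorried.

Statement (`rd_lap`): `β ∈ L²(W)ⁿ` vanishing off a compact `K`, with weak divergence `d ∈ L²` and weak curl `h ∈ L²`
(both vanishing off `K`); then there are smooth forms `α_i`, all supported in one compact subset of a given open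
`U ⊇ K`, with `α_i → β`, `div α_i → d`, `curl α_i → h` in `L²(W)`.  Unweighted, constant coefficients.

Plan.
1. weak Leibniz: for `χ` smooth real, `χβ` has weak divergence `χ d + ∑ β_j ∂_j χ` and weak curl
   `χ h_{jk} + β_j ∂̄_k χ - β_k ∂̄_j χ`   (test `β` with `χ v`; `rdD_mul`; integrability by `RdL2Loc.integrable_mul`).
2. push to `Cn n`: if `β, d, h` vanish off a compact `K ⊆ e.source` then `rdPush e β` has `WeakDiv`/`WeakCurl`
   `rdPush e d`, `rdPush e h`.  Given a test function `v` on `Cn n`, take `θ` smooth with compact support in `e.target`,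
   `θ = 1` near `p '' K` (`exists_contDiff_tsupport_subset`‑type lemma / `exists_smooth...` in Mathlib), and test on `W` with
   `rdPull p e (θ v)`;  `rdD_rdPull`, `integral_rdPush`.  `MemLp` transfers by `lintegral_rdPush`.
3. pull back approximants: `eLpNorm (rdPull p e g - w) 2 (rdVol p) = eLpNorm (g - rdPush e w) 2 volume` when
   `g` vanishes off `e.target`, `w` off `e.source`.
4. assembly: partition of unity `χ_i` of `K` inside `U`; `∑ χ_i = 1` near `K` so `∑_i (χ_i d + ∑_j β_j ∂_j χ_i) = d`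
   pointwise (off `K` everything vanishes; on `K`, `∂_j ∑ χ_i = 0`); apply 1, 2, `lap_Cn`, 3 and add
   (`eLpNorm_add_le`, finite sums of sequences tending to `0`).
-/
import Claimed.Agent.R242.SCV.RdIbp
import Claimed.Agent.R242.SCV.Moll

open MeasureTheory Complex Filter
open scoped ContDiff ComplexConjugate ENNReal Topology

namespace Claimed.Agent.R242

variable {n : ℕ} {W : Type*} [TopologicalSpace W] [T2Space W] [SecondCountableTopology W]
  [MeasurableSpace W] [BorelSpace W] {p : W → Cn n} (hp : IsLocalHomeomorph p)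

/-- `∑ ∂_j β_j = d` in the sense of distributions on `W`. -/
def RdWeakDiv (β : Fin n → W → ℂ) (d : W → ℂ) : Prop :=
  ∀ v : W → ℂ, RdTest hp ∞ v →
    ∫ x, ∑ j, β j x * rdD hp j v x ∂(rdVol p) = - ∫ x, d x * v x ∂(rdVol p)

/-- `∂̄_k β_j - ∂̄_j β_k = h_{jk}` in the sense of distributions on `W`. -/
def RdWeakCurl (β : Fin n → W → ℂ) (h : Fin n → Fin n → W → ℂ) : Prop :=
  ∀ v : W → ℂ, RdTest hp ∞ v → ∀ j k,
    ∫ x, (β j x * rdDb hp k v x - β k x * rdDb hp j v x) ∂(rdVol p)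
      = - ∫ x, h j k x * v x ∂(rdVol p)

/-! ### 1. Weak Leibniz rule -/

theorem RdWeakDiv.mul_smooth {β : Fin n → W → ℂ} {d : W → ℂ}
    (hβ : ∀ j, RdL2Loc p (β j)) (hd : RdL2Loc p d) (h : RdWeakDiv hp β d)
    {χ : W → ℝ} (hχ : RdContDiff hp ∞ χ) :
    RdWeakDiv hp (fun j x => (χ x : ℂ) * β j x)
      (fun x => (χ x : ℂ) * d x + ∑ j, β j x * rdD hp j (fun y => (χ y : ℂ)) x) := by
  intro v hv
  have hχc : RdContDiff hp ∞ (fun y => (χ y : ℂ)) := RdContDiff.ofReal hp hχ
  have hχ1 : RdContDiff hp 1 (fun y => (χ y : ℂ)) := hχc.of_le hp (by exact_mod_cast le_top)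
  have hv1 : RdContDiff hp 1 v := hv.1.of_le hp (by exact_mod_cast le_top)
  have htest : RdTest hp ∞ (fun x => (χ x : ℂ) * v x) := RdTest.mul_left hp hχc hv
  have h0 := h _ htest
  have hL : ∀ j x, rdD hp j (fun y => (χ y : ℂ) * v y) x
      = rdD hp j (fun y => (χ y : ℂ)) x * v x + (χ x : ℂ) * rdD hp j v x :=
    fun j x => rdD_mul hp (hχ1 x) (hv1 x)
  simp only [hL] at h0
  -- integrability
  have hcχ : Continuous (fun y => (χ y : ℂ)) := hχc.continuous
  have hcv : Continuous v := hv.1.continuous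
  have hcDv : ∀ j, Continuous (rdD hp j v) := fun j =>
    (hv.1.rdD (k := 0) hp (by exact_mod_cast le_top) j).continuous
  have hcDχ : ∀ j, Continuous (rdD hp j (fun y => (χ y : ℂ))) := fun j =>
    (hχc.rdD (k := 0) hp (by exact_mod_cast le_top) j).continuous
  have i1 : ∀ j, Integrable (fun x => β j x * ((χ x : ℂ) * rdD hp j v x)) (rdVol p) := fun j =>
    RdL2Loc.integrable_mul hp (hβ j) (hcχ.mul (hcDv j))
      (HasCompactSupport.mul_left (RdTest.hasCompactSupport_rdD hp hv.2 j))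
  have i2 : ∀ j, Integrable (fun x => β j x * (rdD hp j (fun y => (χ y : ℂ)) x * v x)) (rdVol p) :=
    fun j => RdL2Loc.integrable_mul hp (hβ j) ((hcDχ j).mul hcv) (HasCompactSupport.mul_left hv.2)
  have i3 : Integrable (fun x => d x * ((χ x : ℂ) * v x)) (rdVol p) :=
    RdL2Loc.integrable_mul hp hd (hcχ.mul hcv) (HasCompactSupport.mul_left hv.2)
  have I1 : Integrable (fun x => ∑ j, β j x * ((χ x : ℂ) * rdD hp j v x)) (rdVol p) :=
    integrable_finsetSum _ fun j _ => i1 j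
  have I2 : Integrable (fun x => ∑ j, β j x * (rdD hp j (fun y => (χ y : ℂ)) x * v x)) (rdVol p) :=
    integrable_finsetSum _ fun j _ => i2 j
  have e0 : (fun x => ∑ j, β j x * (rdD hp j (fun y => (χ y : ℂ)) x * v x
        + (χ x : ℂ) * rdD hp j v x))
      = fun x => (∑ j, β j x * (rdD hp j (fun y => (χ y : ℂ)) x * v x))
        + ∑ j, β j x * ((χ x : ℂ) * rdD hp j v x) := by
    funext x
    rw [← Finset.sum_add_distrib]
    exact Finset.sum_congr rfl fun j _ => by ring
  rw [e0, integral_add I2 I1] at h0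
  have e1 : (fun x => ∑ j, (χ x : ℂ) * β j x * rdD hp j v x)
      = fun x => ∑ j, β j x * ((χ x : ℂ) * rdD hp j v x) := by
    funext x
    exact Finset.sum_congr rfl fun j _ => by ring
  have e2 : (fun x => ((χ x : ℂ) * d x + ∑ j, β j x * rdD hp j (fun y => (χ y : ℂ)) x) * v x)
      = fun x => d x * ((χ x : ℂ) * v x)
        + ∑ j, β j x * (rdD hp j (fun y => (χ y : ℂ)) x * v x) := by
    funext x
    rw [add_mul, Finset.sum_mul]
    congr 1
    · ring
    · exact Finset.sum_congr rfl fun j _ => by ring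
  rw [e1, e2, integral_add i3 I2]
  linear_combination h0

theorem RdWeakCurl.mul_smooth {β : Fin n → W → ℂ} {h : Fin n → Fin n → W → ℂ}
    (hβ : ∀ j, RdL2Loc p (β j)) (hh : ∀ j k, RdL2Loc p (h j k)) (hc : RdWeakCurl hp β h)
    {χ : W → ℝ} (hχ : RdContDiff hp ∞ χ) :
    RdWeakCurl hp (fun j x => (χ x : ℂ) * β j x)
      (fun j k x => (χ x : ℂ) * h j k x + β j x * rdDb hp k (fun y => (χ y : ℂ)) x
        - β k x * rdDb hp j (fun y => (χ y : ℂ)) x) := by
  intro v hv j k
  have hχc : RdContDiff hp ∞ (fun y => (χ y : ℂ)) := RdContDiff.ofReal hp hχ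
  have hχ1 : RdContDiff hp 1 (fun y => (χ y : ℂ)) := hχc.of_le hp (by exact_mod_cast le_top)
  have hv1 : RdContDiff hp 1 v := hv.1.of_le hp (by exact_mod_cast le_top)
  have htest : RdTest hp ∞ (fun x => (χ x : ℂ) * v x) := RdTest.mul_left hp hχc hv
  have h0 := hc _ htest j k
  have hL : ∀ j x, rdDb hp j (fun y => (χ y : ℂ) * v y) x
      = rdDb hp j (fun y => (χ y : ℂ)) x * v x + (χ x : ℂ) * rdDb hp j v x :=
    fun j x => rdDb_mul hp (hχ1 x) (hv1 x)
  simp only [hL] at h0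
  have hcχ : Continuous (fun y => (χ y : ℂ)) := hχc.continuous
  have hcv : Continuous v := hv.1.continuous
  have hcDv : ∀ j, Continuous (rdDb hp j v) := fun j =>
    (hv.1.rdDb (k := 0) hp (by exact_mod_cast le_top) j).continuous
  have hcDχ : ∀ j, Continuous (rdDb hp j (fun y => (χ y : ℂ))) := fun j =>
    (hχc.rdDb (k := 0) hp (by exact_mod_cast le_top) j).continuous
  have i1 : ∀ j k, Integrable (fun x => β j x * ((χ x : ℂ) * rdDb hp k v x)) (rdVol p) :=
    fun j k => RdL2Loc.integrable_mul hp (hβ j) (hcχ.mul (hcDv k))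
      (HasCompactSupport.mul_left (RdTest.hasCompactSupport_rdDb hp hv.2 k))
  have i2 : ∀ j k, Integrable (fun x => β j x * (rdDb hp k (fun y => (χ y : ℂ)) x * v x))
      (rdVol p) :=
    fun j k => RdL2Loc.integrable_mul hp (hβ j) ((hcDχ k).mul hcv)
      (HasCompactSupport.mul_left hv.2)
  have i3 : Integrable (fun x => h j k x * ((χ x : ℂ) * v x)) (rdVol p) :=
    RdL2Loc.integrable_mul hp (hh j k) (hcχ.mul hcv) (HasCompactSupport.mul_left hv.2)
  have e0 : (fun x => β j x * (rdDb hp k (fun y => (χ y : ℂ)) x * v x + (χ x : ℂ) * rdDb hp k v x)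
        - β k x * (rdDb hp j (fun y => (χ y : ℂ)) x * v x + (χ x : ℂ) * rdDb hp j v x))
      = fun x => (β j x * (rdDb hp k (fun y => (χ y : ℂ)) x * v x)
          - β k x * (rdDb hp j (fun y => (χ y : ℂ)) x * v x))
        + (β j x * ((χ x : ℂ) * rdDb hp k v x) - β k x * ((χ x : ℂ) * rdDb hp j v x)) := by
    funext x
    ring
  have I1 : Integrable (fun x => β j x * ((χ x : ℂ) * rdDb hp k v x)
      - β k x * ((χ x : ℂ) * rdDb hp j v x)) (rdVol p) := (i1 j k).sub (i1 k j)
  have I2 : Integrable (fun x => β j x * (rdDb hp k (fun y => (χ y : ℂ)) x * v x)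
      - β k x * (rdDb hp j (fun y => (χ y : ℂ)) x * v x)) (rdVol p) := (i2 j k).sub (i2 k j)
  rw [e0, integral_add I2 I1] at h0
  have e1 : (fun x => (χ x : ℂ) * β j x * rdDb hp k v x - (χ x : ℂ) * β k x * rdDb hp j v x)
      = fun x => β j x * ((χ x : ℂ) * rdDb hp k v x) - β k x * ((χ x : ℂ) * rdDb hp j v x) := by
    funext x
    ring
  have e2 : (fun x => ((χ x : ℂ) * h j k x + β j x * rdDb hp k (fun y => (χ y : ℂ)) x
        - β k x * rdDb hp j (fun y => (χ y : ℂ)) x) * v x)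
      = fun x => h j k x * ((χ x : ℂ) * v x)
        + (β j x * (rdDb hp k (fun y => (χ y : ℂ)) x * v x)
          - β k x * (rdDb hp j (fun y => (χ y : ℂ)) x * v x)) := by
    funext x
    ring
  rw [e1, e2, integral_add i3 I2]
  linear_combination h0

include hp in
theorem memLp_mul_test {u : W → ℂ} (hu : MemLp u 2 (rdVol p)) {v : W → ℂ} (hv : Continuous v)
    (hc : HasCompactSupport v) : MemLp (fun x => u x * v x) 2 (rdVol p) := by
  obtain ⟨C, hC⟩ := hc.exists_bound_of_continuous hv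
  refine hu.of_le_mul (c := C) (hu.1.mul hv.aestronglyMeasurable) (Eventually.of_forall fun x => ?_)
  rw [norm_mul, mul_comm]
  exact mul_le_mul_of_nonneg_right (hC x) (norm_nonneg _)

/-- `∫⁻ ‖u‖²` is finite for `u ∈ L²` -/
theorem rdlap_lintegral_sq_lt_top {X : Type*} [MeasurableSpace X] {μ : Measure X} {u : X → ℂ}
    (hu : MemLp u 2 μ) : ∫⁻ x, ENNReal.ofReal (‖u x‖ ^ 2) ∂μ < ⊤ := by
  have h := (eLpNorm_lt_top_iff_lintegral_rpow_enorm_lt_top (μ := μ) (f := u) (p := 2)
    (by norm_num) (by norm_num)).1 hu.2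
  refine lt_of_le_of_lt (le_of_eq ?_) h
  refine lintegral_congr fun x => ?_
  rw [ENNReal.ofReal_pow (norm_nonneg _), ofReal_norm]
  norm_num

/-- conversely -/
theorem rdlap_memLp_of_lintegral_sq {X : Type*} [MeasurableSpace X] {μ : Measure X} {u : X → ℂ}
    (hm : AEStronglyMeasurable u μ) (h : ∫⁻ x, ENNReal.ofReal (‖u x‖ ^ 2) ∂μ < ⊤) :
    MemLp u 2 μ := by
  refine ⟨hm, (eLpNorm_lt_top_iff_lintegral_rpow_enorm_lt_top (μ := μ) (f := u) (p := 2)
    (by norm_num) (by norm_num)).2 ?_⟩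
  refine lt_of_le_of_lt (le_of_eq ?_) h
  refine lintegral_congr fun x => ?_
  rw [ENNReal.ofReal_pow (norm_nonneg _), ofReal_norm]
  norm_num

include hp in
theorem MemLp.rdL2Loc {u : W → ℂ} (hu : MemLp u 2 (rdVol p)) : RdL2Loc p u := by
  refine ⟨hu.1, fun K _ => ?_⟩
  exact lt_of_le_of_lt (setLIntegral_le_lintegral _ _) (rdlap_lintegral_sq_lt_top hu)

/-! ### 2. Push to `Cn n` -/

section push
variable {e : OpenPartialHomeomorph W (Cn n)} (he : IsSheet p e) {K : Set W} (hK : IsCompact K)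
  (hKe : K ⊆ e.source)

include hp he in
theorem memLp_rdPush {u : W → ℂ} (hu : MemLp u 2 (rdVol p)) : MemLp (rdPush e u) 2 volume := by
  refine rdlap_memLp_of_lintegral_sq (aestronglyMeasurable_rdPush hp he hu.1) ?_
  set g : W → ℝ≥0∞ := e.source.indicator fun x => ENNReal.ofReal (‖u x‖ ^ 2) with hg
  have hg0 : ∀ x ∉ e.source, g x = 0 := fun x hx => Set.indicator_of_notMem hx _
  have e1 : (fun z => ENNReal.ofReal (‖rdPush e u z‖ ^ 2)) = rdPush e g := by
    funext z
    by_cases hz : z ∈ e.target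
    · rw [rdPush_of_mem _ hz, rdPush_of_mem _ hz, hg, Set.indicator_of_mem (e.map_target hz)]
    · rw [rdPush_of_notMem _ hz, rdPush_of_notMem _ hz]
      simp
  rw [e1, lintegral_rdPush hp he hg0]
  refine lt_of_le_of_lt (lintegral_mono fun x => ?_) (rdlap_lintegral_sq_lt_top hu)
  exact Set.indicator_le_self _ _ x

/-- push of a finite sum of products with pull-backs -/
theorem rdlap_push_sum (he : IsSheet p e) (β : Fin n → W → ℂ) (g : Fin n → Cn n → ℂ) :
    rdPush e (fun x => ∑ j, β j x * g j (p x)) = fun z => ∑ j, rdPush e (β j) z * g j z := by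
  funext z
  by_cases hz : z ∈ e.target
  · rw [rdPush_of_mem _ hz, he.apply_symm hz]
    exact Finset.sum_congr rfl fun j _ => by rw [rdPush_of_mem _ hz]
  · rw [rdPush_of_notMem _ hz]
    symm
    exact Finset.sum_eq_zero fun j _ => by rw [rdPush_of_notMem _ hz, zero_mul]

include he hK hKe in
theorem weakDiv_rdPush {β : Fin n → W → ℂ} {d : W → ℂ}
    (hβ : ∀ j, RdL2Loc p (β j)) (hd : RdL2Loc p d) (h : RdWeakDiv hp β d)
    (hβK : ∀ j, ∀ x ∉ K, β j x = 0) (hdK : ∀ x ∉ K, d x = 0) :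
    WeakDiv (fun j => rdPush e (β j)) (rdPush e d) := by
  intro v hv _
  obtain ⟨χ, hχ, hχc, -, -, hχ1⟩ := exists_rd_cutoff hp hK e.open_source hKe
  have htest : RdTest hp ∞ (fun x => (χ x : ℂ) * v (p x)) := by
    refine ⟨(RdContDiff.ofReal hp hχ).mul hp (rdContDiff_comp hp hv), ?_⟩
    have h1 : HasCompactSupport (fun x => (χ x : ℂ)) := hχc.comp_left (g := fun t : ℝ => (t : ℂ)) rfl
    exact h1.mul_right
  have h0 := h _ htest
  have hnear : ∀ x ∈ K, (fun y => (χ y : ℂ) * v (p y)) =ᶠ[𝓝 x] fun y => v (p y) := by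
    intro x hx
    filter_upwards [hχ1.filter_mono (nhds_le_nhdsSet hx)] with y hy
    rw [hy, Complex.ofReal_one, one_mul]
  have e1 : (fun x => ∑ j, β j x * rdD hp j (fun y => (χ y : ℂ) * v (p y)) x)
      = fun x => ∑ j, β j x * dz j v (p x) := by
    funext x
    refine Finset.sum_congr rfl fun j _ => ?_
    by_cases hx : x ∈ K
    · rw [rdD_congr hp (hnear x hx) j, rdD_comp]
    · rw [hβK j x hx, zero_mul, zero_mul]
  have e2 : (fun x => d x * ((χ x : ℂ) * v (p x))) = fun x => d x * v (p x) := by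
    funext x
    by_cases hx : x ∈ K
    · have h5 : (χ x : ℂ) * v (p x) = v (p x) := (hnear x hx).self_of_nhds
      rw [h5]
    · rw [hdK x hx, zero_mul, zero_mul]
  rw [e1, e2] at h0
  have z1 : ∀ x ∉ e.source, ∑ j, β j x * dz j v (p x) = 0 := fun x hx =>
    Finset.sum_eq_zero fun j _ => by rw [hβK j x (fun h => hx (hKe h)), zero_mul]
  have z2 : ∀ x ∉ e.source, d x * v (p x) = 0 := fun x hx => by
    rw [hdK x (fun h => hx (hKe h)), zero_mul]
  rw [← integral_rdPush hp he z1, ← integral_rdPush hp he z2, rdlap_push_sum he,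
    rdPush_mul_comp he] at h0
  exact h0

include he hK hKe in
theorem weakCurl_rdPush {β : Fin n → W → ℂ} {h : Fin n → Fin n → W → ℂ}
    (hβ : ∀ j, RdL2Loc p (β j)) (hh : ∀ j k, RdL2Loc p (h j k)) (hc : RdWeakCurl hp β h)
    (hβK : ∀ j, ∀ x ∉ K, β j x = 0) (hhK : ∀ j k, ∀ x ∉ K, h j k x = 0) :
    WeakCurl (fun j => rdPush e (β j)) (fun j k => rdPush e (h j k)) := by
  intro v hv _ j k
  obtain ⟨χ, hχ, hχc, -, -, hχ1⟩ := exists_rd_cutoff hp hK e.open_source hKe
  have htest : RdTest hp ∞ (fun x => (χ x : ℂ) * v (p x)) := by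
    refine ⟨(RdContDiff.ofReal hp hχ).mul hp (rdContDiff_comp hp hv), ?_⟩
    have h1 : HasCompactSupport (fun x => (χ x : ℂ)) := hχc.comp_left (g := fun t : ℝ => (t : ℂ)) rfl
    exact h1.mul_right
  have h0 := hc _ htest j k
  have hnear : ∀ x ∈ K, (fun y => (χ y : ℂ) * v (p y)) =ᶠ[𝓝 x] fun y => v (p y) := by
    intro x hx
    filter_upwards [hχ1.filter_mono (nhds_le_nhdsSet hx)] with y hy
    rw [hy, Complex.ofReal_one, one_mul]
  have e1 : (fun x => β j x * rdDb hp k (fun y => (χ y : ℂ) * v (p y)) x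
        - β k x * rdDb hp j (fun y => (χ y : ℂ) * v (p y)) x)
      = fun x => β j x * dzb k v (p x) - β k x * dzb j v (p x) := by
    funext x
    by_cases hx : x ∈ K
    · rw [rdDb_congr hp (hnear x hx) j, rdDb_congr hp (hnear x hx) k, rdDb_comp, rdDb_comp]
    · rw [hβK j x hx, hβK k x hx, zero_mul, zero_mul, zero_mul, zero_mul]
  have e2 : (fun x => h j k x * ((χ x : ℂ) * v (p x))) = fun x => h j k x * v (p x) := by
    funext x
    by_cases hx : x ∈ K
    · have h5 : (χ x : ℂ) * v (p x) = v (p x) := (hnear x hx).self_of_nhds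
      rw [h5]
    · rw [hhK j k x hx, zero_mul, zero_mul]
  rw [e1, e2] at h0
  have z1 : ∀ x ∉ e.source, β j x * dzb k v (p x) - β k x * dzb j v (p x) = 0 := fun x hx => by
    rw [hβK j x (fun h => hx (hKe h)), hβK k x (fun h => hx (hKe h)), zero_mul, zero_mul, sub_zero]
  have z2 : ∀ x ∉ e.source, h j k x * v (p x) = 0 := fun x hx => by
    rw [hhK j k x (fun h => hx (hKe h)), zero_mul]
  rw [← integral_rdPush hp he z1, ← integral_rdPush hp he z2, rdPush_sub, rdPush_mul_comp he,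
    rdPush_mul_comp he, rdPush_mul_comp he] at h0
  exact h0

end push

/-! ### 3. Pull back -/

include hp in
theorem eLpNorm_rdPull_sub {e : OpenPartialHomeomorph W (Cn n)} (he : IsSheet p e)
    {g : Cn n → ℂ} {w : W → ℂ} (hg : ∀ z ∉ e.target, g z = 0) (hw : ∀ x ∉ e.source, w x = 0) :
    eLpNorm (fun x => rdPull p e g x - w x) 2 (rdVol p)
      = eLpNorm (fun z => g z - rdPush e w z) 2 volume := by
  have key := lintegral_rdPush hp he
    (g := fun x => ‖rdPull p e g x - w x‖ₑ ^ (2 : ℝ≥0∞).toReal) (by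
      intro x hx
      rw [rdPull_of_notMem _ hx, hw x hx]
      simp)
  rw [eLpNorm_eq_lintegral_rpow_enorm_toReal (by norm_num) (by norm_num),
    eLpNorm_eq_lintegral_rpow_enorm_toReal (by norm_num) (by norm_num), ← key]
  congr 1
  refine lintegral_congr (fun z => ?_)
  by_cases hz : z ∈ e.target
  · rw [rdPush_of_mem _ hz, rdPush_of_mem _ hz, rdPull_of_mem _ (e.map_target hz),
      he.apply_symm hz]
  · rw [rdPush_of_notMem _ hz, rdPush_of_notMem _ hz, hg z hz]
    simp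

omit [TopologicalSpace W] [T2Space W] [SecondCountableTopology W] [MeasurableSpace W]
  [BorelSpace W] in
/-- derivatives of a function vanishing off a closed set vanish off this set. -/
theorem rdlapC_dz_zero {g : Cn n → ℂ} {L : Set (Cn n)} (hL : IsClosed L) (hg : ∀ z ∉ L, g z = 0)
    (j : Fin n) : ∀ z ∉ L, dz j g z = 0 := by
  intro z hz
  have h : g =ᶠ[𝓝 z] fun _ => 0 := by
    filter_upwards [hL.isOpen_compl.mem_nhds hz] with y hy using hg y hy
  rw [dz_congr h j, dz_const]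

omit [TopologicalSpace W] [T2Space W] [SecondCountableTopology W] [MeasurableSpace W]
  [BorelSpace W] in
theorem rdlapC_dzb_zero {g : Cn n → ℂ} {L : Set (Cn n)} (hL : IsClosed L) (hg : ∀ z ∉ L, g z = 0)
    (j : Fin n) : ∀ z ∉ L, dzb j g z = 0 := by
  intro z hz
  have h : g =ᶠ[𝓝 z] fun _ => 0 := by
    filter_upwards [hL.isOpen_compl.mem_nhds hz] with y hy using hg y hy
  rw [dzb_congr h j, dzb_const]

omit [T2Space W] [SecondCountableTopology W] [MeasurableSpace W] [BorelSpace W] in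
theorem rdlapC_pull_sum (e : OpenPartialHomeomorph W (Cn n)) (G : Fin n → Cn n → ℂ) (x : W) :
    ∑ j, rdPull p e (G j) x = rdPull p e (fun z => ∑ j, G j z) x := by
  by_cases hx : x ∈ e.source
  · simp only [rdPull_of_mem _ hx]
  · simp only [rdPull_of_notMem _ hx, Finset.sum_const_zero]

omit [T2Space W] [SecondCountableTopology W] [MeasurableSpace W] [BorelSpace W] in
theorem rdlapC_pull_sub (e : OpenPartialHomeomorph W (Cn n)) (G H : Cn n → ℂ) (x : W) :
    rdPull p e G x - rdPull p e H x = rdPull p e (fun z => G z - H z) x := by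
  by_cases hx : x ∈ e.source
  · simp only [rdPull_of_mem _ hx]
  · simp only [rdPull_of_notMem _ hx, sub_zero]

/-- local approximation for forms supported in one sheet. -/
theorem rd_lap_sheet {e : OpenPartialHomeomorph W (Cn n)} (he : IsSheet p e)
    {β : Fin n → W → ℂ} {d : W → ℂ} {h : Fin n → Fin n → W → ℂ}
    (hβ : ∀ j, MemLp (β j) 2 (rdVol p)) (hd : MemLp d 2 (rdVol p))
    (hh : ∀ j k, MemLp (h j k) 2 (rdVol p))
    (hdiv : RdWeakDiv hp β d) (hcurl : RdWeakCurl hp β h)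
    {K U : Set W} (hK : IsCompact K) (hU : IsOpen U) (hKU : K ⊆ U) (hKe : K ⊆ e.source)
    (hβK : ∀ j, ∀ x ∉ K, β j x = 0) (hdK : ∀ x ∉ K, d x = 0) (hhK : ∀ j k, ∀ x ∉ K, h j k x = 0) :
    ∃ (α : ℕ → Fin n → W → ℂ) (K' : Set W), IsCompact K' ∧ K' ⊆ U ∧
      (∀ i j, RdContDiff hp ∞ (α i j)) ∧ (∀ i j, ∀ x ∉ K', α i j x = 0) ∧
      (∀ j, Tendsto (fun i => eLpNorm (fun x => α i j x - β j x) 2 (rdVol p)) atTop (𝓝 0)) ∧
      Tendsto (fun i => eLpNorm (fun x => ∑ j, rdD hp j (α i j) x - d x) 2 (rdVol p))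
        atTop (𝓝 0) ∧
      ∀ j k, Tendsto (fun i => eLpNorm
        (fun x => rdDb hp k (α i j) x - rdDb hp j (α i k) x - h j k x) 2 (rdVol p))
        atTop (𝓝 0) := by
  obtain ⟨hLc, hLe⟩ := isCompact_image_sheet he hK hKe
  have hU' : IsOpen (e.target ∩ e.symm ⁻¹' U) := e.isOpen_inter_preimage_symm hU
  have hLU' : p '' K ⊆ e.target ∩ e.symm ⁻¹' U := by
    rintro _ ⟨x, hx, rfl⟩
    refine ⟨hLe ⟨x, hx, rfl⟩, ?_⟩
    show e.symm (p x) ∈ U
    rw [he.symm_apply (hKe hx)]
    exact hKU hx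
  obtain ⟨α', L', hL'c, hL'U, hα's, hα'0, c1, c2, c3⟩ :=
    lap_Cn (β := fun j => rdPush e (β j)) (d := rdPush e d) (h := fun j k => rdPush e (h j k))
      (fun j => memLp_rdPush hp he (hβ j)) (memLp_rdPush hp he hd)
      (fun j k => memLp_rdPush hp he (hh j k))
      (weakDiv_rdPush hp he hK hKe (fun j => MemLp.rdL2Loc hp (hβ j)) (MemLp.rdL2Loc hp hd) hdiv
        hβK hdK)
      (weakCurl_rdPush hp he hK hKe (fun j => MemLp.rdL2Loc hp (hβ j))
        (fun j k => MemLp.rdL2Loc hp (hh j k)) hcurl hβK hhK)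
      hLc hU' hLU' (fun j z hz => rdPush_eq_zero_off he (hβK j) hz)
  have hL'e : L' ⊆ e.target := fun z hz => (hL'U hz).1
  obtain ⟨hK'c, hK'e⟩ := isCompact_symm_image_sheet hL'c hL'e
  have hoff : ∀ i j, ∀ z ∉ e.target, α' i j z = 0 :=
    fun i j z hz => hα'0 i j z (fun h => hz (hL'e h))
  have hsrc : ∀ {w : W → ℂ}, (∀ x ∉ K, w x = 0) → ∀ x ∉ e.source, w x = 0 :=
    fun hw x hx => hw x (fun h => hx (hKe h))
  refine ⟨fun i j => rdPull p e (α' i j), e.symm '' L', hK'c, ?_,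
    fun i j => rdContDiff_rdPull hp he hL'c hL'e (hα'0 i j) (hα's i j),
    fun i j x hx => rdPull_eq_zero_off he (hα'0 i j) hx, fun j => ?_, ?_, fun j k => ?_⟩
  · rintro _ ⟨z, hz, rfl⟩
    exact (hL'U hz).2
  · refine (c1 j).congr (fun i => ?_)
    exact (eLpNorm_rdPull_sub hp he (hoff i j) (hsrc (hβK j))).symm
  · refine c2.congr (fun i => ?_)
    have e1 : (fun x => ∑ j, rdD hp j (rdPull p e (α' i j)) x - d x)
        = fun x => rdPull p e (fun z => ∑ j, dz j (α' i j) z) x - d x := by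
      funext x
      rw [← rdlapC_pull_sum]
      congr 1
      refine Finset.sum_congr rfl (fun j _ => ?_)
      rw [rdD_rdPull hp he hL'c hL'e (hα'0 i j) j]
    rw [e1]
    exact (eLpNorm_rdPull_sub hp he (fun z hz => Finset.sum_eq_zero (fun j _ =>
      rdlapC_dz_zero hL'c.isClosed (hα'0 i j) j z (fun h => hz (hL'e h)))) (hsrc hdK)).symm
  · refine (c3 j k).congr (fun i => ?_)
    have e1 : (fun x => rdDb hp k (rdPull p e (α' i j)) x - rdDb hp j (rdPull p e (α' i k)) x
          - h j k x)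
        = fun x => rdPull p e (fun z => dzb k (α' i j) z - dzb j (α' i k) z) x - h j k x := by
      funext x
      rw [← rdlapC_pull_sub, rdDb_rdPull hp he hL'c hL'e (hα'0 i j) k,
        rdDb_rdPull hp he hL'c hL'e (hα'0 i k) j]
    rw [e1]
    exact (eLpNorm_rdPull_sub hp he (fun z hz => by
      rw [rdlapC_dzb_zero hL'c.isClosed (hα'0 i j) k z (fun h => hz (hL'e h)),
        rdlapC_dzb_zero hL'c.isClosed (hα'0 i k) j z (fun h => hz (hL'e h)), sub_zero])
      (hsrc (hhK j k))).symm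

/-! ### 4. The theorem -/

omit [TopologicalSpace W] [T2Space W] [SecondCountableTopology W] [BorelSpace W] in
/-- finite sums of sequences tending to `0` in `L²`. -/
theorem rdlapC_tendsto_sum {m : ℕ} {μ : Measure W} (F : Fin m → ℕ → W → ℂ)
    (hF : ∀ i s, AEStronglyMeasurable (F i s) μ)
    (h : ∀ i, Tendsto (fun s => eLpNorm (F i s) 2 μ) atTop (𝓝 0)) :
    Tendsto (fun s => eLpNorm (fun x => ∑ i, F i s x) 2 μ) atTop (𝓝 0) := by
  have h1 : Tendsto (fun s => ∑ i, eLpNorm (F i s) 2 μ) atTop (𝓝 0) := by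
    have := tendsto_finsetSum Finset.univ (fun i _ => h i)
    simpa using this
  refine tendsto_of_tendsto_of_tendsto_of_le_of_le tendsto_const_nhds h1 (fun _ => zero_le)
    (fun s => ?_)
  have h2 := eLpNorm_sum_le (s := Finset.univ) (f := fun i => F i s) (μ := μ)
    (fun i _ => hF i s) (by norm_num : (1 : ℝ≥0∞) ≤ 2)
  have e : (fun x => ∑ i, F i s x) = ∑ i, F i s := by
    funext x
    rw [Finset.sum_apply]
  show eLpNorm (fun x => ∑ i, F i s x) 2 μ ≤ _
  rw [e]
  exact h2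

/-- **LAP: local approximation on a Riemann domain.** -/
theorem rd_lap {β : Fin n → W → ℂ} {d : W → ℂ} {h : Fin n → Fin n → W → ℂ}
    (hβ : ∀ j, MemLp (β j) 2 (rdVol p)) (hd : MemLp d 2 (rdVol p))
    (hh : ∀ j k, MemLp (h j k) 2 (rdVol p))
    (hdiv : RdWeakDiv hp β d) (hcurl : RdWeakCurl hp β h)
    {K U : Set W} (hK : IsCompact K) (hU : IsOpen U) (hKU : K ⊆ U)
    (hβK : ∀ j, ∀ x ∉ K, β j x = 0) (hdK : ∀ x ∉ K, d x = 0) (hhK : ∀ j k, ∀ x ∉ K, h j k x = 0) :
    ∃ (α : ℕ → Fin n → W → ℂ) (K' : Set W), IsCompact K' ∧ K' ⊆ U ∧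
      (∀ i j, RdContDiff hp ∞ (α i j)) ∧ (∀ i j, ∀ x ∉ K', α i j x = 0) ∧
      (∀ j, Tendsto (fun i => eLpNorm (fun x => α i j x - β j x) 2 (rdVol p)) atTop (𝓝 0)) ∧
      Tendsto (fun i => eLpNorm (fun x => ∑ j, rdD hp j (α i j) x - d x) 2 (rdVol p))
        atTop (𝓝 0) ∧
      ∀ j k, Tendsto (fun i => eLpNorm
        (fun x => rdDb hp k (α i j) x - rdDb hp j (α i k) x - h j k x) 2 (rdVol p))
        atTop (𝓝 0) := by
  obtain ⟨m, e, χ, he, hχs, hχc, hχsupp, hχ0, hχ1, hχK⟩ := exists_rd_partition hp hK hU hKU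
  have h01 : (0 : WithTop ℕ∞) + 1 ≤ (∞ : WithTop ℕ∞) := by
    rw [zero_add]
    exact_mod_cast le_top
  have h1 : (1 : WithTop ℕ∞) ≤ (∞ : WithTop ℕ∞) := by exact_mod_cast le_top
  -- the complexified cut-offs and their derivatives
  have hχC : ∀ i, RdContDiff hp ∞ (fun y => (χ i y : ℂ)) := fun i => RdContDiff.ofReal hp (hχs i)
  have hχCc : ∀ i, HasCompactSupport (fun y => (χ i y : ℂ)) :=
    fun i => (hχc i).comp_left Complex.ofReal_zero
  have hχcont : ∀ i, Continuous (fun y => (χ i y : ℂ)) := fun i => RdContDiff.continuous hp (hχC i)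
  have hDcont : ∀ i j, Continuous (rdD hp j (fun y => (χ i y : ℂ))) :=
    fun i j => RdContDiff.continuous hp (RdContDiff.rdD hp (hχC i) h01 j)
  have hDbcont : ∀ i j, Continuous (rdDb hp j (fun y => (χ i y : ℂ))) :=
    fun i j => RdContDiff.continuous hp (RdContDiff.rdDb hp (hχC i) h01 j)
  have hDc : ∀ i j, HasCompactSupport (rdD hp j (fun y => (χ i y : ℂ))) :=
    fun i j => RdTest.hasCompactSupport_rdD hp (hχCc i) j
  have hDbc : ∀ i j, HasCompactSupport (rdDb hp j (fun y => (χ i y : ℂ))) :=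
    fun i j => RdTest.hasCompactSupport_rdDb hp (hχCc i) j
  have hχz : ∀ i, ∀ x ∉ tsupport (χ i), (χ i x : ℂ) = 0 := by
    intro i x hx
    rw [image_eq_zero_of_notMem_tsupport hx, Complex.ofReal_zero]
  have hDz : ∀ i j, ∀ x ∉ tsupport (χ i), rdD hp j (fun y => (χ i y : ℂ)) x = 0 :=
    fun i j => rdD_eq_zero_off hp (isClosed_tsupport (χ i)) (hχz i) j
  have hDbz : ∀ i j, ∀ x ∉ tsupport (χ i), rdDb hp j (fun y => (χ i y : ℂ)) x = 0 :=
    fun i j => rdDb_eq_zero_off hp (isClosed_tsupport (χ i)) (hχz i) j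
  -- the localized data are in `L²`
  have mχ : ∀ i (u : W → ℂ), MemLp u 2 (rdVol p) →
      MemLp (fun x => (χ i x : ℂ) * u x) 2 (rdVol p) := by
    intro i u hu
    have e1 : (fun x => (χ i x : ℂ) * u x) = fun x => u x * (χ i x : ℂ) :=
      funext fun x => mul_comm _ _
    rw [e1]
    exact memLp_mul_test hp hu (hχcont i) (hχCc i)
  have hβi : ∀ i j, MemLp (fun x => (χ i x : ℂ) * β j x) 2 (rdVol p) := fun i j => mχ i _ (hβ j)
  have hdi : ∀ i, MemLp (fun x => (χ i x : ℂ) * d x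
      + ∑ j, β j x * rdD hp j (fun y => (χ i y : ℂ)) x) 2 (rdVol p) := fun i =>
    (mχ i _ hd).add (memLp_finsetSum Finset.univ
      (fun j _ => memLp_mul_test hp (hβ j) (hDcont i j) (hDc i j)))
  have hhi : ∀ i j k, MemLp (fun x => (χ i x : ℂ) * h j k x
      + β j x * rdDb hp k (fun y => (χ i y : ℂ)) x
      - β k x * rdDb hp j (fun y => (χ i y : ℂ)) x) 2 (rdVol p) := fun i j k =>
    ((mχ i _ (hh j k)).add (memLp_mul_test hp (hβ j) (hDbcont i k) (hDbc i k))).sub
      (memLp_mul_test hp (hβ k) (hDbcont i j) (hDbc i j))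
  -- approximation in each sheet
  have key : ∀ i : Fin m, ∃ (α : ℕ → Fin n → W → ℂ) (K' : Set W), IsCompact K' ∧ K' ⊆ U ∧
      (∀ s j, RdContDiff hp ∞ (α s j)) ∧ (∀ s j, ∀ x ∉ K', α s j x = 0) ∧
      (∀ j, Tendsto (fun s => eLpNorm (fun x => α s j x - (χ i x : ℂ) * β j x) 2 (rdVol p))
        atTop (𝓝 0)) ∧
      Tendsto (fun s => eLpNorm (fun x => ∑ j, rdD hp j (α s j) x - ((χ i x : ℂ) * d x
        + ∑ j, β j x * rdD hp j (fun y => (χ i y : ℂ)) x)) 2 (rdVol p)) atTop (𝓝 0) ∧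
      ∀ j k, Tendsto (fun s => eLpNorm (fun x => rdDb hp k (α s j) x - rdDb hp j (α s k) x
        - ((χ i x : ℂ) * h j k x + β j x * rdDb hp k (fun y => (χ i y : ℂ)) x
          - β k x * rdDb hp j (fun y => (χ i y : ℂ)) x)) 2 (rdVol p)) atTop (𝓝 0) := by
    intro i
    refine rd_lap_sheet hp (he i) (K := K ∩ tsupport (χ i)) (U := U) (hβi i) (hdi i) (hhi i)
      (RdWeakDiv.mul_smooth hp (fun j => MemLp.rdL2Loc hp (hβ j)) (MemLp.rdL2Loc hp hd) hdiv
        (hχs i))
      (RdWeakCurl.mul_smooth hp (fun j => MemLp.rdL2Loc hp (hβ j))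
        (fun j k => MemLp.rdL2Loc hp (hh j k)) hcurl (hχs i))
      (hK.inter_right (isClosed_tsupport _)) hU (Set.inter_subset_left.trans hKU)
      (fun x hx => (hχsupp i hx.2).1) ?_ ?_ ?_
    · intro j x hx
      by_cases hxK : x ∈ K
      · rw [hχz i x (fun h => hx ⟨hxK, h⟩), zero_mul]
      · rw [hβK j x hxK, mul_zero]
    · intro x hx
      by_cases hxK : x ∈ K
      · have hxs : x ∉ tsupport (χ i) := fun h => hx ⟨hxK, h⟩
        simp only [hχz i x hxs, hDz i _ x hxs, zero_mul, mul_zero, Finset.sum_const_zero, add_zero]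
      · simp only [hdK x hxK, hβK _ x hxK, zero_mul, mul_zero, Finset.sum_const_zero, add_zero]
    · intro j k x hx
      by_cases hxK : x ∈ K
      · have hxs : x ∉ tsupport (χ i) := fun h => hx ⟨hxK, h⟩
        simp only [hχz i x hxs, hDbz i _ x hxs, zero_mul, mul_zero, add_zero, sub_zero]
      · simp only [hhK j k x hxK, hβK _ x hxK, zero_mul, mul_zero, add_zero, sub_zero]
  choose α K' hK'c hK'U hαs hα0 c1 c2 c3 using key
  -- the cut-offs add up to `1` near `K`
  have hsum1 : ∀ x ∈ K, ∑ i, (χ i x : ℂ) = 1 := by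
    intro x hx
    rw [← Complex.ofReal_sum, hχK.self_of_nhdsSet x hx, Complex.ofReal_one]
  have hnear : ∀ x ∈ K, (fun y => ∑ i, (χ i y : ℂ)) =ᶠ[𝓝 x] fun _ => 1 := by
    intro x hx
    filter_upwards [hχK.filter_mono (nhds_le_nhdsSet hx)] with y hy
    rw [← Complex.ofReal_sum, hy, Complex.ofReal_one]
  have hDsum : ∀ x ∈ K, ∀ j, ∑ i, rdD hp j (fun y => (χ i y : ℂ)) x = 0 := by
    intro x hx j
    rw [← rdD_sum hp Finset.univ (fun i y => (χ i y : ℂ))
      (fun i _ => RdContDiff.of_le hp (hχC i) h1 x), rdD_congr hp (hnear x hx) j, rdD_const]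
  have hDbsum : ∀ x ∈ K, ∀ j, ∑ i, rdDb hp j (fun y => (χ i y : ℂ)) x = 0 := by
    intro x hx j
    rw [← rdDb_sum hp Finset.univ (fun i y => (χ i y : ℂ))
      (fun i _ => RdContDiff.of_le hp (hχC i) h1 x), rdDb_congr hp (hnear x hx) j, rdDb_const]
  have eβ : ∀ j x, ∑ i, (χ i x : ℂ) * β j x = β j x := by
    intro j x
    by_cases hx : x ∈ K
    · rw [← Finset.sum_mul, hsum1 x hx, one_mul]
    · simp only [hβK j x hx, mul_zero, Finset.sum_const_zero]
  have ed : ∀ x, ∑ i, ((χ i x : ℂ) * d x + ∑ j, β j x * rdD hp j (fun y => (χ i y : ℂ)) x)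
      = d x := by
    intro x
    by_cases hx : x ∈ K
    · rw [Finset.sum_add_distrib, ← Finset.sum_mul, hsum1 x hx, one_mul, Finset.sum_comm]
      simp only [← Finset.mul_sum, hDsum x hx, mul_zero, Finset.sum_const_zero, add_zero]
    · simp only [hdK x hx, hβK _ x hx, zero_mul, mul_zero, Finset.sum_const_zero, add_zero]
  have eh : ∀ j k x, ∑ i, ((χ i x : ℂ) * h j k x + β j x * rdDb hp k (fun y => (χ i y : ℂ)) x
      - β k x * rdDb hp j (fun y => (χ i y : ℂ)) x) = h j k x := by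
    intro j k x
    by_cases hx : x ∈ K
    · rw [Finset.sum_sub_distrib, Finset.sum_add_distrib, ← Finset.sum_mul, hsum1 x hx, one_mul,
        ← Finset.mul_sum, ← Finset.mul_sum, hDbsum x hx, hDbsum x hx, mul_zero, mul_zero, add_zero,
        sub_zero]
    · simp only [hhK j k x hx, hβK _ x hx, zero_mul, mul_zero, Finset.sum_const_zero, add_zero,
        sub_zero]
  have hα1 : ∀ i s j x, RdContDiffAt hp 1 (α i s j) x :=
    fun i s j x => RdContDiff.of_le hp (hαs i s j) h1 x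
  have hαD : ∀ i s j k, Continuous (rdD hp k (α i s j)) :=
    fun i s j k => RdContDiff.continuous hp (RdContDiff.rdD hp (hαs i s j) h01 k)
  have hαDb : ∀ i s j k, Continuous (rdDb hp k (α i s j)) :=
    fun i s j k => RdContDiff.continuous hp (RdContDiff.rdDb hp (hαs i s j) h01 k)
  refine ⟨fun s j x => ∑ i, α i s j x, ⋃ i, K' i, isCompact_iUnion hK'c, Set.iUnion_subset hK'U,
    fun s j => RdContDiff.sum hp Finset.univ (fun i _ => hαs i s j), ?_, ?_, ?_, ?_⟩
  · intro s j x hx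
    exact Finset.sum_eq_zero (fun i _ => hα0 i s j x (fun h => hx (Set.mem_iUnion.2 ⟨i, h⟩)))
  · intro j
    refine (rdlapC_tendsto_sum (fun i s x => α i s j x - (χ i x : ℂ) * β j x)
      (fun i s => (RdContDiff.continuous hp (hαs i s j)).aestronglyMeasurable.sub
        (hβi i j).aestronglyMeasurable) (fun i => c1 i j)).congr (fun s => ?_)
    congr 1
    funext x
    rw [Finset.sum_sub_distrib, eβ]
  · refine (rdlapC_tendsto_sum (fun i s x => ∑ j, rdD hp j (α i s j) x - ((χ i x : ℂ) * d x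
        + ∑ j, β j x * rdD hp j (fun y => (χ i y : ℂ)) x))
      (fun i s => (continuous_finsetSum _ (fun j _ => hαD i s j j)).aestronglyMeasurable.sub
        (hdi i).aestronglyMeasurable) c2).congr (fun s => ?_)
    congr 1
    funext x
    rw [Finset.sum_sub_distrib, ed, Finset.sum_comm]
    congr 1
    refine Finset.sum_congr rfl (fun j _ => ?_)
    rw [rdD_sum hp Finset.univ (fun i => α i s j) (fun i _ => hα1 i s j x)]
  · intro j k
    refine (rdlapC_tendsto_sum (fun i s x => rdDb hp k (α i s j) x - rdDb hp j (α i s k) x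
        - ((χ i x : ℂ) * h j k x + β j x * rdDb hp k (fun y => (χ i y : ℂ)) x
          - β k x * rdDb hp j (fun y => (χ i y : ℂ)) x))
      (fun i s => ((hαDb i s j k).sub (hαDb i s k j)).aestronglyMeasurable.sub
        (hhi i j k).aestronglyMeasurable) (fun i => c3 i j k)).congr (fun s => ?_)
    congr 1
    funext x
    rw [Finset.sum_sub_distrib, eh, Finset.sum_sub_distrib,
      rdDb_sum hp Finset.univ (fun i => α i s j) (fun i _ => hα1 i s j x),
      rdDb_sum hp Finset.univ (fun i => α i s k) (fun i _ => hα1 i s k x)]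

end Claimed.Agent.R242
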