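/-
Row 242, SCV layer.  RdInst: the instance `rdCalc hp : RDCalc W n` of helper147's contract (HorCalc.lean) from the
RD kit (RdGerm, RdMeas, RdSheet, RdIbp, RdLap).   Owner: helper290.   Glue only.
-/
import Claimed.Agent.R242.SCV.RdLap
import Claimed.Agent.R242.SCV.HorCalc

open MeasureTheory Complex Filter
open scoped ContDiff ComplexConjugate ENNReal Topology

namespace Claimed.Agent.R242

set_option linter.unusedSectionVars false

variable {n : ℕ} {W : Type*} [TopologicalSpace W] [T2Space W] [SecondCountableTopology W]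
  [MeasurableSpace W] [BorelSpace W] {p : W → Cn n} (hp : IsLocalHomeomorph p)

/-- a real function whose complexification is smooth is smooth. -/
theorem rdContDiff_of_ofReal {k : WithTop ℕ∞} {r : W → ℝ}
    (h : RdContDiff hp k (fun x => (r x : ℂ))) : RdContDiff hp k r := by
  have := h.comp_left hp (H := Complex.re) Complex.reCLM.contDiff
  simpa using this

/-- from `eLpNorm → 0` to a bound of the Bochner integral of the square. -/
theorem integral_sq_le_of_eLpNorm_lt {μ : Measure W} {f : W → ℂ} {ε : ℝ} (hε : 0 < ε)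
    (h : eLpNorm f 2 μ < ENNReal.ofReal (Real.sqrt ε)) : ∫ x, ‖f x‖ ^ 2 ∂μ ≤ ε := by
  by_cases hi : Integrable (fun x => ‖f x‖ ^ 2) μ
  · rw [integral_eq_lintegral_of_nonneg_ae (Filter.Eventually.of_forall fun x => by positivity)
      hi.aestronglyMeasurable]
    rw [eLpNorm_eq_lintegral_rpow_enorm_toReal (by norm_num) (by norm_num)] at h
    simp only [ENNReal.toReal_ofNat, one_div] at h
    have h2 : ∫⁻ x, ‖f x‖ₑ ^ (2:ℝ) ∂μ < ENNReal.ofReal ε := by
      have := ENNReal.rpow_lt_rpow h (z := 2) (by norm_num)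
      rw [← ENNReal.rpow_mul] at this
      norm_num at this
      rw [← ENNReal.ofReal_pow (Real.sqrt_nonneg ε), Real.sq_sqrt hε.le] at this
      simpa using this
    have h3 : ∫⁻ x, ENNReal.ofReal (‖f x‖ ^ 2) ∂μ = ∫⁻ x, ‖f x‖ₑ ^ (2:ℝ) ∂μ := by
      congr 1; ext x
      rw [ENNReal.ofReal_pow (norm_nonneg _), ofReal_norm]; norm_num
    rw [h3]
    exact ENNReal.toReal_le_of_le_ofReal hε.le h2.le
  · rw [integral_undef hi]; exact hε.le

/-- LAP in the form of the contract. -/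
theorem rd_lap_contract (K : Set W) (b : Fin n → W → ℂ) (dv : W → ℂ) (c : Fin n → Fin n → W → ℂ)
    (hK : IsCompact K)
    (hb : ∀ j, MemLp (b j) 2 (rdVol p)) (hdv : MemLp dv 2 (rdVol p))
    (hc : ∀ j k, MemLp (c j k) 2 (rdVol p))
    (hbK : ∀ j, ∀ x ∉ K, b j x = 0) (hdK : ∀ x ∉ K, dv x = 0) (hcK : ∀ j k, ∀ x ∉ K, c j k x = 0)
    (hdiv : ∀ v : W → ℂ, RdContDiff hp ∞ v → HasCompactSupport v →
      ∫ x, ∑ j, b j x * rdD hp j v x ∂(rdVol p) = - ∫ x, dv x * v x ∂(rdVol p))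
    (hcurl : ∀ v : W → ℂ, RdContDiff hp ∞ v → HasCompactSupport v → ∀ j k,
      ∫ x, (b j x * rdDb hp k v x - b k x * rdDb hp j v x) ∂(rdVol p)
        = - ∫ x, c j k x * v x ∂(rdVol p)) :
    ∃ K' : Set W, IsCompact K' ∧ ∀ ε : ℝ, 0 < ε → ∃ α : Fin n → W → ℂ,
      (∀ j, RdContDiff hp ∞ (α j)) ∧ (∀ j, tsupport (α j) ⊆ K') ∧
      (∀ j, ∫ x, ‖α j x - b j x‖ ^ 2 ∂(rdVol p) ≤ ε) ∧
      ∫ x, ‖∑ j, rdD hp j (α j) x - dv x‖ ^ 2 ∂(rdVol p) ≤ ε ∧
      ∀ j k, ∫ x, ‖rdDb hp k (α j) x - rdDb hp j (α k) x - c j k x‖ ^ 2 ∂(rdVol p) ≤ ε := by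
  obtain ⟨α, K', hK', -, hαs, hα0, h1, h2, h3⟩ :=
    rd_lap hp hb hdv hc (fun v hv => hdiv v hv.1 hv.2) (fun v hv => hcurl v hv.1 hv.2)
      hK isOpen_univ (Set.subset_univ K) hbK hdK hcK
  refine ⟨K', hK', fun ε hε => ?_⟩
  have hpos : (0 : ℝ≥0∞) < ENNReal.ofReal (Real.sqrt ε) :=
    ENNReal.ofReal_pos.2 (Real.sqrt_pos.2 hε)
  have e1 : ∀ᶠ i in atTop, ∀ j, eLpNorm (fun x => α i j x - b j x) 2 (rdVol p)
      < ENNReal.ofReal (Real.sqrt ε) :=
    eventually_all.2 fun j => (h1 j).eventually (gt_mem_nhds hpos)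
  have e2 := h2.eventually (gt_mem_nhds hpos)
  have e3 : ∀ᶠ i in atTop, ∀ j k, eLpNorm
      (fun x => rdDb hp k (α i j) x - rdDb hp j (α i k) x - c j k x) 2 (rdVol p)
      < ENNReal.ofReal (Real.sqrt ε) :=
    eventually_all.2 fun j => eventually_all.2 fun k => (h3 j k).eventually (gt_mem_nhds hpos)
  obtain ⟨i, hi1, hi2, hi3⟩ := (e1.and (e2.and e3)).exists
  refine ⟨α i, hαs i, fun j => ?_, fun j => integral_sq_le_of_eLpNorm_lt hε (hi1 j),
    integral_sq_le_of_eLpNorm_lt hε hi2, fun j k => integral_sq_le_of_eLpNorm_lt hε (hi3 j k)⟩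
  refine closure_minimal (fun x hx => ?_) hK'.isClosed
  by_contra hx'
  exact hx (hα0 i j x hx')

/-- **The `∂, ∂̄` calculus of a Riemann domain.** -/
noncomputable def rdCalc : RDCalc W n where
  μ := rdVol p
  Sm := RdContDiff hp ∞
  d := rdD hp
  db := rdDb hp
  fin_cpt := fun K hK => by
    have := rdVol_isFiniteMeasureOnCompacts hp
    exact hK.measure_lt_top
  sm_cont := fun h => h.continuous hp
  sm_const := fun c => rdContDiff_const hp c
  sm_add := fun hu hv => hu.add hp hv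
  sm_mul := fun hu hv => hu.mul hp hv
  sm_conj := fun hu => hu.conj hp
  sm_comp := fun {r h} hr hh => ((rdContDiff_of_ofReal hp hr).comp_left hp hh).ofReal hp
  sm_d := fun j hu => hu.rdD hp (by simp) j
  sm_db := fun j hu => hu.rdDb hp (by simp) j
  d_congr := fun j h => rdD_congr hp h j
  db_congr := fun j h => rdDb_congr hp h j
  d_const := fun j c x => rdD_const hp c
  db_const := fun j c x => rdDb_const hp c
  d_add := fun j x hu hv => rdD_add hp ((hu.of_le hp (by simp)) x) ((hv.of_le hp (by simp)) x)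
  db_add := fun j x hu hv => rdDb_add hp ((hu.of_le hp (by simp)) x) ((hv.of_le hp (by simp)) x)
  d_mul := fun j x hu hv => rdD_mul hp ((hu.of_le hp (by simp)) x) ((hv.of_le hp (by simp)) x)
  db_mul := fun j x hu hv => rdDb_mul hp ((hu.of_le hp (by simp)) x) ((hv.of_le hp (by simp)) x)
  d_conj := fun {u} j x _ => rdD_conj hp u
  db_conj := fun {u} j x _ => rdDb_conj hp u
  d_comp := fun {r h} j x hr hh => rdD_comp_real hp r h
    (((rdContDiff_of_ofReal hp hr).of_le hp (by simp)) x) (hh.differentiable (by simp) _)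
  db_comp := fun {r h} j x hr hh => rdDb_comp_real hp r h
    (((rdContDiff_of_ofReal hp hr).of_le hp (by simp)) x) (hh.differentiable (by simp) _)
  d_db_comm := fun j k x hu => rdD_rdDb_comm hp ((hu.of_le hp (by norm_cast)) x) j k
  db_db_comm := fun j k x hu => rdDb_rdDb_comm hp ((hu.of_le hp (by norm_cast)) x) j k
  int_d := fun j hw hc => integral_rdD_eq_zero hp ⟨hw.of_le hp (by simp), hc⟩ j
  int_db := fun j hw hc => integral_rdDb_eq_zero hp ⟨hw.of_le hp (by simp), hc⟩ j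
  lap := fun K b dv c hK hb hdv hc hbK hdK hcK hdiv hcurl =>
    rd_lap_contract hp K b dv c hK hb hdv hc hbK hdK hcK hdiv hcurl

/-- the Levi form of the contract is `rdLevi`. -/
theorem rdCalc_levi (φ : W → ℝ) (x : W) (a : Cn n) : (rdCalc hp).levi φ x a = rdLevi hp φ x a := by
  simp only [RDCalc.levi, rdCalc, rdLevi, levi, ← rdLeviC_eq, rdLeviC]

theorem rdCalc_Wt (φ : W → ℝ) : (rdCalc hp).Wt φ = rdVolW p φ := rfl

theorem rdCalc_weakDbar (u : W → ℂ) (f : Fin n → W → ℂ) :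
    (rdCalc hp).WeakDbar u f ↔ RdWeakDbar hp u f := Iff.rfl

theorem rdCalc_weakClosed (f : Fin n → W → ℂ) :
    (rdCalc hp).WeakClosed f ↔ RdWeakClosed hp f := Iff.rfl

theorem rdCalc_l2Loc (u : W → ℂ) : (rdCalc hp).L2Loc u ↔ RdL2Loc p u := Iff.rfl

end Claimed.Agent.R242
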