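/-
Row 242, SCV layer: the bridge from Hörmander's theorem in the contract (`RDCalc.hormander`, package HOR, helper147)
to the statement on Riemann domains (`hormander_rd` of `SCV/Main.lean`).   Owner: helper290.
-/
import Claimed.Agent.R242.SCV.RdInst
import Claimed.Agent.R242.SCV.HorMain

open MeasureTheory Complex
open scoped ContDiff ComplexConjugate ENNReal Topology

namespace Claimed.Agent.R242

variable {n : ℕ} {W : Type*} [TopologicalSpace W] [T2Space W] [SecondCountableTopology W]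
  [MeasurableSpace W] [BorelSpace W] {p : W → Cn n} (hp : IsLocalHomeomorph p)

/-- **HOR** on a Riemann domain, from the contract. -/
theorem hormander_rd_pf
    (ρ : W → ℝ) (hρ : RdContDiff hp ∞ ρ) (hρc : ∀ t, IsCompact {x | ρ x ≤ t})
    (hρl : ∀ x a, ∑ j, ‖a j‖ ^ 2 ≤ rdLevi hp ρ x a)
    (φ : W → ℝ) (hφ : RdContDiff hp ∞ φ) (hφl : ∀ x a, 0 ≤ rdLevi hp φ x a)
    (f : Fin n → W → ℂ) (hf : ∀ j, RdL2Loc p (f j)) (hfc : RdWeakClosed hp f)
    (B : W → ℝ) (hB : Measurable B) (hB0 : ∀ x, 0 ≤ B x)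
    (hfB : ∀ᵐ x ∂(rdVol p), ∀ a : Cn n,
      ‖∑ j, f j x * conj (a j)‖ ^ 2 ≤ B x * rdLevi hp φ x a)
    (hBi : ∫⁻ x, ENNReal.ofReal (B x) ∂(rdVolW p φ) < ⊤) :
    ∃ u : W → ℂ, RdL2Loc p u ∧ RdWeakDbar hp u f ∧
      ∫⁻ x, ENNReal.ofReal (‖u x‖ ^ 2) ∂(rdVolW p φ)
        ≤ ∫⁻ x, ENNReal.ofReal (B x) ∂(rdVolW p φ) := by
  have hBint : Integrable B ((rdCalc hp).Wt φ) := by
    rw [rdCalc_Wt]
    refine ⟨hB.aestronglyMeasurable, ?_⟩
    rw [hasFiniteIntegral_iff_ofReal (Filter.Eventually.of_forall hB0)]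
    exact hBi
  have hφs : (rdCalc hp).SmR φ := hφ.ofReal hp
  obtain ⟨u, hu, hw, hle⟩ := (rdCalc hp).hormander (ρ := ρ) (φ := φ) (f := f) (hρ.ofReal hp) hρc
    (fun x a => by rw [rdCalc_levi]; exact hρl x a) hφs
    (fun x a => by rw [rdCalc_levi]; exact hφl x a) hf hfc B hB hB0
    (by
      filter_upwards [hfB] with x hx a
      rw [rdCalc_levi]; exact hx a) hBint
  refine ⟨u, (rdCalc hp).L2Loc_of_memLp_Wt ((rdCalc hp).smR_cont hφs) hu, hw, ?_⟩
  rw [rdCalc_Wt] at hu hle hBint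
  have hu2 : Integrable (fun x => ‖u x‖ ^ 2) (rdVolW p φ) := hu.integrable_norm_pow (by norm_num)
  rw [← ofReal_integral_eq_lintegral_ofReal hu2 (Filter.Eventually.of_forall fun x => by positivity),
    ← ofReal_integral_eq_lintegral_ofReal hBint (Filter.Eventually.of_forall hB0)]
  exact ENNReal.ofReal_le_ofReal hle

end Claimed.Agent.R242
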