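/-
Row 242 (S0480), SCV layer: **Weyl's lemma on a Riemann domain** (`weyl_rd` of `SCV/Main.lean`), by gluing
`r242_weyl` over the sheets.      Owner: helper249.

* `r242_dbarC_eq_sum`    : the coordinate free `∂̄` of `Weyl.lean` in terms of `dzb`;
* `r242_weakHol_Cn`      : weak holomorphy on an open subset of `Cn n`, tested with `dzb`;
* `weyl_Cn`              : Weyl's lemma on an open subset of `Cn n` in terms of `dzb`;
* `r242_weakHol_sheet`   : a weakly holomorphic function on `W` is weakly holomorphic in every sheet;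
* `r242_weyl_rd`         : the statement of `weyl_rd`.
Uses the RD kit (`RdGerm`, `RdMeas`, `RdSheet`).
-/
import Claimed.Agent.R242.SCV.MVP
import Claimed.Agent.R242.SCV.RdSheet

set_option autoImplicit false

open MeasureTheory Complex Filter Set
open scoped ContDiff ComplexConjugate ENNReal Topology

namespace Claimed.Agent.R242

section Euclid

variable {n : ℕ}

theorem r242_eq_sum_single (v : Cn n) :
    v = ∑ j, ((v j).re • (Pi.single j 1 : Cn n) + (v j).im • (Pi.single j I : Cn n)) := by
  ext i
  simp only [Finset.sum_apply, Pi.add_apply, Pi.smul_apply, Pi.single_apply, Complex.real_smul]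
  rw [Finset.sum_eq_single i]
  · simp [Complex.re_add_im]
  · intro b _ hb
    simp [Ne.symm hb]
  · simp

theorem r242_I_smul_eq_sum_single (v : Cn n) :
    I • v = ∑ j, ((v j).re • (Pi.single j I : Cn n) - (v j).im • (Pi.single j 1 : Cn n)) := by
  ext i
  simp only [Finset.sum_apply, Pi.sub_apply, Pi.smul_apply, Pi.single_apply, Complex.real_smul,
    smul_eq_mul]
  rw [Finset.sum_eq_single i]
  · simp only [if_true]
    conv_lhs => rw [← Complex.re_add_im (v i)]
    linear_combination ((v i).im : ℂ) * Complex.I_sq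
  · intro b _ hb
    simp [Ne.symm hb]
  · simp

theorem r242_dbarC_eq_sum (φ : Cn n → ℂ) (w v : Cn n) :
    r242_dbarC φ w v = ∑ j, 2 * conj (v j) * dzb j φ w := by
  unfold r242_dbarC dzb
  conv_lhs => rw [r242_I_smul_eq_sum_single v]
  conv_lhs => enter [1]; rw [r242_eq_sum_single v]
  simp only [map_sum, map_add, map_sub, map_smul, Finset.mul_sum, ← Finset.sum_add_distrib,
    Complex.real_smul]
  refine Finset.sum_congr rfl fun j _ => ?_
  have h1 : conj (v j) = ((v j).re : ℂ) - (v j).im * I := by
    apply Complex.ext <;> simp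
  rw [h1]
  linear_combination ((v j).im : ℂ) * (fderiv ℝ φ w (Pi.single j I)) * Complex.I_sq

theorem r242_continuous_dzb {φ : Cn n → ℂ} (hφ : ContDiff ℝ ∞ φ) (j : Fin n) :
    Continuous (dzb j φ) := by
  have h1 : Continuous (fderiv ℝ φ) := hφ.continuous_fderiv (by simp)
  unfold dzb
  exact ((h1.clm_apply continuous_const).add
    (continuous_const.mul (h1.clm_apply continuous_const))).div_const _

theorem r242_dzb_of_notMem_tsupport {φ : Cn n → ℂ} {z : Cn n} (hz : z ∉ tsupport φ) (j : Fin n) :
    dzb j φ z = 0 := by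
  have h1 : fderiv ℝ φ z = 0 := fderiv_of_notMem_tsupport ℝ hz
  simp [dzb, h1]

/-- weak holomorphy on a subset of `Cn n`, tested with `dzb`. -/
theorem r242_weakHol_Cn {U : Set (Cn n)} {u : Cn n → ℂ} (hl : LocallyIntegrableOn u U volume)
    (h : ∀ φ : Cn n → ℂ, ContDiff ℝ ∞ φ → HasCompactSupport φ → tsupport φ ⊆ U →
      ∀ j, ∫ w, u w * dzb j φ w = 0) : r242_WeakHol volume U u := by
  refine r242_weakHol_of_complex volume hl fun φ hφ hc hs v => ?_
  simp only [r242_dbarC_eq_sum, Finset.sum_mul]
  have hrw : ∀ (j : Fin n) (w : Cn n),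
      2 * conj (v j) * dzb j φ w * u w = (2 * conj (v j)) * (u w * dzb j φ w) := fun j w => by ring
  simp only [hrw]
  rw [integral_finsetSum]
  · refine Finset.sum_eq_zero fun j _ => ?_
    rw [integral_const_mul, h φ hφ hc hs j, mul_zero]
  · intro j _
    refine Integrable.const_mul ?_ _
    have h1 : IntegrableOn u (tsupport φ) volume := hl.integrableOn_compact_subset hs hc
    have h2 : IntegrableOn (fun w => u w * dzb j φ w) (tsupport φ) volume :=
      h1.mul_continuousOn (r242_continuous_dzb hφ j).continuousOn hc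
    refine h2.integrable_of_forall_notMem_eq_zero fun w hw => ?_
    rw [r242_dzb_of_notMem_tsupport hw, mul_zero]

/-- **Weyl's lemma** on an open subset of `Cn n`, in terms of `dzb`. -/
theorem weyl_Cn {U : Set (Cn n)} (hU : IsOpen U) {u : Cn n → ℂ}
    (hl : LocallyIntegrableOn u U volume)
    (h : ∀ φ : Cn n → ℂ, ContDiff ℝ ∞ φ → HasCompactSupport φ → tsupport φ ⊆ U →
      ∀ j, ∫ w, u w * dzb j φ w = 0) :
    ∃ F : Cn n → ℂ, DifferentiableOn ℂ F U ∧ ∀ᵐ z, z ∈ U → u z = F z :=
  r242_weyl volume hU (r242_weakHol_Cn hl h)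

end Euclid

section RD

variable {n : ℕ} {W : Type*} [TopologicalSpace W] [T2Space W] [SecondCountableTopology W]
  [MeasurableSpace W] [BorelSpace W] {p : W → Cn n} (hp : IsLocalHomeomorph p)

include hp in
omit [T2Space W] in
theorem r242_locallyIntegrableOn_sheet {u : W → ℂ} (hu : LocallyIntegrable u (rdVol p))
    {e : OpenPartialHomeomorph W (Cn n)} (he : IsSheet p e) :
    LocallyIntegrableOn (fun z => u (e.symm z)) e.target volume := by
  intro z hz
  obtain ⟨N, hN, hNi⟩ := hu (e.symm z)
  set e' := e.restrOpen (interior N) isOpen_interior with he'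
  have hs' : IsSheet p e' := he.restrOpen _ _
  have h1 : IntegrableOn u e'.source (rdVol p) :=
    hNi.mono_set fun x hx => interior_subset hx.2
  have h2 := (integrableOn_sheet_iff hp hs' u).1 h1
  refine ⟨e'.target, mem_nhdsWithin_of_mem_nhds (e'.open_target.mem_nhds ?_), h2⟩
  exact ⟨hz, mem_interior_iff_mem_nhds.2 hN⟩

/-- a weakly holomorphic function on `W` is weakly holomorphic in every sheet. -/
theorem r242_weakHol_sheet {u : W → ℂ} (hu : LocallyIntegrable u (rdVol p))
    (h : RdWeakDbar hp u (fun _ _ => 0)) {e : OpenPartialHomeomorph W (Cn n)} (he : IsSheet p e) :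
    r242_WeakHol volume e.target (fun z => u (e.symm z)) := by
  refine r242_weakHol_Cn (r242_locallyIntegrableOn_sheet hp hu he) fun φ hφ hc hs j => ?_
  have hφ0 : ∀ z ∉ tsupport φ, φ z = 0 := fun z hz => image_eq_zero_of_notMem_tsupport hz
  have hL : IsCompact (tsupport φ) := hc
  have ht : RdTest hp ∞ (rdPull p e φ) :=
    ⟨rdContDiff_rdPull hp he hL hs hφ0 hφ, hasCompactSupport_rdPull he hL hs hφ0⟩
  have h1 := h (rdPull p e φ) ht j
  rw [rdDb_rdPull hp he hL hs hφ0 j] at h1
  simp only [zero_mul, integral_zero, neg_zero] at h1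
  have h2 : ∫ x, u x * rdPull p e (dzb j φ) x ∂(rdVol p) =
      ∫ x in e.source, u x * dzb j φ (p x) ∂(rdVol p) := by
    rw [← setIntegral_eq_integral_of_forall_compl_eq_zero (s := e.source)]
    · refine setIntegral_congr_fun e.open_source.measurableSet fun x hx => ?_
      simp only [rdPull_of_mem _ hx]
    · intro x hx
      rw [rdPull_of_notMem _ hx, mul_zero]
  rw [h2, integral_sheet hp he] at h1
  rw [← h1, ← setIntegral_eq_integral_of_forall_compl_eq_zero (s := e.target)]
  · refine setIntegral_congr_fun e.open_target.measurableSet fun z hz => ?_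
    simp only [he.apply_symm hz]
  · intro z hz
    rw [r242_dzb_of_notMem_tsupport (fun h => hz (hs h)), mul_zero]

/-- **WEYL on a Riemann domain** (the statement of `weyl_rd`). -/
theorem r242_weyl_rd (u : W → ℂ) (hu : LocallyIntegrable u (rdVol p))
    (h : RdWeakDbar hp u (fun _ _ => 0)) :
    ∃ F : W → ℂ, RdHolo hp F ∧ RdContDiff hp ∞ F ∧ u =ᵐ[rdVol p] F := by
  have key : ∀ x : W, ∃ H : Cn n → ℂ, DifferentiableOn ℂ H (rdSheet hp x).target ∧
      ∀ᵐ z, z ∈ (rdSheet hp x).target → u ((rdSheet hp x).symm z) = H z := fun x =>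
    r242_weyl volume (rdSheet hp x).open_target (r242_weakHol_sheet hp hu h (isSheet_rdSheet hp x))
  choose H hH hHae using key
  -- compatibility of the local solutions
  have hcomp : ∀ x y, y ∈ (rdSheet hp x).source → H y (p y) = H x (p y) := by
    intro x y hy
    have hex := isSheet_rdSheet hp x
    have hey := isSheet_rdSheet hp y
    set ex := rdSheet hp x with hexd
    set ey := rdSheet hp y with heyd
    set e' := ex.restrOpen ey.source ey.open_source with he'
    have hs' : IsSheet p e' := hex.restrOpen _ _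
    have hsubx : e'.target ⊆ ex.target := fun z hz => hz.1
    have hsym : ∀ z ∈ e'.target, ey.symm z = ex.symm z ∧ z ∈ ey.target := by
      intro z hz
      have h1 : ex.symm z ∈ ey.source := hz.2
      have h2 : p (ex.symm z) = z := hex.apply_symm hz.1
      refine ⟨?_, ?_⟩
      · conv_lhs => rw [← h2]
        exact hey.symm_apply h1
      · have h3 := ey.map_source h1
        rw [hey, h2] at h3
        exact h3
    have hEq : EqOn (H y) (H x) e'.target := by
      refine Measure.eqOn_open_of_ae_eq (μ := volume) ?_ e'.open_target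
        ((hH y).continuousOn.mono fun z hz => (hsym z hz).2)
        ((hH x).continuousOn.mono hsubx)
      rw [Filter.EventuallyEq, ae_restrict_iff' e'.open_target.measurableSet]
      filter_upwards [hHae x, hHae y] with z hzx hzy hz
      rw [← hzx (hsubx hz), ← hzy (hsym z hz).2, (hsym z hz).1]
    refine hEq ?_
    have h4 : y ∈ e'.source := ⟨hy, mem_rdSheet_source hp y⟩
    have h5 := e'.map_source h4
    rw [hs'] at h5
    exact h5
  set F : W → ℂ := fun y => H y (p y) with hF
  have hloc : ∀ x, rdLoc hp F x =ᶠ[𝓝 (p x)] H x := by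
    intro x
    have hex := isSheet_rdSheet hp x
    have hx := mem_rdSheet_source hp x
    have hpx : p x ∈ (rdSheet hp x).target := by
      have := (rdSheet hp x).map_source hx
      rw [hex] at this
      exact this
    filter_upwards [rdLoc_eventuallyEq_sheet hp F hex hx,
      (rdSheet hp x).open_target.mem_nhds hpx] with z hz1 hz2
    rw [hz1]
    simp only [hF]
    rw [hcomp x _ ((rdSheet hp x).map_target hz2), hex.apply_symm hz2]
  have hpx : ∀ x, (rdSheet hp x).target ∈ 𝓝 (p x) := by
    intro x
    have := (rdSheet hp x).map_source (mem_rdSheet_source hp x)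
    rw [isSheet_rdSheet hp x] at this
    exact (rdSheet hp x).open_target.mem_nhds this
  refine ⟨F, fun x => ?_, fun x => ?_, ?_⟩
  · exact ((hH x).differentiableAt (hpx x)).congr_of_eventuallyEq (hloc x)
  · exact ((contDiffOn_of_differentiableOn_Cn (rdSheet hp x).open_target (hH x)).contDiffAt
      (hpx x)).congr_of_eventuallyEq (hloc x)
  · refine ae_rdVol_of_forall_sheet hp fun x => ?_
    refine (ae_sheet_iff hp (isSheet_rdSheet hp x) _).2 ?_
    filter_upwards [hHae x] with z hz hzt
    rw [hz hzt]
    simp only [hF]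
    rw [hcomp x _ ((rdSheet hp x).map_target hzt), (isSheet_rdSheet hp x).apply_symm hzt]

end RD

end Claimed.Agent.R242
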