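/-
Row 242, SCV layer.  HorHolo: from `hormander_rd` to `hormander_rd_holo` (HOR + WEYL + minimal solution).
Blueprint: helper290.   Leaves: SCV-HH-PROJ (section 1), SCV-HH-MIN (section 2), SCV-HH-EX (section 3).  Glue proved.
No import of Main: the statement of `hormander_rd` enters as the hypothesis `HorRd hp`.

Plan.
1. `exists_L2_projection` (Mathlib only): in `H = Lp ℂ 2 ν` let `K = (span {toLp e | e ∈ 𝒟})ᗮ` (closed: `Submodule.isClosed_orthogonal`, hence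
   complete, `Submodule.HasOrthogonalProjection.ofCompleteSpace`); `h₀ =` a representative of the orthogonal projection of `toLp u₀` on `K`.
   `L2.inner_def`, `MemLp.coeFn_toLp`, `Submodule.mem_orthogonal`, `Submodule.span_induction`‑free: `Submodule.mem_orthogonal'` +
   `Submodule.inner_right_of_mem_orthogonal`; norm of `v - P v` `≤` norm of `v`; `v - P v ∈ Kᗮ`.
2. `rd_minimal`: `ν = rdVolW p φ`, `𝒟 = {x ↦ conj (rdDb hp j w x) e^{φ x}}` (`w` test function, `j`): continuous with compact support, so in `L²(ν)`.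
   `∫ h₀ conj e dν = ∫ h₀ · rdDb j w dμ` (`integral_rdVolW`, `e^{φ} e^{-φ} = 1`), so `h₀` is weakly holomorphic; it is `L²_loc`
   (`rdL2Loc_of_lintegral_rdVolW`), `r242_weyl_rd` gives `h` holomorphic with `h₀ = h` a.e.  A holomorphic `k ∈ L²(ν)` satisfies
   `∫ k · rdDb j w dμ = 0` (`rdWeakDbarK_of_contDiff`, `RdHolo.rdDb_eq_zero`, `RdHolo.contDiff`).
3. `hor_holo_exists`: `f j = rdDb hp j g` (`rdL2Loc_of_continuous`, `rdWeakClosed_of_contDiff`), `HorRd` gives `u`; `g - u` is weakly holomorphic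
   (`rdWeakDbarK_of_contDiff` for `g`, linearity of the integral: `RdL2Loc.integrable_mul`), `r242_weyl_rd` gives `F₀ = g - u` a.e.
-/
import Claimed.Agent.R242.SCV.WeylRd
import Claimed.Agent.R242.SCV.RdIbp
import Claimed.Agent.R242.SCV.RdLap

set_option autoImplicit false
set_option linter.unusedSectionVars false

open MeasureTheory Complex Filter Set
open scoped ContDiff ComplexConjugate ENNReal Topology

namespace Claimed.Agent.R242

/-! ### 1. Projection onto the annihilator of a family, in terms of functions -/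

theorem hh_enorm_rpow_two (z : ℂ) : ‖z‖ₑ ^ (2 : ℝ≥0∞).toReal = ENNReal.ofReal (‖z‖ ^ 2) := by
  rw [ENNReal.toReal_ofNat, ENNReal.rpow_ofNat, ← ofReal_norm, ENNReal.ofReal_pow (norm_nonneg z)]

theorem memLp_two_iff_lintegral {α : Type*} [MeasurableSpace α] {ν : Measure α} {u : α → ℂ} :
    MemLp u 2 ν ↔ AEStronglyMeasurable u ν ∧ ∫⁻ x, ENNReal.ofReal (‖u x‖ ^ 2) ∂ν < ⊤ := by
  unfold MemLp
  rw [eLpNorm_lt_top_iff_lintegral_rpow_enorm_lt_top (by norm_num) (by norm_num)]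
  simp only [hh_enorm_rpow_two]

theorem eLpNorm_two_le_iff_lintegral {α : Type*} [MeasurableSpace α] {ν : Measure α}
    {u v : α → ℂ} :
    eLpNorm u 2 ν ≤ eLpNorm v 2 ν ↔
      ∫⁻ x, ENNReal.ofReal (‖u x‖ ^ 2) ∂ν ≤ ∫⁻ x, ENNReal.ofReal (‖v x‖ ^ 2) ∂ν := by
  rw [eLpNorm_eq_lintegral_rpow_enorm_toReal (by norm_num) (by norm_num),
    eLpNorm_eq_lintegral_rpow_enorm_toReal (by norm_num) (by norm_num)]
  simp only [hh_enorm_rpow_two]
  exact ENNReal.rpow_le_rpow_iff (by norm_num)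

theorem exists_L2_projection {α : Type*} [MeasurableSpace α] (ν : Measure α)
    (𝒟 : Set (α → ℂ)) (h𝒟 : ∀ e ∈ 𝒟, MemLp e 2 ν) {u₀ : α → ℂ} (hu₀ : MemLp u₀ 2 ν) :
    ∃ h₀ : α → ℂ, MemLp h₀ 2 ν ∧ (∀ e ∈ 𝒟, ∫ x, h₀ x * conj (e x) ∂ν = 0) ∧
      eLpNorm (fun x => u₀ x - h₀ x) 2 ν ≤ eLpNorm u₀ 2 ν ∧
      ∀ k : α → ℂ, MemLp k 2 ν → (∀ e ∈ 𝒟, ∫ x, k x * conj (e x) ∂ν = 0) →
        ∫ x, (u₀ x - h₀ x) * conj (k x) ∂ν = 0 := by
  classical
  set 𝒮 : Set (Lp ℂ 2 ν) := {f | ∃ e, ∃ he : e ∈ 𝒟, f = (h𝒟 e he).toLp e} with h𝒮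
  set K : Submodule ℂ (Lp ℂ 2 ν) := (Submodule.span ℂ 𝒮)ᗮ with hK
  have hKc : IsClosed (K : Set (Lp ℂ 2 ν)) := Submodule.isClosed_orthogonal _
  have : CompleteSpace K := hKc.completeSpace_coe
  have : K.HasOrthogonalProjection := Submodule.HasOrthogonalProjection.ofCompleteSpace K
  set v : Lp ℂ 2 ν := hu₀.toLp u₀ with hv
  set Pv : Lp ℂ 2 ν := K.starProjection v with hPv
  have hPvK : Pv ∈ K := Submodule.starProjection_apply_mem K v
  -- inner products as integrals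
  have hinner : ∀ (a b : α → ℂ) (ha : MemLp a 2 ν) (f : Lp ℂ 2 ν), (⇑f =ᵐ[ν] b) →
      inner ℂ (ha.toLp a) f = ∫ x, b x * conj (a x) ∂ν := by
    intro a b ha f hf
    rw [L2.inner_def]
    refine integral_congr_ae ?_
    filter_upwards [ha.coeFn_toLp, hf] with x h1 h2
    rw [h1, h2, RCLike.inner_apply]
  have hvP : ⇑(v - Pv) =ᵐ[ν] fun x => u₀ x - Pv x := by
    filter_upwards [Lp.coeFn_sub v Pv, hu₀.coeFn_toLp] with x h1 h2
    rw [h1, Pi.sub_apply, h2]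
  refine ⟨⇑Pv, Lp.memLp Pv, ?_, ?_, ?_⟩
  · intro e he
    rw [← hinner e (⇑Pv) (h𝒟 e he) Pv (Filter.EventuallyEq.refl _ _)]
    exact (Submodule.mem_orthogonal _ _).1 hPvK _ (Submodule.subset_span ⟨e, he, rfl⟩)
  · have h1 : ‖v - Pv‖ ≤ ‖v‖ := by
      have h2 := Submodule.norm_sq_eq_add_norm_sq_starProjection v K
      have h3 : Kᗮ.starProjection v = v - Pv := by
        rw [Submodule.starProjection_orthogonal_val]
      rw [h3] at h2
      have h4 : ‖v - Pv‖ ^ 2 ≤ ‖v‖ ^ 2 := by nlinarith [sq_nonneg ‖K.starProjection v‖]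
      exact (sq_le_sq₀ (norm_nonneg _) (norm_nonneg _)).1 h4
    rw [Lp.norm_def, Lp.norm_def,
      ENNReal.toReal_le_toReal (Lp.eLpNorm_ne_top _) (Lp.eLpNorm_ne_top _)] at h1
    rw [eLpNorm_congr_ae hvP, eLpNorm_congr_ae hu₀.coeFn_toLp] at h1
    exact h1
  · intro k hk hke
    have hkK : hk.toLp k ∈ K := by
      rw [hK, Submodule.mem_orthogonal]
      intro u hu
      induction hu using Submodule.span_induction with
      | mem u hu =>
        obtain ⟨e, he, rfl⟩ := hu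
        rw [hinner e k (h𝒟 e he) (hk.toLp k) hk.coeFn_toLp]
        exact hke e he
      | zero => exact inner_zero_left _
      | add u w _ _ hu hw => rw [inner_add_left, hu, hw, add_zero]
      | smul c u _ hu => rw [inner_smul_left, hu, mul_zero]
    have h1 := (Submodule.mem_orthogonal _ _).1 (Submodule.sub_starProjection_mem_orthogonal (K := K) v) _ hkK
    rw [hinner k (fun x => u₀ x - Pv x) hk (v - K.starProjection v) hvP] at h1
    exact h1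

variable {n : ℕ} {W : Type*} [TopologicalSpace W] [T2Space W] [SecondCountableTopology W]
  [MeasurableSpace W] [BorelSpace W] {p : W → Cn n} (hp : IsLocalHomeomorph p)

/-- the statement of `hormander_rd` (Main.lean) for `(W, p, hp)`. -/
def HorRd : Prop :=
  ∀ (ρ : W → ℝ) (_ : RdContDiff hp ∞ ρ) (_ : ∀ t, IsCompact {x | ρ x ≤ t})
    (_ : ∀ x a, ∑ j, ‖a j‖ ^ 2 ≤ rdLevi hp ρ x a)
    (φ : W → ℝ) (_ : RdContDiff hp ∞ φ) (_ : ∀ x a, 0 ≤ rdLevi hp φ x a)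
    (f : Fin n → W → ℂ) (_ : ∀ j, RdL2Loc p (f j)) (_ : RdWeakClosed hp f)
    (B : W → ℝ) (_ : Measurable B) (_ : ∀ x, 0 ≤ B x)
    (_ : ∀ᵐ x ∂(rdVol p), ∀ a : Cn n,
      ‖∑ j, f j x * conj (a j)‖ ^ 2 ≤ B x * rdLevi hp φ x a)
    (_ : ∫⁻ x, ENNReal.ofReal (B x) ∂(rdVolW p φ) < ⊤),
    ∃ u : W → ℂ, RdL2Loc p u ∧ RdWeakDbar hp u f ∧
      ∫⁻ x, ENNReal.ofReal (‖u x‖ ^ 2) ∂(rdVolW p φ)
        ≤ ∫⁻ x, ENNReal.ofReal (B x) ∂(rdVolW p φ)

/-- the statement of `hormander_rd_holo` (Main.lean) for `(W, p, hp)`. -/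
def HorRdHolo : Prop :=
  ∀ (ρ : W → ℝ) (_ : RdContDiff hp ∞ ρ) (_ : ∀ t, IsCompact {x | ρ x ≤ t})
    (_ : ∀ x a, ∑ j, ‖a j‖ ^ 2 ≤ rdLevi hp ρ x a)
    (φ : W → ℝ) (_ : RdContDiff hp ∞ φ) (_ : ∀ x a, 0 ≤ rdLevi hp φ x a)
    (g : W → ℂ) (_ : RdContDiff hp ∞ g)
    (B : W → ℝ) (_ : Measurable B) (_ : ∀ x, 0 ≤ B x)
    (_ : ∀ x, ∀ a : Cn n,
      ‖∑ j, rdDb hp j g x * conj (a j)‖ ^ 2 ≤ B x * rdLevi hp φ x a)
    (_ : ∫⁻ x, ENNReal.ofReal (B x) ∂(rdVolW p φ) < ⊤),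
    ∃ F : W → ℂ, RdHolo hp F ∧ RdContDiff hp ∞ F ∧
      ∫⁻ x, ENNReal.ofReal (‖g x - F x‖ ^ 2) ∂(rdVolW p φ)
        ≤ ∫⁻ x, ENNReal.ofReal (B x) ∂(rdVolW p φ) ∧
      ∀ h : W → ℂ, RdHolo hp h → ∫⁻ x, ENNReal.ofReal (‖h x‖ ^ 2) ∂(rdVolW p φ) < ⊤ →
        ∫ x, (g x - F x) * conj (h x) ∂(rdVolW p φ) = 0

/-! ### 2. The minimal solution -/

/-- the test family of the Bergman projection: `conj (∂̄_j w) e^{φ}`. -/
noncomputable def hhE (φ : W → ℝ) (j : Fin n) (w : W → ℂ) (x : W) : ℂ :=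
  conj (rdDb hp j w x) * (Real.exp (φ x) : ℂ)

theorem hhE_integral {φ : W → ℝ} (hφ : Measurable φ) (k : W → ℂ) (j : Fin n) (w : W → ℂ) :
    ∫ x, k x * conj (hhE hp φ j w x) ∂(rdVolW p φ) = ∫ x, k x * rdDb hp j w x ∂(rdVol p) := by
  rw [integral_rdVolW hφ]
  refine integral_congr_ae (Filter.Eventually.of_forall fun x => ?_)
  show k x * conj (hhE hp φ j w x) * (Real.exp (-φ x) : ℂ) = k x * rdDb hp j w x
  have h1 : ((Real.exp (φ x) : ℝ) : ℂ) * ((Real.exp (-φ x) : ℝ) : ℂ) = 1 := by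
    rw [← Complex.ofReal_mul, ← Real.exp_add, add_neg_cancel, Real.exp_zero, Complex.ofReal_one]
  unfold hhE
  rw [map_mul, Complex.conj_conj, Complex.conj_ofReal, mul_assoc, mul_assoc, h1, mul_one]

theorem hhE_memLp {φ : W → ℝ} (hφ : Continuous φ) {w : W → ℂ} (hw : RdTest hp ∞ w) (j : Fin n) :
    MemLp (hhE hp φ j w) 2 (rdVolW p φ) := by
  have hc : Continuous (rdDb hp j w) :=
    RdContDiff.continuous hp (RdContDiff.rdDb hp (k := 0)
      (RdContDiff.of_le hp hw.1 (by exact_mod_cast le_top) : RdContDiff hp 1 w) (by simp) j)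
  have hs : HasCompactSupport (rdDb hp j w) := RdTest.hasCompactSupport_rdDb hp hw.2 j
  have hEc : Continuous (hhE hp φ j w) :=
    (Complex.continuous_conj.comp hc).mul (Complex.continuous_ofReal.comp (Real.continuous_exp.comp hφ))
  refine memLp_two_iff_lintegral.2 ⟨hEc.aestronglyMeasurable, ?_⟩
  rw [lintegral_rdVolW_ofReal hφ.measurable (fun x => by positivity)]
  have hc2 : Continuous fun x => ‖hhE hp φ j w x‖ ^ 2 * Real.exp (-φ x) :=
    (hEc.norm.pow 2).mul (Real.continuous_exp.comp hφ.neg)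
  have hs2 : HasCompactSupport fun x => ‖hhE hp φ j w x‖ ^ 2 * Real.exp (-φ x) := by
    refine hs.mono ?_
    intro x hx
    rw [Function.mem_support] at hx ⊢
    intro h0
    apply hx
    simp [hhE, h0]
  exact (integrable_of_continuous_compactSupport hp hc2 hs2).lintegral_lt_top

/-- **MIN**: subtracting the Bergman projection. -/
theorem rd_minimal {φ : W → ℝ} (hφ : Continuous φ) {u₀ : W → ℂ}
    (hm : AEStronglyMeasurable u₀ (rdVol p))
    (hu₀ : ∫⁻ x, ENNReal.ofReal (‖u₀ x‖ ^ 2) ∂(rdVolW p φ) < ⊤) :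
    ∃ h : W → ℂ, RdHolo hp h ∧ RdContDiff hp ∞ h ∧
      ∫⁻ x, ENNReal.ofReal (‖u₀ x - h x‖ ^ 2) ∂(rdVolW p φ)
        ≤ ∫⁻ x, ENNReal.ofReal (‖u₀ x‖ ^ 2) ∂(rdVolW p φ) ∧
      ∀ k : W → ℂ, RdHolo hp k → ∫⁻ x, ENNReal.ofReal (‖k x‖ ^ 2) ∂(rdVolW p φ) < ⊤ →
        ∫ x, (u₀ x - h x) * conj (k x) ∂(rdVolW p φ) = 0 := by
  have hφm : Measurable φ := hφ.measurable
  set ν := rdVolW p φ with hν
  set 𝒟 : Set (W → ℂ) := {e | ∃ (j : Fin n) (w : W → ℂ), RdTest hp ∞ w ∧ e = hhE hp φ j w} with h𝒟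
  have h𝒟L : ∀ e ∈ 𝒟, MemLp e 2 ν := by
    rintro e ⟨j, w, hw, rfl⟩
    exact hhE_memLp hp hφ hw j
  have hu₀L : MemLp u₀ 2 ν :=
    memLp_two_iff_lintegral.2 ⟨(aestronglyMeasurable_rdVolW_iff hφm u₀).2 hm, hu₀⟩
  obtain ⟨h₀, hh₀L, hh₀o, hh₀n, hh₀k⟩ := exists_L2_projection ν 𝒟 h𝒟L hu₀L
  obtain ⟨hh₀m, hh₀i⟩ := memLp_two_iff_lintegral.1 hh₀L
  have hh₀loc : RdL2Loc p h₀ :=
    rdL2Loc_of_lintegral_rdVolW hp hφ ((aestronglyMeasurable_rdVolW_iff hφm h₀).1 hh₀m) hh₀i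
  have hw : RdWeakDbar hp h₀ (fun _ _ => 0) := by
    intro v hv j
    have h1 := hh₀o (hhE hp φ j v) ⟨j, v, hv, rfl⟩
    rw [hν, hhE_integral hp hφm] at h1
    simp only [zero_mul, integral_zero, neg_zero]
    exact h1
  obtain ⟨h, hh, hhs, hae⟩ := r242_weyl_rd hp h₀ (RdL2Loc.locallyIntegrable hp hh₀loc) hw
  have hae' : ∀ᵐ x ∂ν, h₀ x = h x := (rdVolW_absolutelyContinuous_iff hφm _).2 hae
  refine ⟨h, hh, hhs, ?_, ?_⟩
  · have h1 := eLpNorm_two_le_iff_lintegral.1 hh₀n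
    refine le_trans (le_of_eq ?_) h1
    refine lintegral_congr_ae ?_
    filter_upwards [hae'] with x hx
    rw [hx]
  · intro k hk hk2
    have hks : RdContDiff hp ∞ k := hk.contDiff hp
    have hkL : MemLp k 2 ν :=
      memLp_two_iff_lintegral.2 ⟨(hks.continuous hp).aestronglyMeasurable, hk2⟩
    have hko : ∀ e ∈ 𝒟, ∫ x, k x * conj (e x) ∂ν = 0 := by
      rintro e ⟨j, w, hw', rfl⟩
      rw [hν, hhE_integral hp hφm]
      have h1 := rdWeakDbarK_of_contDiff hp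
        (RdContDiff.of_le hp hks (by exact_mod_cast le_top) : RdContDiff hp 1 k)
        (k := ∞) (by exact_mod_cast le_top) w hw' j
      rw [h1]
      simp only [hk.rdDb_eq_zero hp, zero_mul, integral_zero, neg_zero]
    have h2 := hh₀k k hkL hko
    rw [← h2]
    refine integral_congr_ae ?_
    filter_upwards [hae'] with x hx
    rw [hx]

/-! ### 3. Existence of a holomorphic correction -/

theorem hor_holo_exists (hHor : HorRd hp)
    (ρ : W → ℝ) (hρ : RdContDiff hp ∞ ρ) (hρc : ∀ t, IsCompact {x | ρ x ≤ t})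
    (hρl : ∀ x a, ∑ j, ‖a j‖ ^ 2 ≤ rdLevi hp ρ x a)
    (φ : W → ℝ) (hφ : RdContDiff hp ∞ φ) (hφl : ∀ x a, 0 ≤ rdLevi hp φ x a)
    (g : W → ℂ) (hg : RdContDiff hp ∞ g)
    (B : W → ℝ) (hB : Measurable B) (hB0 : ∀ x, 0 ≤ B x)
    (hgB : ∀ x, ∀ a : Cn n,
      ‖∑ j, rdDb hp j g x * conj (a j)‖ ^ 2 ≤ B x * rdLevi hp φ x a)
    (hBi : ∫⁻ x, ENNReal.ofReal (B x) ∂(rdVolW p φ) < ⊤) :
    ∃ F₀ : W → ℂ, RdHolo hp F₀ ∧ RdContDiff hp ∞ F₀ ∧
      ∫⁻ x, ENNReal.ofReal (‖g x - F₀ x‖ ^ 2) ∂(rdVolW p φ)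
        ≤ ∫⁻ x, ENNReal.ofReal (B x) ∂(rdVolW p φ) := by
  have hg1 : RdContDiff hp 1 g := RdContDiff.of_le hp hg (by exact_mod_cast le_top)
  have hg2 : RdContDiff hp 2 g := RdContDiff.of_le hp hg (by norm_cast)
  have hgc : Continuous g := hg.continuous hp
  have hfc : ∀ j, Continuous (rdDb hp j g) := fun j =>
    RdContDiff.continuous hp (RdContDiff.rdDb hp (k := 0) hg1 (by simp) j)
  obtain ⟨u, hu, huw, hub⟩ := hHor ρ hρ hρc hρl φ hφ hφl (fun j => rdDb hp j g)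
    (fun j => rdL2Loc_of_continuous hp (hfc j)) (rdWeakClosed_of_contDiff hp hg2) B hB hB0
    (Filter.Eventually.of_forall hgB) hBi
  have hgL : RdL2Loc p g := rdL2Loc_of_continuous hp hgc
  have hli : LocallyIntegrable (fun x => g x - u x) (rdVol p) :=
    (RdL2Loc.locallyIntegrable hp hgL).sub (RdL2Loc.locallyIntegrable hp hu)
  have hw : RdWeakDbar hp (fun x => g x - u x) (fun _ _ => 0) := by
    intro v hv j
    have hvc : Continuous (rdDb hp j v) :=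
      RdContDiff.continuous hp (RdContDiff.rdDb hp (k := 0)
        (RdContDiff.of_le hp hv.1 (by exact_mod_cast le_top) : RdContDiff hp 1 v) (by simp) j)
    have hvs : HasCompactSupport (rdDb hp j v) := RdTest.hasCompactSupport_rdDb hp hv.2 j
    have i1 := RdL2Loc.integrable_mul hp hgL hvc hvs
    have i2 := RdL2Loc.integrable_mul hp hu hvc hvs
    have e1 := rdWeakDbarK_of_contDiff hp hg1 (k := ∞) (by exact_mod_cast le_top) v hv j
    have e2 := huw v hv j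
    simp only [sub_mul, zero_mul, integral_zero, neg_zero]
    rw [integral_sub i1 i2, e1, e2, sub_self]
  obtain ⟨F₀, hF₀, hF₀s, hae⟩ := r242_weyl_rd hp _ hli hw
  refine ⟨F₀, hF₀, hF₀s, le_trans (le_of_eq ?_) hub⟩
  refine lintegral_congr_ae ?_
  rw [Filter.EventuallyEq, rdVolW_absolutelyContinuous_iff (hφ.continuous hp).measurable]
  filter_upwards [hae] with x hx
  have : g x - F₀ x = u x := by
    rw [← hx]
    ring
  rw [this]

theorem RdHolo.add {u v : W → ℂ} (hu : RdHolo hp u) (hv : RdHolo hp v) :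
    RdHolo hp (fun x => u x + v x) := fun x => (hu x).add (hv x)

/-- **HOR-min from HOR.** -/
theorem hormander_rd_holo_of (hHor : HorRd hp) : HorRdHolo hp := by
  intro ρ hρ hρc hρl φ hφ hφl g hg B hB hB0 hgB hBi
  obtain ⟨F₀, hF₀, hF₀s, hF₀b⟩ :=
    hor_holo_exists hp hHor ρ hρ hρc hρl φ hφ hφl g hg B hB hB0 hgB hBi
  have hc : Continuous fun x => g x - F₀ x := (hg.continuous hp).sub (hF₀s.continuous hp)
  obtain ⟨h, hh, hhs, hhb, hho⟩ := rd_minimal hp (hφ.continuous hp)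
    (u₀ := fun x => g x - F₀ x) hc.aestronglyMeasurable (hF₀b.trans_lt hBi)
  refine ⟨fun x => F₀ x + h x, hF₀.add hp hh, hF₀s.add hp hhs, ?_, ?_⟩
  · simp only [← sub_sub]
    exact hhb.trans hF₀b
  · intro k hk hk2
    simp only [← sub_sub]
    exact hho k hk hk2

end Claimed.Agent.R242
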