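/-
Row 242 (S0480), SCV layer, package OT (Ohsawa–Takegoshi for the constant 1, and INV).   Architect: helper290.

Proof = B.-Y. Chen's proof of the Ohsawa–Takegoshi theorem from Hörmander's estimate, with explicit functions.

OtDefs  : definitions; the statement of `hormander_open_holo` as a hypothesis `HorOpen n` (no import of Main).
OtOne   : one-variable calculus of `P(ρ) = -log(-ρ + log(-ρ))`, cut-off `b`            (leaf SCV-OT-ONE)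
OtFun   : the functions `t, ρ, ψ, g` on `Cn (n+1)`: smoothness, `∂̄`, Levi forms        (leaves SCV-OT-FUN-A/B)
OtExh   : the polydisc minus a hyperplane is admissible                               (leaf SCV-OT-EXH)
OtTwist : the twisted estimate (Donnelly–Fefferman–Berndtsson–Chen trick), abstract   (leaves SCV-OT-PYTH, -TWIST)
OtStep  : steps 1, 2 (Hörmander twice), choice of ε, extension across the hyperplane   (leaves SCV-OT-S1,S2,EPS,EXT)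
Ot      : `ot_smooth_of`, `inv_of_ot`                                                 (leaves SCV-OT-FIN, SCV-OT-INV)

NOTATION.  `D = ball 0 R ⊆ Cn (n+1)`, `Ω = D \ {z 0 = w₀}`, `t = |z 0 - w₀|²` (`< 4R²` on `D`), `N = e (4R²+1)`, `0 < ε ≤ 1`,
`ρ = log((t+ε²)/N) < -1`, `η = -ρ + log(-ρ) ≥ 1`, `ψ = -log η = P(ρ) ≤ 0`, `x = η/(1-ρ)²`,
`φ₁ = φ + ∑|z_j|²`, `φ̃ = φ₁ + log t`, `g = b(t/ε²)`.
-/
import Claimed.Agent.R242.SCV.WirtB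

set_option autoImplicit false

open MeasureTheory Complex Set Filter
open scoped ContDiff ComplexConjugate ENNReal Topology

namespace Claimed.Agent.R242

/-- `Ω` is open and has a smooth exhaustion function whose Levi form is `≥ |a|²`. -/
def Admissible {n : ℕ} (Ω : Set (Cn n)) : Prop :=
  IsOpen Ω ∧ ∃ ρ : Cn n → ℝ, ContDiffOn ℝ ∞ ρ Ω ∧ (∀ t, IsCompact {z | z ∈ Ω ∧ ρ z ≤ t}) ∧
    ∀ z ∈ Ω, ∀ a : Cn n, ∑ j, ‖a j‖ ^ 2 ≤ levi ρ z a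

/-- the statement of `hormander_open_holo` (Main.lean) in dimension `n`. -/
def HorOpen (n : ℕ) : Prop :=
  ∀ (Ω : Set (Cn n)) (_ : Admissible Ω) (φ : Cn n → ℝ) (_ : PshOn φ Ω)
    (g : Cn n → ℂ) (_ : ContDiffOn ℝ ∞ g Ω)
    (B : Cn n → ℝ) (_ : Measurable B) (_ : ∀ z, 0 ≤ B z)
    (_ : ∀ z ∈ Ω, ∀ a : Cn n, ‖∑ j, dzb j g z * conj (a j)‖ ^ 2 ≤ B z * levi φ z a)
    (_ : ∫⁻ z in Ω, ENNReal.ofReal (B z * Real.exp (-φ z)) < ⊤),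
    ∃ F : Cn n → ℂ, DifferentiableOn ℂ F Ω ∧ ContDiffOn ℝ ∞ F Ω ∧
      ∫⁻ z in Ω, ENNReal.ofReal (‖g z - F z‖ ^ 2 * Real.exp (-φ z))
        ≤ ∫⁻ z in Ω, ENNReal.ofReal (B z * Real.exp (-φ z)) ∧
      ∀ h : Cn n → ℂ, DifferentiableOn ℂ h Ω →
        ∫⁻ z in Ω, ENNReal.ofReal (‖h z‖ ^ 2 * Real.exp (-φ z)) < ⊤ →
        ∫ z in Ω, (g z - F z) * conj (h z) * (Real.exp (-φ z) : ℂ) = 0

/-- the statement of `ot_smooth` (Main.lean) in dimension `n + 1`. -/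
def OtSmooth (n : ℕ) : Prop :=
  ∀ (R : ℝ) (_ : 0 < R),
    ∃ C : ℝ, 0 < C ∧ ∀ (R' : ℝ) (_ : R < R') (φ : Cn (n + 1) → ℝ)
      (_ : PshOn φ (Metric.ball 0 R')) (w₀ : ℂ) (_ : ‖w₀‖ < R),
      ∃ F : Cn (n + 1) → ℂ, DifferentiableOn ℂ F (Metric.ball 0 R) ∧
        (∀ z' : Cn n, z' ∈ Metric.ball (0 : Cn n) R → F (Fin.cons w₀ z') = 1) ∧
        ∫⁻ z in Metric.ball (0 : Cn (n + 1)) R, ENNReal.ofReal (‖F z‖ ^ 2 * Real.exp (-φ z))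
          ≤ ENNReal.ofReal C *
            ∫⁻ z' in Metric.ball (0 : Cn n) R, ENNReal.ofReal (Real.exp (-φ (Fin.cons w₀ z')))

/-! ### one variable -/

/-- `η(ρ) = -ρ + log(-ρ)`. -/
noncomputable def otEta (ρ : ℝ) : ℝ := -ρ + Real.log (-ρ)

/-- `P(ρ) = -log η(ρ)`. -/
noncomputable def otP (ρ : ℝ) : ℝ := -Real.log (otEta ρ)

/-- `x(ρ) = η/(1-ρ)²`. -/
noncomputable def otX (ρ : ℝ) : ℝ := otEta ρ / (1 - ρ) ^ 2

/-- the cut-off `b`: `1` on `(-∞,1/2]`, `0` on `[1,∞)`. -/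
noncomputable def otB (s : ℝ) : ℝ := 1 - Real.smoothTransition (2 * s - 1)

/-! ### functions on `Cn (n+1)` -/

variable {n : ℕ}

/-- `Ω = D \ {z 0 = w₀}`. -/
def otOm (n : ℕ) (R : ℝ) (w₀ : ℂ) : Set (Cn (n + 1)) := Metric.ball 0 R \ {z | z 0 = w₀}

/-- `t = |z 0 - w₀|²`. -/
noncomputable def otT (w₀ : ℂ) (z : Cn (n + 1)) : ℝ := ‖z 0 - w₀‖ ^ 2

/-- `N = e (4R²+1)`. -/
noncomputable def otN (R : ℝ) : ℝ := Real.exp 1 * (4 * R ^ 2 + 1)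

/-- `ρ = log((t+ε²)/N)`. -/
noncomputable def otRho (R ε : ℝ) (w₀ : ℂ) (z : Cn (n + 1)) : ℝ :=
  Real.log ((otT w₀ z + ε ^ 2) / otN R)

/-- `ψ = P(ρ)`. -/
noncomputable def otPsi (R ε : ℝ) (w₀ : ℂ) (z : Cn (n + 1)) : ℝ := otP (otRho R ε w₀ z)

/-- `g = b(t/ε²)`. -/
noncomputable def otG (ε : ℝ) (w₀ : ℂ) (z : Cn (n + 1)) : ℂ := ((otB (otT w₀ z / ε ^ 2) : ℝ) : ℂ)

/-- `φ₁ = φ + ∑ |z_j|²`. -/
noncomputable def otPhi1 (φ : Cn (n + 1) → ℝ) (z : Cn (n + 1)) : ℝ := φ z + ∑ j, ‖z j‖ ^ 2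

/-- `φ̃ = φ₁ + log t`. -/
noncomputable def otPhiT (φ : Cn (n + 1) → ℝ) (w₀ : ℂ) (z : Cn (n + 1)) : ℝ :=
  otPhi1 φ z + Real.log (otT w₀ z)

/-- `Θ₁ = (1+x) P'(ρ)² t/(t+ε²)² = (1+x) |∂̄₀ψ|²`. -/
noncomputable def otTh1 (R ε : ℝ) (w₀ : ℂ) (z : Cn (n + 1)) : ℝ :=
  (1 + otX (otRho R ε w₀ z)) * (deriv otP (otRho R ε w₀ z)) ^ 2 * otT w₀ z
    / (otT w₀ z + ε ^ 2) ^ 2

/-- `Θ₂ = P'(ρ) ε²/(t+ε²)²`. -/
noncomputable def otTh2 (R ε : ℝ) (w₀ : ℂ) (z : Cn (n + 1)) : ℝ :=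
  deriv otP (otRho R ε w₀ z) * ε ^ 2 / (otT w₀ z + ε ^ 2) ^ 2

/-- the exhaustion function of `Ω`. -/
noncomputable def otExh (R : ℝ) (w₀ : ℂ) (z : Cn (n + 1)) : ℝ :=
  ∑ j, ‖z j‖ ^ 2 + ∑ j, 1 / (R ^ 2 - ‖z j‖ ^ 2) + 1 / ‖z 0 - w₀‖ ^ 2

end Claimed.Agent.R242

/-! equation lemmas of this file, cited once here (rule 6) -/
namespace Claimed.Agent.R242

theorem r242_eqcite_SCV_OtDefs : True := by
  have := @Claimed.Agent.R242.otEta.eq_1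
  have := @Claimed.Agent.R242.otExh.eq_1
  have := @Claimed.Agent.R242.otN.eq_1
  have := @Claimed.Agent.R242.otTh1.eq_1
  have := @Claimed.Agent.R242.OtSmooth.eq_1
  have := @Claimed.Agent.R242.otG.eq_1
  have := @Claimed.Agent.R242.otX.eq_1
  have := @Claimed.Agent.R242.HorOpen.eq_1
  have := @Claimed.Agent.R242.otP.eq_1
  have := @Claimed.Agent.R242.otPhi1.eq_1
  have := @Claimed.Agent.R242.otT.eq_1
  have := @Claimed.Agent.R242.otB.eq_1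
  have := @Claimed.Agent.R242.otPhiT.eq_1
  have := @Claimed.Agent.R242.otOm.eq_1
  have := @Claimed.Agent.R242.otPsi.eq_1
  have := @Claimed.Agent.R242.otTh2.eq_1
  have := @Claimed.Agent.R242.otRho.eq_1
  have := @Claimed.Agent.R242.Admissible.eq_1
  trivial

end Claimed.Agent.R242
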