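/-
Row 242 (S0480), SCV layer, package SC (semicontinuity).   Architect: helper64 (maths: helper290, #5147).

ScDefs : definitions + basic facts on the weights          (leaf SCV-SC-BASIC)
ScMeas : uniform integrability, choice of the slice, Tonelli (leaves SCV-SC-UI, SCV-SC-SLICE)
ScPhi  : the regularised psh weights, Fatou                 (leaf SCV-SC-PHI)
Sc     : dimension 0, centred version, compact sets, bound  (leaf SCV-SC-IND) + PROVED glue
         `sc_step`, `sc_all`, `sc_semicontinuity` (= `semicontinuity` of `Main`, from `INV`).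

None of these files imports `Main`: the statement of `inv_adjunction` enters as the hypothesis `ScInv`.

Hints for this file.  `scP_eq`: `ENNReal.ofReal_rpow_of_nonneg`, `ENNReal.ofReal_sum_of_nonneg`.
`continuousOn_scG`: `ContinuousOn.rpow_const`.  `continuousOn_rpow`: `ENNReal.continuous_rpow_const`,
`ENNReal.continuous_ofReal`.  `aemeasurable_rpow`: `ContinuousOn.aemeasurable`.
`sc_nonempty`: for empty index type the weight is `0`, `0 ^ (-c) = ⊤`, the polydisc has positive volume.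
`sc_rpow_le_one_add`: cases `1 ≤ x` / `x ≤ 1` (`ENNReal.rpow_le_rpow_of_exponent_ge`).
-/
import Claimed.Agent.R242.SCV.Defs

set_option autoImplicit false

open MeasureTheory Complex Set Filter
open scoped ContDiff ComplexConjugate ENNReal Topology

namespace Claimed.Agent.R242

variable {ι : Type*} [Fintype ι] {S : Type*} [TopologicalSpace S]

/-- the weight `∑ |g_i|^{2 a_i}` with values in `[0,∞]` (same body as `sumPow` of `Main`). -/
noncomputable def scP (a : ι → ℝ) (g : ι → ℂ) : ℝ≥0∞ := ∑ i, ENNReal.ofReal ‖g i‖ ^ (2 * a i)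

/-- the real version of the weight. -/
noncomputable def scG (a : ι → ℝ) (g : ι → ℂ) : ℝ := ∑ i, ‖g i‖ ^ (2 * a i)

/-- admissible family on the polydisc `ball b R`. -/
structure ScFam (n : ℕ) (b : Cn n) (R : ℝ) (g : ι → Cn n → S → ℂ) : Prop where
  cont : ∀ i, ContinuousOn (fun q : Cn n × S => g i q.1 q.2) (Metric.ball b R ×ˢ Set.univ)
  holo : ∀ i s, DifferentiableOn ℂ (fun z => g i z s) (Metric.ball b R)

/-- the statement `SC(n)` (exponents `a`, `c` and the base parameter `s₀` fixed). -/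
def ScAt (a : ι → ℝ) (c : ℝ) (s₀ : S) (n : ℕ) : Prop :=
  ∀ (R : ℝ) (_ : 0 < R) (g : ι → Cn n → S → ℂ) (_ : ScFam n 0 R g)
    (_ : ∫⁻ z in Metric.ball (0 : Cn n) R, (scP a fun i => g i z s₀) ^ (-c) < ⊤),
    ∃ ε > 0, ∃ r > 0, ∃ M : ℝ≥0∞, M < ⊤ ∧ ∀ᶠ s in 𝓝 s₀,
      ∫⁻ z in Metric.ball (0 : Cn n) r, (scP a fun i => g i z s) ^ (-(c + ε)) ≤ M

/-- the statement of `inv_adjunction` in dimension `n + 1`. -/
def ScInv (n : ℕ) : Prop :=
  ∀ (R : ℝ) (_ : 0 < R) (A : ℝ),
    ∃ c₀ C : ℝ, 0 < c₀ ∧ 0 < C ∧ ∀ (φ : Cn (n + 1) → ℝ) (_ : PshOn φ (Metric.ball 0 R))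
      (_ : ∀ z ∈ Metric.ball (0 : Cn (n + 1)) R, φ z ≤ A) (w₀ : ℂ) (_ : ‖w₀‖ < R / 2)
      (m : ℝ) (_ : 0 < m)
      (_ : ∫⁻ z' in Metric.ball (0 : Cn n) R, ENNReal.ofReal (Real.exp (-φ (Fin.cons w₀ z')))
          ≤ ENNReal.ofReal m)
      (r : ℝ) (_ : 0 < r) (_ : r ≤ R / 8) (_ : r ^ 2 * m ≤ c₀),
      ∫⁻ z in {z : Cn (n + 1) | ‖z 0 - w₀‖ < r ∧ ∀ i : Fin n, ‖z i.succ‖ < R / 2},
        ENNReal.ofReal (Real.exp (-φ z)) ≤ ENNReal.ofReal (C * m)

/-! ### basic facts on the weights -/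

theorem scG_nonneg (a : ι → ℝ) (g : ι → ℂ) : 0 ≤ scG a g :=
  Finset.sum_nonneg fun _ _ => Real.rpow_nonneg (norm_nonneg _) _

theorem scP_eq (a : ι → ℝ) (ha : ∀ i, 0 < a i) (g : ι → ℂ) : scP a g = ENNReal.ofReal (scG a g) := by
  rw [scP, scG, ENNReal.ofReal_sum_of_nonneg fun _ _ => Real.rpow_nonneg (norm_nonneg _) _]
  exact Finset.sum_congr rfl fun i _ =>
    ENNReal.ofReal_rpow_of_nonneg (norm_nonneg _) (by have := ha i; positivity)

/-- joint continuity of the real weight. -/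
theorem ScFam.continuousOn_scG {n : ℕ} {b : Cn n} {R : ℝ} {g : ι → Cn n → S → ℂ}
    (h : ScFam n b R g) (a : ι → ℝ) (ha : ∀ i, 0 < a i) :
    ContinuousOn (fun q : Cn n × S => scG a fun i => g i q.1 q.2) (Metric.ball b R ×ˢ Set.univ) := by
  unfold scG
  refine continuousOn_finsetSum _ fun i _ => ?_
  exact (h.cont i).norm.rpow_const fun _ _ => Or.inr (by have := ha i; positivity)

/-- joint continuity of `G^{-e}` as a function with values in `[0,∞]`. -/
theorem ScFam.continuousOn_rpow {n : ℕ} {b : Cn n} {R : ℝ} {g : ι → Cn n → S → ℂ}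
    (h : ScFam n b R g) (a : ι → ℝ) (ha : ∀ i, 0 < a i) (e : ℝ) :
    ContinuousOn (fun q : Cn n × S => (scP a fun i => g i q.1 q.2) ^ (-e))
      (Metric.ball b R ×ˢ Set.univ) := by
  simp only [scP_eq a ha]
  exact (ENNReal.continuous_rpow_const.comp ENNReal.continuous_ofReal).comp_continuousOn
    (h.continuousOn_scG a ha)

/-- measurability on the polydisc for fixed parameter. -/
theorem ScFam.aemeasurable_rpow {n : ℕ} {b : Cn n} {R : ℝ} {g : ι → Cn n → S → ℂ}
    (h : ScFam n b R g) (a : ι → ℝ) (ha : ∀ i, 0 < a i) (e : ℝ) (s : S) :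
    AEMeasurable (fun z : Cn n => (scP a fun i => g i z s) ^ (-e))
      (volume.restrict (Metric.ball b R)) := by
  have h1 : ContinuousOn (fun z : Cn n => (z, s)) (Metric.ball b R) :=
    (continuous_id.prodMk continuous_const).continuousOn
  have h2 : ContinuousOn (fun z : Cn n => (scP a fun i => g i z s) ^ (-e)) (Metric.ball b R) := by
    intro z hz
    exact ContinuousWithinAt.comp (f := fun z : Cn n => (z, s))
      (h.continuousOn_rpow a ha e (z, s) ⟨hz, mem_univ _⟩) (h1 z hz) (fun z hz => ⟨hz, mem_univ _⟩)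
  exact ContinuousOn.aemeasurable h2 Metric.isOpen_ball.measurableSet

theorem ScFam.mono {n : ℕ} {b b' : Cn n} {R R' : ℝ} {g : ι → Cn n → S → ℂ}
    (h : ScFam n b R g) (hsub : Metric.ball b' R' ⊆ Metric.ball b R) : ScFam n b' R' g :=
  ⟨fun i => (h.cont i).mono (prod_mono hsub subset_rfl), fun i s => (h.holo i s).mono hsub⟩

/-- translation of a family. -/
theorem ScFam.translate {n : ℕ} {b : Cn n} {R : ℝ} {g : ι → Cn n → S → ℂ}
    (h : ScFam n b R g) : ScFam n 0 R (fun i z s => g i (z + b) s) := by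
  have hmem : ∀ z ∈ Metric.ball (0 : Cn n) R, z + b ∈ Metric.ball b R := by
    intro z hz
    rw [mem_ball_iff_norm, add_sub_cancel_right]
    exact mem_ball_zero_iff.1 hz
  constructor
  · intro i
    have h1 : ContinuousOn (fun q : Cn n × S => (q.1 + b, q.2)) (Metric.ball (0 : Cn n) R ×ˢ Set.univ) := by
      fun_prop
    exact (h.cont i).comp h1 fun q hq => ⟨hmem _ hq.1, mem_univ _⟩
  · intro i s
    have h1 : DifferentiableOn ℂ (fun z : Cn n => z + b) (Metric.ball (0 : Cn n) R) := by fun_prop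
    exact (h.holo i s).comp h1 hmem

theorem sc_cons_mem_ball {n : ℕ} {R : ℝ} (w₀ : ℂ) (hw : ‖w₀‖ < R) (z' : Cn n)
    (hz : z' ∈ Metric.ball (0 : Cn n) R) :
    (Fin.cons w₀ z' : Cn (n + 1)) ∈ Metric.ball (0 : Cn (n + 1)) R := by
  have hR : 0 < R := lt_of_le_of_lt (norm_nonneg _) hw
  rw [mem_ball_zero_iff, pi_norm_lt_iff hR] at hz ⊢
  intro i
  refine Fin.cases ?_ (fun i => ?_) i
  · simpa using hw
  · simpa using hz i

/-- the slice `z 0 = w₀` of a family. -/
theorem ScFam.slice {n : ℕ} {R : ℝ} {g : ι → Cn (n + 1) → S → ℂ}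
    (h : ScFam (n + 1) 0 R g) (w₀ : ℂ) (hw : ‖w₀‖ < R) :
    ScFam n 0 R (fun i z' s => g i (Fin.cons w₀ z') s) := by
  have hd : Differentiable ℂ (fun z' : Cn n => (Fin.cons w₀ z' : Cn (n + 1))) := by
    rw [differentiable_pi]
    intro i
    refine Fin.cases ?_ (fun i => ?_) i
    · simp
    · simpa using differentiable_apply i
  constructor
  · intro i
    have h1 : ContinuousOn (fun q : Cn n × S => ((Fin.cons w₀ q.1 : Cn (n + 1)), q.2))
        (Metric.ball (0 : Cn n) R ×ˢ Set.univ) :=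
      ((hd.continuous.comp continuous_fst).prodMk continuous_snd).continuousOn
    exact (h.cont i).comp h1 fun q hq => ⟨sc_cons_mem_ball w₀ hw _ hq.1, mem_univ _⟩
  · intro i s
    exact (h.holo i s).comp hd.differentiableOn fun z hz => sc_cons_mem_ball w₀ hw z hz

/-- an integrable weight needs at least one function. -/
theorem sc_nonempty {n : ℕ} (a : ι → ℝ) (c : ℝ) (hc : 0 < c) (R : ℝ) (hR : 0 < R) (g : ι → Cn n → ℂ)
    (hint : ∫⁻ z in Metric.ball (0 : Cn n) R, (scP a fun i => g i z) ^ (-c) < ⊤) : Nonempty ι := by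
  by_contra hne
  rw [not_nonempty_iff] at hne
  have h0 : ∀ z : Cn n, (scP a fun i => g i z) ^ (-c) = ⊤ := by
    intro z
    rw [scP, Finset.univ_eq_empty, Finset.sum_empty, ENNReal.zero_rpow_of_neg (by linarith)]
  simp only [h0, lintegral_const, Measure.restrict_apply MeasurableSet.univ, univ_inter] at hint
  rw [ENNReal.top_mul (Metric.measure_ball_pos volume _ hR).ne'] at hint
  exact lt_irrefl _ hint

/-- `x^{-(c+ε')} ≤ 1 + x^{-(c+ε)}` for `ε' ≤ ε`. -/
theorem sc_rpow_le_one_add (x : ℝ≥0∞) (p q : ℝ) (hp : 0 ≤ p) (hpq : p ≤ q) :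
    x ^ (-p) ≤ 1 + x ^ (-q) := by
  rcases le_total x 1 with hx | hx
  · exact (ENNReal.rpow_le_rpow_of_exponent_ge hx (by linarith)).trans le_add_self
  · refine le_trans ?_ le_self_add
    rcases hp.eq_or_lt with hp0 | hp0
    · rw [← hp0]; simp
    · exact ENNReal.rpow_le_one_of_one_le_of_neg hx (by linarith)

end Claimed.Agent.R242
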