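/-
Row 242, SCV layer, package SC: the measure theoretic leaves.   Architect: helper64.

`sc_unif_int_abs` (leaf SCV-SC-UI).  Write `w_p(x) = ofReal x ^ (-p)`.
  Choose `L ≥ 1` with `ofReal (L^(-ε₁/2)) * M₁ ≤ 1/4`, `ε₂ = min (min (ε₁/2) 1) (log 2/(log L + 1))` (so
  `L^ε₂ ≤ 2`), `δ > 0` with `ofReal δ * μ K ≤ 1/2`, `k x s = (max (H x s) (1/L)) ^ (-(c+ε₂))` (real).
  (A) `w_{c+ε₂}(H) ≤ ofReal k + ofReal (L^(-ε₁/2)) * w_{c+ε₁}(H)` (cases `1/L ≤ H`, `0 < H < 1/L`, `H = 0`);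
  (B) `ofReal (k x s₀) ≤ 2 * w_c(H x s₀)`;
  (C) `∀ᶠ s, ∀ x ∈ K, k x s ≤ k x s₀ + δ` (`IsCompact.eventually_forall_of_forall_eventually`, `k` is
      jointly continuous at the points of `K × {s₀}`).
  Integrate: `≤ 2 ofReal m₀ + 1/2 + 1/4`.  Measurability for the splitting of the integral:
  `x ↦ H x s₀` is continuous on `K` (`ContinuousOn.aemeasurable`), `lintegral_add_left'`,
  `lintegral_const_mul'`.

`sc_choose_slice` (leaf SCV-SC-SLICE).  Otherwise `m w ≥ ofReal (c₀/(16 |w|²))` for `0 < |w| < min ρ √(c₀/8)`;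
  `r242_lintegral_neg_log` with `F = indicator (Ioi τ) (fun t => ofReal (c₀/16 * exp (2 t)))` shows that the
  integral of the right side is `∫_{t > τ} ofReal (2π c₀/16) = ⊤`.

`sc_tonelli` (leaf SCV-SC-SLICE).  `volume_preserving_piFinSuccAbove (fun _ => ℂ) 0`, `lintegral_prod`,
  indicators; `(MeasurableEquiv.piFinSuccAbove _ 0).symm (w, z') = Fin.cons w z'`.
-/
import Claimed.Agent.R242.SCV.ScDefs
import Claimed.Agent.R242.SCV.Howald

set_option autoImplicit false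

open MeasureTheory Complex Set Filter
open scoped ContDiff ComplexConjugate ENNReal Topology

namespace Claimed.Agent.R242

variable {ι : Type*} [Fintype ι] {S : Type*} [TopologicalSpace S]

/-! ### L3: uniform integrability -/

/-- pointwise splitting at the level `1/L`. -/
theorem sc_ui_split (x L p q η : ℝ) (hx : 0 ≤ x) (hL : 1 ≤ L) (hq : 0 < q) (hη0 : 0 ≤ η)
    (hη : η ≤ q - p) :
    ENNReal.ofReal x ^ (-p)
      ≤ ENNReal.ofReal ((max x (1 / L)) ^ (-p)) + ENNReal.ofReal (L ^ (-η)) * ENNReal.ofReal x ^ (-q) := by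
  have hL0 : 0 < L := by linarith
  rcases hx.eq_or_lt with hx0 | hx0
  · rw [← hx0, ENNReal.ofReal_zero, ENNReal.zero_rpow_of_neg (show -q < 0 by linarith),
      ENNReal.mul_top (by simpa using Real.rpow_pos_of_pos hL0 _), add_top]
    exact le_top
  rcases le_or_gt (1 / L) x with h1 | h1
  · rw [max_eq_left h1, ENNReal.ofReal_rpow_of_pos hx0]
    exact le_self_add
  · refine le_trans ?_ le_add_self
    rw [ENNReal.ofReal_rpow_of_pos hx0, ENNReal.ofReal_rpow_of_pos hx0,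
      ← ENNReal.ofReal_mul (Real.rpow_nonneg hL0.le _)]
    refine ENNReal.ofReal_le_ofReal ?_
    have h2 : x ^ (-p) = x ^ (q - p) * x ^ (-q) := by
      rw [← Real.rpow_add hx0]; congr 1; ring
    have h3 : x ^ (q - p) ≤ L ^ (-η) := by
      calc x ^ (q - p) ≤ (1 / L) ^ (q - p) := Real.rpow_le_rpow hx0.le h1.le (by linarith)
        _ = L ^ (-(q - p)) := by rw [one_div, Real.inv_rpow hL0.le, Real.rpow_neg hL0.le]
        _ ≤ L ^ (-η) := Real.rpow_le_rpow_of_exponent_le hL (by linarith)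
    rw [h2]
    exact mul_le_mul_of_nonneg_right h3 (Real.rpow_nonneg hx0.le _)

/-- the truncated function is dominated by `2 x^{-c}`. -/
theorem sc_ui_trunc (x L c ε : ℝ) (hx : 0 ≤ x) (hL : 1 ≤ L) (hc : 0 < c) (hε : 0 ≤ ε)
    (hLε : L ^ ε ≤ 2) :
    ENNReal.ofReal ((max x (1 / L)) ^ (-(c + ε))) ≤ 2 * ENNReal.ofReal x ^ (-c) := by
  have hL0 : 0 < L := by linarith
  rcases hx.eq_or_lt with hx0 | hx0
  · rw [← hx0, ENNReal.ofReal_zero, ENNReal.zero_rpow_of_neg (show -c < 0 by linarith),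
      ENNReal.mul_top (by norm_num)]
    exact le_top
  have hy0 : 0 < max x (1 / L) := lt_max_of_lt_left hx0
  rw [ENNReal.ofReal_rpow_of_pos hx0, show (2 : ℝ≥0∞) = ENNReal.ofReal 2 by simp,
    ← ENNReal.ofReal_mul (by norm_num)]
  refine ENNReal.ofReal_le_ofReal ?_
  have h1 : (max x (1 / L)) ^ (-(c + ε)) = (max x (1 / L)) ^ (-ε) * (max x (1 / L)) ^ (-c) := by
    rw [← Real.rpow_add hy0]; congr 1; ring
  have h2 : (max x (1 / L)) ^ (-ε) ≤ 2 := by
    calc (max x (1 / L)) ^ (-ε) ≤ (1 / L) ^ (-ε) :=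
          Real.rpow_le_rpow_of_nonpos (by positivity) (le_max_right _ _) (by linarith)
      _ = L ^ ε := by rw [one_div, Real.inv_rpow hL0.le, Real.rpow_neg hL0.le, inv_inv]
      _ ≤ 2 := hLε
  have h3 : (max x (1 / L)) ^ (-c) ≤ x ^ (-c) :=
    Real.rpow_le_rpow_of_nonpos hx0 (le_max_left _ _) (by linarith)
  rw [h1]
  exact mul_le_mul h2 h3 (Real.rpow_nonneg hy0.le _) (by norm_num)

/-- uniform closeness on a compact set of a function which is jointly continuous at `K × {s₀}`. -/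
theorem sc_ui_unif {X : Type*} [TopologicalSpace X] (K : Set X) (hK : IsCompact K) (k : X → S → ℝ)
    (s₀ : S) (hk : ∀ x ∈ K, ContinuousAt (fun q : X × S => k q.1 q.2) (x, s₀)) (δ : ℝ) (hδ : 0 < δ) :
    ∀ᶠ s in 𝓝 s₀, ∀ x ∈ K, k x s ≤ k x s₀ + δ := by
  refine hK.eventually_forall_of_forall_eventually fun x hx => ?_
  have h1 : ContinuousAt (fun q : S × X => k q.2 q.1) (s₀, x) := by
    have : ContinuousAt (fun q : S × X => (q.2, q.1)) (s₀, x) := by fun_prop
    exact ContinuousAt.comp (f := fun q : S × X => (q.2, q.1)) (g := fun q : X × S => k q.1 q.2)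
      (hk x hx) this
  have h2 : ContinuousAt (fun q : S × X => k q.2 s₀) (s₀, x) := by
    have : ContinuousAt (fun q : S × X => (q.2, s₀)) (s₀, x) := by fun_prop
    exact ContinuousAt.comp (f := fun q : S × X => (q.2, s₀)) (g := fun q : X × S => k q.1 q.2)
      (hk x hx) this
  have h3 : ContinuousAt (fun q : S × X => k q.2 q.1 - k q.2 s₀) (s₀, x) := h1.sub h2
  have h4 : (fun q : S × X => k q.2 q.1 - k q.2 s₀) (s₀, x) < δ := by simpa using hδ
  filter_upwards [h3.eventually_lt continuousAt_const h4] with q hq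
  linarith

/-- abstract form: `H ≥ 0` real, jointly continuous at the points of `K × {s₀}`, `K` compact of finite
measure. -/
theorem sc_unif_int_abs {X : Type*} [TopologicalSpace X] [MeasurableSpace X] [OpensMeasurableSpace X]
    (μ : Measure X) (K : Set X) (hK : IsCompact K) (hKm : MeasurableSet K) (hμK : μ K < ⊤)
    (H : X → S → ℝ) (hH0 : ∀ x s, 0 ≤ H x s) (s₀ : S)
    (hHc : ∀ x ∈ K, ContinuousAt (fun q : X × S => H q.1 q.2) (x, s₀))
    (c : ℝ) (hc : 0 < c) (ε₁ : ℝ) (hε₁ : 0 < ε₁) (M₁ : ℝ≥0∞) (hM₁ : M₁ < ⊤)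
    (h₁ : ∀ᶠ s in 𝓝 s₀, ∫⁻ x in K, ENNReal.ofReal (H x s) ^ (-(c + ε₁)) ∂μ ≤ M₁)
    (m₀ : ℝ) (hm₀ : 0 ≤ m₀) (h₀ : ∫⁻ x in K, ENNReal.ofReal (H x s₀) ^ (-c) ∂μ ≤ ENNReal.ofReal m₀) :
    ∃ ε₂ > 0, ε₂ ≤ 1 ∧ ∀ᶠ s in 𝓝 s₀,
      ∫⁻ x in K, ENNReal.ofReal (H x s) ^ (-(c + ε₂)) ∂μ ≤ ENNReal.ofReal (2 * m₀ + 1) := by
  -- the level `L`
  set M : ℝ := M₁.toReal with hM
  have hM0 : 0 ≤ M := ENNReal.toReal_nonneg
  set L : ℝ := (4 * M + 1) ^ (2 / ε₁) with hLdef
  have hL : 1 ≤ L := Real.one_le_rpow (by linarith) (by positivity)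
  have hL0 : 0 < L := by linarith
  have hLη : L ^ (-(ε₁ / 2)) = (4 * M + 1)⁻¹ := by
    rw [hLdef, ← Real.rpow_mul (by positivity), ← Real.rpow_neg_one]
    congr 1
    field_simp
  have hLM : ENNReal.ofReal (L ^ (-(ε₁ / 2))) * M₁ ≤ ENNReal.ofReal (1 / 4) := by
    rw [← ENNReal.ofReal_toReal hM₁.ne, ← hM, ← ENNReal.ofReal_mul (Real.rpow_nonneg hL0.le _), hLη]
    refine ENNReal.ofReal_le_ofReal ?_
    rw [inv_mul_le_iff₀ (by positivity)]
    linarith
  -- the exponent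
  have hlogL : 0 ≤ Real.log L := Real.log_nonneg hL
  have hlog2 : 0 < Real.log 2 := Real.log_pos (by norm_num)
  set ε₂ : ℝ := min (min (ε₁ / 2) 1) (Real.log 2 / (Real.log L + 1)) with hε₂def
  have hε₂ : 0 < ε₂ := lt_min (lt_min (by positivity) one_pos) (by positivity)
  have hε₂1 : ε₂ ≤ 1 := (min_le_left _ _).trans (min_le_right _ _)
  have hε₂ε : ε₂ ≤ ε₁ / 2 := (min_le_left _ _).trans (min_le_left _ _)
  have hLε : L ^ ε₂ ≤ 2 := by
    rw [Real.rpow_def_of_pos hL0]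
    conv_rhs => rw [← Real.exp_log (show (0 : ℝ) < 2 by norm_num)]
    rw [Real.exp_le_exp]
    have h1 : ε₂ ≤ Real.log 2 / (Real.log L + 1) := min_le_right _ _
    rw [le_div_iff₀ (by positivity)] at h1
    nlinarith
  -- the tolerance
  set V : ℝ := (μ K).toReal with hV
  have hV0 : 0 ≤ V := ENNReal.toReal_nonneg
  set δ : ℝ := 1 / (2 * V + 1) with hδdef
  have hδ : 0 < δ := by positivity
  have hδV : ENNReal.ofReal δ * μ K ≤ ENNReal.ofReal (1 / 2) := by
    rw [← ENNReal.ofReal_toReal hμK.ne, ← hV, ← ENNReal.ofReal_mul hδ.le]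
    refine ENNReal.ofReal_le_ofReal ?_
    rw [hδdef, div_mul_eq_mul_div, one_mul, div_le_iff₀ (by positivity)]
    linarith
  -- the truncated function
  set k : X → S → ℝ := fun x s => (max (H x s) (1 / L)) ^ (-(c + ε₂)) with hk
  have hkc : ∀ x ∈ K, ContinuousAt (fun q : X × S => k q.1 q.2) (x, s₀) := by
    intro x hx
    refine ContinuousAt.rpow_const ((hHc x hx).max continuousAt_const) (Or.inl ?_)
    exact (lt_max_of_lt_right (by positivity)).ne'
  have hunif := sc_ui_unif K hK k s₀ hkc δ hδ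
  have hcont : ContinuousOn (fun x => H x s₀) K := by
    intro x hx
    have h1 : ContinuousAt (fun x : X => (x, s₀)) x := by fun_prop
    exact (ContinuousAt.comp (f := fun x : X => (x, s₀)) (g := fun q : X × S => H q.1 q.2)
      (hHc x hx) h1).continuousWithinAt
  have hmeas : AEMeasurable (fun x => 2 * ENNReal.ofReal (H x s₀) ^ (-c)) (μ.restrict K) :=
    ((hcont.aemeasurable hKm).ennreal_ofReal.pow_const _).const_mul _
  refine ⟨ε₂, hε₂, hε₂1, ?_⟩
  filter_upwards [h₁, hunif] with s hs1 hs2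
  calc ∫⁻ x in K, ENNReal.ofReal (H x s) ^ (-(c + ε₂)) ∂μ
      ≤ ∫⁻ x in K, ((2 * ENNReal.ofReal (H x s₀) ^ (-c) + ENNReal.ofReal δ)
          + ENNReal.ofReal (L ^ (-(ε₁ / 2))) * ENNReal.ofReal (H x s) ^ (-(c + ε₁))) ∂μ := by
        refine setLIntegral_mono' hKm fun x hx => ?_
        refine (sc_ui_split (H x s) L (c + ε₂) (c + ε₁) (ε₁ / 2) (hH0 x s) hL (by positivity)
          (by positivity) (by linarith)).trans (add_le_add ?_ le_rfl)
        calc ENNReal.ofReal ((max (H x s) (1 / L)) ^ (-(c + ε₂)))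
            ≤ ENNReal.ofReal ((max (H x s₀) (1 / L)) ^ (-(c + ε₂)) + δ) :=
              ENNReal.ofReal_le_ofReal (hs2 x hx)
          _ ≤ ENNReal.ofReal ((max (H x s₀) (1 / L)) ^ (-(c + ε₂))) + ENNReal.ofReal δ :=
              ENNReal.ofReal_add_le
          _ ≤ _ := add_le_add (sc_ui_trunc (H x s₀) L c ε₂ (hH0 x s₀) hL hc hε₂.le hLε) le_rfl
    _ = (2 * ∫⁻ x in K, ENNReal.ofReal (H x s₀) ^ (-c) ∂μ + ENNReal.ofReal δ * μ K)
          + ENNReal.ofReal (L ^ (-(ε₁ / 2))) * ∫⁻ x in K, ENNReal.ofReal (H x s) ^ (-(c + ε₁)) ∂μ := by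
        rw [lintegral_add_left' (hmeas.add_const _), lintegral_add_left' hmeas,
          lintegral_const_mul' _ _ (by norm_num), lintegral_const_mul' _ _ ENNReal.ofReal_ne_top,
          lintegral_const, Measure.restrict_apply MeasurableSet.univ, univ_inter]
    _ ≤ (2 * ENNReal.ofReal m₀ + ENNReal.ofReal (1 / 2)) + ENNReal.ofReal (1 / 4) := by
        refine add_le_add (add_le_add (mul_le_mul_right h₀ _) hδV) ?_
        exact (mul_le_mul_right hs1 _).trans hLM
    _ ≤ ENNReal.ofReal (2 * m₀ + 1) := by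
        rw [show (2 : ℝ≥0∞) = ENNReal.ofReal 2 by simp, ← ENNReal.ofReal_mul (by norm_num),
          ← ENNReal.ofReal_add (by positivity) (by norm_num),
          ← ENNReal.ofReal_add (by positivity) (by norm_num)]
        exact ENNReal.ofReal_le_ofReal (by linarith)

/-! ### L4: choice of the slice -/

/-- `∫ κ |w|^{-2}` diverges at the origin (in logarithmic coordinates). -/
theorem sc_lintegral_inv_sq_eq_top (Φ : ℂ → ℝ≥0∞) (κ τ : ℝ) (hκ : 0 < κ)
    (h : ∀ w : ℂ, w ≠ 0 → τ < -Real.log ‖w‖ → ENNReal.ofReal (κ * Real.exp (2 * -Real.log ‖w‖)) ≤ Φ w) :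
    ∫⁻ w, Φ w = ⊤ := by
  set F : ℝ → ℝ≥0∞ := (Ioi τ).indicator fun t => ENNReal.ofReal (κ * Real.exp (2 * t)) with hF
  have hFm : Measurable F := by
    refine Measurable.indicator ?_ measurableSet_Ioi
    fun_prop
  have h1 : ∫⁻ w : ℂ, F (-Real.log ‖w‖) ≤ ∫⁻ w, Φ w := by
    refine lintegral_mono_ae ?_
    have h0 : ∀ᵐ w : ℂ, w ≠ 0 := by
      simp [ae_iff]
    filter_upwards [h0] with w hw
    by_cases ht : -Real.log ‖w‖ ∈ Ioi τ
    · rw [hF, indicator_of_mem ht]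
      exact h w hw ht
    · rw [hF, indicator_of_notMem ht]
      exact bot_le
  rw [r242_lintegral_neg_log F hFm] at h1
  have h2 : ∀ t, r242_rho t * F t
      = (Ioi τ).indicator (fun _ => ENNReal.ofReal (2 * Real.pi * κ)) t := by
    intro t
    by_cases ht : t ∈ Ioi τ
    · rw [hF, indicator_of_mem ht, indicator_of_mem ht, r242_rho,
        ← ENNReal.ofReal_mul (by positivity)]
      congr 1
      have : Real.exp (-2 * t) * Real.exp (2 * t) = 1 := by
        rw [← Real.exp_add]; simp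
      calc 2 * Real.pi * Real.exp (-2 * t) * (κ * Real.exp (2 * t))
          = 2 * Real.pi * κ * (Real.exp (-2 * t) * Real.exp (2 * t)) := by ring
        _ = _ := by rw [this, mul_one]
    · rw [hF, indicator_of_notMem ht, indicator_of_notMem ht, mul_zero]
  simp only [h2] at h1
  rw [lintegral_indicator measurableSet_Ioi, lintegral_const,
    Measure.restrict_apply MeasurableSet.univ, univ_inter, Real.volume_Ioi,
    ENNReal.mul_top (by simpa using (by positivity : 0 < 2 * Real.pi * κ))] at h1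
  exact top_le_iff.1 h1

theorem sc_choose_slice (m : ℂ → ℝ≥0∞) (R : ℝ) (hm : ∫⁻ w in Metric.ball (0 : ℂ) R, m w < ⊤)
    (c₀ : ℝ) (hc₀ : 0 < c₀) (ρ : ℝ) (hρ : 0 < ρ) (hρR : ρ ≤ R) :
    ∃ w₀ : ℂ, 0 < ‖w₀‖ ∧ ‖w₀‖ < ρ ∧ m w₀ < ⊤ ∧ 4 * ‖w₀‖ ^ 2 * (2 * (m w₀).toReal + 1) ≤ c₀ := by
  by_contra hcon
  push Not at hcon
  refine hm.ne ?_
  rw [← lintegral_indicator Metric.isOpen_ball.measurableSet]
  refine sc_lintegral_inv_sq_eq_top _ (c₀ / 16) (max (-Real.log ρ) (-(Real.log (c₀ / 8) / 2)))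
    (by positivity) fun w hw ht => ?_
  have hw0 : 0 < ‖w‖ := norm_pos_iff.2 hw
  have ht1 : -Real.log ρ < -Real.log ‖w‖ := lt_of_le_of_lt (le_max_left _ _) ht
  have ht2 : -(Real.log (c₀ / 8) / 2) < -Real.log ‖w‖ := lt_of_le_of_lt (le_max_right _ _) ht
  have hwρ : ‖w‖ < ρ := by
    rw [neg_lt_neg_iff] at ht1
    exact (Real.log_lt_log_iff hw0 hρ).1 ht1
  have hw8 : ‖w‖ ^ 2 < c₀ / 8 := by
    have h1 : Real.log (‖w‖ ^ 2) < Real.log (c₀ / 8) := by
      rw [Real.log_pow]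
      push_cast
      linarith
    exact (Real.log_lt_log_iff (by positivity) (by positivity)).1 h1
  have hexp : Real.exp (2 * -Real.log ‖w‖) = (‖w‖ ^ 2)⁻¹ := by
    rw [show 2 * -Real.log ‖w‖ = -(Real.log (‖w‖ ^ 2)) by rw [Real.log_pow]; push_cast; ring,
      Real.exp_neg, Real.exp_log (by positivity)]
  rw [indicator_of_mem (by rw [mem_ball_zero_iff]; linarith), hexp]
  by_cases hmw : m w = ⊤
  · rw [hmw]; exact le_top
  have h3 := hcon w hw0 hwρ (lt_top_iff_ne_top.2 hmw)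
  rw [← ENNReal.ofReal_toReal hmw]
  refine ENNReal.ofReal_le_ofReal ?_
  set x : ℝ := ‖w‖ ^ 2 with hx
  have hx0 : 0 < x := by positivity
  set μ : ℝ := (m w).toReal
  rw [← div_eq_mul_inv, div_le_iff₀ hx0]
  nlinarith

/-! ### L5: Tonelli on the polydisc -/

theorem sc_tonelli {n : ℕ} (R : ℝ) (f : Cn (n + 1) → ℝ≥0∞)
    (hf : AEMeasurable f (volume.restrict (Metric.ball (0 : Cn (n + 1)) R))) :
    ∫⁻ w in Metric.ball (0 : ℂ) R, ∫⁻ z' in Metric.ball (0 : Cn n) R, f (Fin.cons w z')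
      = ∫⁻ z in Metric.ball (0 : Cn (n + 1)) R, f z := by
  set e := MeasurableEquiv.piFinSuccAbove (fun _ : Fin (n + 1) => ℂ) 0 with he
  have mp : MeasurePreserving e volume volume := volume_preserving_piFinSuccAbove (fun _ => ℂ) 0
  have hsymm : ∀ (w : ℂ) (z' : Cn n), e.symm (w, z') = (Fin.cons w z' : Cn (n + 1)) := by
    intro w z'
    show Fin.insertNth 0 w z' = (Fin.cons w z' : Cn (n + 1))
    exact Fin.insertNth_zero' w z'
  have hball : Metric.ball (0 : Cn (n + 1)) R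
      = e ⁻¹' (Metric.ball (0 : ℂ) R ×ˢ Metric.ball (0 : Cn n) R) := by
    ext z
    show z ∈ Metric.ball (0 : Cn (n + 1)) R ↔
      z 0 ∈ Metric.ball (0 : ℂ) R ∧ (fun j : Fin n => z j.succ) ∈ Metric.ball (0 : Cn n) R
    simp only [mem_ball_zero_iff]
    rcases le_or_gt R 0 with hR | hR
    · constructor
      · intro h; exact absurd (lt_of_le_of_lt (norm_nonneg _) h) (not_lt.2 hR)
      · intro h; exact absurd (lt_of_le_of_lt (norm_nonneg _) h.1) (not_lt.2 hR)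
    · rw [pi_norm_lt_iff hR, pi_norm_lt_iff hR, Fin.forall_fin_succ]
  have mp' := mp.restrict_preimage_emb e.measurableEmbedding
    (Metric.ball (0 : ℂ) R ×ˢ Metric.ball (0 : Cn n) R)
  rw [← hball] at mp'
  have h1 := mp'.lintegral_comp_emb e.measurableEmbedding (fun p => f (e.symm p))
  simp only [MeasurableEquiv.symm_apply_apply] at h1
  rw [h1, Measure.volume_eq_prod, ← Measure.prod_restrict, lintegral_prod]
  · simp only [hsymm]
  · rw [Measure.prod_restrict, ← Measure.volume_eq_prod]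
    exact hf.comp_quasiMeasurePreserving (mp'.symm e).quasiMeasurePreserving

end Claimed.Agent.R242
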