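/-
Row 242, SCV layer, package OT, leaf SCV-OT-EPS (helper133): the thin tube around the slice has mass `≤ 2πε²` times the mass of
the slice.  Statement `ot_eps_aux` = `ot_eps` of OtStep.lean.  Uses `sc_tonelli` (ScMeas.lean).
-/
import Claimed.Agent.R242.SCV.OtDefs
import Claimed.Agent.R242.SCV.ScMeas

set_option autoImplicit false

open MeasureTheory Complex Set Filter
open scoped ContDiff ComplexConjugate ENNReal Topology

namespace Claimed.Agent.R242

variable {n : ℕ} {R R' : ℝ} {w₀ : ℂ}

theorem otEps_norm_cons_lt (hR : 0 < R) {w : ℂ} {z' : Cn n} (hw : ‖w‖ < R) (hz : ‖z'‖ < R) :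
    ‖(Fin.cons w z' : Cn (n + 1))‖ < R := by
  rw [pi_norm_lt_iff hR, Fin.forall_fin_succ]
  refine ⟨by simpa using hw, fun i => ?_⟩
  simpa using lt_of_le_of_lt (norm_le_pi_norm z' i) hz

theorem otEps_dist_cons (w w' : ℂ) (z' : Cn n) :
    dist (Fin.cons w z' : Cn (n + 1)) (Fin.cons w' z') ≤ ‖w - w'‖ := by
  rw [dist_pi_le_iff (norm_nonneg _), Fin.forall_fin_succ]
  refine ⟨by simp [dist_eq_norm], fun i => ?_⟩
  simp

theorem ot_eps_aux (hR : 0 < R) (hRR' : R < R') {Φ : Cn (n + 1) → ℝ}
    (hΦ : ContinuousOn Φ (Metric.ball 0 R')) (hw : ‖w₀‖ < R) :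
    ∃ ε : ℝ, 0 < ε ∧ ε ≤ 1 ∧
      ∫⁻ z in {z : Cn (n + 1) | z ∈ Metric.ball (0 : Cn (n + 1)) R ∧ otT w₀ z ≤ ε ^ 2},
          ENNReal.ofReal (Real.exp (-(Φ z)))
        ≤ ENNReal.ofReal (2 * Real.pi * ε ^ 2) *
          ∫⁻ z' in Metric.ball (0 : Cn n) R, ENNReal.ofReal (Real.exp (-(Φ (Fin.cons w₀ z')))) := by
  set S : ℝ≥0∞ :=
    ∫⁻ z' in Metric.ball (0 : Cn n) R, ENNReal.ofReal (Real.exp (-(Φ (Fin.cons w₀ z')))) with hS
  set V : ℝ≥0∞ := volume (Metric.ball (0 : Cn n) R) with hV
  by_cases hStop : S = ⊤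
  · refine ⟨1, one_pos, le_rfl, ?_⟩
    rw [hStop, ENNReal.mul_top]
    · exact le_top
    · rw [Ne, ENNReal.ofReal_eq_zero, not_le]
      positivity
  have hVpos : V ≠ 0 := (Metric.measure_ball_pos volume (0 : Cn n) hR).ne'
  have hVtop : V ≠ ⊤ := measure_ball_lt_top.ne
  -- continuity
  have hsub : Metric.closedBall (0 : Cn (n + 1)) R ⊆ Metric.ball 0 R' :=
    Metric.closedBall_subset_ball hRR'
  have hf : ContinuousOn (fun z : Cn (n + 1) => Real.exp (-(Φ z))) (Metric.ball 0 R') :=
    Real.continuous_exp.comp_continuousOn hΦ.neg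
  have hcons : Continuous fun z' : Cn n => (Fin.cons w₀ z' : Cn (n + 1)) := by
    refine continuous_pi fun i => ?_
    refine Fin.cases ?_ (fun j => ?_) i
    · simpa using continuous_const
    · simpa using continuous_apply j
  -- positivity of `S`
  have hSpos : S ≠ 0 := by
    intro h0
    have hmeas : AEMeasurable (fun z' : Cn n => ENNReal.ofReal (Real.exp (-(Φ (Fin.cons w₀ z')))))
        (volume.restrict (Metric.ball (0 : Cn n) R)) := by
      have hc : ContinuousOn (fun z' : Cn n => Real.exp (-(Φ (Fin.cons w₀ z'))))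
          (Metric.ball (0 : Cn n) R) := by
        refine hf.comp hcons.continuousOn fun z' hz' => ?_
        rw [mem_ball_zero_iff] at hz' ⊢
        exact (otEps_norm_cons_lt hR hw hz').trans hRR'
      exact (hc.aemeasurable Metric.isOpen_ball.measurableSet).ennreal_ofReal
    rw [hS, lintegral_eq_zero_iff' hmeas] at h0
    have h1 : ∀ᵐ z' ∂(volume.restrict (Metric.ball (0 : Cn n) R)), False := by
      filter_upwards [h0] with z' hz'
      have : ENNReal.ofReal (Real.exp (-(Φ (Fin.cons w₀ z')))) = 0 := hz'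
      rw [ENNReal.ofReal_eq_zero] at this
      exact absurd this (not_le.2 (Real.exp_pos _))
    rw [Filter.eventually_false_iff_eq_bot, ae_eq_bot, Measure.restrict_eq_zero] at h1
    exact hVpos h1
  -- choice of `δ`
  set δ : ℝ := (S / V).toReal with hδ
  have hSV0 : S / V ≠ 0 := ENNReal.div_ne_zero.2 ⟨hSpos, hVtop⟩
  have hSVtop : S / V ≠ ⊤ := ENNReal.div_ne_top hStop hVpos
  have hδpos : 0 < δ := ENNReal.toReal_pos hSV0 hSVtop
  have hδV : ENNReal.ofReal δ * V = S := by
    rw [hδ, ENNReal.ofReal_toReal hSVtop, ENNReal.div_mul_cancel hVpos hVtop]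
  -- uniform continuity
  have huc : UniformContinuousOn (fun z : Cn (n + 1) => Real.exp (-(Φ z)))
      (Metric.closedBall (0 : Cn (n + 1)) R) :=
    (isCompact_closedBall (0 : Cn (n + 1)) R).uniformContinuousOn_of_continuous (hf.mono hsub)
  obtain ⟨η, hη, hηd⟩ := Metric.uniformContinuousOn_iff.1 huc δ hδpos
  set ε : ℝ := min 1 (η / 2) with hε
  have hεpos : 0 < ε := lt_min one_pos (by positivity)
  have hεη : ε < η := lt_of_le_of_lt (min_le_right _ _) (by linarith)
  refine ⟨ε, hεpos, min_le_left _ _, ?_⟩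
  set g : Cn (n + 1) → ℝ≥0∞ := fun z => ENNReal.ofReal (Real.exp (-(Φ z))) with hg
  set T : Set (Cn (n + 1)) := {z | otT w₀ z ≤ ε ^ 2} with hT
  have hTm : MeasurableSet T := by
    have : IsClosed T := by
      refine isClosed_le ?_ continuous_const
      unfold otT
      exact (((continuous_apply 0).sub continuous_const).norm).pow 2
    exact this.measurableSet
  have hset : {z : Cn (n + 1) | z ∈ Metric.ball (0 : Cn (n + 1)) R ∧ otT w₀ z ≤ ε ^ 2}
      = T ∩ Metric.ball (0 : Cn (n + 1)) R := by
    ext z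
    simp only [hT, mem_ofPred_eq, mem_inter_iff]
    exact and_comm
  have hgm : AEMeasurable (T.indicator g) (volume.restrict (Metric.ball (0 : Cn (n + 1)) R)) := by
    refine AEMeasurable.indicator ?_ hTm
    have hc : ContinuousOn (fun z : Cn (n + 1) => Real.exp (-(Φ z))) (Metric.ball (0 : Cn (n + 1)) R) :=
      hf.mono (Metric.ball_subset_ball hRR'.le)
    exact (hc.aemeasurable Metric.isOpen_ball.measurableSet).ennreal_ofReal
  rw [hset, ← setLIntegral_indicator hTm, ← sc_tonelli R _ hgm]
  -- the inner integral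
  have hinner : ∀ w ∈ Metric.ball (0 : ℂ) R,
      ∫⁻ z' in Metric.ball (0 : Cn n) R, T.indicator g (Fin.cons w z')
        ≤ (Metric.closedBall w₀ ε).indicator (fun _ => 2 * S) w := by
    intro w hwR
    rw [mem_ball_zero_iff] at hwR
    by_cases hwε : ‖w - w₀‖ ≤ ε
    · rw [indicator_of_mem (by rw [mem_closedBall_iff_norm]; exact hwε)]
      calc ∫⁻ z' in Metric.ball (0 : Cn n) R, T.indicator g (Fin.cons w z')
          ≤ ∫⁻ z' in Metric.ball (0 : Cn n) R,
              (ENNReal.ofReal (Real.exp (-(Φ (Fin.cons w₀ z')))) + ENNReal.ofReal δ) := by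
            refine setLIntegral_mono' Metric.isOpen_ball.measurableSet fun z' hz' => ?_
            rw [mem_ball_zero_iff] at hz'
            refine (indicator_le_self T g _).trans ?_
            rw [hg, ← ENNReal.ofReal_add (Real.exp_pos _).le hδpos.le]
            refine ENNReal.ofReal_le_ofReal ?_
            have h1 := hηd (Fin.cons w z')
              (by rw [mem_closedBall_zero_iff]; exact (otEps_norm_cons_lt hR hwR hz').le)
              (Fin.cons w₀ z')
              (by rw [mem_closedBall_zero_iff]; exact (otEps_norm_cons_lt hR hw hz').le)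
              (lt_of_le_of_lt (otEps_dist_cons w w₀ z') (lt_of_le_of_lt hwε hεη))
            rw [Real.dist_eq] at h1
            have := (abs_lt.1 h1).2
            linarith
        _ = S + ENNReal.ofReal δ * V := by
            rw [lintegral_add_right _ measurable_const, setLIntegral_const]
        _ = 2 * S := by rw [hδV, two_mul]
    · rw [indicator_of_notMem (by rw [mem_closedBall_iff_norm]; exact hwε)]
      refine le_of_eq ?_
      have : ∀ z' : Cn n, T.indicator g (Fin.cons w z') = 0 := by
        intro z'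
        refine indicator_of_notMem ?_ _
        show ¬ (otT w₀ (Fin.cons w z') ≤ ε ^ 2)
        unfold otT
        rw [Fin.cons_zero, not_le]
        exact pow_lt_pow_left₀ (not_le.1 hwε) hεpos.le two_ne_zero
      simp only [this, lintegral_zero]
  calc ∫⁻ w in Metric.ball (0 : ℂ) R, ∫⁻ z' in Metric.ball (0 : Cn n) R, T.indicator g (Fin.cons w z')
      ≤ ∫⁻ w in Metric.ball (0 : ℂ) R, (Metric.closedBall w₀ ε).indicator (fun _ => 2 * S) w :=
        setLIntegral_mono' Metric.isOpen_ball.measurableSet hinner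
    _ ≤ ∫⁻ w, (Metric.closedBall w₀ ε).indicator (fun _ => 2 * S) w := setLIntegral_le_lintegral _ _
    _ = 2 * S * volume (Metric.closedBall w₀ ε) :=
        lintegral_indicator_const Metric.isClosed_closedBall.measurableSet _
    _ = ENNReal.ofReal (2 * Real.pi * ε ^ 2) * S := by
        rw [Complex.volume_closedBall, ENNReal.ofReal_mul (by positivity),
          ENNReal.ofReal_mul (by norm_num), ENNReal.ofReal_pow hεpos.le]
        have hpi : (NNReal.pi : ℝ≥0∞) = ENNReal.ofReal Real.pi := by
          rw [← NNReal.coe_real_pi, ENNReal.ofReal_coe_nnreal]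
        rw [hpi]
        have h2 : ENNReal.ofReal 2 = 2 := by simp
        rw [h2]
        ring

end Claimed.Agent.R242
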