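/-
Row 242, SCV layer, package OT.  OtExh: the polydisc minus a hyperplane is admissible.   Blueprint: helper290.
Leaf SCV-OT-EXH.   WirtA/WirtB may be used while sorried.

`otExh R w₀ z = ∑ |z_j|² + ∑ 1/(R² - |z_j|²) + 1/|z 0 - w₀|²`.
* smooth on `Ω`: denominators do not vanish (`‖z j‖ ≤ ‖z‖ < R`, `z 0 ≠ w₀`).
* Levi form: `levi_add`, `levi_sum`, `levi_normSq_coord` (gives `∑ |a_j|²`), `levi_comp_normSq_coord` with
  `χ s = 1/(R² - s)` (`χ' + sχ'' = 1/(R²-s)² + 2s/(R²-s)³ ≥ 0` for `0 ≤ s < R²`) and `χ s = 1/s`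
  (`χ' + sχ'' = 1/s² ≥ 0`).
* compact sublevels: for `c ≤ 0` the sublevel is empty (`otExh > 0` on `Ω`).  For `c > 0` it is contained in
  `A = {z | (∀ j, ‖z j‖² ≤ R² - 1/c) ∧ 1/c ≤ ‖z 0 - w₀‖²}`, which is closed, bounded, contained in `Ω`, and `otExh` is continuous
  on `A`; so the sublevel `= A ∩ {otExh ≤ c}` is closed in the compact set `A`
  (`ContinuousOn.preimage_isClosed_of_isClosed`).
-/
import Claimed.Agent.R242.SCV.OtDefs

set_option autoImplicit false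

open MeasureTheory Complex Set Filter
open scoped ContDiff ComplexConjugate ENNReal Topology

namespace Claimed.Agent.R242

variable {n : ℕ} {R : ℝ} {w₀ : ℂ}

theorem otExh_contDiff_normSq (m : ℕ) (k : Fin m) (c : ℂ) :
    ContDiff ℝ ∞ (fun y : Cn m => ‖y k - c‖ ^ 2) :=
  ((contDiff_apply ℝ ℂ k).sub contDiff_const).norm_sq ℝ

theorem otExh_contDiff_normSq' (m : ℕ) (k : Fin m) :
    ContDiff ℝ ∞ (fun y : Cn m => ‖y k‖ ^ 2) :=
  (contDiff_apply ℝ ℂ k).norm_sq ℝ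

theorem otOm_coord_lt {z : Cn (n + 1)} (hz : z ∈ otOm n R w₀) (j : Fin (n + 1)) :
    0 < R ^ 2 - ‖z j‖ ^ 2 := by
  have h1 : ‖z‖ < R := by simpa using hz.1
  have h2 : ‖z j‖ ≤ ‖z‖ := norm_le_pi_norm z j
  have h3 : 0 ≤ ‖z j‖ := norm_nonneg _
  nlinarith

theorem otOm_sub_pos {z : Cn (n + 1)} (hz : z ∈ otOm n R w₀) : 0 < ‖z 0 - w₀‖ ^ 2 := by
  have h : z 0 ≠ w₀ := hz.2
  have : 0 < ‖z 0 - w₀‖ := norm_pos_iff.2 (sub_ne_zero.2 h)
  positivity

theorem otExh_contDiffOn (n : ℕ) (R : ℝ) (w₀ : ℂ) :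
    ContDiffOn ℝ ∞ (otExh R w₀ : Cn (n + 1) → ℝ) (otOm n R w₀) := by
  unfold otExh
  refine ContDiffOn.add (ContDiffOn.add ?_ ?_) ?_
  · exact (ContDiff.sum fun j _ => otExh_contDiff_normSq' (n + 1) j).contDiffOn
  · refine ContDiffOn.sum fun j _ => ?_
    refine ContDiffOn.div contDiffOn_const
      (contDiffOn_const.sub (otExh_contDiff_normSq' (n + 1) j).contDiffOn) ?_
    intro z hz
    exact (otOm_coord_lt hz j).ne'
  · refine ContDiffOn.div contDiffOn_const (otExh_contDiff_normSq (n + 1) 0 w₀).contDiffOn ?_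
    intro z hz
    exact (otOm_sub_pos hz).ne'

/-- one-variable computation for `χ s = 1/(α s + β)`. -/
theorem otExh_chi (α β s : ℝ) (h : α * s + β ≠ 0) :
    ContDiffAt ℝ 2 (fun t : ℝ => 1 / (α * t + β)) s ∧
    deriv (fun t : ℝ => 1 / (α * t + β)) s
        + s * deriv (deriv (fun t : ℝ => 1 / (α * t + β))) s
      = (α ^ 2 * s - α * β) / (α * s + β) ^ 3 := by
  have hd : ∀ t : ℝ, α * t + β ≠ 0 →
      HasDerivAt (fun t : ℝ => 1 / (α * t + β)) (-α / (α * t + β) ^ 2) t := by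
    intro t ht
    have h1 : HasDerivAt (fun t : ℝ => α * t + β) α t := by
      simpa using ((hasDerivAt_id t).const_mul α).add_const β
    have h2 := h1.fun_inv ht
    simpa only [one_div] using h2
  have hev : ∀ᶠ t in 𝓝 s, α * t + β ≠ 0 := by
    have hc : ContinuousAt (fun t : ℝ => α * t + β) s := by fun_prop
    exact hc.eventually_ne h
  have hd1 : deriv (fun t : ℝ => 1 / (α * t + β)) =ᶠ[𝓝 s] fun t => -α / (α * t + β) ^ 2 := by
    filter_upwards [hev] with t ht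
    exact (hd t ht).deriv
  have hd2 : HasDerivAt (fun t : ℝ => -α / (α * t + β) ^ 2) (2 * α ^ 2 / (α * s + β) ^ 3) s := by
    have h1 : HasDerivAt (fun t : ℝ => α * t + β) α s := by
      simpa using ((hasDerivAt_id s).const_mul α).add_const β
    have h2 : HasDerivAt (fun t : ℝ => (α * t + β) ^ 2) (2 * (α * s + β) * α) s := by
      simpa using h1.fun_pow 2
    have h3 := (hasDerivAt_const s (-α)).fun_div h2 (pow_ne_zero 2 h)
    have e : 2 * α ^ 2 / (α * s + β) ^ 3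
        = (0 * (α * s + β) ^ 2 - -α * (2 * (α * s + β) * α)) / ((α * s + β) ^ 2) ^ 2 := by
      field_simp
      ring
    rw [e]
    exact h3
  refine ⟨?_, ?_⟩
  · refine ContDiffAt.div contDiffAt_const ?_ h
    fun_prop
  · rw [hd1.deriv_eq, hd2.deriv, (hd s h).deriv]
    field_simp
    ring

theorem otExh_levi {z : Cn (n + 1)} (hz : z ∈ otOm n R w₀) (a : Cn (n + 1)) :
    ∑ j, ‖a j‖ ^ 2 ≤ levi (otExh R w₀) z a := by
  have hle : (2 : WithTop ℕ∞) ≤ ((⊤ : ℕ∞) : WithTop ℕ∞) :=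
    WithTop.coe_le_coe.2 (le_top : (2 : ℕ∞) ≤ ⊤)
  -- the three pieces
  have c1 : ∀ j : Fin (n + 1), ContDiffAt ℝ 2 (fun y : Cn (n + 1) => ‖y j - 0‖ ^ 2) z :=
    fun j => ((otExh_contDiff_normSq (n + 1) j 0).of_le hle).contDiffAt
  have hχ2 : ∀ j : Fin (n + 1), (-1 : ℝ) * ‖z j - 0‖ ^ 2 + R ^ 2 ≠ 0 := by
    intro j
    have := otOm_coord_lt hz j
    rw [sub_zero]
    linarith
  have c2 : ∀ j : Fin (n + 1),
      ContDiffAt ℝ 2 (fun y : Cn (n + 1) => 1 / ((-1 : ℝ) * ‖y j - 0‖ ^ 2 + R ^ 2)) z := by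
    intro j
    exact ContDiffAt.comp (g := fun t : ℝ => 1 / ((-1 : ℝ) * t + R ^ 2))
      (f := fun y : Cn (n + 1) => ‖y j - 0‖ ^ 2) z (otExh_chi (-1) (R ^ 2) _ (hχ2 j)).1 (c1 j)
  have hχ3 : (1 : ℝ) * ‖z 0 - w₀‖ ^ 2 + 0 ≠ 0 := by
    have := otOm_sub_pos hz
    linarith
  have c3 : ContDiffAt ℝ 2 (fun y : Cn (n + 1) => 1 / ((1 : ℝ) * ‖y 0 - w₀‖ ^ 2 + 0)) z :=
    ContDiffAt.comp (g := fun t : ℝ => 1 / ((1 : ℝ) * t + 0))
      (f := fun y : Cn (n + 1) => ‖y 0 - w₀‖ ^ 2) z (otExh_chi 1 0 _ hχ3).1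
      ((otExh_contDiff_normSq (n + 1) 0 w₀).of_le hle).contDiffAt
  have e : (otExh R w₀ : Cn (n + 1) → ℝ) = fun y =>
      ((∑ j, ‖y j - 0‖ ^ 2) + ∑ j, 1 / ((-1 : ℝ) * ‖y j - 0‖ ^ 2 + R ^ 2))
        + 1 / ((1 : ℝ) * ‖y 0 - w₀‖ ^ 2 + 0) := by
    funext y
    unfold otExh
    simp only [sub_zero, one_mul, add_zero, neg_mul]
    congr 2
    refine Finset.sum_congr rfl fun j _ => ?_
    rw [sub_eq_neg_add]
  have s1 : ContDiffAt ℝ 2 (fun y : Cn (n + 1) => ∑ j, ‖y j - 0‖ ^ 2) z :=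
    ContDiffAt.sum fun j _ => c1 j
  have s2 : ContDiffAt ℝ 2
      (fun y : Cn (n + 1) => ∑ j, 1 / ((-1 : ℝ) * ‖y j - 0‖ ^ 2 + R ^ 2)) z :=
    ContDiffAt.sum fun j _ => c2 j
  rw [e, levi_add (s1.add s2) c3, levi_add s1 s2, levi_sum _ _ (fun j _ => c1 j),
    levi_sum _ _ (fun j _ => c2 j)]
  have t1 : ∀ j : Fin (n + 1), levi (fun y : Cn (n + 1) => ‖y j - 0‖ ^ 2) z a = ‖a j‖ ^ 2 :=
    fun j => levi_normSq_coord j 0
  have t2 : ∀ j : Fin (n + 1),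
      0 ≤ levi (fun y : Cn (n + 1) => 1 / ((-1 : ℝ) * ‖y j - 0‖ ^ 2 + R ^ 2)) z a := by
    intro j
    rw [levi_comp_normSq_coord j 0 (fun t : ℝ => 1 / ((-1 : ℝ) * t + R ^ 2))
      (otExh_chi (-1) (R ^ 2) _ (hχ2 j)).1, (otExh_chi (-1) (R ^ 2) _ (hχ2 j)).2]
    have hp := otOm_coord_lt hz j
    have hp' : 0 < (-1 : ℝ) * ‖z j - 0‖ ^ 2 + R ^ 2 := by rw [sub_zero]; linarith
    refine mul_nonneg (div_nonneg ?_ (pow_pos hp' 3).le) (by positivity)
    have : 0 ≤ ‖z j - 0‖ ^ 2 := by positivity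
    nlinarith [sq_nonneg R]
  have t3 : 0 ≤ levi (fun y : Cn (n + 1) => 1 / ((1 : ℝ) * ‖y 0 - w₀‖ ^ 2 + 0)) z a := by
    rw [levi_comp_normSq_coord 0 w₀ (fun t : ℝ => 1 / ((1 : ℝ) * t + 0))
      (otExh_chi 1 0 _ hχ3).1, (otExh_chi 1 0 _ hχ3).2]
    have hp := otOm_sub_pos hz
    refine mul_nonneg (div_nonneg ?_ ?_) (by positivity)
    · nlinarith
    · positivity
  simp only [t1]
  have := Finset.sum_nonneg (s := Finset.univ) fun j _ => t2 j
  linarith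

theorem otExh_isCompact_sublevel (n : ℕ) (R : ℝ) (w₀ : ℂ) (c : ℝ) :
    IsCompact {z : Cn (n + 1) | z ∈ otOm n R w₀ ∧ otExh R w₀ z ≤ c} := by
  by_cases hR : 0 < R
  swap
  · have : {z : Cn (n + 1) | z ∈ otOm n R w₀ ∧ otExh R w₀ z ≤ c} = ∅ := by
      ext z
      simp only [mem_ofPred_eq, mem_empty_iff_false, iff_false, not_and]
      intro hz
      have h1 : ‖z‖ < R := by simpa using hz.1
      exact absurd (lt_of_le_of_lt (norm_nonneg z) h1) hR
    rw [this]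
    exact isCompact_empty
  -- each term is bounded by the total
  have hterm : ∀ z : Cn (n + 1), z ∈ otOm n R w₀ → otExh R w₀ z ≤ c →
      (∀ j, 1 / (R ^ 2 - ‖z j‖ ^ 2) ≤ c) ∧ 1 / ‖z 0 - w₀‖ ^ 2 ≤ c := by
    intro z hz hc
    unfold otExh at hc
    have p1 : 0 ≤ ∑ j, ‖z j‖ ^ 2 := Finset.sum_nonneg fun j _ => by positivity
    have p2 : ∀ j, 0 ≤ 1 / (R ^ 2 - ‖z j‖ ^ 2) := fun j => (one_div_pos.2 (otOm_coord_lt hz j)).le
    have p3 : 0 ≤ 1 / ‖z 0 - w₀‖ ^ 2 := (one_div_pos.2 (otOm_sub_pos hz)).le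
    refine ⟨fun j => ?_, ?_⟩
    · have := Finset.single_le_sum (f := fun j => 1 / (R ^ 2 - ‖z j‖ ^ 2)) (fun i _ => p2 i)
        (Finset.mem_univ j)
      linarith
    · have := Finset.sum_nonneg (s := Finset.univ) fun j _ => p2 j
      linarith
  by_cases hc : 0 < c
  swap
  · have : {z : Cn (n + 1) | z ∈ otOm n R w₀ ∧ otExh R w₀ z ≤ c} = ∅ := by
      ext z
      simp only [mem_ofPred_eq, mem_empty_iff_false, iff_false, not_and]
      intro hz hzc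
      have h1 := (hterm z hz hzc).2
      have h2 := one_div_pos.2 (otOm_sub_pos hz)
      exact hc (lt_of_lt_of_le h2 h1)
    rw [this]
    exact isCompact_empty
  set A : Set (Cn (n + 1)) := {z | (∀ j, ‖z j‖ ^ 2 ≤ R ^ 2 - 1 / c) ∧ 1 / c ≤ ‖z 0 - w₀‖ ^ 2} with hA
  have hcinv : 0 < 1 / c := one_div_pos.2 hc
  have hAΩ : A ⊆ otOm n R w₀ := by
    intro z hz
    refine ⟨?_, ?_⟩
    · have : ‖z‖ < R := by
        rw [pi_norm_lt_iff hR]
        intro j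
        have h1 := hz.1 j
        have h2 : ‖z j‖ ^ 2 < R ^ 2 := by linarith
        exact lt_of_pow_lt_pow_left₀ 2 hR.le h2
      simpa using this
    · intro h0
      have h0' : z 0 = w₀ := h0
      have h1 := hz.2
      rw [h0', sub_self, norm_zero] at h1
      norm_num at h1
      linarith
  have hAclosed : IsClosed A := by
    have e : A = (⋂ j, {z : Cn (n + 1) | ‖z j‖ ^ 2 ≤ R ^ 2 - 1 / c})
        ∩ {z : Cn (n + 1) | 1 / c ≤ ‖z 0 - w₀‖ ^ 2} := by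
      ext z
      simp [hA]
    rw [e]
    refine IsClosed.inter (isClosed_iInter fun j => ?_) ?_
    · exact isClosed_le (by fun_prop) continuous_const
    · exact isClosed_le continuous_const (by fun_prop)
  have hAcompact : IsCompact A := by
    refine Metric.isCompact_of_isClosed_isBounded hAclosed ?_
    exact (Metric.isBounded_ball (x := (0 : Cn (n + 1))) (r := R)).subset
      (fun z hz => (hAΩ hz).1)
  have hcont : ContinuousOn (otExh R w₀ : Cn (n + 1) → ℝ) A :=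
    ((otExh_contDiffOn n R w₀).continuousOn).mono hAΩ
  have hS : {z : Cn (n + 1) | z ∈ otOm n R w₀ ∧ otExh R w₀ z ≤ c}
      = A ∩ (otExh R w₀ : Cn (n + 1) → ℝ) ⁻¹' Iic c := by
    ext z
    constructor
    · rintro ⟨hz, hzc⟩
      obtain ⟨h1, h2⟩ := hterm z hz hzc
      refine ⟨⟨fun j => ?_, ?_⟩, hzc⟩
      · have hp := otOm_coord_lt hz j
        have := (one_div_le hp hc).1 (h1 j)
        linarith
      · exact (one_div_le (otOm_sub_pos hz) hc).1 h2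
    · rintro ⟨hz, hzc⟩
      exact ⟨hAΩ hz, hzc⟩
  rw [hS]
  exact hAcompact.of_isClosed_subset (hcont.preimage_isClosed_of_isClosed hAclosed isClosed_Iic)
    inter_subset_left

theorem admissible_otOm (n : ℕ) (R : ℝ) (w₀ : ℂ) : Admissible (otOm n R w₀) :=
  ⟨Metric.isOpen_ball.sdiff (isClosed_eq (continuous_apply 0) continuous_const),
    otExh R w₀, otExh_contDiffOn n R w₀, otExh_isCompact_sublevel n R w₀,
    fun _ hz a => otExh_levi hz a⟩

end Claimed.Agent.R242
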