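/-
Row 242, SCV layer, package OT.  OtOne: one-variable calculus.   Blueprint: helper290.  Leaf SCV-OT-ONE.
Pure real analysis, Mathlib only (`Real.log`, `deriv`, `Real.smoothTransition`).

Hints.  On `ρ < -1`: `-ρ > 1`, `log(-ρ) > 0`, `η > 1`.
`η' = -1 + 1/ρ = -(1 + 1/(-ρ))`, `P' = -η'/η`, `P'' = -η''/η + η'²/η² = 1/(ρ² η) + P'²` (`η'' = -1/ρ²`), and
`x P'² = (η/(1-ρ)²) ((1-ρ)/(-ρ))²/η² = 1/(ρ² η)`.   For `deriv (deriv otP)` first show
`deriv otP =ᶠ[𝓝 ρ] fun r => (1 + 1/(-r)) / otEta r` (`Iio_mem_nhds`), then `Filter.EventuallyEq.deriv_eq`.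
`otP_key`: `l = -ρ ≥ 1`, `log l ≤ l`, `l² + 4 l + 1 ≤ 3 e^l` from `e^l ≥ 1 + l + l²/2 + l³/6`
(`Real.sum_le_exp_of_nonneg` / `Real.quadratic_le_exp_of_nonneg` + `Real.add_one_le_exp`).
`exists_otB_bound`: `deriv otB` is continuous and vanishes outside `[1/2,1]`, so it is bounded
(`IsCompact.exists_bound_of_continuousOn`).
-/
import Claimed.Agent.R242.SCV.OtDefs

set_option autoImplicit false

open MeasureTheory Complex Set Filter
open scoped ContDiff ComplexConjugate ENNReal Topology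

namespace Claimed.Agent.R242

variable {ρ : ℝ}

theorem otEta_ge_one (h : ρ < -1) : 1 ≤ otEta ρ := by
  unfold otEta
  have := Real.log_pos (by linarith : 1 < -ρ)
  linarith

theorem otEta_pos (h : ρ < -1) : 0 < otEta ρ := by
  have := otEta_ge_one h
  linarith

theorem otP_nonpos (h : ρ < -1) : otP ρ ≤ 0 := by
  unfold otP
  have := Real.log_nonneg (otEta_ge_one h)
  linarith

theorem exp_otP (h : ρ < -1) : Real.exp (otP ρ) = 1 / otEta ρ := by
  unfold otP
  rw [Real.exp_neg, Real.exp_log (otEta_pos h), one_div]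

theorem otX_pos (h : ρ < -1) : 0 < otX ρ := by
  unfold otX
  have := otEta_pos h
  have h1 : 0 < 1 - ρ := by linarith
  positivity

theorem otOne_contDiffAt_eta (h : ρ < -1) : ContDiffAt ℝ ∞ otEta ρ := by
  unfold otEta
  exact contDiffAt_id.neg.add (contDiffAt_id.neg.log (by simp; linarith))

theorem otP_contDiffAt (h : ρ < -1) : ContDiffAt ℝ ∞ otP ρ := by
  unfold otP
  exact ((otOne_contDiffAt_eta h).log (otEta_pos h).ne').neg

theorem otP_contDiffOn : ContDiffOn ℝ ∞ otP (Iio (-1)) :=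
  fun _ h => (otP_contDiffAt h).contDiffWithinAt

theorem otOne_hasDerivAt_eta (h : ρ < -1) : HasDerivAt otEta (-(1 + 1 / (-ρ))) ρ := by
  have h1 : HasDerivAt (fun x : ℝ => Real.log (-x)) ((-1) / (-ρ)) ρ :=
    (hasDerivAt_neg ρ).log (by linarith)
  have h2 := (hasDerivAt_neg ρ).add h1
  have e : -1 + -1 / -ρ = -(1 + 1 / (-ρ)) := by ring
  rw [e] at h2
  exact h2

theorem otOne_hasDerivAt_P (h : ρ < -1) : HasDerivAt otP ((1 + 1 / (-ρ)) / otEta ρ) ρ := by
  have h1 := ((otOne_hasDerivAt_eta h).log (otEta_pos h).ne').neg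
  have e : -(-(1 + 1 / -ρ) / otEta ρ) = (1 + 1 / (-ρ)) / otEta ρ := by ring
  rw [e] at h1
  exact h1

theorem deriv_otP (h : ρ < -1) : deriv otP ρ = (1 + 1 / (-ρ)) / otEta ρ :=
  (otOne_hasDerivAt_P h).deriv

theorem deriv_otP_pos (h : ρ < -1) : 0 < deriv otP ρ := by
  rw [deriv_otP h]
  have := otEta_pos h
  have h1 : 0 < -ρ := by linarith
  positivity

/-- `P' ≥ 1/η`. -/
theorem deriv_otP_ge (h : ρ < -1) : 1 / otEta ρ ≤ deriv otP ρ := by
  rw [deriv_otP h]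
  have h1 : 0 < -ρ := by linarith
  have h2 : 0 ≤ 1 / (-ρ) := by positivity
  exact div_le_div_of_nonneg_right (by linarith) (otEta_pos h).le

/-- **the key identity** `P'' = (1+x) P'²`. -/
theorem deriv_deriv_otP (h : ρ < -1) :
    deriv (deriv otP) ρ = (1 + otX ρ) * (deriv otP ρ) ^ 2 := by
  have hev : deriv otP =ᶠ[𝓝 ρ] fun r => (1 + 1 / (-r)) / otEta r := by
    filter_upwards [Iio_mem_nhds h] with r hr
    exact deriv_otP hr
  rw [hev.deriv_eq, deriv_otP h]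
  have hρ : ρ ≠ 0 := by linarith
  have hu : HasDerivAt (fun r : ℝ => 1 + 1 / (-r)) (1 / ρ ^ 2) ρ := by
    have h1 : HasDerivAt (fun r : ℝ => (-r)⁻¹) (-(-1) / (-ρ) ^ 2) ρ :=
      (hasDerivAt_neg ρ).inv (by linarith)
    have h2 := h1.const_add 1
    have e : -(-1 : ℝ) / (-ρ) ^ 2 = 1 / ρ ^ 2 := by ring
    rw [e] at h2
    simpa [one_div] using h2
  have hd : HasDerivAt (fun r => (1 + 1 / -r) / otEta r)
      ((1 / ρ ^ 2 * otEta ρ - (1 + 1 / -ρ) * -(1 + 1 / -ρ)) / otEta ρ ^ 2) ρ :=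
    hu.div (otOne_hasDerivAt_eta h) (otEta_pos h).ne'
  rw [hd.deriv]
  unfold otX
  have hE := (otEta_pos h).ne'
  have h1 : (1 - ρ) ≠ 0 := by linarith
  generalize otEta ρ = E at hE
  field_simp
  ring

/-- `(1 - 1/(1+x)) e^{P} = 1/((1-ρ)²+η)`. -/
theorem otP_gain (h : ρ < -1) :
    (1 - 1 / (1 + otX ρ)) * Real.exp (otP ρ) = 1 / ((1 - ρ) ^ 2 + otEta ρ) := by
  rw [exp_otP h]
  have hx : 1 + otX ρ ≠ 0 := by
    have := otX_pos h
    linarith
  unfold otX at hx ⊢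
  have hE := otEta_pos h
  have h1 : 0 < (1 - ρ) := by linarith
  generalize otEta ρ = E at hE hx
  have h2 : (1 - ρ) ^ 2 + E ≠ 0 := by positivity
  field_simp
  ring

/-- `e^{ρ} ((1-ρ)²+η) ≤ 3`. -/
theorem otP_key (h : ρ < -1) : Real.exp ρ * ((1 - ρ) ^ 2 + otEta ρ) ≤ 3 := by
  have h1 : 0 < -ρ := by linarith
  have hlog : Real.log (-ρ) ≤ -ρ - 1 := Real.log_le_sub_one_of_pos h1
  have hexp := Real.quadratic_le_exp_of_nonneg h1.le
  have hA : (1 - ρ) ^ 2 + otEta ρ ≤ 3 * Real.exp (-ρ) := by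
    unfold otEta
    nlinarith [sq_nonneg (ρ + 1)]
  calc Real.exp ρ * ((1 - ρ) ^ 2 + otEta ρ) ≤ Real.exp ρ * (3 * Real.exp (-ρ)) :=
        mul_le_mul_of_nonneg_left hA (Real.exp_pos _).le
    _ = 3 := by
        rw [mul_comm 3, ← mul_assoc, ← Real.exp_add]
        simp

/-! ### the cut-off -/

theorem otB_contDiff : ContDiff ℝ ∞ otB := by
  unfold otB
  exact contDiff_const.sub (Real.smoothTransition.contDiff.comp ((contDiff_const.mul contDiff_id).sub contDiff_const))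

theorem otB_nonneg (s : ℝ) : 0 ≤ otB s := by
  unfold otB
  have := Real.smoothTransition.le_one (2 * s - 1)
  linarith

theorem otB_le_one (s : ℝ) : otB s ≤ 1 := by
  unfold otB
  have := Real.smoothTransition.nonneg (2 * s - 1)
  linarith

theorem otB_eq_one {s : ℝ} (h : s ≤ 1 / 2) : otB s = 1 := by
  unfold otB
  rw [Real.smoothTransition.zero_of_nonpos (by linarith)]
  ring

theorem otB_eq_zero {s : ℝ} (h : 1 ≤ s) : otB s = 0 := by
  unfold otB
  rw [Real.smoothTransition.one_of_one_le (by linarith)]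
  ring

theorem deriv_otB_eq_zero {s : ℝ} (h : s < 1 / 2 ∨ 1 < s) : deriv otB s = 0 := by
  rcases h with h | h
  · have hev : otB =ᶠ[𝓝 s] fun _ => 1 := by
      filter_upwards [Iio_mem_nhds h] with r hr
      exact otB_eq_one (le_of_lt hr)
    rw [hev.deriv_eq]
    simp
  · have hev : otB =ᶠ[𝓝 s] fun _ => 0 := by
      filter_upwards [Ioi_mem_nhds h] with r hr
      exact otB_eq_zero (le_of_lt hr)
    rw [hev.deriv_eq]
    simp

theorem exists_otB_bound : ∃ B₀ : ℝ, 0 < B₀ ∧ ∀ s, |deriv otB s| ≤ B₀ := by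
  have hc : Continuous (deriv otB) := otB_contDiff.continuous_deriv (by simp)
  obtain ⟨C, hC⟩ := (isCompact_Icc (a := (1 / 2 : ℝ)) (b := 1)).exists_bound_of_continuousOn hc.continuousOn
  refine ⟨|C| + 1, by positivity, fun s => ?_⟩
  by_cases hs : s ∈ Icc (1 / 2 : ℝ) 1
  · have := hC s hs
    rw [Real.norm_eq_abs] at this
    linarith [le_abs_self C]
  · have h0 : deriv otB s = 0 := by
      apply deriv_otB_eq_zero
      rw [mem_Icc, not_and_or, not_le, not_le] at hs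
      exact hs
    rw [h0, abs_zero]
    positivity

/-- the elementary inequality behind the twisted estimate. -/
theorem ot_cauchy_schwarz {α β Θ₁ Θ₂ : ℝ} (h₁ : 0 < Θ₁) (h₂ : 0 < Θ₂) :
    (α + β) ^ 2 ≤ (α ^ 2 / Θ₂ + β ^ 2 / Θ₁) * (Θ₁ + Θ₂) := by
  rw [div_add_div _ _ h₂.ne' h₁.ne', div_mul_eq_mul_div, le_div_iff₀ (by positivity)]
  nlinarith [sq_nonneg (α * Θ₁ - β * Θ₂)]

end Claimed.Agent.R242
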