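/-
Row 242, SCV layer, package OT.  OtFun: the explicit functions on `Cn (n+1)`.   Blueprint: helper290.
Leaves: SCV-OT-FUN-A (sections 1,2), SCV-OT-FUN-B (section 3), SCV-OT-FUN-C (section 4).
WirtA, WirtB, OtOne may be used while sorried.

Hints.
* section 1: `‖z 0‖ ≤ ‖z‖` (`norm_le_pi_norm`), `(t+ε²)/N < (4R²+1)/N = e⁻¹`, `Real.log_lt_iff_lt_exp`‑type lemmas.
* section 2: `otT w₀ y = ‖y 0 - w₀‖²`: `dz_normSq_coord`, `dzb_ofReal`; chain rules `dzb_comp_real`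
  (`χ = fun s => otB (s/ε²)`,  `χ = fun s => otP (log ((s+ε²)/N))`, or in two steps through `otRho`).
  Smoothness: `‖w‖² = normSq w` is a polynomial in re, im (`Complex.normSq`, `contDiff_norm_sq` does NOT apply to the sup
  norm of `Cn`, but `y ↦ y 0 - w₀ ∈ ℂ` and `ℂ` is an inner product space: `contDiff_norm_sq ℝ`).
* section 3: `levi_comp` with `χ = otP`, `u = otRho`; `otRho = log(‖y 0 - w₀‖² + ε²) - log N`: `levi_log_normSq_add`
  (`g = fun y => y 0 - w₀`, `δ = ε²`), `levi_add`, `levi_const`; `∑_j dz j g z * a j = a 0` (`dz_coord`);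
  `deriv_deriv_otP`.  `levi_log_normSq_holo`, `levi_normSq_coord`, `levi_sum`.
* section 4: pure inequalities from OtOne (`otP_gain`, `otP_key`, `exp_otP`, `deriv_otP_ge`) and section 1.
-/
import Claimed.Agent.R242.SCV.OtOne

set_option autoImplicit false

open MeasureTheory Complex Set Filter
open scoped ContDiff ComplexConjugate ENNReal Topology

namespace Claimed.Agent.R242

variable {n : ℕ} {R ε : ℝ} {w₀ : ℂ} {z : Cn (n + 1)}

/-! ### 1. Ranges -/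

theorem otN_pos (R : ℝ) : 0 < otN R := by
  unfold otN
  positivity

theorem otT_nonneg (w₀ : ℂ) (z : Cn (n + 1)) : 0 ≤ otT w₀ z := by
  unfold otT
  positivity

theorem otT_pos (hz : z 0 ≠ w₀) : 0 < otT w₀ z := by
  unfold otT
  exact pow_pos (norm_pos_iff.2 (sub_ne_zero.2 hz)) 2

theorem otT_lt (hz : z ∈ Metric.ball (0 : Cn (n + 1)) R) (hw : ‖w₀‖ < R) : otT w₀ z < 4 * R ^ 2 := by
  unfold otT
  rw [mem_ball_zero_iff] at hz
  have h1 : ‖z 0 - w₀‖ < 2 * R := by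
    calc ‖z 0 - w₀‖ ≤ ‖z 0‖ + ‖w₀‖ := norm_sub_le _ _
      _ ≤ ‖z‖ + ‖w₀‖ := by gcongr; exact norm_le_pi_norm z 0
      _ < 2 * R := by linarith
  have h2 := pow_lt_pow_left₀ h1 (norm_nonneg _) two_ne_zero
  calc ‖z 0 - w₀‖ ^ 2 < (2 * R) ^ 2 := h2
    _ = 4 * R ^ 2 := by ring

theorem otRho_lt (hz : z ∈ Metric.ball (0 : Cn (n + 1)) R) (hw : ‖w₀‖ < R) (hε : 0 < ε)
    (hε1 : ε ≤ 1) : otRho R ε w₀ z < -1 := by
  unfold otRho
  have hN := otN_pos R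
  have ht := otT_nonneg w₀ z
  have ht' := otT_lt hz hw
  have hε2 : ε ^ 2 ≤ 1 := pow_le_one₀ hε.le hε1
  have hpos : 0 < (otT w₀ z + ε ^ 2) / otN R := by positivity
  rw [Real.log_lt_iff_lt_exp hpos, div_lt_iff₀ hN]
  unfold otN
  rw [← mul_assoc, ← Real.exp_add]
  simp only [neg_add_cancel, Real.exp_zero, one_mul]
  linarith

theorem exp_otRho (hε : 0 < ε) : Real.exp (otRho R ε w₀ z) = (otT w₀ z + ε ^ 2) / otN R := by
  unfold otRho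
  have hN := otN_pos R
  have ht := otT_nonneg w₀ z
  exact Real.exp_log (by positivity)

theorem otPsi_nonpos (hz : z ∈ Metric.ball (0 : Cn (n + 1)) R) (hw : ‖w₀‖ < R) (hε : 0 < ε)
    (hε1 : ε ≤ 1) : otPsi R ε w₀ z ≤ 0 :=
  otP_nonpos (otRho_lt hz hw hε hε1)

theorem isOpen_otOm (n : ℕ) (R : ℝ) (w₀ : ℂ) : IsOpen (otOm n R w₀) :=
  Metric.isOpen_ball.sdiff (isClosed_eq (continuous_apply 0) continuous_const)

theorem otOm_subset_ball (n : ℕ) (R : ℝ) (w₀ : ℂ) : otOm n R w₀ ⊆ Metric.ball 0 R :=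
  sdiff_subset

/-- the hyperplane is a null set. -/
theorem volume_hyperplane (n : ℕ) (w₀ : ℂ) : volume {z : Cn (n + 1) | z 0 = w₀} = 0 :=
  Measure.pi_hyperplane (fun _ : Fin (n + 1) => (volume : Measure ℂ)) 0 w₀

/-! ### 2. Smoothness and first derivatives -/

theorem otT_contDiff (w₀ : ℂ) : ContDiff ℝ ∞ (otT w₀ : Cn (n + 1) → ℝ) := by
  unfold otT
  exact ((contDiff_apply ℝ ℂ (0 : Fin (n + 1))).sub contDiff_const).norm_sq ℝ

theorem otRho_contDiff (R : ℝ) (hε : 0 < ε) (w₀ : ℂ) :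
    ContDiff ℝ ∞ (otRho R ε w₀ : Cn (n + 1) → ℝ) := by
  unfold otRho
  refine (((otT_contDiff w₀).add contDiff_const).div_const _).log fun y => ?_
  have hN := otN_pos R
  have ht := otT_nonneg w₀ y
  positivity

theorem otPsi_contDiffOn (hw : ‖w₀‖ < R) (hε : 0 < ε) (hε1 : ε ≤ 1) :
    ContDiffOn ℝ ∞ (otPsi R ε w₀ : Cn (n + 1) → ℝ) (Metric.ball 0 R) :=
  otP_contDiffOn.comp (otRho_contDiff R hε w₀).contDiffOn fun _ hz => otRho_lt hz hw hε hε1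

theorem otG_contDiff (ε : ℝ) (w₀ : ℂ) : ContDiff ℝ ∞ (otG ε w₀ : Cn (n + 1) → ℂ) :=
  Complex.ofRealCLM.contDiff.comp (otB_contDiff.comp ((otT_contDiff w₀).div_const _))

theorem sum_normSq_contDiff (m : ℕ) : ContDiff ℝ ∞ (fun y : Cn m => ∑ j, ‖y j‖ ^ 2) :=
  ContDiff.sum fun j _ => (contDiff_apply ℝ ℂ j).norm_sq ℝ

theorem log_otT_contDiffOn (n : ℕ) (R : ℝ) (w₀ : ℂ) :
    ContDiffOn ℝ ∞ (fun y : Cn (n + 1) => Real.log (otT w₀ y)) (otOm n R w₀) :=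
  (otT_contDiff w₀).contDiffOn.log fun _ hy => (otT_pos hy.2).ne'

theorem dz_otT (j : Fin (n + 1)) :
    dz j (fun y : Cn (n + 1) => (otT w₀ y : ℂ)) z = if j = 0 then conj (z 0 - w₀) else 0 :=
  dz_normSq_coord j 0 w₀

theorem dzb_otT (j : Fin (n + 1)) :
    dzb j (fun y : Cn (n + 1) => (otT w₀ y : ℂ)) z = if j = 0 then z 0 - w₀ else 0 := by
  rw [dzb_ofReal, dz_otT]
  split_ifs <;> simp

theorem otFun_differentiableAt_otT (w₀ : ℂ) (z : Cn (n + 1)) : DifferentiableAt ℝ (otT w₀) z :=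
  (otT_contDiff w₀).differentiable (by simp) z

theorem dzb_otG (j : Fin (n + 1)) :
    dzb j (otG ε w₀) z
      = if j = 0 then ((deriv otB (otT w₀ z / ε ^ 2) / ε ^ 2 : ℝ) : ℂ) * (z 0 - w₀) else 0 := by
  have hχ : HasDerivAt (fun s : ℝ => otB (s / ε ^ 2)) (deriv otB (otT w₀ z / ε ^ 2) / ε ^ 2) (otT w₀ z) := by
    have h1 : HasDerivAt otB (deriv otB (otT w₀ z / ε ^ 2)) (otT w₀ z / ε ^ 2) :=
      (otB_contDiff.differentiable (by simp) _).hasDerivAt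
    have h2 := h1.comp (otT w₀ z) ((hasDerivAt_id (otT w₀ z)).div_const (ε ^ 2))
    rw [mul_one_div] at h2
    exact h2
  have h := dzb_comp_real (j := j) (otT w₀) (fun s : ℝ => otB (s / ε ^ 2)) (otFun_differentiableAt_otT w₀ z)
    hχ.differentiableAt
  rw [hχ.deriv, dzb_otT] at h
  have e : otG ε w₀ = fun y : Cn (n + 1) => ((otB (otT w₀ y / ε ^ 2) : ℝ) : ℂ) := rfl
  rw [e, h]
  split_ifs <;> simp

theorem otFun_hasDerivAt_log (R : ℝ) (hε : 0 < ε) {s : ℝ} (hs : 0 ≤ s) :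
    HasDerivAt (fun s : ℝ => Real.log ((s + ε ^ 2) / otN R)) (1 / (s + ε ^ 2)) s := by
  have hN := otN_pos R
  have h1 : HasDerivAt (fun s : ℝ => (s + ε ^ 2) / otN R) (1 / otN R) s :=
    ((hasDerivAt_id s).add_const (ε ^ 2)).div_const _
  have hpos : 0 < s + ε ^ 2 := by positivity
  have h2 := h1.log (by positivity)
  have e : 1 / otN R / ((s + ε ^ 2) / otN R) = 1 / (s + ε ^ 2) := by
    field_simp
  rw [e] at h2
  exact h2

theorem dz_otRho (hε : 0 < ε) (j : Fin (n + 1)) :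
    dz j (fun y : Cn (n + 1) => (otRho R ε w₀ y : ℂ)) z
      = if j = 0 then ((1 / (otT w₀ z + ε ^ 2) : ℝ) : ℂ) * conj (z 0 - w₀) else 0 := by
  have hχ := otFun_hasDerivAt_log R hε (otT_nonneg w₀ z)
  have h := dz_comp_real (j := j) (otT w₀) (fun s : ℝ => Real.log ((s + ε ^ 2) / otN R))
    (otFun_differentiableAt_otT w₀ z) hχ.differentiableAt
  rw [hχ.deriv, dz_otT] at h
  have e : (fun y : Cn (n + 1) => (otRho R ε w₀ y : ℂ))
      = fun y : Cn (n + 1) => ((Real.log ((otT w₀ y + ε ^ 2) / otN R) : ℝ) : ℂ) := rfl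
  rw [e, h]
  split_ifs <;> simp

theorem dzb_otPsi (hz : z ∈ Metric.ball (0 : Cn (n + 1)) R) (hw : ‖w₀‖ < R) (hε : 0 < ε)
    (hε1 : ε ≤ 1) (j : Fin (n + 1)) :
    dzb j (fun y : Cn (n + 1) => (otPsi R ε w₀ y : ℂ)) z
      = if j = 0 then ((deriv otP (otRho R ε w₀ z) / (otT w₀ z + ε ^ 2) : ℝ) : ℂ) * (z 0 - w₀)
        else 0 := by
  have hρ := otRho_lt hz hw hε hε1
  have h := dzb_comp_real (j := j) (otRho R ε w₀) otP
    ((otRho_contDiff R hε w₀).differentiable (by simp) z)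
    ((otP_contDiffAt hρ).differentiableAt (by simp))
  rw [dzb_ofReal (otRho R ε w₀), dz_otRho hε] at h
  have e : (fun y : Cn (n + 1) => (otPsi R ε w₀ y : ℂ))
      = fun y : Cn (n + 1) => ((otP (otRho R ε w₀ y) : ℝ) : ℂ) := rfl
  rw [e, h]
  split_ifs
  · simp only [map_mul, Complex.conj_ofReal, Complex.conj_conj]
    push_cast
    ring
  · simp

theorem otG_eq_one (hε : 0 < ε) (h : otT w₀ z ≤ ε ^ 2 / 2) : otG ε w₀ z = 1 := by
  unfold otG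
  rw [otB_eq_one]
  · simp
  · rw [div_le_iff₀ (by positivity)]
    linarith

theorem otG_eq_zero (hε : 0 < ε) (h : ε ^ 2 ≤ otT w₀ z) : otG ε w₀ z = 0 := by
  unfold otG
  rw [otB_eq_zero]
  · simp
  · rw [le_div_iff₀ (by positivity)]
    linarith

theorem norm_otG_le_one (ε : ℝ) (w₀ : ℂ) (z : Cn (n + 1)) : ‖otG ε w₀ z‖ ≤ 1 := by
  unfold otG
  rw [Complex.norm_real, Real.norm_eq_abs, abs_of_nonneg (otB_nonneg _)]
  exact otB_le_one _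

/-! ### 3. Levi forms -/

theorem otfb_two_le : (2 : WithTop ℕ∞) ≤ ((⊤ : ℕ∞) : WithTop ℕ∞) := by decide

/-- the affine function `y ↦ y 0 - w₀` is holomorphic. -/
theorem otfb_holo (w₀ : ℂ) (z : Cn (n + 1)) :
    ∀ᶠ y in 𝓝 z, DifferentiableAt ℂ (fun y : Cn (n + 1) => y 0 - w₀) y :=
  Filter.Eventually.of_forall fun y => (differentiableAt_apply (𝕜 := ℂ) 0 y).sub_const w₀

theorem otfb_contDiff (w₀ : ℂ) : ContDiff ℝ 2 (fun y : Cn (n + 1) => y 0 - w₀) :=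
  (contDiff_apply ℝ ℂ (0 : Fin (n + 1))).sub contDiff_const

theorem otfb_sum_dz (w₀ : ℂ) (z a : Cn (n + 1)) :
    ∑ j, dz j (fun y : Cn (n + 1) => y 0 - w₀) z * a j = a 0 := by
  have h : ∀ j : Fin (n + 1), dz j (fun y : Cn (n + 1) => y 0 - w₀) z = if j = 0 then 1 else 0 := by
    intro j
    rw [dz_sub (differentiableAt_apply (𝕜 := ℝ) 0 z) (differentiableAt_const w₀), dz_coord,
      dz_const, sub_zero]
  simp only [h, ite_mul, one_mul, zero_mul, Finset.sum_ite_eq', Finset.mem_univ, if_true]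

theorem levi_sum_normSq {m : ℕ} (z a : Cn m) :
    levi (fun y : Cn m => ∑ j, ‖y j‖ ^ 2) z a = ∑ j, ‖a j‖ ^ 2 := by
  have h : ∀ j ∈ (Finset.univ : Finset (Fin m)),
      ContDiffAt ℝ 2 ((fun (j : Fin m) (y : Cn m) => ‖y j‖ ^ 2) j) z := by
    intro j _
    exact ((contDiff_norm_sq ℝ).comp (contDiff_apply ℝ ℂ j)).contDiffAt
  rw [levi_sum Finset.univ (fun (j : Fin m) (y : Cn m) => ‖y j‖ ^ 2) h]
  refine Finset.sum_congr rfl fun j _ => ?_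
  have := levi_normSq_coord (z := z) (a := a) j 0
  simpa only [sub_zero] using this

theorem levi_log_otT (hz : z 0 ≠ w₀) (a : Cn (n + 1)) :
    levi (fun y : Cn (n + 1) => Real.log (otT w₀ y)) z a = 0 :=
  levi_log_normSq_holo (g := fun y : Cn (n + 1) => y 0 - w₀) (otfb_holo w₀ z)
    (otfb_contDiff w₀).contDiffAt (sub_ne_zero.2 hz)

theorem levi_otRho (hε : 0 < ε) (a : Cn (n + 1)) :
    levi (otRho R ε w₀) z a = ε ^ 2 / (otT w₀ z + ε ^ 2) ^ 2 * ‖a 0‖ ^ 2 := by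
  have hε2 : 0 < ε ^ 2 := by positivity
  have hfun : (otRho R ε w₀ : Cn (n + 1) → ℝ)
      = fun y => Real.log (‖y 0 - w₀‖ ^ 2 + ε ^ 2) + (-Real.log (otN R)) := by
    funext y
    have h1 : otT w₀ y + ε ^ 2 ≠ 0 := by
      have := otT_nonneg w₀ y
      positivity
    rw [otRho, Real.log_div h1 (otN_pos R).ne']
    rfl
  have hc : ContDiffAt ℝ 2 (fun y : Cn (n + 1) => Real.log (‖y 0 - w₀‖ ^ 2 + ε ^ 2)) z := by
    refine ContDiffAt.log ?_ (by positivity)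
    exact (((contDiff_norm_sq ℝ).comp (otfb_contDiff w₀)).add contDiff_const).contDiffAt
  rw [hfun, levi_add hc contDiffAt_const, levi_const, add_zero,
    levi_log_normSq_add (g := fun y : Cn (n + 1) => y 0 - w₀) (otfb_holo w₀ z)
      (otfb_contDiff w₀).contDiffAt hε2, otfb_sum_dz]
  rw [otT]
  ring

/-- **Levi form of `ψ`.** -/
theorem levi_otPsi (hz : z ∈ Metric.ball (0 : Cn (n + 1)) R) (hw : ‖w₀‖ < R) (hε : 0 < ε)
    (hε1 : ε ≤ 1) (a : Cn (n + 1)) :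
    levi (otPsi R ε w₀) z a = (otTh1 R ε w₀ z + otTh2 R ε w₀ z) * ‖a 0‖ ^ 2 := by
  have hρ := otRho_lt hz hw hε hε1
  have ht0 := otT_nonneg w₀ z
  have hpos : 0 < otT w₀ z + ε ^ 2 := by positivity
  have hu : ContDiffAt ℝ 2 (otRho R ε w₀ : Cn (n + 1) → ℝ) z :=
    ((otRho_contDiff R hε w₀).of_le otfb_two_le).contDiffAt
  have hχ : ContDiffAt ℝ 2 otP (otRho R ε w₀ z) :=
    (otP_contDiffAt hρ).of_le otfb_two_le
  have hsum : ∑ j, dz j (fun y : Cn (n + 1) => (otRho R ε w₀ y : ℂ)) z * a j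
      = ((1 / (otT w₀ z + ε ^ 2) : ℝ) : ℂ) * conj (z 0 - w₀) * a 0 := by
    simp only [dz_otRho hε, ite_mul, zero_mul, Finset.sum_ite_eq', Finset.mem_univ, if_true]
  have hnorm : ‖((1 / (otT w₀ z + ε ^ 2) : ℝ) : ℂ) * conj (z 0 - w₀) * a 0‖ ^ 2
      = otT w₀ z / (otT w₀ z + ε ^ 2) ^ 2 * ‖a 0‖ ^ 2 := by
    rw [norm_mul, norm_mul, Complex.norm_real, RCLike.norm_conj, Real.norm_of_nonneg (by positivity),
      mul_pow, mul_pow, otT]
    field_simp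
  have := levi_comp (z := z) (a := a) (u := otRho R ε w₀) otP hu hχ
  rw [show (otPsi R ε w₀ : Cn (n + 1) → ℝ) = fun y => otP (otRho R ε w₀ y) from rfl, this,
    levi_otRho hε, hsum, hnorm, deriv_deriv_otP hρ, otTh1, otTh2]
  ring

theorem otfb_log_contDiffAt (hz : z 0 ≠ w₀) :
    ContDiffAt ℝ 2 (fun y : Cn (n + 1) => Real.log (otT w₀ y)) z :=
  ContDiffAt.log ((otT_contDiff w₀).of_le otfb_two_le).contDiffAt (otT_pos hz).ne'

theorem otfb_otPhiT_contDiffAt {φ : Cn (n + 1) → ℝ} (hφ : ContDiffAt ℝ 2 φ z) (hz : z 0 ≠ w₀) :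
    ContDiffAt ℝ 2 (otPhiT φ w₀) z :=
  (hφ.add ((sum_normSq_contDiff (n + 1)).of_le otfb_two_le).contDiffAt).add
    (otfb_log_contDiffAt hz)

theorem levi_otPhiT {φ : Cn (n + 1) → ℝ} (hφ : ContDiffAt ℝ 2 φ z) (hz : z 0 ≠ w₀)
    (a : Cn (n + 1)) : levi (otPhiT φ w₀) z a = levi φ z a + ∑ j, ‖a j‖ ^ 2 := by
  have h1 : ContDiffAt ℝ 2 (fun y : Cn (n + 1) => ∑ j, ‖y j‖ ^ 2) z :=
    ((sum_normSq_contDiff (n + 1)).of_le otfb_two_le).contDiffAt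
  have h2 := otfb_log_contDiffAt (n := n) hz
  rw [show (otPhiT φ w₀ : Cn (n + 1) → ℝ)
      = fun y => (φ y + ∑ j, ‖y j‖ ^ 2) + Real.log (otT w₀ y) from rfl,
    levi_add (hφ.add h1) h2, levi_add hφ h1, levi_sum_normSq, levi_log_otT hz, add_zero]

theorem levi_otPhiT_add_otPsi {φ : Cn (n + 1) → ℝ} (hφ : ContDiffAt ℝ 2 φ z)
    (hz : z ∈ otOm n R w₀) (hw : ‖w₀‖ < R) (hε : 0 < ε) (hε1 : ε ≤ 1) (a : Cn (n + 1)) :
    levi (fun y => otPhiT φ w₀ y + otPsi R ε w₀ y) z a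
      = levi φ z a + ∑ j, ‖a j‖ ^ 2 + (otTh1 R ε w₀ z + otTh2 R ε w₀ z) * ‖a 0‖ ^ 2 := by
  have hzb : z ∈ Metric.ball (0 : Cn (n + 1)) R := hz.1
  have hz0 : z 0 ≠ w₀ := hz.2
  have hψ : ContDiffAt ℝ 2 (otPsi R ε w₀ : Cn (n + 1) → ℝ) z :=
    ((otPsi_contDiffOn hw hε hε1).contDiffAt (Metric.isOpen_ball.mem_nhds hzb)).of_le
      otfb_two_le
  rw [levi_add (otfb_otPhiT_contDiffAt hφ hz0) hψ, levi_otPhiT hφ hz0, levi_otPsi hzb hw hε hε1]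

theorem pshOn_otPhiT {R' : ℝ} (hRR' : R ≤ R') {φ : Cn (n + 1) → ℝ}
    (hφ : PshOn φ (Metric.ball 0 R')) (w₀ : ℂ) : PshOn (otPhiT φ w₀) (otOm n R w₀) := by
  have hsub : otOm n R w₀ ⊆ Metric.ball (0 : Cn (n + 1)) R' :=
    (otOm_subset_ball n R w₀).trans (Metric.ball_subset_ball hRR')
  refine ⟨?_, fun z hz a => ?_⟩
  · exact ((hφ.1.mono hsub).add (sum_normSq_contDiff (n + 1)).contDiffOn).add
      (log_otT_contDiffOn n R w₀)
  · have hφz : ContDiffAt ℝ 2 φ z :=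
      ((hφ.1.contDiffAt (Metric.isOpen_ball.mem_nhds (hsub hz))).of_le otfb_two_le)
    rw [levi_otPhiT hφz hz.2]
    have h1 := hφ.2 z (hsub hz) a
    have h2 : 0 ≤ ∑ j, ‖a j‖ ^ 2 := Finset.sum_nonneg fun j _ => by positivity
    linarith

/-! ### 4. Pointwise inequalities -/

theorem otTh1_nonneg (hz : z ∈ Metric.ball (0 : Cn (n + 1)) R) (hw : ‖w₀‖ < R) (hε : 0 < ε)
    (hε1 : ε ≤ 1) : 0 ≤ otTh1 R ε w₀ z := by
  have hρ := otRho_lt hz hw hε hε1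
  have hx := otX_pos hρ
  have ht := otT_nonneg w₀ z
  unfold otTh1
  positivity

theorem otTh1_pos (hz : z ∈ otOm n R w₀) (hw : ‖w₀‖ < R) (hε : 0 < ε) (hε1 : ε ≤ 1) :
    0 < otTh1 R ε w₀ z := by
  have hρ := otRho_lt hz.1 hw hε hε1
  have hx := otX_pos hρ
  have ht : 0 < otT w₀ z := otT_pos hz.2
  have hP := deriv_otP_pos hρ
  unfold otTh1
  positivity

theorem otTh2_pos (hz : z ∈ Metric.ball (0 : Cn (n + 1)) R) (hw : ‖w₀‖ < R) (hε : 0 < ε)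
    (hε1 : ε ≤ 1) : 0 < otTh2 R ε w₀ z := by
  have hρ := otRho_lt hz hw hε hε1
  have ht := otT_nonneg w₀ z
  have hP := deriv_otP_pos hρ
  unfold otTh2
  positivity

/-- `|∂̄₀ψ|² = Θ₁/(1+x)`. -/
theorem normSq_dzb_otPsi (hz : z ∈ Metric.ball (0 : Cn (n + 1)) R) (hw : ‖w₀‖ < R) (hε : 0 < ε)
    (hε1 : ε ≤ 1) :
    ‖dzb 0 (fun y : Cn (n + 1) => (otPsi R ε w₀ y : ℂ)) z‖ ^ 2
      = otTh1 R ε w₀ z / (1 + otX (otRho R ε w₀ z)) := by
  have hρ := otRho_lt hz hw hε hε1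
  have hx := otX_pos hρ
  have ht := otT_nonneg w₀ z
  rw [dzb_otPsi hz hw hε hε1 0, if_pos rfl, norm_mul, mul_pow, Complex.norm_real,
    Real.norm_eq_abs, sq_abs]
  unfold otTh1
  have h1 : ‖z 0 - w₀‖ ^ 2 = otT w₀ z := rfl
  rw [h1]
  field_simp

/-- the hypothesis `hest` of the twisted estimate. -/
theorem ot_hest {φ : Cn (n + 1) → ℝ} (hφ : ContDiffAt ℝ 2 φ z) (hφ0 : ∀ a, 0 ≤ levi φ z a)
    (hz : z ∈ otOm n R w₀) (hw : ‖w₀‖ < R) (hε : 0 < ε) (hε1 : ε ≤ 1) (u : ℂ) (a : Cn (n + 1)) :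
    ‖∑ j, (dzb j (otG ε w₀) z + u * dzb j (fun y : Cn (n + 1) => (otPsi R ε w₀ y : ℂ)) z)
        * conj (a j)‖ ^ 2
      ≤ (1 / (1 + otX (otRho R ε w₀ z)) * ‖u‖ ^ 2 + ‖dzb 0 (otG ε w₀) z‖ ^ 2 / otTh2 R ε w₀ z)
        * levi (fun y => otPhiT φ w₀ y + otPsi R ε w₀ y) z a := by
  have hρ := otRho_lt hz.1 hw hε hε1
  have hx := otX_pos hρ
  have h1 := otTh1_pos hz hw hε hε1
  have h2 := otTh2_pos hz.1 hw hε hε1
  have hsum : ∑ j, (dzb j (otG ε w₀) z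
        + u * dzb j (fun y : Cn (n + 1) => (otPsi R ε w₀ y : ℂ)) z) * conj (a j)
      = (dzb 0 (otG ε w₀) z
        + u * dzb 0 (fun y : Cn (n + 1) => (otPsi R ε w₀ y : ℂ)) z) * conj (a 0) := by
    refine Finset.sum_eq_single 0 (fun j _ hj => ?_) (by simp)
    rw [dzb_otG, dzb_otPsi hz.1 hw hε hε1, if_neg hj, if_neg hj]
    simp
  have hD := normSq_dzb_otPsi hz.1 hw hε hε1
  rw [hsum, levi_otPhiT_add_otPsi hφ hz hw hε hε1, norm_mul, mul_pow, RCLike.norm_conj]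
  have hcs := ot_cauchy_schwarz (α := ‖dzb 0 (otG ε w₀) z‖)
    (β := ‖u‖ * ‖dzb 0 (fun y : Cn (n + 1) => (otPsi R ε w₀ y : ℂ)) z‖) h1 h2
  have hβ : (‖u‖ * ‖dzb 0 (fun y : Cn (n + 1) => (otPsi R ε w₀ y : ℂ)) z‖) ^ 2 / otTh1 R ε w₀ z
      = 1 / (1 + otX (otRho R ε w₀ z)) * ‖u‖ ^ 2 := by
    rw [mul_pow, hD]
    field_simp
  rw [hβ] at hcs
  have hn : ‖dzb 0 (otG ε w₀) z + u * dzb 0 (fun y : Cn (n + 1) => (otPsi R ε w₀ y : ℂ)) z‖
      ≤ ‖dzb 0 (otG ε w₀) z‖ + ‖u‖ * ‖dzb 0 (fun y : Cn (n + 1) => (otPsi R ε w₀ y : ℂ)) z‖ :=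
    (norm_add_le _ _).trans (by rw [norm_mul])
  have hn2 := pow_le_pow_left₀ (norm_nonneg _) hn 2
  have hK : 0 ≤ 1 / (1 + otX (otRho R ε w₀ z)) * ‖u‖ ^ 2
      + ‖dzb 0 (otG ε w₀) z‖ ^ 2 / otTh2 R ε w₀ z := by positivity
  have hS : 0 ≤ ∑ j, ‖a j‖ ^ 2 := Finset.sum_nonneg fun j _ => by positivity
  calc _ ≤ ((1 / (1 + otX (otRho R ε w₀ z)) * ‖u‖ ^ 2
        + ‖dzb 0 (otG ε w₀) z‖ ^ 2 / otTh2 R ε w₀ z) * (otTh1 R ε w₀ z + otTh2 R ε w₀ z))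
        * ‖a 0‖ ^ 2 :=
        mul_le_mul_of_nonneg_right (hn2.trans (by linarith)) (by positivity)
    _ = (1 / (1 + otX (otRho R ε w₀ z)) * ‖u‖ ^ 2
        + ‖dzb 0 (otG ε w₀) z‖ ^ 2 / otTh2 R ε w₀ z)
        * ((otTh1 R ε w₀ z + otTh2 R ε w₀ z) * ‖a 0‖ ^ 2) := by ring
    _ ≤ _ := mul_le_mul_of_nonneg_left (by linarith [hφ0 a]) hK

theorem ot_exp_sub (φ : Cn (n + 1) → ℝ) (hz : z 0 ≠ w₀) :
    Real.exp (otPsi R ε w₀ z - otPhiT φ w₀ z)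
      = Real.exp (otP (otRho R ε w₀ z)) * (Real.exp (-(otPhi1 φ z)) / otT w₀ z) := by
  have ht : 0 < otT w₀ z := otT_pos hz
  unfold otPhiT otPsi
  rw [show otP (otRho R ε w₀ z) - (otPhi1 φ z + Real.log (otT w₀ z))
      = otP (otRho R ε w₀ z) + (-(otPhi1 φ z) - Real.log (otT w₀ z)) by ring,
    Real.exp_add, Real.exp_sub, Real.exp_log ht]

/-- lower bound of the gain factor. -/
theorem ot_lower (φ : Cn (n + 1) → ℝ) (hz : z ∈ otOm n R w₀) (hw : ‖w₀‖ < R) (hε : 0 < ε)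
    (hε1 : ε ≤ 1) :
    Real.exp (-(otPhi1 φ z))
      ≤ 3 * otN R * ((1 - 1 / (1 + otX (otRho R ε w₀ z)))
          * Real.exp (otPsi R ε w₀ z - otPhiT φ w₀ z)) := by
  have hρ := otRho_lt hz.1 hw hε hε1
  have ht : 0 < otT w₀ z := otT_pos hz.2
  have hN := otN_pos R
  rw [ot_exp_sub φ hz.2, ← mul_assoc (1 - _), otP_gain hρ]
  have hkey := otP_key hρ
  rw [exp_otRho hε] at hkey
  have hη := otEta_pos hρ
  have hQ : 0 < (1 - otRho R ε w₀ z) ^ 2 + otEta (otRho R ε w₀ z) := by positivity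
  generalize (1 - otRho R ε w₀ z) ^ 2 + otEta (otRho R ε w₀ z) = Q at hkey hQ ⊢
  have h3 : otT w₀ z * Q ≤ 3 * otN R := by
    have h4 : (otT w₀ z + ε ^ 2) * Q ≤ 3 * otN R := by
      rwa [div_mul_eq_mul_div, div_le_iff₀ hN] at hkey
    nlinarith [sq_nonneg ε, hQ]
  have hE := Real.exp_pos (-(otPhi1 φ z))
  rw [show 3 * otN R * (1 / Q * (Real.exp (-(otPhi1 φ z)) / otT w₀ z))
      = Real.exp (-(otPhi1 φ z)) * (3 * otN R / (otT w₀ z * Q)) by field_simp]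
  have h5 : 1 ≤ 3 * otN R / (otT w₀ z * Q) := by
    rw [le_div_iff₀ (by positivity)]
    linarith
  exact le_mul_of_one_le_right hE.le h5

/-- upper bound of the right hand side. -/
theorem ot_upper (φ : Cn (n + 1) → ℝ) (hz : z ∈ otOm n R w₀) (hw : ‖w₀‖ < R) (hε : 0 < ε)
    (hε1 : ε ≤ 1) {B₀ : ℝ} (hB₀ : ∀ s, |deriv otB s| ≤ B₀) :
    ‖dzb 0 (otG ε w₀) z‖ ^ 2 / otTh2 R ε w₀ z * Real.exp (otPsi R ε w₀ z - otPhiT φ w₀ z)
      ≤ 4 * B₀ ^ 2 / ε ^ 2 *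
        ({y : Cn (n + 1) | otT w₀ y ≤ ε ^ 2}.indicator (fun y => Real.exp (-(otPhi1 φ y))) z) := by
  have hn : ‖dzb 0 (otG ε w₀) z‖ ^ 2 = (deriv otB (otT w₀ z / ε ^ 2) / ε ^ 2) ^ 2 * otT w₀ z := by
    rw [dzb_otG, if_pos rfl, norm_mul, mul_pow, Complex.norm_real, Real.norm_eq_abs, sq_abs]
    rfl
  have hε2 : 0 < ε ^ 2 := by positivity
  by_cases hle : otT w₀ z ≤ ε ^ 2
  · rw [Set.indicator_of_mem (show z ∈ {y : Cn (n + 1) | otT w₀ y ≤ ε ^ 2} from hle)]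
    have hρ := otRho_lt hz.1 hw hε hε1
    have ht : 0 < otT w₀ z := otT_pos hz.2
    have hη := otEta_pos hρ
    have hP := deriv_otP_pos hρ
    have hPη : 1 ≤ deriv otP (otRho R ε w₀ z) * otEta (otRho R ε w₀ z) := by
      have := deriv_otP_ge hρ
      rwa [div_le_iff₀ hη] at this
    have hb : deriv otB (otT w₀ z / ε ^ 2) ^ 2 ≤ B₀ ^ 2 := by
      have h1 := hB₀ (otT w₀ z / ε ^ 2)
      rw [← sq_abs]
      exact pow_le_pow_left₀ (abs_nonneg _) h1 2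
    have hE := Real.exp_pos (-(otPhi1 φ z))
    rw [hn, ot_exp_sub φ hz.2, exp_otP hρ]
    unfold otTh2
    generalize deriv otB (otT w₀ z / ε ^ 2) = b at hb ⊢
    generalize deriv otP (otRho R ε w₀ z) = P at hP hPη ⊢
    generalize otEta (otRho R ε w₀ z) = η at hη hPη ⊢
    generalize Real.exp (-(otPhi1 φ z)) = E at hE ⊢
    generalize otT w₀ z = t at ht hle ⊢
    have e1 : (b / ε ^ 2) ^ 2 * t / (P * ε ^ 2 / (t + ε ^ 2) ^ 2) * (1 / η * (E / t))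
        = (b ^ 2 * (t + ε ^ 2) ^ 2) / (ε ^ 6 * (P * η)) * E := by
      field_simp
    have e2 : 4 * B₀ ^ 2 / ε ^ 2 = (B₀ ^ 2 * (4 * ε ^ 4)) / ε ^ 6 := by
      field_simp
    rw [e1, e2]
    refine mul_le_mul_of_nonneg_right ?_ hE.le
    refine div_le_div₀ (by positivity) ?_ (by positivity) ?_
    · refine mul_le_mul hb ?_ (by positivity) (by positivity)
      have : (t + ε ^ 2) ^ 2 ≤ (2 * ε ^ 2) ^ 2 := pow_le_pow_left₀ (by positivity) (by linarith) 2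
      calc _ ≤ _ := this
        _ = _ := by ring
    · exact le_mul_of_one_le_right (by positivity) hPη
  · rw [Set.indicator_of_notMem (show z ∉ {y : Cn (n + 1) | otT w₀ y ≤ ε ^ 2} from hle), mul_zero]
    have h0 : deriv otB (otT w₀ z / ε ^ 2) = 0 :=
      deriv_otB_eq_zero (Or.inr (by rw [lt_div_iff₀ hε2]; linarith [not_le.1 hle]))
    rw [hn, h0]
    simp

end Claimed.Agent.R242
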