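/-
Row 242, SCV layer, package OT.  OtTwist: the twisted `L²` estimate (Donnelly–Fefferman, Berndtsson, B.-Y. Chen).
Blueprint: helper290.   Leaves: SCV-OT-PYTH (section 1), SCV-OT-TWIST (section 2).

STATEMENT (`ot_twist`).  `Ω` admissible, `φ` psh, `ψ ≤ 0` smooth with `φ + ψ` psh; `u = g - F` (`g` smooth, `F` holomorphic) lies in
`L²(e^{-φ})` and is orthogonal to the holomorphic functions of `L²(e^{-φ})`.  If pointwise
   `|∑ (∂̄_j g + u ∂̄_j ψ) ā_j|² ≤ (q |u|² + B₀) · Levi(φ+ψ)(a)`,  `0 ≤ q ≤ 1`, `B₀ ≥ 0`,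
then  `∫ (1-q) |u|² e^{ψ-φ} ≤ ∫ B₀ e^{ψ-φ}`.

PROOF.  If the right side is `⊤` nothing to prove.  `g₂ = u e^{ψ}` is smooth on `Ω` (`contDiffOn_of_differentiableOn_Cn`),
`∂̄_j g₂ = e^{ψ}(∂̄_j g + u ∂̄_j ψ)` (`dzb_mul`, `dzb_sub`, `dzb_of_holo`, `dzb_comp_real` with `exp`).  Apply `HorOpen` with the weight
`φ + ψ` and `B₂ = Ω.indicator (e^{2ψ}(q|u|² + B₀))` (measurable: `q, B₀` measurable, `u, ψ` continuous on the open set `Ω`):
`∫ B₂ e^{-φ-ψ} = ∫ (q|u|²+B₀) e^{ψ-φ} < ⊤` because `q ≤ 1`, `ψ ≤ 0`, `u ∈ L²(e^{-φ})`.  We get `F₂` holomorphic with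
`‖g₂ - F₂‖² ≤ ∫ B₂ e^{-φ-ψ}` in `L²(e^{-φ-ψ})`.  `g₂ ∈ L²(e^{-φ-ψ})` (`|g₂|² e^{-φ-ψ} = |u|² e^{ψ-φ}`), so `F₂ ∈ L²(e^{-φ-ψ}) ⊆ L²(e^{-φ})`
(`ψ ≤ 0`), hence `∫ g₂ conj F₂ e^{-φ-ψ} = ∫ u conj F₂ e^{-φ} = 0`, and `‖g₂‖² ≤ ‖g₂ - F₂‖²` (`lintegral_sq_le_of_orthogonal` with the
measure `(volume.restrict Ω).withDensity e^{-φ-ψ}`, or with `a = g₂ e^{-(φ+ψ)/2}`, `b = F₂ e^{-(φ+ψ)/2}` and `volume.restrict Ω`).
Finally `∫|u|²e^{ψ-φ} ≤ ∫ q|u|²e^{ψ-φ} + ∫ B₀e^{ψ-φ}` with all terms finite; subtract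
(`lintegral_add_left`, `ENNReal.sub_le_iff_le_add`‑type lemmas, `(1-q)X + qX = X`).
-/
import Claimed.Agent.R242.SCV.OtDefs
import Claimed.Agent.R242.SCV.MVP

set_option autoImplicit false

open MeasureTheory Complex Set Filter
open scoped ContDiff ComplexConjugate ENNReal Topology

namespace Claimed.Agent.R242

/-! ### 1. Pythagoras in `L²` without `Lp` classes -/

/-- if `a ⟂ b` in `L²(μ)` then `‖a‖² ≤ ‖a - b‖²`. -/
theorem lintegral_sq_le_of_orthogonal {α : Type*} [MeasurableSpace α] {μ : Measure α}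
    {a b : α → ℂ} (ha : AEStronglyMeasurable a μ) (hb : AEStronglyMeasurable b μ)
    (ha2 : ∫⁻ x, ENNReal.ofReal (‖a x‖ ^ 2) ∂μ < ⊤) (hb2 : ∫⁻ x, ENNReal.ofReal (‖b x‖ ^ 2) ∂μ < ⊤)
    (hab : ∫ x, a x * conj (b x) ∂μ = 0) :
    ∫⁻ x, ENNReal.ofReal (‖a x‖ ^ 2) ∂μ ≤ ∫⁻ x, ENNReal.ofReal (‖a x - b x‖ ^ 2) ∂μ := by
  -- integrability of the squares
  have hia : Integrable (fun x => ‖a x‖ ^ 2) μ := by
    refine ⟨(ha.norm.pow 2), ?_⟩
    rw [hasFiniteIntegral_iff_norm]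
    refine lt_of_le_of_lt (le_of_eq ?_) ha2
    refine lintegral_congr fun x => ?_
    rw [Real.norm_of_nonneg (by positivity)]
  have hib : Integrable (fun x => ‖b x‖ ^ 2) μ := by
    refine ⟨(hb.norm.pow 2), ?_⟩
    rw [hasFiniteIntegral_iff_norm]
    refine lt_of_le_of_lt (le_of_eq ?_) hb2
    refine lintegral_congr fun x => ?_
    rw [Real.norm_of_nonneg (by positivity)]
  have hconj : AEStronglyMeasurable (fun x => conj (b x)) μ :=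
    (continuous_conj.comp_aestronglyMeasurable hb)
  have hiab : Integrable (fun x => a x * conj (b x)) μ := by
    refine Integrable.mono' (hia.add hib) (ha.mul hconj) (Filter.Eventually.of_forall fun x => ?_)
    simp only [Pi.add_apply, norm_mul, RCLike.norm_conj]
    nlinarith [sq_nonneg (‖a x‖ - ‖b x‖), norm_nonneg (a x), norm_nonneg (b x)]
  have hre : ∫ x, (a x * conj (b x)).re ∂μ = 0 := by
    have := integral_re hiab
    simp only [RCLike.re_to_complex] at this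
    rw [this, hab]; simp
  have hpt : ∀ x, ‖a x - b x‖ ^ 2 = ‖a x‖ ^ 2 + ‖b x‖ ^ 2 - 2 * (a x * conj (b x)).re := by
    intro x
    rw [← Complex.normSq_eq_norm_sq, ← Complex.normSq_eq_norm_sq, ← Complex.normSq_eq_norm_sq,
      Complex.normSq_sub]
  have hisub : Integrable (fun x => ‖a x - b x‖ ^ 2) μ := by
    simp only [hpt]
    exact (hia.add hib).sub (hiab.re.const_mul 2)
  rw [← ofReal_integral_eq_lintegral_ofReal hia (Filter.Eventually.of_forall fun x => by positivity),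
    ← ofReal_integral_eq_lintegral_ofReal hisub (Filter.Eventually.of_forall fun x => by positivity)]
  apply ENNReal.ofReal_le_ofReal
  have h1 : ∫ x, ‖a x - b x‖ ^ 2 ∂μ = ∫ x, ‖a x‖ ^ 2 ∂μ + ∫ x, ‖b x‖ ^ 2 ∂μ := by
    simp only [hpt]
    have hi2 : Integrable (fun x => 2 * (a x * conj (b x)).re) μ := hiab.re.const_mul 2
    have hi1 : Integrable (fun x => ‖a x‖ ^ 2 + ‖b x‖ ^ 2) μ := hia.add hib
    rw [integral_sub hi1 hi2, integral_add hia hib, integral_const_mul, hre]; ring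
  rw [h1]
  have : 0 ≤ ∫ x, ‖b x‖ ^ 2 ∂μ := integral_nonneg fun x => by positivity
  linarith

/-- `‖a + b‖² ≤ 2‖a‖² + 2‖b‖²` for lower integrals. -/
theorem lintegral_sq_add_le {α : Type*} [MeasurableSpace α] {μ : Measure α} (a b : α → ℂ)
    (w : α → ℝ) (hw : ∀ x, 0 ≤ w x) (ha : AEMeasurable (fun x => ENNReal.ofReal (‖a x‖ ^ 2 * w x)) μ) :
    ∫⁻ x, ENNReal.ofReal (‖a x + b x‖ ^ 2 * w x) ∂μ
      ≤ 2 * ∫⁻ x, ENNReal.ofReal (‖a x‖ ^ 2 * w x) ∂μ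
        + 2 * ∫⁻ x, ENNReal.ofReal (‖b x‖ ^ 2 * w x) ∂μ := by
  rw [← lintegral_const_mul'' 2 ha, ← lintegral_const_mul' 2 _ (by simp),
    ← lintegral_add_left' (ha.const_mul 2)]
  refine lintegral_mono fun x => ?_
  have h2 : (2 : ℝ≥0∞) = ENNReal.ofReal 2 := by simp
  rw [h2, ← ENNReal.ofReal_mul (by norm_num), ← ENNReal.ofReal_mul (by norm_num),
    ← ENNReal.ofReal_add (by have := hw x; positivity) (by have := hw x; positivity)]
  apply ENNReal.ofReal_le_ofReal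
  have h3 : ‖a x + b x‖ ^ 2 ≤ 2 * ‖a x‖ ^ 2 + 2 * ‖b x‖ ^ 2 := by
    have := norm_add_le (a x) (b x)
    nlinarith [sq_nonneg (‖a x‖ - ‖b x‖), norm_nonneg (a x + b x), norm_nonneg (a x), norm_nonneg (b x)]
  nlinarith [hw x]

/-! ### 2. The twisted estimate -/

/-- `∂̄` of the twisted function `u e^ψ`. -/
theorem otTw_dzb {n : ℕ} {Ω : Set (Cn n)} (hΩ : IsOpen Ω) {ψ : Cn n → ℝ}
    (hψ : ContDiffOn ℝ ∞ ψ Ω) {g F : Cn n → ℂ} (hg : ContDiffOn ℝ ∞ g Ω)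
    (hF : DifferentiableOn ℂ F Ω) {z : Cn n} (hz : z ∈ Ω) (j : Fin n) :
    dzb j (fun y => (g y - F y) * ((Real.exp (ψ y) : ℝ) : ℂ)) z
      = ((Real.exp (ψ z) : ℝ) : ℂ) * (dzb j g z + (g z - F z) * dzb j (fun y => (ψ y : ℂ)) z) := by
  have hn : Ω ∈ 𝓝 z := hΩ.mem_nhds hz
  have dg : DifferentiableAt ℝ g z := (hg.contDiffAt hn).differentiableAt (by simp)
  have dFc : DifferentiableAt ℂ F z := hF.differentiableAt hn
  have dF : DifferentiableAt ℝ F z := dFc.restrictScalars ℝ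
  have dψ : DifferentiableAt ℝ ψ z := (hψ.contDiffAt hn).differentiableAt (by simp)
  have de : DifferentiableAt ℝ (fun y => ((Real.exp (ψ y) : ℝ) : ℂ)) z :=
    Complex.ofRealCLM.differentiableAt.comp z dψ.exp
  have dgF : DifferentiableAt ℝ (fun y => g y - F y) z := dg.sub dF
  rw [dzb_mul dgF de, dzb_sub dg dF, dzb_of_holo dFc,
    dzb_comp_real ψ Real.exp dψ Real.differentiableAt_exp, Real.deriv_exp]
  ring

theorem ot_twist {n : ℕ} (hHor : HorOpen n) {Ω : Set (Cn n)} (hΩ : Admissible Ω)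
    {φ ψ : Cn n → ℝ} (hφ : PshOn φ Ω) (hψ : ContDiffOn ℝ ∞ ψ Ω) (hψ0 : ∀ z ∈ Ω, ψ z ≤ 0)
    (hφψ : ∀ z ∈ Ω, ∀ a, 0 ≤ levi (fun y => φ y + ψ y) z a)
    {g F : Cn n → ℂ} (hg : ContDiffOn ℝ ∞ g Ω) (hF : DifferentiableOn ℂ F Ω)
    (hu2 : ∫⁻ z in Ω, ENNReal.ofReal (‖g z - F z‖ ^ 2 * Real.exp (-φ z)) < ⊤)
    (horth : ∀ h : Cn n → ℂ, DifferentiableOn ℂ h Ω →
      ∫⁻ z in Ω, ENNReal.ofReal (‖h z‖ ^ 2 * Real.exp (-φ z)) < ⊤ →
      ∫ z in Ω, (g z - F z) * conj (h z) * (Real.exp (-φ z) : ℂ) = 0)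
    {q B₀ : Cn n → ℝ} (hq : Measurable q) (hB₀ : Measurable B₀)
    (hq0 : ∀ z ∈ Ω, 0 ≤ q z) (hq1 : ∀ z ∈ Ω, q z ≤ 1) (hB0 : ∀ z ∈ Ω, 0 ≤ B₀ z)
    (hest : ∀ z ∈ Ω, ∀ a : Cn n,
      ‖∑ j, (dzb j g z + (g z - F z) * dzb j (fun y => (ψ y : ℂ)) z) * conj (a j)‖ ^ 2
        ≤ (q z * ‖g z - F z‖ ^ 2 + B₀ z) * levi (fun y => φ y + ψ y) z a) :
    ∫⁻ z in Ω, ENNReal.ofReal ((1 - q z) * ‖g z - F z‖ ^ 2 * Real.exp (ψ z - φ z))
      ≤ ∫⁻ z in Ω, ENNReal.ofReal (B₀ z * Real.exp (ψ z - φ z)) := by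
  classical
  have hΩo : IsOpen Ω := hΩ.1
  have hΩm : MeasurableSet Ω := hΩo.measurableSet
  by_cases hBtop : ∫⁻ z in Ω, ENNReal.ofReal (B₀ z * Real.exp (ψ z - φ z)) = ⊤
  · rw [hBtop]; exact le_top
  have hBfin : ∫⁻ z in Ω, ENNReal.ofReal (B₀ z * Real.exp (ψ z - φ z)) < ⊤ :=
    lt_top_iff_ne_top.2 hBtop
  -- continuity
  have hFs : ContDiffOn ℝ ∞ F Ω := contDiffOn_of_differentiableOn_Cn hΩo hF
  have cφ : ContinuousOn φ Ω := hφ.1.continuousOn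
  have cψ : ContinuousOn ψ Ω := hψ.continuousOn
  have cu : ContinuousOn (fun z => g z - F z) Ω := hg.continuousOn.sub hFs.continuousOn
  -- the quantity `X = |u|² e^{ψ-φ}`
  have mX : AEMeasurable (fun z => ‖g z - F z‖ ^ 2 * Real.exp (ψ z - φ z)) (volume.restrict Ω) :=
    ((cu.norm.pow 2).mul (Real.continuous_exp.comp_continuousOn (cψ.sub cφ))).aemeasurable hΩm
  have mq : AEMeasurable q (volume.restrict Ω) := hq.aemeasurable
  have hXfin : ∫⁻ z in Ω, ENNReal.ofReal (‖g z - F z‖ ^ 2 * Real.exp (ψ z - φ z)) < ⊤ := by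
    refine lt_of_le_of_lt (setLIntegral_mono' hΩm fun z hz => ?_) hu2
    apply ENNReal.ofReal_le_ofReal
    have : Real.exp (ψ z - φ z) ≤ Real.exp (-φ z) := Real.exp_le_exp.2 (by linarith [hψ0 z hz])
    gcongr
  have hqXfin : ∫⁻ z in Ω, ENNReal.ofReal (q z * (‖g z - F z‖ ^ 2 * Real.exp (ψ z - φ z))) < ⊤ := by
    refine lt_of_le_of_lt (setLIntegral_mono' hΩm fun z hz => ?_) hXfin
    apply ENNReal.ofReal_le_ofReal
    have h0 : 0 ≤ ‖g z - F z‖ ^ 2 * Real.exp (ψ z - φ z) := by positivity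
    nlinarith [hq1 z hz]
  have mqX : AEMeasurable (fun z => ENNReal.ofReal (q z * (‖g z - F z‖ ^ 2 * Real.exp (ψ z - φ z))))
      (volume.restrict Ω) := (mq.mul mX).ennreal_ofReal
  -- the twisted function and the twisted bound
  set g₂ : Cn n → ℂ := fun y => (g y - F y) * ((Real.exp (ψ y) : ℝ) : ℂ) with hg₂
  have sg₂ : ContDiffOn ℝ ∞ g₂ Ω :=
    (hg.sub hFs).mul (Complex.ofRealCLM.contDiff.comp_contDiffOn hψ.exp)
  have mU : Measurable (Ω.indicator fun z => ‖g z - F z‖ ^ 2) := by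
    rw [← Set.piecewise_eq_indicator]
    exact ContinuousOn.measurable_piecewise (cu.norm.pow 2) continuousOn_const hΩm
  have mΨ : Measurable (Ω.indicator ψ) := by
    rw [← Set.piecewise_eq_indicator]
    exact ContinuousOn.measurable_piecewise cψ continuousOn_const hΩm
  set B₂ : Cn n → ℝ := Ω.indicator (fun z => Real.exp (2 * Ω.indicator ψ z) *
    (q z * Ω.indicator (fun z => ‖g z - F z‖ ^ 2) z + B₀ z)) with hB₂
  have mB₂ : Measurable B₂ :=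
    (((measurable_const.mul mΨ).exp).mul ((hq.mul mU).add hB₀)).indicator hΩm
  have hB₂Ω : ∀ z ∈ Ω, B₂ z = Real.exp (2 * ψ z) * (q z * ‖g z - F z‖ ^ 2 + B₀ z) := by
    intro z hz
    simp [hB₂, hz]
  have hB₂0 : ∀ z, 0 ≤ B₂ z := by
    intro z
    by_cases hz : z ∈ Ω
    · rw [hB₂Ω z hz]
      have := hq0 z hz
      have := hB0 z hz
      positivity
    · simp [hB₂, hz]
  have hest₂ : ∀ z ∈ Ω, ∀ a : Cn n,
      ‖∑ j, dzb j g₂ z * conj (a j)‖ ^ 2 ≤ B₂ z * levi (fun y => φ y + ψ y) z a := by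
    intro z hz a
    have h1 : ∑ j, dzb j g₂ z * conj (a j) = ((Real.exp (ψ z) : ℝ) : ℂ) *
        ∑ j, (dzb j g z + (g z - F z) * dzb j (fun y => (ψ y : ℂ)) z) * conj (a j) := by
      rw [Finset.mul_sum]
      refine Finset.sum_congr rfl fun j _ => ?_
      rw [hg₂, otTw_dzb hΩo hψ hg hF hz j, mul_assoc]
    rw [h1, norm_mul, mul_pow, hB₂Ω z hz, Complex.norm_real, Real.norm_eq_abs,
      abs_of_pos (Real.exp_pos _), ← Real.exp_nat_mul, mul_assoc]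
    push_cast
    exact mul_le_mul_of_nonneg_left (hest z hz a) (Real.exp_pos _).le
  have hI : ∫⁻ z in Ω, ENNReal.ofReal (B₂ z * Real.exp (-(φ z + ψ z)))
      = (∫⁻ z in Ω, ENNReal.ofReal (q z * (‖g z - F z‖ ^ 2 * Real.exp (ψ z - φ z))))
        + ∫⁻ z in Ω, ENNReal.ofReal (B₀ z * Real.exp (ψ z - φ z)) := by
    rw [← lintegral_add_left' mqX]
    refine setLIntegral_congr_fun hΩm fun z hz => ?_
    have := hq0 z hz
    have := hB0 z hz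
    rw [← ENNReal.ofReal_add (by positivity) (by positivity), hB₂Ω z hz]
    congr 1
    have : Real.exp (2 * ψ z) * Real.exp (-(φ z + ψ z)) = Real.exp (ψ z - φ z) := by
      rw [← Real.exp_add]; congr 1; ring
    rw [← this]; ring
  obtain ⟨F₂, hF₂, -, hF₂le, -⟩ := hHor Ω hΩ (fun y => φ y + ψ y) ⟨hφ.1.add hψ, hφψ⟩ g₂ sg₂ B₂ mB₂
    hB₂0 hest₂ (by rw [hI]; exact ENNReal.add_lt_top.2 ⟨hqXfin, hBfin⟩)
  have hF₂s : ContDiffOn ℝ ∞ F₂ Ω := contDiffOn_of_differentiableOn_Cn hΩo hF₂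
  -- `|g₂|² e^{-φ-ψ} = X`
  have hg₂X : ∀ z, ‖g₂ z‖ ^ 2 * Real.exp (-(φ z + ψ z))
      = ‖g z - F z‖ ^ 2 * Real.exp (ψ z - φ z) := by
    intro z
    have : Real.exp (ψ z) ^ 2 * Real.exp (-(φ z + ψ z)) = Real.exp (ψ z - φ z) := by
      rw [← Real.exp_nat_mul, ← Real.exp_add]; congr 1; push_cast; ring
    rw [hg₂, norm_mul, mul_pow, Complex.norm_real, Real.norm_eq_abs,
      abs_of_pos (Real.exp_pos _), mul_assoc, this]
  have hg₂fin : ∫⁻ z in Ω, ENNReal.ofReal (‖g₂ z‖ ^ 2 * Real.exp (-(φ z + ψ z))) < ⊤ := by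
    simp only [hg₂X]; exact hXfin
  have hdfin : ∫⁻ z in Ω, ENNReal.ofReal (‖g₂ z - F₂ z‖ ^ 2 * Real.exp (-(φ z + ψ z))) < ⊤ :=
    lt_of_le_of_lt hF₂le (by rw [hI]; exact ENNReal.add_lt_top.2 ⟨hqXfin, hBfin⟩)
  have hF₂w : ∫⁻ z in Ω, ENNReal.ofReal (‖F₂ z‖ ^ 2 * Real.exp (-(φ z + ψ z))) < ⊤ := by
    have h1 := lintegral_sq_add_le (μ := volume.restrict Ω) g₂ (fun z => F₂ z - g₂ z)
      (fun z => Real.exp (-(φ z + ψ z))) (fun z => (Real.exp_pos _).le)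
      (by simp only [hg₂X]; exact mX.ennreal_ofReal)
    simp only [add_sub_cancel, norm_sub_rev (F₂ _) (g₂ _)] at h1
    refine lt_of_le_of_lt h1 (ENNReal.add_lt_top.2 ⟨?_, ?_⟩)
    · exact ENNReal.mul_lt_top (by simp) hg₂fin
    · exact ENNReal.mul_lt_top (by simp) hdfin
  have hF₂φ : ∫⁻ z in Ω, ENNReal.ofReal (‖F₂ z‖ ^ 2 * Real.exp (-φ z)) < ⊤ := by
    refine lt_of_le_of_lt (setLIntegral_mono' hΩm fun z hz => ?_) hF₂w
    apply ENNReal.ofReal_le_ofReal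
    have : Real.exp (-φ z) ≤ Real.exp (-(φ z + ψ z)) := Real.exp_le_exp.2 (by linarith [hψ0 z hz])
    gcongr
  have h0 := horth F₂ hF₂ hF₂φ
  -- Pythagoras
  have ce : ContinuousOn (fun z => ((Real.exp (-(φ z + ψ z) / 2) : ℝ) : ℂ)) Ω :=
    Complex.continuous_ofReal.comp_continuousOn
      (Real.continuous_exp.comp_continuousOn ((cφ.add cψ).neg.div_const 2))
  have hsq : ∀ (c : ℂ) (z : Cn n), ‖c * ((Real.exp (-(φ z + ψ z) / 2) : ℝ) : ℂ)‖ ^ 2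
      = ‖c‖ ^ 2 * Real.exp (-(φ z + ψ z)) := by
    intro c z
    have : Real.exp (-(φ z + ψ z) / 2) ^ 2 = Real.exp (-(φ z + ψ z)) := by
      rw [← Real.exp_nat_mul]; congr 1; push_cast; ring
    rw [norm_mul, mul_pow, Complex.norm_real, Real.norm_eq_abs, abs_of_pos (Real.exp_pos _), this]
  have hpy := lintegral_sq_le_of_orthogonal (μ := volume.restrict Ω)
    (a := fun z => g₂ z * ((Real.exp (-(φ z + ψ z) / 2) : ℝ) : ℂ))
    (b := fun z => F₂ z * ((Real.exp (-(φ z + ψ z) / 2) : ℝ) : ℂ))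
    ((sg₂.continuousOn.mul ce).aestronglyMeasurable hΩm)
    ((hF₂s.continuousOn.mul ce).aestronglyMeasurable hΩm)
    (by simp only [hsq]; exact hg₂fin) (by simp only [hsq]; exact hF₂w)
    (by
      rw [← h0]
      refine setIntegral_congr_fun hΩm fun z _ => ?_
      have : ((Real.exp (ψ z) : ℝ) : ℂ) * ((Real.exp (-(φ z + ψ z) / 2) : ℝ) : ℂ)
          * ((Real.exp (-(φ z + ψ z) / 2) : ℝ) : ℂ) = ((Real.exp (-φ z) : ℝ) : ℂ) := by
        rw [← Complex.ofReal_mul, ← Complex.ofReal_mul, ← Real.exp_add, ← Real.exp_add]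
        congr 2; ring
      simp only [hg₂, map_mul, Complex.conj_ofReal]
      rw [← this]; ring)
  simp only [← sub_mul, hsq, hg₂X] at hpy
  have hmain := hpy.trans hF₂le
  rw [hI] at hmain
  have hsplit : ∫⁻ z in Ω, ENNReal.ofReal (‖g z - F z‖ ^ 2 * Real.exp (ψ z - φ z))
      = (∫⁻ z in Ω, ENNReal.ofReal ((1 - q z) * ‖g z - F z‖ ^ 2 * Real.exp (ψ z - φ z)))
        + ∫⁻ z in Ω, ENNReal.ofReal (q z * (‖g z - F z‖ ^ 2 * Real.exp (ψ z - φ z))) := by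
    rw [← lintegral_add_right' _ mqX]
    refine setLIntegral_congr_fun hΩm fun z hz => ?_
    have := hq0 z hz
    have : 0 ≤ 1 - q z := by linarith [hq1 z hz]
    rw [← ENNReal.ofReal_add (by positivity) (by positivity)]
    congr 1
    ring
  rw [hsplit, add_comm (∫⁻ z in Ω, ENNReal.ofReal (q z * _))] at hmain
  exact (ENNReal.add_le_add_iff_right hqXfin.ne).1 hmain

end Claimed.Agent.R242
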