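/-
Row 242, SCV layer, package OT.  OtStep: the analytic steps of Chen's proof.   Blueprint: helper290.
Leaves: SCV-OT-S1 (`ot_step1`), SCV-OT-S2 (`ot_step2`), SCV-OT-EPS (`ot_eps`), SCV-OT-EXT (`ot_extend`).
All earlier OT files, WirtA/B, MVP, RExt may be used (sorried or not).

`ot_step1`.  `HorOpen (n+1)` on `Ω = otOm n R w₀` (`admissible_otOm`) with weight `φ̃ = otPhiT φ w₀` (`pshOn_otPhiT`), `g = otG ε w₀`,
  `B = ‖dzb 0 g‖²`.  `∑_j dzb j g * conj (a j) = dzb 0 g * conj (a 0)` (`dzb_otG`), `levi φ̃ a ≥ ∑|a_j|² ≥ |a 0|²` (`levi_otPhiT`).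
  Finiteness: `B e^{-φ̃} = b'(t/ε²)² (t/ε⁴) e^{-φ₁}/t ≤ (B₀²/ε⁴) e^{-φ₁}`, `φ₁` is continuous on the compact `closedBall 0 R ⊆ ball 0 R'`,
  hence bounded below there, and `volume (ball 0 R) < ⊤`.
`ot_step2`.  `ot_twist` with `ψ = otPsi R ε w₀`, `q = 1/(1+otX ρ)`, `B₀ = ‖dzb 0 g‖²/otTh2` (`ot_hest`); then `ot_lower` on the left,
  `ot_upper` on the right (`lintegral_mono`, `lintegral_const_mul`, `lintegral_indicator`).  Measurability of `q`, `B₀` on all of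
  `Cn (n+1)`: compositions of measurable functions (`measurable_deriv`, `Real.measurable_log`, continuity of `otT`, `dzb 0 g`).
`ot_eps`.  `Φ` continuous on `ball 0 R'`, so `e^{-Φ}` is uniformly continuous on the compact `closedBall 0 R`.  Put
  `S = ∫_{z' ∈ ball 0 R} e^{-Φ(w₀,z')} ∈ (0,∞)`, `V = volume (ball 0 R)`.  Choose `δ > 0` with `δ V ≤ S`, then `ε ≤ 1` with
  `|e^{-Φ(w,z')} - e^{-Φ(w₀,z')}| ≤ δ` for `|w - w₀| ≤ ε`, `(w,z'), (w₀,z') ∈ ball 0 R`.  Tonelli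
  (`MeasurableEquiv.piFinSuccAbove (fun _ => ℂ) 0`, `volume_preserving_piFinSuccAbove`; see `ScMeas.lean` of helper64 for the same
  device): the integral is `≤ ∫_{|w-w₀| ≤ ε} (S + δ V) ≤ π ε² · 2 S`  (`Complex.volume_closedBall`).
`ot_extend`.  `rext_hyperplane` on `U = ball 0 R`, `j = 0`, `c = w₀`, `f = F₁`: near a point `x` of the hyperplane take `r` with
  `ball x r ⊆ ball 0 R ∩ {t < ε²/2}`; there `g = 1`, `|F₁|² ≤ 2 + 2|1 - F₁|²` and `|1-F₁|² = |u|² ≤ M · |u|² e^{-φ̃}` with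
  `M = sup_D t e^{φ₁} < ∞`.  Then `rext_hyperplane_vanish'` for `f = 1 - F₁`, `F = 1 - F_ext` on `U' = ball 0 R ∩ {t < ε²/2}`:
  `|u|²/t ≤ M' |u|² e^{-φ̃}`, `M' = sup_D e^{φ₁}`.
-/
import Claimed.Agent.R242.SCV.OtFun
import Claimed.Agent.R242.SCV.OtExh
import Claimed.Agent.R242.SCV.OtTwist
import Claimed.Agent.R242.SCV.RExt
import Claimed.Agent.R242.SCV.OtEps

set_option autoImplicit false

open MeasureTheory Complex Set Filter
open scoped ContDiff ComplexConjugate ENNReal Topology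

namespace Claimed.Agent.R242

variable {n : ℕ} {R R' ε : ℝ} {w₀ : ℂ} {φ : Cn (n + 1) → ℝ}

/-- `φ₁` is continuous where `φ` is smooth. -/
theorem otPhi1_continuousOn (hφ : PshOn φ (Metric.ball 0 R')) :
    ContinuousOn (otPhi1 φ) (Metric.ball 0 R') := by
  unfold otPhi1
  exact hφ.1.continuousOn.add (sum_normSq_contDiff (n + 1)).continuous.continuousOn

/-- `φ₁` is bounded on the closed polydisc. -/
theorem otPhi1_bounded (hRR' : R < R') (hφ : PshOn φ (Metric.ball 0 R')) :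
    ∃ M : ℝ, ∀ z ∈ Metric.closedBall (0 : Cn (n + 1)) R, |otPhi1 φ z| ≤ M := by
  obtain ⟨M, hM⟩ := (isCompact_closedBall (0 : Cn (n + 1)) R).exists_bound_of_continuousOn
    ((otPhi1_continuousOn hφ).mono (Metric.closedBall_subset_ball hRR'))
  exact ⟨M, fun z hz => hM z hz⟩

/-- `∂̄₀ g` is continuous. -/
theorem ot_dzb_otG_continuous (ε : ℝ) (w₀ : ℂ) (j : Fin (n + 1)) :
    Continuous (fun z : Cn (n + 1) => dzb j (otG ε w₀) z) := by
  have h := (otG_contDiff (n := n) ε w₀).continuous_fderiv (by simp)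
  unfold dzb
  fun_prop

/-- only the zeroth term survives. -/
theorem ot_sum_dzb_otG (z a : Cn (n + 1)) :
    ∑ j, dzb j (otG ε w₀) z * conj (a j) = dzb 0 (otG ε w₀) z * conj (a 0) := by
  refine Finset.sum_eq_single 0 (fun j _ hj => ?_) (fun h => absurd (Finset.mem_univ _) h)
  rw [dzb_otG, if_neg hj, zero_mul]

theorem ot_contDiffAt_two (hRR' : R < R') (hφ : PshOn φ (Metric.ball 0 R')) {z : Cn (n + 1)}
    (hz : z ∈ Metric.ball (0 : Cn (n + 1)) R) : ContDiffAt ℝ 2 φ z :=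
  (hφ.1.contDiffAt (Metric.isOpen_ball.mem_nhds (Metric.ball_subset_ball hRR'.le hz))).of_le
    (by norm_cast)

/-- `|∂̄₀ g|² e^{-φ̃} = (b'(t/ε²)/ε²)² e^{-φ₁}` off the hyperplane. -/
theorem ot_B_exp {z : Cn (n + 1)} (hz : z 0 ≠ w₀) :
    ‖dzb 0 (otG ε w₀) z‖ ^ 2 * Real.exp (-(otPhiT φ w₀ z))
      = (deriv otB (otT w₀ z / ε ^ 2) / ε ^ 2) ^ 2 * Real.exp (-(otPhi1 φ z)) := by
  have ht : 0 < otT w₀ z := otT_pos hz
  rw [dzb_otG, if_pos rfl, norm_mul, mul_pow, Complex.norm_real, Real.norm_eq_abs, sq_abs]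
  have e1 : ‖z 0 - w₀‖ ^ 2 = otT w₀ z := rfl
  rw [e1]
  unfold otPhiT
  rw [neg_add, Real.exp_add, Real.exp_neg (Real.log _), Real.exp_log ht]
  field_simp

/-- **Step 1**: the `L²(e^{-φ̃})`-minimal solution. -/
theorem ot_step1 (hHor : HorOpen (n + 1)) (hR : 0 < R) (hRR' : R < R') (hε : 0 < ε) (hε1 : ε ≤ 1)
    (hφ : PshOn φ (Metric.ball 0 R')) (hw : ‖w₀‖ < R) :
    ∃ F₁ : Cn (n + 1) → ℂ, DifferentiableOn ℂ F₁ (otOm n R w₀) ∧
      ∫⁻ z in otOm n R w₀,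
        ENNReal.ofReal (‖otG ε w₀ z - F₁ z‖ ^ 2 * Real.exp (-(otPhiT φ w₀ z))) < ⊤ ∧
      ∀ h : Cn (n + 1) → ℂ, DifferentiableOn ℂ h (otOm n R w₀) →
        ∫⁻ z in otOm n R w₀, ENNReal.ofReal (‖h z‖ ^ 2 * Real.exp (-(otPhiT φ w₀ z))) < ⊤ →
        ∫ z in otOm n R w₀,
          (otG ε w₀ z - F₁ z) * conj (h z) * (Real.exp (-(otPhiT φ w₀ z)) : ℂ) = 0 := by
  obtain ⟨B₀, hB₀pos, hB₀⟩ := exists_otB_bound
  obtain ⟨M, hM⟩ := otPhi1_bounded hRR' hφ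
  have hfin : ∫⁻ z in otOm n R w₀,
      ENNReal.ofReal (‖dzb 0 (otG ε w₀) z‖ ^ 2 * Real.exp (-(otPhiT φ w₀ z))) < ⊤ := by
    have hle : ∫⁻ z in otOm n R w₀,
        ENNReal.ofReal (‖dzb 0 (otG ε w₀) z‖ ^ 2 * Real.exp (-(otPhiT φ w₀ z)))
        ≤ ∫⁻ _ in otOm n R w₀, ENNReal.ofReal ((B₀ / ε ^ 2) ^ 2 * Real.exp M) := by
      refine setLIntegral_mono' (isOpen_otOm n R w₀).measurableSet (fun z hz => ?_)
      apply ENNReal.ofReal_le_ofReal
      rw [ot_B_exp hz.2]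
      have h1 : (deriv otB (otT w₀ z / ε ^ 2) / ε ^ 2) ^ 2 ≤ (B₀ / ε ^ 2) ^ 2 := by
        rw [← sq_abs (deriv otB (otT w₀ z / ε ^ 2) / ε ^ 2), abs_div, abs_of_pos (pow_pos hε 2)]
        have := hB₀ (otT w₀ z / ε ^ 2)
        gcongr
      have h2 : Real.exp (-(otPhi1 φ z)) ≤ Real.exp M := by
        apply Real.exp_le_exp.2
        have := hM z (Metric.ball_subset_closedBall hz.1)
        exact (neg_le_abs _).trans this
      exact mul_le_mul h1 h2 (Real.exp_pos _).le (sq_nonneg _)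
    refine lt_of_le_of_lt hle ?_
    rw [setLIntegral_const]
    refine ENNReal.mul_lt_top ENNReal.ofReal_lt_top ?_
    exact lt_of_le_of_lt (measure_mono (otOm_subset_ball n R w₀)) measure_ball_lt_top
  obtain ⟨F, hF, _, hle, horth⟩ := hHor (otOm n R w₀) (admissible_otOm n R w₀) (otPhiT φ w₀)
    (pshOn_otPhiT hRR'.le hφ w₀) (otG ε w₀) (otG_contDiff ε w₀).contDiffOn
    (fun z => ‖dzb 0 (otG ε w₀) z‖ ^ 2)
    ((ot_dzb_otG_continuous ε w₀ 0).norm.pow 2).measurable (fun z => sq_nonneg _)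
    (fun z hz a => by
      rw [ot_sum_dzb_otG, norm_mul, mul_pow, RCLike.norm_conj,
        levi_otPhiT (ot_contDiffAt_two hRR' hφ hz.1) hz.2]
      apply mul_le_mul_of_nonneg_left _ (sq_nonneg _)
      have h1 : 0 ≤ levi φ z a := hφ.2 z (Metric.ball_subset_ball hRR'.le hz.1) a
      have h2 : ‖a 0‖ ^ 2 ≤ ∑ j, ‖a j‖ ^ 2 :=
        Finset.single_le_sum (f := fun j => ‖a j‖ ^ 2) (fun j _ => sq_nonneg _) (Finset.mem_univ 0)
      linarith)
    hfin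
  exact ⟨F, hF, lt_of_le_of_lt hle hfin, horth⟩

theorem ot_measurable_otX : Measurable otX := by
  unfold otX otEta
  fun_prop

/-- **Step 2**: the twisted estimate with the explicit functions. -/
theorem ot_step2 (hHor : HorOpen (n + 1)) (hR : 0 < R) (hRR' : R < R') (hε : 0 < ε) (hε1 : ε ≤ 1)
    (hφ : PshOn φ (Metric.ball 0 R')) (hw : ‖w₀‖ < R)
    {F₁ : Cn (n + 1) → ℂ} (hF₁ : DifferentiableOn ℂ F₁ (otOm n R w₀))
    (hu2 : ∫⁻ z in otOm n R w₀,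
        ENNReal.ofReal (‖otG ε w₀ z - F₁ z‖ ^ 2 * Real.exp (-(otPhiT φ w₀ z))) < ⊤)
    (horth : ∀ h : Cn (n + 1) → ℂ, DifferentiableOn ℂ h (otOm n R w₀) →
        ∫⁻ z in otOm n R w₀, ENNReal.ofReal (‖h z‖ ^ 2 * Real.exp (-(otPhiT φ w₀ z))) < ⊤ →
        ∫ z in otOm n R w₀,
          (otG ε w₀ z - F₁ z) * conj (h z) * (Real.exp (-(otPhiT φ w₀ z)) : ℂ) = 0)
    {B₀ : ℝ} (hB₀ : ∀ s, |deriv otB s| ≤ B₀) :
    ∫⁻ z in otOm n R w₀, ENNReal.ofReal (‖otG ε w₀ z - F₁ z‖ ^ 2 * Real.exp (-(otPhi1 φ z)))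
      ≤ ENNReal.ofReal (12 * otN R * B₀ ^ 2 / ε ^ 2) *
        ∫⁻ z in {z : Cn (n + 1) | z ∈ Metric.ball (0 : Cn (n + 1)) R ∧ otT w₀ z ≤ ε ^ 2},
          ENNReal.ofReal (Real.exp (-(otPhi1 φ z))) := by
  have hΩm : MeasurableSet (otOm n R w₀) := (isOpen_otOm n R w₀).measurableSet
  have hsub := otOm_subset_ball n R w₀
  have hρm : Measurable (otRho R ε w₀ : Cn (n + 1) → ℝ) :=
    (otRho_contDiff R hε w₀).continuous.measurable
  have hTm : Measurable (otT w₀ : Cn (n + 1) → ℝ) := (otT_contDiff w₀).continuous.measurable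
  have hqm : Measurable (fun z : Cn (n + 1) => 1 / (1 + otX (otRho R ε w₀ z))) :=
    measurable_const.div (measurable_const.add (ot_measurable_otX.comp hρm))
  have hTh2m : Measurable (otTh2 R ε w₀ : Cn (n + 1) → ℝ) := by
    unfold otTh2
    exact ((((measurable_deriv otP).comp hρm).mul measurable_const)).div
      ((hTm.add measurable_const).pow_const 2)
  have hBm : Measurable (fun z : Cn (n + 1) => ‖dzb 0 (otG ε w₀) z‖ ^ 2 / otTh2 R ε w₀ z) :=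
    ((ot_dzb_otG_continuous ε w₀ 0).norm.pow 2).measurable.div hTh2m
  have hXpos : ∀ z ∈ otOm n R w₀, 0 < otX (otRho R ε w₀ z) :=
    fun z hz => otX_pos (otRho_lt (hsub hz) hw hε hε1)
  have key := ot_twist hHor (admissible_otOm n R w₀) (pshOn_otPhiT hRR'.le hφ w₀)
    (ψ := otPsi R ε w₀) ((otPsi_contDiffOn hw hε hε1).mono hsub)
    (fun z hz => otPsi_nonpos (hsub hz) hw hε hε1)
    (fun z hz a => by
      rw [levi_otPhiT_add_otPsi (ot_contDiffAt_two hRR' hφ (hsub hz)) hz hw hε hε1]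
      have h1 : 0 ≤ levi φ z a := hφ.2 z (Metric.ball_subset_ball hRR'.le (hsub hz)) a
      have h2 : 0 ≤ ∑ j, ‖a j‖ ^ 2 := Finset.sum_nonneg (fun j _ => sq_nonneg _)
      have h3 := otTh1_nonneg (hsub hz) hw hε hε1
      have h4 := (otTh2_pos (hsub hz) hw hε hε1).le
      positivity)
    (otG_contDiff ε w₀).contDiffOn hF₁ hu2 horth hqm hBm
    (fun z hz => by have := hXpos z hz; positivity)
    (fun z hz => by
      have := hXpos z hz
      rw [div_le_one (by linarith)]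
      linarith)
    (fun z hz => div_nonneg (sq_nonneg _) (otTh2_pos (hsub hz) hw hε hε1).le)
    (fun z hz a => ot_hest (ot_contDiffAt_two hRR' hφ (hsub hz))
      (hφ.2 z (Metric.ball_subset_ball hRR'.le (hsub hz))) hz hw hε hε1 _ a)
  have hN : 0 < otN R := otN_pos R
  -- left hand side
  have hL : ∫⁻ z in otOm n R w₀, ENNReal.ofReal (‖otG ε w₀ z - F₁ z‖ ^ 2 * Real.exp (-(otPhi1 φ z)))
      ≤ ENNReal.ofReal (3 * otN R) * ∫⁻ z in otOm n R w₀,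
        ENNReal.ofReal ((1 - 1 / (1 + otX (otRho R ε w₀ z))) * ‖otG ε w₀ z - F₁ z‖ ^ 2
          * Real.exp (otPsi R ε w₀ z - otPhiT φ w₀ z)) := by
    rw [← lintegral_const_mul' _ _ ENNReal.ofReal_ne_top]
    refine setLIntegral_mono' hΩm (fun z hz => ?_)
    rw [← ENNReal.ofReal_mul (by positivity)]
    apply ENNReal.ofReal_le_ofReal
    have h1 := ot_lower φ hz hw hε hε1
    calc ‖otG ε w₀ z - F₁ z‖ ^ 2 * Real.exp (-(otPhi1 φ z))
        ≤ ‖otG ε w₀ z - F₁ z‖ ^ 2 * (3 * otN R * ((1 - 1 / (1 + otX (otRho R ε w₀ z)))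
          * Real.exp (otPsi R ε w₀ z - otPhiT φ w₀ z))) :=
          mul_le_mul_of_nonneg_left h1 (sq_nonneg _)
      _ = _ := by ring
  -- right hand side
  have hSm : MeasurableSet {y : Cn (n + 1) | otT w₀ y ≤ ε ^ 2} := measurableSet_le hTm measurable_const
  have hRhs : ∫⁻ z in otOm n R w₀, ENNReal.ofReal (‖dzb 0 (otG ε w₀) z‖ ^ 2 / otTh2 R ε w₀ z
        * Real.exp (otPsi R ε w₀ z - otPhiT φ w₀ z))
      ≤ ENNReal.ofReal (4 * B₀ ^ 2 / ε ^ 2) *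
        ∫⁻ z in {z : Cn (n + 1) | z ∈ Metric.ball (0 : Cn (n + 1)) R ∧ otT w₀ z ≤ ε ^ 2},
          ENNReal.ofReal (Real.exp (-(otPhi1 φ z))) := by
    calc ∫⁻ z in otOm n R w₀, ENNReal.ofReal (‖dzb 0 (otG ε w₀) z‖ ^ 2 / otTh2 R ε w₀ z
            * Real.exp (otPsi R ε w₀ z - otPhiT φ w₀ z))
        ≤ ∫⁻ z in otOm n R w₀, ENNReal.ofReal (4 * B₀ ^ 2 / ε ^ 2) *
            ({y : Cn (n + 1) | otT w₀ y ≤ ε ^ 2}.indicator
              (fun y => ENNReal.ofReal (Real.exp (-(otPhi1 φ y)))) z) := by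
          refine setLIntegral_mono' hΩm (fun z hz => ?_)
          refine (ENNReal.ofReal_le_ofReal (ot_upper φ hz hw hε hε1 hB₀)).trans ?_
          rw [ENNReal.ofReal_mul (by positivity)]
          apply mul_le_mul_right
          by_cases hzS : z ∈ {y : Cn (n + 1) | otT w₀ y ≤ ε ^ 2}
          · rw [indicator_of_mem hzS, indicator_of_mem hzS]
          · rw [indicator_of_notMem hzS, indicator_of_notMem hzS, ENNReal.ofReal_zero]
      _ = ENNReal.ofReal (4 * B₀ ^ 2 / ε ^ 2) * ∫⁻ z in otOm n R w₀,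
            ({y : Cn (n + 1) | otT w₀ y ≤ ε ^ 2}.indicator
              (fun y => ENNReal.ofReal (Real.exp (-(otPhi1 φ y)))) z) :=
          lintegral_const_mul' _ _ ENNReal.ofReal_ne_top
      _ = ENNReal.ofReal (4 * B₀ ^ 2 / ε ^ 2) *
            ∫⁻ z in {y : Cn (n + 1) | otT w₀ y ≤ ε ^ 2} ∩ otOm n R w₀,
              ENNReal.ofReal (Real.exp (-(otPhi1 φ z))) := by
          rw [lintegral_indicator hSm, Measure.restrict_restrict hSm]
      _ ≤ _ := by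
          apply mul_le_mul_right
          exact lintegral_mono_set (fun z hz => ⟨hsub hz.2, hz.1⟩)
  calc _ ≤ _ := hL
    _ ≤ ENNReal.ofReal (3 * otN R) * (ENNReal.ofReal (4 * B₀ ^ 2 / ε ^ 2) *
        ∫⁻ z in {z : Cn (n + 1) | z ∈ Metric.ball (0 : Cn (n + 1)) R ∧ otT w₀ z ≤ ε ^ 2},
          ENNReal.ofReal (Real.exp (-(otPhi1 φ z)))) := by
        apply mul_le_mul_right
        exact key.trans hRhs
    _ = _ := by
        rw [← mul_assoc, ← ENNReal.ofReal_mul (by positivity)]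
        congr 2
        ring

/-- **Choice of `ε`**: the thin tube around the slice has mass `≤ 2πε²` times the mass of the slice. -/
theorem ot_eps (hR : 0 < R) (hRR' : R < R') {Φ : Cn (n + 1) → ℝ}
    (hΦ : ContinuousOn Φ (Metric.ball 0 R')) (hw : ‖w₀‖ < R) :
    ∃ ε : ℝ, 0 < ε ∧ ε ≤ 1 ∧
      ∫⁻ z in {z : Cn (n + 1) | z ∈ Metric.ball (0 : Cn (n + 1)) R ∧ otT w₀ z ≤ ε ^ 2},
          ENNReal.ofReal (Real.exp (-(Φ z)))
        ≤ ENNReal.ofReal (2 * Real.pi * ε ^ 2) *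
          ∫⁻ z' in Metric.ball (0 : Cn n) R, ENNReal.ofReal (Real.exp (-(Φ (Fin.cons w₀ z')))) :=
  ot_eps_aux hR hRR' hΦ hw

/-- pointwise comparison used in `ot_extend`. -/
theorem ot_extend_ptw {M : ℝ} {y : Cn (n + 1)} {F₁ : Cn (n + 1) → ℂ} (hε : 0 < ε)
    (hM : |otPhi1 φ y| ≤ M) (hy0 : y 0 ≠ w₀) (hyt : otT w₀ y ≤ ε ^ 2 / 2) :
    ‖1 - F₁ y‖ ^ 2 / ‖y 0 - w₀‖ ^ 2
      ≤ Real.exp M * (‖otG ε w₀ y - F₁ y‖ ^ 2 * Real.exp (-(otPhiT φ w₀ y))) := by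
  have ht : 0 < ‖y 0 - w₀‖ ^ 2 := by
    have : 0 < ‖y 0 - w₀‖ := norm_pos_iff.2 (sub_ne_zero.2 hy0)
    positivity
  have he : Real.exp (-(otPhiT φ w₀ y)) = Real.exp (-(otPhi1 φ y)) / ‖y 0 - w₀‖ ^ 2 := by
    rw [otPhiT, otT, neg_add, Real.exp_add, Real.exp_neg (Real.log _), Real.exp_log ht]
    rfl
  rw [otG_eq_one hε hyt, he]
  have h1 : 1 ≤ Real.exp M * Real.exp (-(otPhi1 φ y)) := by
    rw [← Real.exp_add]
    apply Real.one_le_exp
    linarith [le_abs_self (otPhi1 φ y)]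
  have h2 : 0 ≤ ‖1 - F₁ y‖ ^ 2 / ‖y 0 - w₀‖ ^ 2 := by positivity
  calc ‖1 - F₁ y‖ ^ 2 / ‖y 0 - w₀‖ ^ 2
      = 1 * (‖1 - F₁ y‖ ^ 2 / ‖y 0 - w₀‖ ^ 2) := (one_mul _).symm
    _ ≤ (Real.exp M * Real.exp (-(otPhi1 φ y))) * (‖1 - F₁ y‖ ^ 2 / ‖y 0 - w₀‖ ^ 2) :=
        mul_le_mul_of_nonneg_right h1 h2
    _ = Real.exp M * (‖1 - F₁ y‖ ^ 2 * (Real.exp (-(otPhi1 φ y)) / ‖y 0 - w₀‖ ^ 2)) := by ring

/-- **Extension across the hyperplane**, with value `1` on it. -/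
theorem ot_extend (hR : 0 < R) (hRR' : R < R') (hε : 0 < ε)
    (hφ : PshOn φ (Metric.ball 0 R')) (hw : ‖w₀‖ < R)
    {F₁ : Cn (n + 1) → ℂ} (hF₁ : DifferentiableOn ℂ F₁ (otOm n R w₀))
    (hu2 : ∫⁻ z in otOm n R w₀,
        ENNReal.ofReal (‖otG ε w₀ z - F₁ z‖ ^ 2 * Real.exp (-(otPhiT φ w₀ z))) < ⊤) :
    ∃ F : Cn (n + 1) → ℂ, DifferentiableOn ℂ F (Metric.ball 0 R) ∧
      (∀ z ∈ otOm n R w₀, F z = F₁ z) ∧
      ∀ z' : Cn n, z' ∈ Metric.ball (0 : Cn n) R → F (Fin.cons w₀ z') = 1 := by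
  obtain ⟨M, hM⟩ := otPhi1_bounded hRR' hφ
  have hf : DifferentiableOn ℂ (fun z => 1 - F₁ z)
      (Metric.ball (0 : Cn (n + 1)) R \ {z | z 0 = w₀}) := (differentiableOn_const 1).sub hF₁
  obtain ⟨F₀, hF₀, hF₀e, hF₀0⟩ := rext_hyperplane_vanish Metric.isOpen_ball 0 w₀ hf (by
    intro x hx hx0
    have hxR : ‖x‖ < R := by simpa using hx
    refine ⟨min (R - ‖x‖) (ε / 2), lt_min (by linarith) (by positivity), ?_⟩
    have hsub : ∀ y ∈ Metric.ball x (min (R - ‖x‖) (ε / 2)) \ {z : Cn (n + 1) | z 0 = w₀},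
        y ∈ Metric.ball (0 : Cn (n + 1)) R ∧ y 0 ≠ w₀ ∧ otT w₀ y ≤ ε ^ 2 / 2 := by
      rintro y ⟨hy, hy0⟩
      have hyx : ‖y - x‖ < min (R - ‖x‖) (ε / 2) := by simpa [dist_eq_norm] using hy
      have h1 : ‖y - x‖ < R - ‖x‖ := lt_of_lt_of_le hyx (min_le_left _ _)
      have h2 : ‖y - x‖ < ε / 2 := lt_of_lt_of_le hyx (min_le_right _ _)
      refine ⟨?_, hy0, ?_⟩
      · have : ‖y‖ ≤ ‖y - x‖ + ‖x‖ := by
          calc ‖y‖ = ‖(y - x) + x‖ := by rw [sub_add_cancel]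
            _ ≤ _ := norm_add_le _ _
        simpa using (by linarith : ‖y‖ < R)
      · have h3 : ‖y 0 - w₀‖ ≤ ‖y - x‖ := by
          rw [← hx0]
          exact norm_le_pi_norm (y - x) 0
        have h4 : ‖y 0 - w₀‖ ≤ ε / 2 := by linarith
        have h5 : ‖y 0 - w₀‖ ^ 2 ≤ (ε / 2) ^ 2 := pow_le_pow_left₀ (norm_nonneg _) h4 2
        rw [otT]
        nlinarith [sq_nonneg ε]
    have hmeas : MeasurableSet
        (Metric.ball x (min (R - ‖x‖) (ε / 2)) \ {z : Cn (n + 1) | z 0 = w₀}) :=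
      measurableSet_ball.diff
        (isClosed_eq (continuous_apply (0 : Fin (n + 1))) continuous_const).measurableSet
    calc ∫⁻ y in Metric.ball x (min (R - ‖x‖) (ε / 2)) \ {z : Cn (n + 1) | z 0 = w₀},
          ENNReal.ofReal (‖1 - F₁ y‖ ^ 2 / ‖y 0 - w₀‖ ^ 2)
        ≤ ∫⁻ y in Metric.ball x (min (R - ‖x‖) (ε / 2)) \ {z : Cn (n + 1) | z 0 = w₀},
          ENNReal.ofReal (Real.exp M) *
            ENNReal.ofReal (‖otG ε w₀ y - F₁ y‖ ^ 2 * Real.exp (-(otPhiT φ w₀ y))) := by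
          refine setLIntegral_mono' hmeas fun y hy => ?_
          obtain ⟨h1, h2, h3⟩ := hsub y hy
          rw [← ENNReal.ofReal_mul (Real.exp_pos M).le]
          exact ENNReal.ofReal_le_ofReal
            (ot_extend_ptw hε (hM y (Metric.ball_subset_closedBall h1)) h2 h3)
      _ ≤ ∫⁻ y in otOm n R w₀, ENNReal.ofReal (Real.exp M) *
            ENNReal.ofReal (‖otG ε w₀ y - F₁ y‖ ^ 2 * Real.exp (-(otPhiT φ w₀ y))) :=
          lintegral_mono_set fun y hy => ⟨(hsub y hy).1, (hsub y hy).2.1⟩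
      _ = ENNReal.ofReal (Real.exp M) * ∫⁻ y in otOm n R w₀,
            ENNReal.ofReal (‖otG ε w₀ y - F₁ y‖ ^ 2 * Real.exp (-(otPhiT φ w₀ y))) :=
          lintegral_const_mul' _ _ ENNReal.ofReal_ne_top
      _ < ⊤ := ENNReal.mul_lt_top ENNReal.ofReal_lt_top hu2)
  refine ⟨fun z => 1 - F₀ z, (differentiableOn_const 1).sub hF₀, ?_, ?_⟩
  · rintro z ⟨hz, hz0⟩
    show 1 - F₀ z = F₁ z
    rw [hF₀e z hz hz0, sub_sub_cancel]
  · intro z' hz'
    have hz'R : ‖z'‖ < R := by simpa using hz'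
    have hc : (Fin.cons w₀ z' : Cn (n + 1)) ∈ Metric.ball (0 : Cn (n + 1)) R := by
      rw [mem_ball_zero_iff, pi_norm_lt_iff hR]
      intro i
      refine Fin.cases ?_ (fun j => ?_) i
      · simpa using hw
      · simpa using lt_of_le_of_lt (norm_le_pi_norm z' j) hz'R
    show 1 - F₀ (Fin.cons w₀ z') = 1
    rw [hF₀0 _ hc (by simp), sub_zero]

end Claimed.Agent.R242
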