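/-
Row 242, SCV layer, package OT.  Ot: assembly of `ot_smooth` and `inv_adjunction`.   Blueprint: helper290.
Leaves: SCV-OT-FIN (`ot_final`), SCV-OT-INV-A (`inv_deriv_bound`, `inv_half`), SCV-OT-INV-B (`inv_of_ot`).  Glue `ot_smooth_of` proved.

`ot_final` (bookkeeping of lower integrals).  With `Ω = otOm n R w₀`, `D = ball 0 R`, `T = {z ∈ D | t ≤ ε²}`, `S₁ = ∫_{slice} e^{-φ₁}`:
  `∫_D |F|² e^{-φ} = ∫_Ω |F₁|² e^{-φ}`  (`volume_hyperplane`, `F = F₁` on `Ω`; `setLIntegral_congr` / `lintegral_diff_null`‑type lemmas)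
  `≤ e^{(n+1)R²} ∫_Ω |F₁|² e^{-φ₁}`     (`φ₁ ≤ φ + (n+1)R²` on `D`)
  `≤ e^{(n+1)R²} (2 ∫_Ω |g|² e^{-φ₁} + 2 ∫_Ω |g - F₁|² e^{-φ₁})`   (`F₁ = g + (F₁ - g)`, `lintegral_sq_add_le`)
  `∫_Ω |g|² e^{-φ₁} ≤ ∫_T e^{-φ₁} ≤ 2πε² S₁ ≤ 2π S₁`   (`norm_otG_le_one`, `otG_eq_zero`),
  `∫_Ω |g-F₁|² e^{-φ₁} ≤ (12 N B₀²/ε²)(2πε² S₁) = 24π N B₀² S₁`,   `S₁ ≤ S` (`φ ≤ φ₁`).
`inv_of_ot`: see the docstrings.
-/
import Claimed.Agent.R242.SCV.OtStep
import Claimed.Agent.R242.SCV.ScDefs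

set_option autoImplicit false

open MeasureTheory Complex Set Filter
open scoped ContDiff ComplexConjugate ENNReal Topology

namespace Claimed.Agent.R242

variable {n : ℕ} {R R' ε : ℝ} {w₀ : ℂ} {φ : Cn (n + 1) → ℝ}

/-- the constant of `ot_smooth`. -/
noncomputable def otC (n : ℕ) (R B₀ : ℝ) : ℝ :=
  Real.exp ((n + 1) * R ^ 2) * (4 * Real.pi + 48 * Real.pi * otN R * B₀ ^ 2)

theorem otC_pos (n : ℕ) (R B₀ : ℝ) : 0 < otC n R B₀ := by
  have h1 := otN_pos R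
  have h2 := Real.pi_pos
  unfold otC
  positivity

/-- final bookkeeping. -/
theorem ot_final (hR : 0 < R) (hRR' : R < R') (hε : 0 < ε) (hε1 : ε ≤ 1)
    (hφ : PshOn φ (Metric.ball 0 R')) (hw : ‖w₀‖ < R) {B₀ : ℝ}
    {F₁ F : Cn (n + 1) → ℂ} (hF₁ : DifferentiableOn ℂ F₁ (otOm n R w₀))
    (hFF₁ : ∀ z ∈ otOm n R w₀, F z = F₁ z)
    (h2 : ∫⁻ z in otOm n R w₀, ENNReal.ofReal (‖otG ε w₀ z - F₁ z‖ ^ 2 * Real.exp (-(otPhi1 φ z)))
      ≤ ENNReal.ofReal (12 * otN R * B₀ ^ 2 / ε ^ 2) *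
        ∫⁻ z in {z : Cn (n + 1) | z ∈ Metric.ball (0 : Cn (n + 1)) R ∧ otT w₀ z ≤ ε ^ 2},
          ENNReal.ofReal (Real.exp (-(otPhi1 φ z))))
    (h3 : ∫⁻ z in {z : Cn (n + 1) | z ∈ Metric.ball (0 : Cn (n + 1)) R ∧ otT w₀ z ≤ ε ^ 2},
          ENNReal.ofReal (Real.exp (-(otPhi1 φ z)))
        ≤ ENNReal.ofReal (2 * Real.pi * ε ^ 2) *
          ∫⁻ z' in Metric.ball (0 : Cn n) R,
            ENNReal.ofReal (Real.exp (-(otPhi1 φ (Fin.cons w₀ z'))))) :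
    ∫⁻ z in Metric.ball (0 : Cn (n + 1)) R, ENNReal.ofReal (‖F z‖ ^ 2 * Real.exp (-φ z))
      ≤ ENNReal.ofReal (otC n R B₀) *
        ∫⁻ z' in Metric.ball (0 : Cn n) R, ENNReal.ofReal (Real.exp (-φ (Fin.cons w₀ z'))) := by
  have hN := otN_pos R
  have hpi := Real.pi_pos
  set Ω := otOm n R w₀ with hΩ
  set T : Set (Cn (n + 1)) := {z : Cn (n + 1) | z ∈ Metric.ball (0 : Cn (n + 1)) R ∧ otT w₀ z ≤ ε ^ 2}
    with hT
  set IT := ∫⁻ z in T, ENNReal.ofReal (Real.exp (-(otPhi1 φ z))) with hIT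
  set S₁ := ∫⁻ z' in Metric.ball (0 : Cn n) R,
    ENNReal.ofReal (Real.exp (-(otPhi1 φ (Fin.cons w₀ z')))) with hS₁
  set S := ∫⁻ z' in Metric.ball (0 : Cn n) R, ENNReal.ofReal (Real.exp (-φ (Fin.cons w₀ z')))
    with hS
  have hΩm : MeasurableSet Ω := (isOpen_otOm n R w₀).measurableSet
  have hΩD : Ω ⊆ Metric.ball 0 R := otOm_subset_ball n R w₀
  have hTm : MeasurableSet T := by
    have h1 : T = Metric.ball (0 : Cn (n + 1)) R ∩ (otT w₀) ⁻¹' Set.Iic (ε ^ 2) := rfl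
    rw [h1]
    exact Metric.isOpen_ball.measurableSet.inter
      ((otT_contDiff (n := n) w₀).continuous.measurable measurableSet_Iic)
  -- (1) remove the hyperplane, (2) replace `F` by `F₁`
  have e1 : ∫⁻ z in Metric.ball (0 : Cn (n + 1)) R, ENNReal.ofReal (‖F z‖ ^ 2 * Real.exp (-φ z))
      = ∫⁻ z in Ω, ENNReal.ofReal (‖F₁ z‖ ^ 2 * Real.exp (-φ z)) := by
    have h : (Ω : Set (Cn (n + 1))) =ᵐ[volume] Metric.ball (0 : Cn (n + 1)) R :=
      sdiff_null_ae_eq_self (volume_hyperplane n w₀)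
    rw [← setLIntegral_congr h]
    exact setLIntegral_congr_fun hΩm (fun z hz => by simp only [hFF₁ z hz])
  -- (3) from `φ` to `φ₁`
  have e3 : ∫⁻ z in Ω, ENNReal.ofReal (‖F₁ z‖ ^ 2 * Real.exp (-φ z))
      ≤ ENNReal.ofReal (Real.exp ((n + 1) * R ^ 2)) *
        ∫⁻ z in Ω, ENNReal.ofReal (‖F₁ z‖ ^ 2 * Real.exp (-(otPhi1 φ z))) := by
    rw [← lintegral_const_mul' _ _ ENNReal.ofReal_ne_top]
    refine setLIntegral_mono' hΩm (fun z hz => ?_)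
    rw [← ENNReal.ofReal_mul (Real.exp_pos _).le]
    refine ENNReal.ofReal_le_ofReal ?_
    have hz' : ‖z‖ < R := by simpa using hΩD hz
    have hsum : ∑ j, ‖z j‖ ^ 2 ≤ (n + 1) * R ^ 2 := by
      calc ∑ j, ‖z j‖ ^ 2 ≤ ∑ _j : Fin (n + 1), R ^ 2 := by
            refine Finset.sum_le_sum (fun j _ => ?_)
            exact pow_le_pow_left₀ (norm_nonneg _) ((norm_le_pi_norm z j).trans hz'.le) 2
        _ = (n + 1) * R ^ 2 := by simp
    have hexp : Real.exp (-φ z) ≤ Real.exp ((n + 1) * R ^ 2) * Real.exp (-(otPhi1 φ z)) := by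
      rw [← Real.exp_add]
      refine Real.exp_le_exp.2 ?_
      unfold otPhi1
      linarith
    calc ‖F₁ z‖ ^ 2 * Real.exp (-φ z)
        ≤ ‖F₁ z‖ ^ 2 * (Real.exp ((n + 1) * R ^ 2) * Real.exp (-(otPhi1 φ z))) :=
          mul_le_mul_of_nonneg_left hexp (by positivity)
      _ = Real.exp ((n + 1) * R ^ 2) * (‖F₁ z‖ ^ 2 * Real.exp (-(otPhi1 φ z))) := by ring
  -- (4) `F₁ = g + (F₁ - g)`
  have hcont : ContinuousOn (fun z => ‖otG ε w₀ z‖ ^ 2 * Real.exp (-(otPhi1 φ z))) Ω := by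
    have hc1 : ContinuousOn (otPhi1 φ) Ω :=
      (otPhi1_continuousOn hφ).mono (hΩD.trans (Metric.ball_subset_ball hRR'.le))
    have hc2 : Continuous (otG ε w₀ : Cn (n + 1) → ℂ) := (otG_contDiff ε w₀).continuous
    exact ((hc2.norm.pow 2).continuousOn).mul (Real.continuous_exp.comp_continuousOn hc1.neg)
  have e4 : ∫⁻ z in Ω, ENNReal.ofReal (‖F₁ z‖ ^ 2 * Real.exp (-(otPhi1 φ z)))
      ≤ 2 * (∫⁻ z in Ω, ENNReal.ofReal (‖otG ε w₀ z‖ ^ 2 * Real.exp (-(otPhi1 φ z))))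
        + 2 * (∫⁻ z in Ω, ENNReal.ofReal (‖otG ε w₀ z - F₁ z‖ ^ 2 * Real.exp (-(otPhi1 φ z)))) := by
    have h := lintegral_sq_add_le (μ := volume.restrict Ω) (otG ε w₀) (fun z => F₁ z - otG ε w₀ z)
      (fun z => Real.exp (-(otPhi1 φ z))) (fun z => (Real.exp_pos _).le)
      (hcont.aemeasurable hΩm).ennreal_ofReal
    simp only [add_sub_cancel, norm_sub_rev (F₁ _) (otG ε w₀ _)] at h
    exact h
  -- (5) the term with `g`
  have e5 : ∫⁻ z in Ω, ENNReal.ofReal (‖otG ε w₀ z‖ ^ 2 * Real.exp (-(otPhi1 φ z))) ≤ IT := by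
    calc ∫⁻ z in Ω, ENNReal.ofReal (‖otG ε w₀ z‖ ^ 2 * Real.exp (-(otPhi1 φ z)))
        ≤ ∫⁻ z in Ω, T.indicator (fun z => ENNReal.ofReal (Real.exp (-(otPhi1 φ z)))) z := by
          refine setLIntegral_mono' hΩm (fun z hz => ?_)
          by_cases hzT : otT w₀ z ≤ ε ^ 2
          · have hzT' : z ∈ T := ⟨hΩD hz, hzT⟩
            rw [Set.indicator_of_mem hzT']
            refine ENNReal.ofReal_le_ofReal ?_
            have h1 : ‖otG ε w₀ z‖ ^ 2 ≤ 1 :=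
              pow_le_one₀ (norm_nonneg _) (norm_otG_le_one ε w₀ z)
            calc ‖otG ε w₀ z‖ ^ 2 * Real.exp (-(otPhi1 φ z)) ≤ 1 * Real.exp (-(otPhi1 φ z)) :=
                  mul_le_mul_of_nonneg_right h1 (Real.exp_pos _).le
              _ = _ := one_mul _
          · rw [otG_eq_zero hε (not_le.1 hzT).le]
            simp
      _ = ∫⁻ z in T ∩ Ω, ENNReal.ofReal (Real.exp (-(otPhi1 φ z))) := setLIntegral_indicator hTm _
      _ ≤ IT := lintegral_mono_set Set.inter_subset_left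
  -- (6) `S₁ ≤ S`
  have e6 : S₁ ≤ S := by
    refine lintegral_mono (fun z' => ENNReal.ofReal_le_ofReal (Real.exp_le_exp.2 ?_))
    have : 0 ≤ ∑ j, ‖(Fin.cons w₀ z' : Cn (n + 1)) j‖ ^ 2 :=
      Finset.sum_nonneg (fun j _ => by positivity)
    unfold otPhi1
    linarith
  -- constants
  have c1 : 2 * IT ≤ ENNReal.ofReal (4 * Real.pi) * S₁ := by
    calc 2 * IT ≤ 2 * (ENNReal.ofReal (2 * Real.pi * ε ^ 2) * S₁) := by gcongr
      _ = ENNReal.ofReal (2 * (2 * Real.pi * ε ^ 2)) * S₁ := by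
          rw [ENNReal.ofReal_mul (by norm_num : (0 : ℝ) ≤ 2), ENNReal.ofReal_ofNat]
          ring
      _ ≤ ENNReal.ofReal (4 * Real.pi) * S₁ := by
          refine mul_le_mul' (ENNReal.ofReal_le_ofReal ?_) le_rfl
          have : ε ^ 2 ≤ 1 := pow_le_one₀ hε.le hε1
          nlinarith
  have c2 : 2 * (ENNReal.ofReal (12 * otN R * B₀ ^ 2 / ε ^ 2) * IT)
      ≤ ENNReal.ofReal (48 * Real.pi * otN R * B₀ ^ 2) * S₁ := by
    calc 2 * (ENNReal.ofReal (12 * otN R * B₀ ^ 2 / ε ^ 2) * IT)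
        ≤ 2 * (ENNReal.ofReal (12 * otN R * B₀ ^ 2 / ε ^ 2) *
            (ENNReal.ofReal (2 * Real.pi * ε ^ 2) * S₁)) := by gcongr
      _ = ENNReal.ofReal (2 * ((12 * otN R * B₀ ^ 2 / ε ^ 2) * (2 * Real.pi * ε ^ 2))) * S₁ := by
          rw [ENNReal.ofReal_mul (by norm_num : (0 : ℝ) ≤ 2), ENNReal.ofReal_ofNat,
            ENNReal.ofReal_mul (by positivity : (0 : ℝ) ≤ 12 * otN R * B₀ ^ 2 / ε ^ 2)]
          ring
      _ = ENNReal.ofReal (48 * Real.pi * otN R * B₀ ^ 2) * S₁ := by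
          congr 2
          field_simp
          ring
  calc ∫⁻ z in Metric.ball (0 : Cn (n + 1)) R, ENNReal.ofReal (‖F z‖ ^ 2 * Real.exp (-φ z))
      ≤ ENNReal.ofReal (Real.exp ((n + 1) * R ^ 2)) *
          (2 * IT + 2 * (ENNReal.ofReal (12 * otN R * B₀ ^ 2 / ε ^ 2) * IT)) := by
        rw [e1]
        refine e3.trans ?_
        gcongr
        refine e4.trans ?_
        gcongr
    _ ≤ ENNReal.ofReal (Real.exp ((n + 1) * R ^ 2)) *
          (ENNReal.ofReal (4 * Real.pi) * S₁ +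
            ENNReal.ofReal (48 * Real.pi * otN R * B₀ ^ 2) * S₁) := by gcongr
    _ = ENNReal.ofReal (otC n R B₀) * S₁ := by
        unfold otC
        rw [ENNReal.ofReal_mul (Real.exp_pos _).le, ENNReal.ofReal_add (by positivity)
          (by positivity)]
        ring
    _ ≤ ENNReal.ofReal (otC n R B₀) * S := by gcongr

/-- **OT-smooth from Hörmander.** -/
theorem ot_smooth_of (hHor : HorOpen (n + 1)) : OtSmooth n := by
  intro R hR
  obtain ⟨B₀, -, hB₀⟩ := exists_otB_bound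
  refine ⟨otC n R B₀, otC_pos n R B₀, fun R' hRR' φ hφ w₀ hw => ?_⟩
  obtain ⟨ε, hε, hε1, h3⟩ := ot_eps (n := n) hR hRR' (otPhi1_continuousOn hφ) hw
  obtain ⟨F₁, hF₁, hu2, horth⟩ := ot_step1 hHor hR hRR' hε hε1 hφ hw
  have h2 := ot_step2 hHor hR hRR' hε hε1 hφ hw hF₁ hu2 horth hB₀
  obtain ⟨F, hF, hFF₁, hF1⟩ := ot_extend hR hRR' hε hφ hw hF₁ hu2
  exact ⟨F, hF, hF1, ot_final hR hRR' hε hε1 hφ hw hF₁ hFF₁ h2 h3⟩

/-! ### INV -/

/-- volume of a polydisc. -/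
theorem inv_volume_ball (m : ℕ) (z : Cn m) {r : ℝ} (hr : 0 < r) :
    volume (Metric.ball z r) = ENNReal.ofReal ((Real.pi * r ^ 2) ^ m) := by
  rw [volume_pi_ball z hr]
  simp only [Complex.volume_ball, Finset.prod_const, Finset.card_univ, Fintype.card_fin]
  rw [ENNReal.ofReal_pow (by positivity), ENNReal.ofReal_mul Real.pi_pos.le,
    ENNReal.ofReal_pow hr.le, mul_comm]
  congr 2
  rw [← NNReal.coe_real_pi, ENNReal.ofReal_coe_nnreal]

/-- the norm of a point of the tube. -/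
theorem inv_norm_lt {ρ : ℝ} {z : Cn (n + 1)} (hz0 : ‖z 0‖ < ρ) (hz : ∀ i : Fin n, ‖z i.succ‖ < ρ) :
    ‖z‖ < ρ := by
  have hρ : 0 < ρ := lt_of_le_of_lt (norm_nonneg _) hz0
  rw [pi_norm_lt_iff hρ]
  intro i
  refine Fin.cases hz0 hz i

/-- Cauchy estimate: if `∫_{ball 0 (3R/4)} |F|² ≤ E` then `|∂₀F|² ≤ K E` on `{|z 0| < 5R/8, |z i.succ| < R/2}`,
`K = ((R/16)² (π (R/16)²)^{n+1})⁻¹`   (`dz_sq_le_lintegral` on `ball z (R/8) ⊆ ball 0 (3R/4)`;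
`volume (ball z r) = (π r²)^{n+1}`: `Real.volume_pi_ball`‑analogue `MeasureTheory.volume_pi_ball`/`Complex.volume_ball`). -/
theorem inv_deriv_bound (hR : 0 < R) {F : Cn (n + 1) → ℂ}
    (hF : DifferentiableOn ℂ F (Metric.ball 0 (3 * R / 4))) {E : ℝ} (hE : 0 ≤ E)
    (hFE : ∫⁻ z in Metric.ball (0 : Cn (n + 1)) (3 * R / 4), ENNReal.ofReal (‖F z‖ ^ 2)
      ≤ ENNReal.ofReal E)
    {z : Cn (n + 1)} (hz0 : ‖z 0‖ < 5 * R / 8) (hz : ∀ i : Fin n, ‖z i.succ‖ < R / 2) :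
    ‖dz 0 F z‖ ^ 2 ≤ ((R / 16) ^ 2 * (Real.pi * (R / 16) ^ 2) ^ (n + 1))⁻¹ * E := by
  have hzn : ‖z‖ < 5 * R / 8 := inv_norm_lt hz0 fun i => (hz i).trans (by linarith)
  have hsub : Metric.ball z (R / 8) ⊆ Metric.ball (0 : Cn (n + 1)) (3 * R / 4) := by
    intro w hw
    rw [mem_ball_zero_iff]
    rw [mem_ball_iff_norm] at hw
    calc ‖w‖ = ‖(w - z) + z‖ := by rw [sub_add_cancel]
      _ ≤ ‖w - z‖ + ‖z‖ := norm_add_le _ _
      _ < 3 * R / 4 := by linarith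
  have h1 := dz_sq_le_lintegral (R := R / 8) (by positivity) (hF.mono hsub) 0
  have h2 : ∫⁻ w in Metric.ball z (R / 8), ENNReal.ofReal (‖F w‖ ^ 2) ≤ ENNReal.ofReal E :=
    (lintegral_mono_set hsub).trans hFE
  have e16 : R / 8 / 2 = R / 16 := by ring
  rw [e16, inv_volume_ball (n + 1) z (by positivity : 0 < R / 16),
    ← ENNReal.ofReal_mul (by positivity)] at h1
  have h3 := (ENNReal.ofReal_le_ofReal_iff hE).1 (h1.trans h2)
  have hpos : 0 < (R / 16) ^ 2 * (Real.pi * (R / 16) ^ 2) ^ (n + 1) := by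
    have := Real.pi_pos
    positivity
  rw [inv_mul_eq_div, le_div_iff₀ hpos]
  linarith

/-- the line `w ↦ (w, z')`. -/
theorem inv_hasDerivAt_cons (z' : Cn n) (w : ℂ) :
    HasDerivAt (fun w : ℂ => (Fin.cons w z' : Cn (n + 1))) (Pi.single 0 1) w := by
  rw [hasDerivAt_pi]
  intro i
  refine Fin.cases ?_ (fun i => ?_) i
  · have h := hasDerivAt_id w
    simp only [Fin.cons_zero, Pi.single_eq_same]
    exact h
  · have h := hasDerivAt_const w (z' i)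
    simp only [Fin.cons_succ, Pi.single_eq_of_ne (Fin.succ_ne_zero i)]
    exact h

/-- if `F = 1` on the slice and `|∂₀F| ≤ L` on the tube then `|F| ≥ 1/2` at distance `≤ 1/(2L)` from the slice
(`Convex.norm_image_sub_le_of_norm_deriv_le` for `w ↦ F (Fin.cons w z')` on the disc `ball w₀ r`;
its derivative is `dz 0 F` by `dz_eq_fderiv_of_differentiableAt` and the chain rule with `w ↦ Fin.cons w z'`). -/
theorem inv_half (hR : 0 < R) {F : Cn (n + 1) → ℂ}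
    (hF : DifferentiableOn ℂ F (Metric.ball 0 (3 * R / 4))) {w₀ : ℂ} (hw : ‖w₀‖ < R / 2)
    (hF1 : ∀ z' : Cn n, z' ∈ Metric.ball (0 : Cn n) (3 * R / 4) → F (Fin.cons w₀ z') = 1)
    {L r : ℝ} (hr : 0 < r) (hr8 : r ≤ R / 8) (hrL : r * L ≤ 1 / 2)
    (hL : ∀ z : Cn (n + 1), ‖z 0‖ < 5 * R / 8 → (∀ i : Fin n, ‖z i.succ‖ < R / 2) → ‖dz 0 F z‖ ≤ L)
    {z : Cn (n + 1)} (hz0 : ‖z 0 - w₀‖ < r) (hz : ∀ i : Fin n, ‖z i.succ‖ < R / 2) :
    1 / 2 ≤ ‖F z‖ := by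
  obtain ⟨z', hz'⟩ : ∃ z' : Cn n, z' = Fin.tail z := ⟨_, rfl⟩
  have hzz : (Fin.cons (z 0) z' : Cn (n + 1)) = z := by rw [hz']; exact Fin.cons_self_tail z
  have hz'i : ∀ i : Fin n, ‖z' i‖ < R / 2 := fun i => by rw [hz']; exact hz i
  have hdisc : ∀ w ∈ Metric.ball w₀ r, ‖w‖ < 5 * R / 8 := by
    intro w hw'
    rw [mem_ball_iff_norm] at hw'
    calc ‖w‖ = ‖(w - w₀) + w₀‖ := by rw [sub_add_cancel]
      _ ≤ ‖w - w₀‖ + ‖w₀‖ := norm_add_le _ _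
      _ < 5 * R / 8 := by linarith
  have hmem : ∀ w ∈ Metric.ball w₀ r,
      (Fin.cons w z' : Cn (n + 1)) ∈ Metric.ball (0 : Cn (n + 1)) (3 * R / 4) := by
    intro w hw'
    rw [mem_ball_zero_iff]
    refine inv_norm_lt ?_ fun i => ?_
    · simpa using (hdisc w hw').trans (by linarith)
    · simpa using (hz'i i).trans (by linarith)
  have hder : ∀ w ∈ Metric.ball w₀ r, HasDerivWithinAt (fun w : ℂ => F (Fin.cons w z'))
      (dz 0 F (Fin.cons w z')) (Metric.ball w₀ r) w := by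
    intro w hw'
    have hd : DifferentiableAt ℂ F (Fin.cons w z') :=
      hF.differentiableAt (Metric.isOpen_ball.mem_nhds (hmem w hw'))
    rw [dz_eq_fderiv_of_differentiableAt hd]
    exact (hd.hasFDerivAt.comp_hasDerivAt w (inv_hasDerivAt_cons z' w)).hasDerivWithinAt
  have hbd : ∀ w ∈ Metric.ball w₀ r, ‖dz 0 F (Fin.cons w z')‖ ≤ L := by
    intro w hw'
    refine hL _ ?_ fun i => ?_
    · simpa using hdisc w hw'
    · simpa using hz'i i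
  have hz0' : z 0 ∈ Metric.ball w₀ r := by rw [mem_ball_iff_norm]; exact hz0
  have hmv := Convex.norm_image_sub_le_of_norm_hasDerivWithin_le hder hbd (convex_ball w₀ r)
    (Metric.mem_ball_self hr) hz0'
  have hL0 : 0 ≤ L := (norm_nonneg _).trans (hbd _ hz0')
  have h1 : F (Fin.cons w₀ z') = 1 := by
    refine hF1 z' ?_
    rw [mem_ball_zero_iff, pi_norm_lt_iff (by positivity)]
    exact fun i => (hz'i i).trans (by linarith)
  simp only [hzz, h1] at hmv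
  have h2 : L * ‖z 0 - w₀‖ ≤ 1 / 2 := by
    calc L * ‖z 0 - w₀‖ ≤ L * r := mul_le_mul_of_nonneg_left hz0.le hL0
      _ = r * L := mul_comm _ _
      _ ≤ 1 / 2 := hrL
  have h3 : ‖(1 : ℂ)‖ ≤ ‖F z‖ + ‖F z - 1‖ := by
    calc ‖(1 : ℂ)‖ = ‖F z - (F z - 1)‖ := by rw [sub_sub_cancel]
      _ ≤ ‖F z‖ + ‖F z - 1‖ := norm_sub_le _ _
  rw [norm_one] at h3
  linarith

/-- the tube is open. -/
theorem inv_isOpen_tube (w₀ : ℂ) (r ρ : ℝ) :
    IsOpen {z : Cn (n + 1) | ‖z 0 - w₀‖ < r ∧ ∀ i : Fin n, ‖z i.succ‖ < ρ} := by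
  have h1 : IsOpen {z : Cn (n + 1) | ‖z 0 - w₀‖ < r} :=
    isOpen_lt (by fun_prop) continuous_const
  have h2 : IsOpen {z : Cn (n + 1) | ∀ i : Fin n, ‖z i.succ‖ < ρ} := by
    simp only [Set.ofPred_forall]
    exact isOpen_iInter_of_finite fun i => isOpen_lt (by fun_prop) continuous_const
  exact h1.inter h2

/-- **INV from OT-smooth.**  Apply `OtSmooth n` with radius `3R/4` and `R' = R`: `C₁`, `F`.  `∫_{ball 0 (3R/4)} |F|² ≤ e^A C₁ m`
(`φ ≤ A`), so `|∂₀F|² ≤ K e^A C₁ m =: L²`; `c₀ := 1/(4 K e^A C₁)` gives `r L ≤ 1/2`; then `e^{-φ} ≤ 4 |F|² e^{-φ}` on the tube, which is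
contained in `ball 0 (3R/4)`; `C := 4 C₁`. -/
theorem inv_of_ot (hOT : OtSmooth n) : ScInv n := by
  intro R hR A
  obtain ⟨C₁, hC₁, hOT⟩ := hOT (3 * R / 4) (by positivity)
  obtain ⟨K, hK⟩ : ∃ K : ℝ, K = ((R / 16) ^ 2 * (Real.pi * (R / 16) ^ 2) ^ (n + 1))⁻¹ := ⟨_, rfl⟩
  have hKpos : 0 < K := by
    have := Real.pi_pos
    rw [hK]; positivity
  have hA := Real.exp_pos A
  refine ⟨1 / (4 * K * Real.exp A * C₁), 4 * C₁, by positivity, by positivity, ?_⟩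
  intro φ hφ hφA w₀ hw m hm hint r hr hr8 hrm
  obtain ⟨F, hF, hF1, hFint⟩ := hOT R (by linarith) φ hφ w₀ (by linarith)
  have hsubn : Metric.ball (0 : Cn n) (3 * R / 4) ⊆ Metric.ball (0 : Cn n) R :=
    Metric.ball_subset_ball (by linarith)
  have hsub : Metric.ball (0 : Cn (n + 1)) (3 * R / 4) ⊆ Metric.ball (0 : Cn (n + 1)) R :=
    Metric.ball_subset_ball (by linarith)
  -- the weighted norm of `F`
  have hFm : ∫⁻ z in Metric.ball (0 : Cn (n + 1)) (3 * R / 4),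
      ENNReal.ofReal (‖F z‖ ^ 2 * Real.exp (-φ z)) ≤ ENNReal.ofReal (C₁ * m) := by
    rw [ENNReal.ofReal_mul hC₁.le]
    exact hFint.trans (mul_le_mul_right ((lintegral_mono_set hsubn).trans hint) _)
  -- the unweighted norm of `F`
  have hFE : ∫⁻ z in Metric.ball (0 : Cn (n + 1)) (3 * R / 4), ENNReal.ofReal (‖F z‖ ^ 2)
      ≤ ENNReal.ofReal (Real.exp A * (C₁ * m)) := by
    rw [ENNReal.ofReal_mul hA.le]
    refine le_trans ?_ (mul_le_mul_right hFm _)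
    rw [← lintegral_const_mul' _ _ ENNReal.ofReal_ne_top]
    refine setLIntegral_mono' Metric.isOpen_ball.measurableSet fun z hz => ?_
    rw [← ENNReal.ofReal_mul hA.le]
    refine ENNReal.ofReal_le_ofReal ?_
    have h1 : 1 ≤ Real.exp A * Real.exp (-φ z) := by
      rw [← Real.exp_add]
      exact Real.one_le_exp (by linarith [hφA z (hsub hz)])
    calc ‖F z‖ ^ 2 = ‖F z‖ ^ 2 * 1 := (mul_one _).symm
      _ ≤ ‖F z‖ ^ 2 * (Real.exp A * Real.exp (-φ z)) :=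
          mul_le_mul_of_nonneg_left h1 (sq_nonneg _)
      _ = Real.exp A * (‖F z‖ ^ 2 * Real.exp (-φ z)) := by ring
  obtain ⟨E, hEdef⟩ : ∃ E : ℝ, E = Real.exp A * (C₁ * m) := ⟨_, rfl⟩
  have hE : 0 ≤ E := by rw [hEdef]; positivity
  rw [← hEdef] at hFE
  have hL : ∀ z : Cn (n + 1), ‖z 0‖ < 5 * R / 8 → (∀ i : Fin n, ‖z i.succ‖ < R / 2) →
      ‖dz 0 F z‖ ≤ Real.sqrt (K * E) := by
    intro z hz0 hz
    refine Real.le_sqrt_of_sq_le ?_
    rw [hK]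
    exact inv_deriv_bound hR hF hE hFE hz0 hz
  have hrL : r * Real.sqrt (K * E) ≤ 1 / 2 := by
    have h1 : r ^ 2 * (K * E) ≤ 1 / 4 := by
      have h2 : r ^ 2 * (K * E) = (r ^ 2 * m) * (K * Real.exp A * C₁) := by rw [hEdef]; ring
      rw [h2]
      calc (r ^ 2 * m) * (K * Real.exp A * C₁)
          ≤ (1 / (4 * K * Real.exp A * C₁)) * (K * Real.exp A * C₁) :=
            mul_le_mul_of_nonneg_right hrm (by positivity)
        _ = 1 / 4 := by field_simp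
    have h3 : r * Real.sqrt (K * E) = Real.sqrt (r ^ 2 * (K * E)) := by
      rw [Real.sqrt_mul (sq_nonneg r), Real.sqrt_sq hr.le]
    rw [h3]
    calc Real.sqrt (r ^ 2 * (K * E)) ≤ Real.sqrt (1 / 4) := Real.sqrt_le_sqrt h1
      _ = 1 / 2 := by
        rw [show (1 / 4 : ℝ) = (1 / 2) ^ 2 by norm_num, Real.sqrt_sq (by norm_num)]
  have htube : {z : Cn (n + 1) | ‖z 0 - w₀‖ < r ∧ ∀ i : Fin n, ‖z i.succ‖ < R / 2}
      ⊆ Metric.ball (0 : Cn (n + 1)) (3 * R / 4) := by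
    rintro z ⟨hz0, hz⟩
    rw [mem_ball_zero_iff]
    refine inv_norm_lt ?_ fun i => (hz i).trans (by linarith)
    calc ‖z 0‖ = ‖(z 0 - w₀) + w₀‖ := by rw [sub_add_cancel]
      _ ≤ ‖z 0 - w₀‖ + ‖w₀‖ := norm_add_le _ _
      _ < 3 * R / 4 := by linarith
  calc ∫⁻ z in {z : Cn (n + 1) | ‖z 0 - w₀‖ < r ∧ ∀ i : Fin n, ‖z i.succ‖ < R / 2},
        ENNReal.ofReal (Real.exp (-φ z))
      ≤ ∫⁻ z in {z : Cn (n + 1) | ‖z 0 - w₀‖ < r ∧ ∀ i : Fin n, ‖z i.succ‖ < R / 2},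
        ENNReal.ofReal 4 * ENNReal.ofReal (‖F z‖ ^ 2 * Real.exp (-φ z)) := by
        refine setLIntegral_mono' (inv_isOpen_tube w₀ r (R / 2)).measurableSet fun z hz => ?_
        rw [← ENNReal.ofReal_mul (by norm_num)]
        refine ENNReal.ofReal_le_ofReal ?_
        have h1 := inv_half hR hF hw hF1 hr hr8 hrL hL hz.1 hz.2
        have h2 : 1 ≤ 4 * ‖F z‖ ^ 2 := by nlinarith [norm_nonneg (F z)]
        have h3 := Real.exp_pos (-φ z)
        nlinarith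
    _ ≤ ∫⁻ z in Metric.ball (0 : Cn (n + 1)) (3 * R / 4),
        ENNReal.ofReal 4 * ENNReal.ofReal (‖F z‖ ^ 2 * Real.exp (-φ z)) := lintegral_mono_set htube
    _ = ENNReal.ofReal 4 * ∫⁻ z in Metric.ball (0 : Cn (n + 1)) (3 * R / 4),
        ENNReal.ofReal (‖F z‖ ^ 2 * Real.exp (-φ z)) :=
        lintegral_const_mul' _ _ ENNReal.ofReal_ne_top
    _ ≤ ENNReal.ofReal 4 * ENNReal.ofReal (C₁ * m) := mul_le_mul_right hFm _
    _ = ENNReal.ofReal (4 * C₁ * m) := by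
        rw [← ENNReal.ofReal_mul (by norm_num)]
        congr 1
        ring

end Claimed.Agent.R242
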