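/-
Row 242, SCV layer, package SC: the regularised weights (leaf SCV-SC-PHI).   Architect: helper64.

`scPhi a e δ g = e · log ∑_i exp (a_i log (|g_i|² + δ))`.
`scPhi_psh`: smoothness from `contDiffOn_of_differentiableOn_Cn` (MVP); Levi form: `levi_const_mul`,
  `levi_log_sum_exp_nonneg`, `levi_log_normSq_add` (WirtB; may be used while still sorried).
`scPhi_exp`: `exp (a log x) = x ^ a`, `exp (-(e log Σ)) = Σ ^ (-e)`, `ENNReal.ofReal_rpow_of_pos`.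
`scPhi_tendsto`: `ENNReal.continuous_rpow_const`, continuity of `δ ↦ ∑ (x_i + δ)^{a_i}` at `0`.
`sc_fatou`: `lintegral_liminf_le'` + `scPhi_tendsto`.
-/
import Claimed.Agent.R242.SCV.ScDefs
import Claimed.Agent.R242.SCV.WirtB
import Claimed.Agent.R242.SCV.MVP

set_option autoImplicit false

open MeasureTheory Complex Set Filter
open scoped ContDiff ComplexConjugate ENNReal Topology

namespace Claimed.Agent.R242

variable {ι : Type*} [Fintype ι] {S : Type*} [TopologicalSpace S]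

/-! ### L7: the regularised weights -/

/-- `φ = e · log ∑_i (|g_i|² + δ)^{a_i}` written as a log-sum-exp. -/
noncomputable def scPhi {n : ℕ} (a : ι → ℝ) (e δ : ℝ) (g : ι → Cn n → ℂ) (z : Cn n) : ℝ :=
  e * Real.log (∑ i, Real.exp (a i * Real.log (‖g i z‖ ^ 2 + δ)))

theorem scPhi_forced : True := by
  have := @scPhi.eq_1.{0}
  have := @scPhi.eq_def.{0}
  trivial

/-- the summands as real powers. -/
theorem scPhi_exp_term (a x δ : ℝ) (hx : 0 ≤ x) (hδ : 0 < δ) :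
    Real.exp (a * Real.log (x + δ)) = (x + δ) ^ a := by
  rw [Real.rpow_def_of_pos (by linarith), mul_comm]

theorem scPhi_sum_eq {n : ℕ} (a : ι → ℝ) (δ : ℝ) (hδ : 0 < δ) (g : ι → Cn n → ℂ) (z : Cn n) :
    ∑ i, Real.exp (a i * Real.log (‖g i z‖ ^ 2 + δ)) = ∑ i, (‖g i z‖ ^ 2 + δ) ^ a i :=
  Finset.sum_congr rfl fun i _ => scPhi_exp_term (a i) _ δ (sq_nonneg _) hδ

theorem scPhi_sum_pos [Nonempty ι] {n : ℕ} (a : ι → ℝ) (δ : ℝ) (g : ι → Cn n → ℂ) (z : Cn n) :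
    0 < ∑ i, Real.exp (a i * Real.log (‖g i z‖ ^ 2 + δ)) :=
  Finset.sum_pos (fun _ _ => Real.exp_pos _) Finset.univ_nonempty

/-- smoothness of one exponent. -/
theorem scPhi_contDiffOn_term {n : ℕ} (a δ : ℝ) (hδ : 0 < δ) (g : Cn n → ℂ) (U : Set (Cn n))
    (hU : IsOpen U) (hg : DifferentiableOn ℂ g U) :
    ContDiffOn ℝ ∞ (fun y => a * Real.log (‖g y‖ ^ 2 + δ)) U := by
  have h1 : ContDiffOn ℝ ∞ g U := contDiffOn_of_differentiableOn_Cn hU hg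
  have h2 : ContDiffOn ℝ ∞ (fun y => ‖g y‖ ^ 2 + δ) U := (h1.norm_sq ℝ).add contDiffOn_const
  exact contDiffOn_const.mul (h2.log fun y _ => by positivity)

theorem scPhi_psh [Nonempty ι] {n : ℕ} (a : ι → ℝ) (ha : ∀ i, 0 < a i) (e δ : ℝ) (he : 0 ≤ e)
    (hδ : 0 < δ) (g : ι → Cn n → ℂ) (U : Set (Cn n)) (hU : IsOpen U)
    (hg : ∀ i, DifferentiableOn ℂ (g i) U) : PshOn (scPhi a e δ g) U := by
  have hterm := fun i => scPhi_contDiffOn_term (a i) δ hδ (g i) U hU (hg i)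
  have hlog : ContDiffOn ℝ ∞
      (fun y => Real.log (∑ i, Real.exp (a i * Real.log (‖g i y‖ ^ 2 + δ)))) U := by
    refine ContDiffOn.log (ContDiffOn.sum fun i _ => (hterm i).exp) fun y _ => ?_
    exact (scPhi_sum_pos a δ g y).ne'
  refine ⟨contDiffOn_const.mul hlog, fun z hz v => ?_⟩
  have hUz : U ∈ 𝓝 z := hU.mem_nhds hz
  have h2le : (2 : WithTop ℕ∞) ≤ ((⊤ : ℕ∞) : WithTop ℕ∞) := by
    have h : ((2 : ℕ∞) : WithTop ℕ∞) ≤ ((⊤ : ℕ∞) : WithTop ℕ∞) := WithTop.coe_le_coe.2 le_top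
    exact h
  have hlog2 : ContDiffAt ℝ 2
      (fun y => Real.log (∑ i, Real.exp (a i * Real.log (‖g i y‖ ^ 2 + δ)))) z :=
    (hlog.contDiffAt hUz).of_le h2le
  have e1 : levi (scPhi a e δ g) z v
      = e * levi (fun y => Real.log (∑ i, Real.exp (a i * Real.log (‖g i y‖ ^ 2 + δ)))) z v :=
    levi_const_mul e hlog2
  rw [e1]
  refine mul_nonneg he (levi_log_sum_exp_nonneg _ (fun i => ((hterm i).contDiffAt hUz).of_le h2le)
    fun i => ?_)
  have hgi : ContDiffOn ℝ ∞ (g i) U := contDiffOn_of_differentiableOn_Cn hU (hg i)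
  have hgi2 : ContDiffAt ℝ 2 (g i) z := (hgi.contDiffAt hUz).of_le h2le
  have hev : ∀ᶠ y in 𝓝 z, DifferentiableAt ℂ (g i) y := by
    filter_upwards [hUz] with y hy
    exact (hg i).differentiableAt (hU.mem_nhds hy)
  have hl2 : ContDiffAt ℝ 2 (fun y => Real.log (‖g i y‖ ^ 2 + δ)) z := by
    have h2 : ContDiffAt ℝ 2 (fun y => ‖g i y‖ ^ 2 + δ) z := (hgi2.norm_sq ℝ).add contDiffAt_const
    exact h2.log (by positivity)
  rw [levi_const_mul (a i) hl2, levi_log_normSq_add hev hgi2 hδ]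
  have := ha i
  positivity

theorem scPhi_le [Nonempty ι] {n : ℕ} (a : ι → ℝ) (ha : ∀ i, 0 < a i) (e E δ A₀ : ℝ) (he : 0 ≤ e)
    (heE : e ≤ E) (hδ : 0 < δ) (hδ1 : δ ≤ 1) (g : ι → Cn n → ℂ) (z : Cn n)
    (hA : ∀ i, ‖g i z‖ ≤ A₀) :
    scPhi a e δ g z ≤ E * max 0 (Real.log (∑ i, (A₀ ^ 2 + 1) ^ a i)) := by
  unfold scPhi
  have hpos := scPhi_sum_pos a δ g z
  have h1 : ∑ i, Real.exp (a i * Real.log (‖g i z‖ ^ 2 + δ)) ≤ ∑ i, (A₀ ^ 2 + 1) ^ a i := by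
    rw [scPhi_sum_eq a δ hδ]
    refine Finset.sum_le_sum fun i _ => ?_
    refine Real.rpow_le_rpow (by positivity) ?_ (ha i).le
    have : ‖g i z‖ ^ 2 ≤ A₀ ^ 2 := pow_le_pow_left₀ (norm_nonneg _) (hA i) 2
    linarith
  have h2 := Real.log_le_log hpos h1
  have h3 : Real.log (∑ i, Real.exp (a i * Real.log (‖g i z‖ ^ 2 + δ)))
      ≤ max 0 (Real.log (∑ i, (A₀ ^ 2 + 1) ^ a i)) := h2.trans (le_max_right _ _)
  calc e * Real.log (∑ i, Real.exp (a i * Real.log (‖g i z‖ ^ 2 + δ)))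
      ≤ e * max 0 (Real.log (∑ i, (A₀ ^ 2 + 1) ^ a i)) := mul_le_mul_of_nonneg_left h3 he
    _ ≤ E * max 0 (Real.log (∑ i, (A₀ ^ 2 + 1) ^ a i)) :=
        mul_le_mul_of_nonneg_right heE (le_max_left _ _)

theorem scPhi_exp [Nonempty ι] {n : ℕ} (a : ι → ℝ) (e δ : ℝ) (hδ : 0 < δ) (g : ι → Cn n → ℂ)
    (z : Cn n) :
    ENNReal.ofReal (Real.exp (-scPhi a e δ g z))
      = ENNReal.ofReal (∑ i, (‖g i z‖ ^ 2 + δ) ^ a i) ^ (-e) := by
  have hpos := scPhi_sum_pos a δ g z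
  unfold scPhi
  rw [scPhi_sum_eq a δ hδ] at hpos ⊢
  rw [ENNReal.ofReal_rpow_of_pos hpos, Real.rpow_def_of_pos hpos]
  congr 2
  ring

/-- the real weight is dominated by the regularised one. -/
theorem scG_le_sum {n : ℕ} (a : ι → ℝ) (ha : ∀ i, 0 < a i) (δ : ℝ) (hδ : 0 ≤ δ)
    (g : ι → Cn n → ℂ) (z : Cn n) :
    (scG a fun i => g i z) ≤ ∑ i, (‖g i z‖ ^ 2 + δ) ^ a i := by
  unfold scG
  refine Finset.sum_le_sum fun i _ => ?_
  rw [Real.rpow_mul (norm_nonneg _), Real.rpow_two]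
  exact Real.rpow_le_rpow (sq_nonneg _) (by linarith) (ha i).le

theorem scPhi_exp_le [Nonempty ι] {n : ℕ} (a : ι → ℝ) (ha : ∀ i, 0 < a i) (e δ : ℝ) (he : 0 ≤ e)
    (hδ : 0 < δ) (g : ι → Cn n → ℂ) (z : Cn n) :
    ENNReal.ofReal (Real.exp (-scPhi a e δ g z)) ≤ (scP a fun i => g i z) ^ (-e) := by
  rw [scPhi_exp a e δ hδ, scP_eq a ha, ENNReal.rpow_neg, ENNReal.rpow_neg, ENNReal.inv_le_inv]
  exact ENNReal.rpow_le_rpow (ENNReal.ofReal_le_ofReal (scG_le_sum a ha δ hδ.le g z)) he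

theorem scPhi_tendsto [Nonempty ι] {n : ℕ} (a : ι → ℝ) (ha : ∀ i, 0 < a i) (e : ℝ)
    (g : ι → Cn n → ℂ) (z : Cn n) :
    Tendsto (fun ν : ℕ => ENNReal.ofReal (Real.exp (-scPhi a e (1 / ((ν : ℝ) + 1)) g z))) atTop
      (𝓝 ((scP a fun i => g i z) ^ (-e))) := by
  have h0 : ∀ ν : ℕ, ENNReal.ofReal (Real.exp (-scPhi a e (1 / ((ν : ℝ) + 1)) g z))
      = ENNReal.ofReal (∑ i, (‖g i z‖ ^ 2 + 1 / ((ν : ℝ) + 1)) ^ a i) ^ (-e) := fun ν =>
    scPhi_exp a e _ (by positivity) g z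
  simp only [h0]
  have h1 : Tendsto (fun ν : ℕ => ∑ i, (‖g i z‖ ^ 2 + 1 / ((ν : ℝ) + 1)) ^ a i) atTop
      (𝓝 (scG a fun i => g i z)) := by
    unfold scG
    refine tendsto_finsetSum _ fun i _ => ?_
    have h2 : Tendsto (fun ν : ℕ => ‖g i z‖ ^ 2 + 1 / ((ν : ℝ) + 1)) atTop (𝓝 (‖g i z‖ ^ 2 + 0)) :=
      tendsto_const_nhds.add tendsto_one_div_add_atTop_nhds_zero_nat
    rw [add_zero] at h2
    have h3 := h2.rpow_const (p := a i) (Or.inr (ha i).le)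
    have e3 : (‖g i z‖ ^ 2) ^ a i = ‖g i z‖ ^ (2 * a i) := by
      rw [Real.rpow_mul (norm_nonneg _), Real.rpow_two]
    rwa [e3] at h3
  rw [scP_eq a ha]
  exact ((ENNReal.continuous_rpow_const.comp ENNReal.continuous_ofReal).tendsto _).comp h1

/-! ### L8: Fatou -/

/-- continuity of the regularised weight. -/
theorem scPhi_continuousOn [Nonempty ι] {n : ℕ} (a : ι → ℝ) (e δ : ℝ) (hδ : 0 < δ)
    (g : ι → Cn n → ℂ) (U : Set (Cn n)) (hg : ∀ i, ContinuousOn (g i) U) :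
    ContinuousOn (scPhi a e δ g) U := by
  unfold scPhi
  refine continuousOn_const.mul (ContinuousOn.log ?_ fun y _ => (scPhi_sum_pos a δ g y).ne')
  refine continuousOn_finsetSum _ fun i _ => ?_
  refine (continuousOn_const.mul (ContinuousOn.log ?_ fun y _ => by positivity)).rexp
  exact ((hg i).norm.pow 2).add continuousOn_const

theorem sc_fatou [Nonempty ι] {n : ℕ} (a : ι → ℝ) (ha : ∀ i, 0 < a i) (e : ℝ) (g : ι → Cn n → ℂ)
    (U T : Set (Cn n)) (hU : IsOpen U) (hT : MeasurableSet T) (hTU : T ⊆ U)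
    (hg : ∀ i, ContinuousOn (g i) U) (M : ℝ≥0∞)
    (h : ∀ ν : ℕ, ∫⁻ z in T, ENNReal.ofReal (Real.exp (-scPhi a e (1 / ((ν : ℝ) + 1)) g z)) ≤ M) :
    ∫⁻ z in T, (scP a fun i => g i z) ^ (-e) ≤ M := by
  have hmeas : ∀ ν : ℕ, AEMeasurable
      (fun z => ENNReal.ofReal (Real.exp (-scPhi a e (1 / ((ν : ℝ) + 1)) g z)))
      (volume.restrict T) := by
    intro ν
    have h1 : ContinuousOn (scPhi a e (1 / ((ν : ℝ) + 1)) g) T :=
      (scPhi_continuousOn a e _ (by positivity) g U hg).mono hTU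
    have h2 : ContinuousOn
        (fun z => ENNReal.ofReal (Real.exp (-scPhi a e (1 / ((ν : ℝ) + 1)) g z))) T :=
      ENNReal.continuous_ofReal.comp_continuousOn h1.neg.rexp
    exact h2.aemeasurable hT
  have h1 := lintegral_liminf_le' (u := atTop) hmeas
  have h2 : ∀ z, liminf (fun ν : ℕ =>
      ENNReal.ofReal (Real.exp (-scPhi a e (1 / ((ν : ℝ) + 1)) g z))) atTop
      = (scP a fun i => g i z) ^ (-e) := fun z => (scPhi_tendsto a ha e g z).liminf_eq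
  simp only [h2] at h1
  refine h1.trans ?_
  calc liminf (fun ν : ℕ =>
        ∫⁻ z in T, ENNReal.ofReal (Real.exp (-scPhi a e (1 / ((ν : ℝ) + 1)) g z))) atTop
      ≤ liminf (fun _ : ℕ => M) atTop := liminf_le_liminf (Eventually.of_forall h)
    _ = M := liminf_const M

end Claimed.Agent.R242
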