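/-
Row 242, SCV layer, package SC: the induction (leaf SCV-SC-IND = all `sorry`s of this file) and the PROVED
glue.   Architect: helper64.

`sc_zero`: `Cn 0` is a point (`volume = dirac`, `Measure.pi_of_empty`), `G^{-(c+1)}` is continuous with values in
  `[0,∞]` and finite at `(0,s₀)`; `ε = r = 1`, `M = value + 1`.
`sc_centred`: translate (`ScFam.translate`, `r242_setLIntegral_ball_sub`).
`sc_compact`: `IsCompact.induction_on` for `P K := ∃ ε > 0, ∃ M < ⊤, ∀ ε' ∈ (0,ε], ∀ᶠ s, ∫_K G_s^{-(c+ε')} ≤ M`;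
  local step: `sc_centred` at `x` with radius `R - R₁`, `sc_rpow_le_one_add`, `lintegral_add_left`.
`sc_unif_int`: `sc_unif_int_abs` with `H x s = scG a (g · x s)`, `scP_eq`.
`sc_bound`: `IsCompact.eventually_forall_of_forall_eventually` + `IsCompact.exists_bound_of_continuousOn`.
-/
import Claimed.Agent.R242.SCV.ScMeas
import Claimed.Agent.R242.SCV.ScPhi

set_option autoImplicit false

open MeasureTheory Complex Set Filter
open scoped ContDiff ComplexConjugate ENNReal Topology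

namespace Claimed.Agent.R242

variable {ι : Type*} [Fintype ι] {S : Type*} [TopologicalSpace S]

/-! ### L0: dimension zero -/

theorem sc_lintegral_Cn_zero (f : Cn 0 → ℝ≥0∞) : ∫⁻ z, f z = f 0 := by
  rw [volume_pi, Measure.pi_of_empty _ (0 : Cn 0), lintegral_dirac]

theorem sc_zero (a : ι → ℝ) (ha : ∀ i, 0 < a i) (c : ℝ) (hc : 0 < c) (s₀ : S) : ScAt a c s₀ 0 := by
  intro R hR g hg hint
  have hball : Metric.ball (0 : Cn 0) R = univ := by
    ext z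
    simp only [mem_univ, iff_true]
    rw [Subsingleton.elim z 0]
    exact Metric.mem_ball_self hR
  rw [hball, Measure.restrict_univ, sc_lintegral_Cn_zero] at hint
  -- the weight does not vanish at the base point
  have h0 : (scP a fun i => g i 0 s₀) ≠ 0 := by
    intro h
    rw [h, ENNReal.zero_rpow_of_neg (by linarith)] at hint
    exact lt_irrefl _ hint
  have hfin : (scP a fun i => g i 0 s₀) ^ (-(c + 1)) < ⊤ := by
    rw [lt_top_iff_ne_top, Ne, ENNReal.rpow_eq_top_iff]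
    rintro (⟨h1, _⟩ | ⟨_, h2⟩)
    · exact h0 h1
    · linarith
  -- continuity in the parameter
  have hcont : ContinuousAt (fun s : S => (scP a fun i => g i 0 s) ^ (-(c + 1))) s₀ := by
    have h1 : ContinuousAt (fun q : Cn 0 × S => (scP a fun i => g i q.1 q.2) ^ (-(c + 1)))
        ((0 : Cn 0), s₀) :=
      (hg.continuousOn_rpow a ha (c + 1)).continuousAt
        ((Metric.isOpen_ball.prod isOpen_univ).mem_nhds ⟨Metric.mem_ball_self hR, mem_univ _⟩)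
    have h2 : ContinuousAt (fun s : S => ((0 : Cn 0), s)) s₀ := by fun_prop
    exact ContinuousAt.comp (f := fun s : S => ((0 : Cn 0), s))
      (g := fun q : Cn 0 × S => (scP a fun i => g i q.1 q.2) ^ (-(c + 1))) h1 h2
  refine ⟨1, one_pos, 1, one_pos, (scP a fun i => g i 0 s₀) ^ (-(c + 1)) + 1,
    ENNReal.add_lt_top.2 ⟨hfin, ENNReal.one_lt_top⟩, ?_⟩
  have hlt : (scP a fun i => g i 0 s₀) ^ (-(c + 1)) < (scP a fun i => g i 0 s₀) ^ (-(c + 1)) + 1 :=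
    ENNReal.lt_add_right hfin.ne one_ne_zero
  filter_upwards [hcont.eventually_lt continuousAt_const hlt] with s hs
  calc ∫⁻ z in Metric.ball (0 : Cn 0) 1, (scP a fun i => g i z s) ^ (-(c + 1))
      ≤ ∫⁻ z, (scP a fun i => g i z s) ^ (-(c + 1)) := setLIntegral_le_lintegral _ _
    _ = (scP a fun i => g i 0 s) ^ (-(c + 1)) := sc_lintegral_Cn_zero _
    _ ≤ _ := hs.le

/-! ### L1, L2: centred version, compact sets -/

theorem sc_centred {a : ι → ℝ} {c : ℝ} {s₀ : S} {n : ℕ} (h : ScAt a c s₀ n)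
    (b : Cn n) (R : ℝ) (hR : 0 < R) (g : ι → Cn n → S → ℂ) (hg : ScFam n b R g)
    (hint : ∫⁻ z in Metric.ball b R, (scP a fun i => g i z s₀) ^ (-c) < ⊤) :
    ∃ ε > 0, ∃ r > 0, ∃ M : ℝ≥0∞, M < ⊤ ∧ ∀ᶠ s in 𝓝 s₀,
      ∫⁻ z in Metric.ball b r, (scP a fun i => g i z s) ^ (-(c + ε)) ≤ M := by
  have key : ∀ (r e : ℝ) (s : S), ∫⁻ z in Metric.ball (0 : Cn n) r,
      (scP a fun i => g i (z + b) s) ^ (-e) =
      ∫⁻ z in Metric.ball b r, (scP a fun i => g i z s) ^ (-e) := by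
    intro r e s
    have := r242_setLIntegral_ball_sub b r (fun z => (scP a fun i => g i (z + b) s) ^ (-e))
    simp only [sub_add_cancel] at this
    exact this.symm
  obtain ⟨ε, hε, r, hr, M, hM, hev⟩ := h R hR (fun i z s => g i (z + b) s) hg.translate
    (by rw [key]; exact hint)
  refine ⟨ε, hε, r, hr, M, hM, ?_⟩
  filter_upwards [hev] with s hs
  rw [← key]
  exact hs

theorem sc_compact {a : ι → ℝ} {c : ℝ} (hc : 0 < c) {s₀ : S} {n : ℕ} (h : ScAt a c s₀ n)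
    (R R₁ : ℝ) (hR₁ : R₁ < R) (g : ι → Cn n → S → ℂ) (hg : ScFam n 0 R g)
    (hint : ∫⁻ z in Metric.ball (0 : Cn n) R, (scP a fun i => g i z s₀) ^ (-c) < ⊤) :
    ∃ ε > 0, ∃ M : ℝ≥0∞, M < ⊤ ∧ ∀ᶠ s in 𝓝 s₀,
      ∫⁻ z in Metric.closedBall (0 : Cn n) R₁, (scP a fun i => g i z s) ^ (-(c + ε)) ≤ M := by
  have main : ∃ ε > 0, ∃ M : ℝ≥0∞, M < ⊤ ∧ ∀ ε' : ℝ, 0 < ε' → ε' ≤ ε → ∀ᶠ s in 𝓝 s₀,
      ∫⁻ z in Metric.closedBall (0 : Cn n) R₁, (scP a fun i => g i z s) ^ (-(c + ε')) ≤ M := by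
    refine IsCompact.induction_on (p := fun K : Set (Cn n) => ∃ ε > 0, ∃ M : ℝ≥0∞, M < ⊤ ∧
      ∀ ε' : ℝ, 0 < ε' → ε' ≤ ε → ∀ᶠ s in 𝓝 s₀,
        ∫⁻ z in K, (scP a fun i => g i z s) ^ (-(c + ε')) ≤ M)
      (isCompact_closedBall (0 : Cn n) R₁) ?_ ?_ ?_ ?_
    · exact ⟨1, one_pos, 0, ENNReal.zero_lt_top, fun ε' _ _ => Eventually.of_forall fun s => by simp⟩
    · rintro K K' hKK' ⟨ε, hε, M, hM, hev⟩
      refine ⟨ε, hε, M, hM, fun ε' h1 h2 => ?_⟩
      filter_upwards [hev ε' h1 h2] with s hs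
      exact (lintegral_mono_set hKK').trans hs
    · rintro K K' ⟨ε, hε, M, hM, hev⟩ ⟨ε₂, hε₂, M₂, hM₂, hev₂⟩
      refine ⟨min ε ε₂, lt_min hε hε₂, M + M₂, ENNReal.add_lt_top.2 ⟨hM, hM₂⟩, fun ε' h1 h2 => ?_⟩
      filter_upwards [hev ε' h1 (h2.trans (min_le_left _ _)),
        hev₂ ε' h1 (h2.trans (min_le_right _ _))] with s hs hs₂
      exact (lintegral_union_le _ _ _).trans (add_le_add hs hs₂)
    · intro x hx
      have hsub : Metric.ball x (R - R₁) ⊆ Metric.ball (0 : Cn n) R := by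
        intro z hz
        rw [Metric.mem_closedBall] at hx
        rw [Metric.mem_ball] at hz ⊢
        calc dist z 0 ≤ dist z x + dist x 0 := dist_triangle _ _ _
          _ < (R - R₁) + R₁ := add_lt_add_of_lt_of_le hz hx
          _ = R := by ring
      obtain ⟨ε, hε, r, hr, M, hM, hev⟩ := sc_centred h x (R - R₁) (by linarith) g (hg.mono hsub)
        ((lintegral_mono_set hsub).trans_lt hint)
      refine ⟨Metric.ball x r, mem_nhdsWithin_of_mem_nhds (Metric.ball_mem_nhds x hr), ε, hε,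
        volume (Metric.ball x r) + M,
        ENNReal.add_lt_top.2 ⟨measure_ball_lt_top, hM⟩, fun ε' h1 h2 => ?_⟩
      filter_upwards [hev] with s hs
      calc ∫⁻ z in Metric.ball x r, (scP a fun i => g i z s) ^ (-(c + ε'))
          ≤ ∫⁻ z in Metric.ball x r, (1 + (scP a fun i => g i z s) ^ (-(c + ε))) :=
            lintegral_mono fun z => sc_rpow_le_one_add _ _ _ (by linarith) (by linarith)
        _ = volume (Metric.ball x r) + ∫⁻ z in Metric.ball x r,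
              (scP a fun i => g i z s) ^ (-(c + ε)) := by
            rw [lintegral_add_left measurable_const, lintegral_const, one_mul,
              Measure.restrict_apply MeasurableSet.univ, univ_inter]
        _ ≤ _ := add_le_add le_rfl hs
  obtain ⟨ε, hε, M, hM, hev⟩ := main
  exact ⟨ε, hε, M, hM, hev ε hε le_rfl⟩

/-! ### L3 (concrete form) -/

theorem sc_unif_int {a : ι → ℝ} (ha : ∀ i, 0 < a i) {c : ℝ} (hc : 0 < c) {s₀ : S} {n : ℕ}
    (R R₁ : ℝ) (hR₁ : R₁ < R) (g : ι → Cn n → S → ℂ) (hg : ScFam n 0 R g)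
    (ε₁ : ℝ) (hε₁ : 0 < ε₁) (M₁ : ℝ≥0∞) (hM₁ : M₁ < ⊤)
    (h₁ : ∀ᶠ s in 𝓝 s₀,
      ∫⁻ z in Metric.closedBall (0 : Cn n) R₁, (scP a fun i => g i z s) ^ (-(c + ε₁)) ≤ M₁)
    (m₀ : ℝ) (hm₀ : 0 ≤ m₀)
    (h₀ : ∫⁻ z in Metric.closedBall (0 : Cn n) R₁, (scP a fun i => g i z s₀) ^ (-c)
      ≤ ENNReal.ofReal m₀) :
    ∃ ε₂ > 0, ε₂ ≤ 1 ∧ ∀ᶠ s in 𝓝 s₀,
      ∫⁻ z in Metric.closedBall (0 : Cn n) R₁, (scP a fun i => g i z s) ^ (-(c + ε₂))
        ≤ ENNReal.ofReal (2 * m₀ + 1) := by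
  simp only [scP_eq a ha] at h₁ h₀ ⊢
  refine sc_unif_int_abs volume (Metric.closedBall (0 : Cn n) R₁) (isCompact_closedBall _ _)
    Metric.isClosed_closedBall.measurableSet measure_closedBall_lt_top
    (fun z s => scG a fun i => g i z s) (fun z s => scG_nonneg _ _) s₀ ?_ c hc ε₁ hε₁ M₁ hM₁ h₁
    m₀ hm₀ h₀
  intro x hx
  exact (hg.continuousOn_scG a ha).continuousAt
    ((Metric.isOpen_ball.prod isOpen_univ).mem_nhds
      ⟨Metric.closedBall_subset_ball hR₁ hx, mem_univ _⟩)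

/-! ### L6: uniform bound -/

theorem sc_bound {n : ℕ} (R R₁ : ℝ) (hR₁ : R₁ < R) (g : ι → Cn n → S → ℂ) (hg : ScFam n 0 R g)
    (s₀ : S) :
    ∃ A₀ : ℝ, 0 ≤ A₀ ∧ ∀ᶠ s in 𝓝 s₀, ∀ z ∈ Metric.closedBall (0 : Cn n) R₁, ∀ i, ‖g i z s‖ ≤ A₀ := by
  have hK : IsCompact (Metric.closedBall (0 : Cn n) R₁) := isCompact_closedBall _ _
  have hat : ∀ i, ∀ x ∈ Metric.closedBall (0 : Cn n) R₁,
      ContinuousAt (fun q : Cn n × S => g i q.1 q.2) (x, s₀) := by
    intro i x hx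
    exact (hg.cont i).continuousAt ((Metric.isOpen_ball.prod isOpen_univ).mem_nhds
      ⟨Metric.closedBall_subset_ball hR₁ hx, mem_univ _⟩)
  have hB : ∀ i, ∃ B : ℝ, ∀ z ∈ Metric.closedBall (0 : Cn n) R₁, ‖g i z s₀‖ ≤ B := by
    intro i
    apply hK.exists_bound_of_continuousOn
    intro x hx
    have h1 : ContinuousAt (fun x : Cn n => (x, s₀)) x := by fun_prop
    exact (ContinuousAt.comp (f := fun x : Cn n => (x, s₀))
      (g := fun q : Cn n × S => g i q.1 q.2) (hat i x hx) h1).continuousWithinAt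
  choose B hB using hB
  refine ⟨∑ i, (|B i| + 1), Finset.sum_nonneg fun i _ => by positivity, ?_⟩
  have hev : ∀ i, ∀ᶠ s in 𝓝 s₀, ∀ z ∈ Metric.closedBall (0 : Cn n) R₁,
      ‖g i z s‖ ≤ ‖g i z s₀‖ + 1 := fun i =>
    sc_ui_unif _ hK (fun z s => ‖g i z s‖) s₀ (fun x hx => (hat i x hx).norm) 1 one_pos
  filter_upwards [eventually_all.2 hev] with s hs z hz i
  calc ‖g i z s‖ ≤ ‖g i z s₀‖ + 1 := hs i z hz
    _ ≤ |B i| + 1 := by
      have := hB i z hz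
      linarith [le_abs_self (B i)]
    _ ≤ ∑ i, (|B i| + 1) :=
      Finset.single_le_sum (f := fun i => |B i| + 1) (fun i _ => by positivity) (Finset.mem_univ i)

/-! ### L9: the induction step and the theorem -/

theorem sc_step {a : ι → ℝ} (ha : ∀ i, 0 < a i) {c : ℝ} (hc : 0 < c) {s₀ : S} {n : ℕ}
    (hinv : ScInv n) (h : ScAt a c s₀ n) : ScAt a c s₀ (n + 1) := by
  intro R hR g hg hint
  have : Nonempty ι := sc_nonempty a c hc R hR (fun i z => g i z s₀) hint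
  set R₁ : ℝ := R / 2 with hR₁
  have hR₁0 : 0 < R₁ := by positivity
  have hR₁R : R₁ < R := by rw [hR₁]; linarith
  -- (2) uniform bound
  obtain ⟨A₀, hA₀, hbd⟩ := sc_bound R R₁ hR₁R g hg s₀
  set A : ℝ := (c + 1) * max 0 (Real.log (∑ i, (A₀ ^ 2 + 1) ^ a i)) with hA
  -- (3) constants of INV
  obtain ⟨c₀, C, hc₀, hC, hINV⟩ := hinv R₁ hR₁0 A
  -- (1) Tonelli
  set m : ℂ → ℝ≥0∞ := fun w =>
    ∫⁻ z' in Metric.ball (0 : Cn n) R, (scP a fun i => g i (Fin.cons w z') s₀) ^ (-c) with hm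
  have hmint : ∫⁻ w in Metric.ball (0 : ℂ) R, m w < ⊤ := by
    rw [hm, sc_tonelli R (fun z => (scP a fun i => g i z s₀) ^ (-c))
      (hg.aemeasurable_rpow a ha c s₀)]
    exact hint
  -- (4) the slice
  obtain ⟨w₀, hw0, hwρ, hmw, hw4⟩ :=
    sc_choose_slice m R hmint c₀ hc₀ (R₁ / 16) (by positivity) (by linarith)
  set m₀ : ℝ := (m w₀).toReal with hm₀
  have hm₀0 : 0 ≤ m₀ := ENNReal.toReal_nonneg
  set m' : ℝ := 2 * m₀ + 1 with hm'
  have hm'0 : 0 < m' := by positivity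
  -- (5) induction hypothesis on the slice
  have hwR : ‖w₀‖ < R := by linarith
  have hg' := hg.slice w₀ hwR
  obtain ⟨ε₁, hε₁, M₁, hM₁, h₁⟩ := sc_compact hc h R R₁ hR₁R _ hg' hmw
  -- (6) uniform integrability
  have h₀ : ∫⁻ z in Metric.closedBall (0 : Cn n) R₁, (scP a fun i => g i (Fin.cons w₀ z) s₀) ^ (-c)
      ≤ ENNReal.ofReal m₀ := by
    rw [hm₀, ENNReal.ofReal_toReal hmw.ne]
    exact lintegral_mono_set (Metric.closedBall_subset_ball hR₁R)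
  obtain ⟨ε₂, hε₂, hε₂1, h₂⟩ :=
    sc_unif_int ha hc R R₁ hR₁R _ hg' ε₁ hε₁ M₁ hM₁ h₁ m₀ hm₀0 h₀
  refine ⟨ε₂, hε₂, min ‖w₀‖ (R₁ / 2), lt_min hw0 (by positivity), ENNReal.ofReal (C * m'),
    ENNReal.ofReal_lt_top, ?_⟩
  filter_upwards [hbd, h₂] with s hs1 hs2
  set T : Set (Cn (n + 1)) := {z | ‖z 0 - w₀‖ < 2 * ‖w₀‖ ∧ ∀ i : Fin n, ‖z i.succ‖ < R₁ / 2} with hT
  have hTm : MeasurableSet T := by
    have : T = {z : Cn (n + 1) | ‖z 0 - w₀‖ < 2 * ‖w₀‖} ∩ ⋂ i : Fin n, {z | ‖z i.succ‖ < R₁ / 2} := by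
      ext z; simp [hT]
    rw [this]
    refine MeasurableSet.inter ?_ (MeasurableSet.iInter fun i => ?_)
    · exact measurableSet_lt (by fun_prop) measurable_const
    · exact measurableSet_lt (by fun_prop) measurable_const
  have hTU : T ⊆ Metric.ball (0 : Cn (n + 1)) R₁ := by
    intro z hz
    rw [mem_ball_zero_iff, pi_norm_lt_iff hR₁0]
    intro i
    refine Fin.cases ?_ (fun i => ?_) i
    · have h1 : ‖z 0‖ ≤ ‖z 0 - w₀‖ + ‖w₀‖ := by
        have := norm_add_le (z 0 - w₀) w₀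
        rwa [sub_add_cancel] at this
      linarith [hz.1]
    · linarith [hz.2 i]
  have hsub : Metric.ball (0 : Cn (n + 1)) (min ‖w₀‖ (R₁ / 2)) ⊆ T := by
    intro z hz
    rw [mem_ball_zero_iff, pi_norm_lt_iff (lt_min hw0 (by positivity))] at hz
    refine ⟨?_, fun i => lt_of_lt_of_le (hz i.succ) (min_le_right _ _)⟩
    have h1 : ‖z 0 - w₀‖ ≤ ‖z 0‖ + ‖w₀‖ := norm_sub_le _ _
    have h2 : ‖z 0‖ < ‖w₀‖ := lt_of_lt_of_le (hz 0) (min_le_left _ _)
    linarith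
  refine (lintegral_mono_set hsub).trans ?_
  have hsubU : Metric.ball (0 : Cn (n + 1)) R₁ ⊆ Metric.ball (0 : Cn (n + 1)) R :=
    Metric.ball_subset_ball hR₁R.le
  refine sc_fatou a ha (c + ε₂) (fun i z => g i z s) (Metric.ball 0 R₁) T Metric.isOpen_ball hTm hTU
    (fun i => ((hg.holo i s).mono hsubU).continuousOn) _ (fun ν => ?_)
  have hδ : (0 : ℝ) < 1 / ((ν : ℝ) + 1) := by positivity
  have hδ1 : 1 / ((ν : ℝ) + 1) ≤ 1 := by
    rw [div_le_one (by positivity)]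
    have : (0 : ℝ) ≤ ν := Nat.cast_nonneg ν
    linarith
  refine hINV (scPhi a (c + ε₂) (1 / ((ν : ℝ) + 1)) fun i z => g i z s)
    (scPhi_psh a ha _ _ (by positivity) hδ _ _ Metric.isOpen_ball
      fun i => (hg.holo i s).mono hsubU)
    (fun z hz => scPhi_le a ha (c + ε₂) (c + 1) _ A₀ (by positivity) (by linarith) hδ hδ1 _ z
      fun i => hs1 z (Metric.ball_subset_closedBall hz) i)
    w₀ (by linarith) m' hm'0 ?_ (2 * ‖w₀‖) (by positivity) (by linarith) (by nlinarith [hw4])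
  calc ∫⁻ z' in Metric.ball (0 : Cn n) R₁, ENNReal.ofReal
        (Real.exp (-scPhi a (c + ε₂) (1 / ((ν : ℝ) + 1)) (fun i z => g i z s) (Fin.cons w₀ z')))
      ≤ ∫⁻ z' in Metric.ball (0 : Cn n) R₁, (scP a fun i => g i (Fin.cons w₀ z') s) ^ (-(c + ε₂)) :=
        lintegral_mono fun z' => scPhi_exp_le a ha _ _ (by positivity) hδ _ _
    _ ≤ ∫⁻ z' in Metric.closedBall (0 : Cn n) R₁,
          (scP a fun i => g i (Fin.cons w₀ z') s) ^ (-(c + ε₂)) :=
        lintegral_mono_set Metric.ball_subset_closedBall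
    _ ≤ ENNReal.ofReal m' := hs2

theorem sc_all {a : ι → ℝ} (ha : ∀ i, 0 < a i) {c : ℝ} (hc : 0 < c) (s₀ : S)
    (hinv : ∀ n, ScInv n) (n : ℕ) : ScAt a c s₀ n := by
  induction n with
  | zero => exact sc_zero a ha c hc s₀
  | succ n ih => exact sc_step ha hc (hinv n) ih

/-- **SC** (semicontinuity + openness of integrability in continuous families), from `INV`.
The statement is `semicontinuity` of `Main` with `sumPow` unfolded. -/
theorem sc_semicontinuity (hinv : ∀ n, ScInv n)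
    (n : ℕ) (R : ℝ) (hR : 0 < R) (a : ι → ℝ) (ha : ∀ i, 0 < a i)
    (g : ι → Cn n → S → ℂ)
    (hgc : ∀ i, ContinuousOn (fun q : Cn n × S => g i q.1 q.2) (Metric.ball 0 R ×ˢ Set.univ))
    (hgh : ∀ i s, DifferentiableOn ℂ (fun z => g i z s) (Metric.ball 0 R))
    (c : ℝ) (hc : 0 < c) (s₀ : S)
    (hint : ∫⁻ z in Metric.ball (0 : Cn n) R,
      (∑ i, ENNReal.ofReal ‖g i z s₀‖ ^ (2 * a i)) ^ (-c) < ⊤) :
    ∃ ε > 0, ∃ r > 0, ∃ M : ℝ≥0∞, M < ⊤ ∧ ∀ᶠ s in 𝓝 s₀,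
      ∫⁻ z in Metric.ball (0 : Cn n) r,
        (∑ i, ENNReal.ofReal ‖g i z s‖ ^ (2 * a i)) ^ (-(c + ε)) ≤ M :=
  sc_all ha hc s₀ hinv n R hR g ⟨hgc, hgh⟩ hint

end Claimed.Agent.R242
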