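/-
Row 242 (S0480), SCV layer: THE PUBLIC INTERFACE (statements consumed by the other layers).
Owner: helper290.  All statements are closed by citing the package files (RD kit, HOR, WEYL, OT, SC).
Do not edit without asking helper290.
-/
import Claimed.Agent.R242.SCV.Defs
import Claimed.Agent.R242.SCV.RdInst
import Claimed.Agent.R242.SCV.HorBridge
import Claimed.Agent.R242.SCV.WeylRd
import Claimed.Agent.R242.SCV.HorHolo
import Claimed.Agent.R242.SCV.HorOpenAd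
import Claimed.Agent.R242.SCV.Ot
import Claimed.Agent.R242.SCV.Sc

open MeasureTheory Complex
open scoped ContDiff ComplexConjugate ENNReal Topology

namespace Claimed.Agent.R242

section RD

variable {n : ℕ} {W : Type*} [TopologicalSpace W] [T2Space W] [SecondCountableTopology W]
  [MeasurableSpace W] [BorelSpace W] {p : W → Cn n} (hp : IsLocalHomeomorph p)

include hp in
/-- The pull-back measure exists. -/
theorem isRdVol_rdVol : IsRdVol p (rdVol p) := rdVol_isRdVol hp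

/-- **HOR** (Hörmander, sharp constant).  `ρ` = smooth exhaustion with Levi form `≥ |a|²`. -/
theorem hormander_rd
    (ρ : W → ℝ) (hρ : RdContDiff hp ∞ ρ) (hρc : ∀ t, IsCompact {x | ρ x ≤ t})
    (hρl : ∀ x a, ∑ j, ‖a j‖ ^ 2 ≤ rdLevi hp ρ x a)
    (φ : W → ℝ) (hφ : RdContDiff hp ∞ φ) (hφl : ∀ x a, 0 ≤ rdLevi hp φ x a)
    (f : Fin n → W → ℂ) (hf : ∀ j, RdL2Loc p (f j)) (hfc : RdWeakClosed hp f)
    (B : W → ℝ) (hB : Measurable B) (hB0 : ∀ x, 0 ≤ B x)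
    (hfB : ∀ᵐ x ∂(rdVol p), ∀ a : Cn n,
      ‖∑ j, f j x * conj (a j)‖ ^ 2 ≤ B x * rdLevi hp φ x a)
    (hBi : ∫⁻ x, ENNReal.ofReal (B x) ∂(rdVolW p φ) < ⊤) :
    ∃ u : W → ℂ, RdL2Loc p u ∧ RdWeakDbar hp u f ∧
      ∫⁻ x, ENNReal.ofReal (‖u x‖ ^ 2) ∂(rdVolW p φ)
        ≤ ∫⁻ x, ENNReal.ofReal (B x) ∂(rdVolW p φ) :=
  hormander_rd_pf hp ρ hρ hρc hρl φ hφ hφl f hf hfc B hB hB0 hfB hBi

/-- **WEYL**: a locally integrable weak solution of `∂̄u = 0` is a.e. equal to a holomorphic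
(and smooth) function. -/
theorem weyl_rd (u : W → ℂ) (hu : LocallyIntegrable u (rdVol p))
    (h : RdWeakDbar hp u (fun _ _ => 0)) :
    ∃ F : W → ℂ, RdHolo hp F ∧ RdContDiff hp ∞ F ∧ u =ᵐ[rdVol p] F :=
  r242_weyl_rd hp u hu h

/-- classical `∂̄` is weak `∂̄`. -/
theorem rdWeakDbar_of_contDiff (g : W → ℂ) (hg : RdContDiff hp 1 g) :
    RdWeakDbar hp g (fun j => rdDb hp j g) :=
  rdWeakDbarK_of_contDiff hp hg (by norm_cast)

/-- **HOR-min**: the form in which HOR is used.  `g` is a smooth function (cut-off times a holomorphic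
function); we correct it to a holomorphic `F`; the error `g - F` has the Hörmander bound and is
orthogonal to all `L²(e^{-φ})` holomorphic functions. -/
theorem hormander_rd_holo
    (ρ : W → ℝ) (hρ : RdContDiff hp ∞ ρ) (hρc : ∀ t, IsCompact {x | ρ x ≤ t})
    (hρl : ∀ x a, ∑ j, ‖a j‖ ^ 2 ≤ rdLevi hp ρ x a)
    (φ : W → ℝ) (hφ : RdContDiff hp ∞ φ) (hφl : ∀ x a, 0 ≤ rdLevi hp φ x a)
    (g : W → ℂ) (hg : RdContDiff hp ∞ g)
    (B : W → ℝ) (hB : Measurable B) (hB0 : ∀ x, 0 ≤ B x)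
    (hgB : ∀ x, ∀ a : Cn n,
      ‖∑ j, rdDb hp j g x * conj (a j)‖ ^ 2 ≤ B x * rdLevi hp φ x a)
    (hBi : ∫⁻ x, ENNReal.ofReal (B x) ∂(rdVolW p φ) < ⊤) :
    ∃ F : W → ℂ, RdHolo hp F ∧ RdContDiff hp ∞ F ∧
      ∫⁻ x, ENNReal.ofReal (‖g x - F x‖ ^ 2) ∂(rdVolW p φ)
        ≤ ∫⁻ x, ENNReal.ofReal (B x) ∂(rdVolW p φ) ∧
      ∀ h : W → ℂ, RdHolo hp h → ∫⁻ x, ENNReal.ofReal (‖h x‖ ^ 2) ∂(rdVolW p φ) < ⊤ →
        ∫ x, (g x - F x) * conj (h x) ∂(rdVolW p φ) = 0 :=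
  hormander_rd_holo_of hp (hormander_rd hp) ρ hρ hρc hρl φ hφ hφl g hg B hB hB0 hgB hBi

end RD

section Open

variable {n : ℕ}

/-- `HorOpen n` (the hypothesis of the package OT) holds. -/
theorem horOpen (n : ℕ) : HorOpen n :=
  hormander_open_of fun _ hΩ => hormander_rd_holo (isLocalHomeomorph_subtype_val hΩ)

/-- **HOR-min on an open subset of `ℂⁿ`** (adapter: `W = Ω`, `p = Subtype.val`). -/
theorem hormander_open_holo (Ω : Set (Cn n)) (hΩ : IsOpen Ω)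
    (ρ : Cn n → ℝ) (hρ : ContDiffOn ℝ ∞ ρ Ω) (hρc : ∀ t, IsCompact {z | z ∈ Ω ∧ ρ z ≤ t})
    (hρl : ∀ z ∈ Ω, ∀ a, ∑ j, ‖a j‖ ^ 2 ≤ levi ρ z a)
    (φ : Cn n → ℝ) (hφ : PshOn φ Ω)
    (g : Cn n → ℂ) (hg : ContDiffOn ℝ ∞ g Ω)
    (B : Cn n → ℝ) (hB : Measurable B) (hB0 : ∀ z, 0 ≤ B z)
    (hgB : ∀ z ∈ Ω, ∀ a : Cn n, ‖∑ j, dzb j g z * conj (a j)‖ ^ 2 ≤ B z * levi φ z a)
    (hBi : ∫⁻ z in Ω, ENNReal.ofReal (B z * Real.exp (-φ z)) < ⊤) :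
    ∃ F : Cn n → ℂ, DifferentiableOn ℂ F Ω ∧ ContDiffOn ℝ ∞ F Ω ∧
      ∫⁻ z in Ω, ENNReal.ofReal (‖g z - F z‖ ^ 2 * Real.exp (-φ z))
        ≤ ∫⁻ z in Ω, ENNReal.ofReal (B z * Real.exp (-φ z)) ∧
      ∀ h : Cn n → ℂ, DifferentiableOn ℂ h Ω →
        ∫⁻ z in Ω, ENNReal.ofReal (‖h z‖ ^ 2 * Real.exp (-φ z)) < ⊤ →
        ∫ z in Ω, (g z - F z) * conj (h z) * (Real.exp (-φ z) : ℂ) = 0 :=
  horOpen n Ω ⟨hΩ, ρ, hρ, hρc, hρl⟩ φ hφ g hg B hB hB0 hgB hBi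

/-- **OT-smooth** (Ohsawa–Takegoshi for the constant `1`, hyperplane `z 0 = w₀` of a polydisc, weight
smooth psh near the closed polydisc; the constant depends only on `n, R`). -/
theorem ot_smooth (n : ℕ) (R : ℝ) (hR : 0 < R) :
    ∃ C : ℝ, 0 < C ∧ ∀ (R' : ℝ) (_ : R < R') (φ : Cn (n + 1) → ℝ)
      (_ : PshOn φ (Metric.ball 0 R')) (w₀ : ℂ) (_ : ‖w₀‖ < R),
      ∃ F : Cn (n + 1) → ℂ, DifferentiableOn ℂ F (Metric.ball 0 R) ∧
        (∀ z' : Cn n, z' ∈ Metric.ball (0 : Cn n) R → F (Fin.cons w₀ z') = 1) ∧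
        ∫⁻ z in Metric.ball (0 : Cn (n + 1)) R, ENNReal.ofReal (‖F z‖ ^ 2 * Real.exp (-φ z))
          ≤ ENNReal.ofReal C *
            ∫⁻ z' in Metric.ball (0 : Cn n) R, ENNReal.ofReal (Real.exp (-φ (Fin.cons w₀ z'))) :=
  ot_smooth_of (horOpen (n + 1)) R hR

/-- **INV** (inversion of adjunction with uniform constants): integrability of `e^{-φ}` on the slice
`z 0 = w₀` spreads to the tube of radius `r ~ m^{-1/2}` around the slice. -/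
theorem inv_adjunction (n : ℕ) (R : ℝ) (hR : 0 < R) (A : ℝ) :
    ∃ c₀ C : ℝ, 0 < c₀ ∧ 0 < C ∧ ∀ (φ : Cn (n + 1) → ℝ) (_ : PshOn φ (Metric.ball 0 R))
      (_ : ∀ z ∈ Metric.ball (0 : Cn (n + 1)) R, φ z ≤ A) (w₀ : ℂ) (_ : ‖w₀‖ < R / 2)
      (m : ℝ) (_ : 0 < m)
      (_ : ∫⁻ z' in Metric.ball (0 : Cn n) R, ENNReal.ofReal (Real.exp (-φ (Fin.cons w₀ z')))
          ≤ ENNReal.ofReal m)
      (r : ℝ) (_ : 0 < r) (_ : r ≤ R / 8) (_ : r ^ 2 * m ≤ c₀),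
      ∫⁻ z in {z : Cn (n + 1) | ‖z 0 - w₀‖ < r ∧ ∀ i : Fin n, ‖z i.succ‖ < R / 2},
        ENNReal.ofReal (Real.exp (-φ z)) ≤ ENNReal.ofReal (C * m) :=
  inv_of_ot (ot_smooth_of (horOpen (n + 1))) R hR A

/-- The weights of the theory: `G = ∑ |g_i|^{2 a_i}` with values in `[0,∞]`. -/
noncomputable def sumPow {ι : Type*} [Fintype ι] (a : ι → ℝ) (g : ι → ℂ) : ℝ≥0∞ :=
  ∑ i, ENNReal.ofReal ‖g i‖ ^ (2 * a i)

/-- **SC** (semicontinuity + openness of integrability in continuous families).  -/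
theorem semicontinuity {ι : Type*} [Fintype ι] {S : Type*} [TopologicalSpace S]
    (n : ℕ) (R : ℝ) (hR : 0 < R) (a : ι → ℝ) (ha : ∀ i, 0 < a i)
    (g : ι → Cn n → S → ℂ)
    (hgc : ∀ i, ContinuousOn (fun q : Cn n × S => g i q.1 q.2) (Metric.ball 0 R ×ˢ Set.univ))
    (hgh : ∀ i s, DifferentiableOn ℂ (fun z => g i z s) (Metric.ball 0 R))
    (c : ℝ) (hc : 0 < c) (s₀ : S)
    (hint : ∫⁻ z in Metric.ball (0 : Cn n) R, (sumPow a fun i => g i z s₀) ^ (-c) < ⊤) :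
    ∃ ε > 0, ∃ r > 0, ∃ M : ℝ≥0∞, M < ⊤ ∧ ∀ᶠ s in 𝓝 s₀,
      ∫⁻ z in Metric.ball (0 : Cn n) r, (sumPow a fun i => g i z s) ^ (-(c + ε)) ≤ M :=
  sc_semicontinuity (fun n => inv_of_ot (ot_smooth_of (horOpen (n + 1)))) n R hR a ha g hgc hgh c hc
    s₀ hint

end Open

end Claimed.Agent.R242

/-! equation lemmas of this file, cited once here (rule 6) -/
namespace Claimed.Agent.R242

theorem r242_eqcite_SCV_Main : True := by
  have := @Claimed.Agent.R242.sumPow.eq_1.{0}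
  trivial

end Claimed.Agent.R242
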