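/-
Row 242, SCV layer, package HOR.  Architect: helper147.
HorCut: multiplication of an `L²` form `β` (weakly closed, with weak adjoint `g`) by a cut-off function `η`.

Leaves:  SCV-HOR-CUT-A = `cut_adj`, `cut_curl`  (weak Leibniz rules);      SCV-HOR-CUT-B = `HorWts.cut_limit` (dominated convergence).

PLANS.
* `cut_adj`.  For a test function `u`, `ηu` is a test function and `∂̄_j(ηu) = η ∂̄_j u + u ∂̄_jη` (`db_ofReal_mul`), `conj (∂̄_jη) = ∂_jη`, `η` real: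
     `∑ ηβ_j conj(∂̄_j u) = ∑ β_j conj(∂̄_j(ηu)) - (∑ β_j ∂_jη) conj u`.
  Integrate against `C.Wt φ₂` (integrability: `β_j ∈ L²(φ₂)` times test function, `hor_integrable_mul_conj`, `test_memLp`), use `h` for `ηu`, and
  `∫ F ∂(Wt φ₂) = ∫ F e^{φ₁-φ₂} ∂(Wt φ₁)` (`integral_Wt_change`).
* `cut_curl`.  `ηβ_j ∂̄_k v - ηβ_k ∂̄_j v = [β_j ∂̄_k(ηv) - β_k ∂̄_j(ηv)] - (β_j ∂̄_kη - β_k ∂̄_jη) v`; the bracket integrates to `0` by `h` for `ηv`.
  Integrability w.r.t. `μ`: `β_j ∈ L²_loc` (`L2Loc_of_memLp_Wt`, `L2Loc.integrable_mul_μ`).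
* `cut_limit`.  Three applications of dominated convergence (`tendsto_integral_of_dominated_convergence`), then `Tendsto ... (𝓝 0)` gives `≤ ε` eventually; take
  an index good for the finitely many conditions (`Filter.Eventually.and`, `Filter.eventually_all`, `.exists`).
   (1) `‖η_i β_j - β_j‖² ≤ ‖β_j‖²`, `→ 0` pointwise (`P.ηev`: `η_i x = 1` eventually);
   (2) `‖η_i g - e^{φ₁-φ₂} ∑ β_j ∂_jη_i - g‖² ≤ 2‖g‖² + 2 e^{-2ψ} (∑‖β_j‖²)(∑‖∂_jη_i‖²) ≤ 2‖g‖² + 2 e^{-ψ} ∑‖β_j‖²`, and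
       `e^{-ψ}‖β_j‖²` is integrable for `Wt φ₁` because `φ₁ + ψ = φ₂` (`integrable_Wt_change_real`); pointwise limit `0` because `∂_jη_i x = 0` as soon as
       `η_i = 1` near `x` (`dR_congr`, `dR_const`);  `‖∂_jη‖ = ‖∂̄_jη‖` (`norm_dbR`), `P.ηd`;
   (3) `‖β_j ∂̄_kη_i - β_k ∂̄_jη_i‖² ≤ 2 e^{ψ}(‖β_j‖² + ‖β_k‖²)`, integrable for `Wt Φ` because `Φ - ψ = φ₂`.
-/
import Claimed.Agent.R242.SCV.HorKitC
import Claimed.Agent.R242.SCV.HorWDef

open MeasureTheory Complex Filter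
open scoped ContDiff ComplexConjugate ENNReal Topology

namespace Claimed.Agent.R242

variable {W : Type*} [TopologicalSpace W] [T2Space W] [MeasurableSpace W] [BorelSpace W] {n : ℕ}
  {C : RDCalc W n}

/-- the weak adjoint of `ηβ`. -/
noncomputable def RDCalc.cutAdj (C : RDCalc W n) (φ₁ φ₂ η : W → ℝ) (β : Fin n → W → ℂ) (g : W → ℂ) (x : W) : ℂ :=
  (η x : ℂ) * g x - ((Real.exp (φ₁ x - φ₂ x) : ℝ) : ℂ) * ∑ j, β j x * C.dR j η x

/-- the weak curl of `ηβ` (`β` closed). -/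
noncomputable def RDCalc.cutCurl (C : RDCalc W n) (η : W → ℝ) (β : Fin n → W → ℂ) (j k : Fin n) (x : W) : ℂ :=
  β j x * C.dbR k η x - β k x * C.dbR j η x

theorem RDCalc.cut_adj (C : RDCalc W n) {φ₁ φ₂ η : W → ℝ} {β : Fin n → W → ℂ} {g : W → ℂ}
    (hφ₁ : C.SmR φ₁) (hφ₂ : C.SmR φ₂) (hη : C.SmR η)
    (hβ : ∀ j, MemLp (β j) 2 (C.Wt φ₂)) (hg : MemLp g 2 (C.Wt φ₁)) (h : C.WeakAdj φ₁ φ₂ β g) :
    C.WeakAdj φ₁ φ₂ (fun j x => (η x : ℂ) * β j x) (C.cutAdj φ₁ φ₂ η β g) := by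
  intro u hu
  have hc₁ : Continuous φ₁ := C.smR_cont hφ₁
  have hc₂ : Continuous φ₂ := C.smR_cont hφ₂
  have hηu : C.Test fun x => (η x : ℂ) * u x := C.test_mul_left hη hu
  have h1 := h _ hηu
  -- pointwise identity
  have e1 : ∀ x, ∑ j, β j x * conj (C.db j (fun y => (η y : ℂ) * u y) x)
      = ∑ j, (η x : ℂ) * β j x * conj (C.db j u x) + ∑ j, β j x * (C.dR j η x * conj (u x)) := by
    intro x
    rw [← Finset.sum_add_distrib]
    refine Finset.sum_congr rfl fun j _ => ?_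
    rw [C.db_ofReal_mul j x hη hu.1, map_add, map_mul, map_mul, Complex.conj_ofReal,
      ← C.dR_eq_conj j x hη]
    ring
  have i1 : ∀ j ∈ (Finset.univ : Finset (Fin n)),
      Integrable (fun x => (η x : ℂ) * β j x * conj (C.db j u x)) (C.Wt φ₂) := fun j _ => by
    have ht : C.Test fun x => (η x : ℂ) * conj (C.db j u x) :=
      C.test_mul_left hη (C.test_conj (C.test_db j hu))
    refine (hor_integrable_mul (hβ j) (C.test_memLp hc₂ ht)).congr
      (Filter.Eventually.of_forall fun x => ?_)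
    show β j x * ((η x : ℂ) * conj (C.db j u x)) = (η x : ℂ) * β j x * conj (C.db j u x)
    ring
  have i2 : ∀ j ∈ (Finset.univ : Finset (Fin n)),
      Integrable (fun x => β j x * (C.dR j η x * conj (u x))) (C.Wt φ₂) := fun j _ =>
    hor_integrable_mul (hβ j) (C.test_memLp hc₂ (C.test_mul_left (C.sm_dR j hη) (C.test_conj hu)))
  have i3 : Integrable (fun x => ∑ j, (η x : ℂ) * β j x * conj (C.db j u x)) (C.Wt φ₂) :=
    integrable_finsetSum _ i1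
  have i4 : Integrable (fun x => ∑ j, β j x * (C.dR j η x * conj (u x))) (C.Wt φ₂) :=
    integrable_finsetSum _ i2
  rw [integral_congr_ae (Filter.Eventually.of_forall e1), integral_add i3 i4] at h1
  have i5 : Integrable (fun x => (η x : ℂ) * g x * conj (u x)) (C.Wt φ₁) := by
    have ht : C.Test fun x => (η x : ℂ) * conj (u x) := C.test_mul_left hη (C.test_conj hu)
    refine (hor_integrable_mul hg (C.test_memLp hc₁ ht)).congr
      (Filter.Eventually.of_forall fun x => ?_)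
    show g x * ((η x : ℂ) * conj (u x)) = (η x : ℂ) * g x * conj (u x)
    ring
  have i6 : Integrable (fun x => (∑ j, β j x * (C.dR j η x * conj (u x))) *
      ((Real.exp (φ₁ x - φ₂ x) : ℝ) : ℂ)) (C.Wt φ₁) :=
    (C.integrable_Wt_change hc₂.measurable hc₁.measurable).1 i4
  have e2 : ∀ x, C.cutAdj φ₁ φ₂ η β g x * conj (u x) = (η x : ℂ) * g x * conj (u x)
      - (∑ j, β j x * (C.dR j η x * conj (u x))) * ((Real.exp (φ₁ x - φ₂ x) : ℝ) : ℂ) := by
    intro x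
    unfold RDCalc.cutAdj
    have : ∑ j, β j x * (C.dR j η x * conj (u x)) = (∑ j, β j x * C.dR j η x) * conj (u x) := by
      rw [Finset.sum_mul]
      exact Finset.sum_congr rfl fun j _ => (mul_assoc _ _ _).symm
    rw [this]
    ring
  rw [integral_congr_ae (Filter.Eventually.of_forall e2), integral_sub i5 i6,
    ← C.integral_Wt_change hc₂.measurable hc₁.measurable]
  have e3 : ∫ x, g x * conj ((η x : ℂ) * u x) ∂(C.Wt φ₁)
      = ∫ x, (η x : ℂ) * g x * conj (u x) ∂(C.Wt φ₁) := by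
    refine integral_congr_ae (Filter.Eventually.of_forall fun x => ?_)
    show g x * conj ((η x : ℂ) * u x) = (η x : ℂ) * g x * conj (u x)
    rw [map_mul, Complex.conj_ofReal]
    ring
  rw [e3] at h1
  rw [← h1]
  ring

theorem RDCalc.cut_curl (C : RDCalc W n) {φ₂ η : W → ℝ} {β : Fin n → W → ℂ}
    (hφ₂ : C.SmR φ₂) (hη : C.SmR η) (hβ : ∀ j, MemLp (β j) 2 (C.Wt φ₂)) (h : C.WeakClosed β) :
    C.WeakCurl (fun j x => (η x : ℂ) * β j x) (C.cutCurl η β) := by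
  intro v hv j k
  have hc₂ : Continuous φ₂ := C.smR_cont hφ₂
  have hηv : C.Test fun x => (η x : ℂ) * v x := C.test_mul_left hη hv
  have h1 := h _ hηv j k
  have hL : ∀ j, C.L2Loc (β j) := fun j => C.L2Loc_of_memLp_Wt hc₂ (hβ j)
  have hint : ∀ (j : Fin n) (w : W → ℂ), C.Test w → Integrable (fun x => β j x * w x) C.μ :=
    fun j w hw => RDCalc.L2Loc.integrable_mul_μ C (hL j) (C.sm_cont hw.1) hw.2
  have a1 := hint j _ (C.test_db k hηv)
  have a2 := hint k _ (C.test_db j hηv)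
  have t1 : ∀ k : Fin n, C.Test fun x => (η x : ℂ) * C.db k v x :=
    fun k => C.test_mul_left hη (C.test_db k hv)
  have t2 : ∀ k : Fin n, C.Test fun x => C.dbR k η x * v x :=
    fun k => C.test_mul_left (C.sm_dbR k hη) hv
  have b1 := (hint j _ (t1 k)).sub (hint k _ (t1 j))
  have b2 := (hint j _ (t2 k)).sub (hint k _ (t2 j))
  have e0 : ∫ x, (β j x * C.db k (fun y => (η y : ℂ) * v y) x
      - β k x * C.db j (fun y => (η y : ℂ) * v y) x) ∂C.μ = 0 := by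
    rw [integral_sub a1 a2, h1, sub_self]
  have e1 : ∀ x, β j x * C.db k (fun y => (η y : ℂ) * v y) x
        - β k x * C.db j (fun y => (η y : ℂ) * v y) x
      = (β j x * ((η x : ℂ) * C.db k v x) - β k x * ((η x : ℂ) * C.db j v x))
        + (β j x * (C.dbR k η x * v x) - β k x * (C.dbR j η x * v x)) := by
    intro x
    rw [C.db_ofReal_mul k x hη hv.1, C.db_ofReal_mul j x hη hv.1]
    ring
  rw [integral_congr_ae (Filter.Eventually.of_forall e1)] at e0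
  have e0' := (integral_add b1 b2).symm.trans e0
  have e2 : ∫ x, ((η x : ℂ) * β j x * C.db k v x - (η x : ℂ) * β k x * C.db j v x) ∂C.μ
      = ∫ x, (β j x * ((η x : ℂ) * C.db k v x) - β k x * ((η x : ℂ) * C.db j v x)) ∂C.μ :=
    integral_congr_ae (Filter.Eventually.of_forall fun x => by
      show (η x : ℂ) * β j x * C.db k v x - (η x : ℂ) * β k x * C.db j v x
        = β j x * ((η x : ℂ) * C.db k v x) - β k x * ((η x : ℂ) * C.db j v x)
      ring)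
  have e3 : ∫ x, C.cutCurl η β j k x * v x ∂C.μ
      = ∫ x, (β j x * (C.dbR k η x * v x) - β k x * (C.dbR j η x * v x)) ∂C.μ :=
    integral_congr_ae (Filter.Eventually.of_forall fun x => by
      show C.cutCurl η β j k x * v x = β j x * (C.dbR k η x * v x) - β k x * (C.dbR j η x * v x)
      unfold RDCalc.cutCurl
      ring)
  rw [e2, e3]
  exact eq_neg_of_add_eq_zero_left e0'

/-- dominated convergence to `0`, in the form used three times in `cut_limit`. -/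
theorem horcutB_ev {X : Type*} [MeasurableSpace X] {ν : Measure X} {F : ℕ → X → ℝ} {G : X → ℝ}
    (hm : ∀ i, AEStronglyMeasurable (F i) ν) (hG : Integrable G ν) (hb : ∀ i x, ‖F i x‖ ≤ G x)
    (h0 : ∀ x, ∀ᶠ i in atTop, F i x = 0) (ε : ℝ) (hε : 0 < ε) :
    ∀ᶠ i in atTop, ∫ x, F i x ∂ν ≤ ε := by
  have h := tendsto_integral_of_dominated_convergence (f := fun _ => (0 : ℝ)) G hm hG
    (fun i => Eventually.of_forall (hb i))
    (Eventually.of_forall fun x => tendsto_const_nhds.congr' ((h0 x).mono fun i hi => hi.symm))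
  rw [integral_zero] at h
  exact h.eventually (Iic_mem_nhds hε)

theorem horcutB_sq_add (a b : ℂ) : ‖a + b‖ ^ 2 ≤ 2 * ‖a‖ ^ 2 + 2 * ‖b‖ ^ 2 := by
  have h1 : ‖a + b‖ ≤ ‖a‖ + ‖b‖ := norm_add_le a b
  have h2 : ‖a + b‖ ^ 2 ≤ (‖a‖ + ‖b‖) ^ 2 := pow_le_pow_left₀ (norm_nonneg _) h1 2
  nlinarith [sq_nonneg (‖a‖ - ‖b‖)]

theorem horcutB_sq_sub (a b : ℂ) : ‖a - b‖ ^ 2 ≤ 2 * ‖a‖ ^ 2 + 2 * ‖b‖ ^ 2 := by
  have := horcutB_sq_add a (-b)
  rwa [norm_neg, ← sub_eq_add_neg] at this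

/-- Cauchy–Schwarz for finite sums of complex numbers. -/
theorem horcutB_cs (a b : Fin n → ℂ) : ‖∑ j, a j * b j‖ ^ 2 ≤ (∑ j, ‖a j‖ ^ 2) * ∑ j, ‖b j‖ ^ 2 := by
  have h1 : ‖∑ j, a j * b j‖ ≤ ∑ j, ‖a j‖ * ‖b j‖ := by
    refine (norm_sum_le _ _).trans (le_of_eq ?_)
    exact Finset.sum_congr rfl fun j _ => norm_mul _ _
  refine (pow_le_pow_left₀ (norm_nonneg _) h1 2).trans ?_
  exact Finset.sum_mul_sq_le_sq_mul_sq _ _ _

theorem horcutB_eta_sub {t : ℝ} (h0 : 0 ≤ t) (h1 : t ≤ 1) (z : ℂ) : ‖(t : ℂ) * z - z‖ ^ 2 ≤ ‖z‖ ^ 2 := by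
  have e : (t : ℂ) * z - z = ((t - 1 : ℝ) : ℂ) * z := by push_cast; ring
  rw [e, norm_mul, Complex.norm_real, mul_pow]
  have h2 : ‖t - 1‖ ^ 2 ≤ 1 := by
    rw [Real.norm_eq_abs, sq_abs]
    nlinarith
  nlinarith [sq_nonneg ‖z‖]

theorem HorWts.cut_limit {φ : W → ℝ} {f : Fin n → W → ℂ} {γ : ℝ} {S : Set W} (P : HorWts C φ f γ S)
    {β : Fin n → W → ℂ} {g : W → ℂ}
    (hβ : ∀ j, MemLp (β j) 2 (C.Wt P.φ₂)) (hg : MemLp g 2 (C.Wt P.φ₁)) (ε : ℝ) (hε : 0 < ε) :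
    ∃ i : ℕ, (∀ j, ∫ x, ‖(P.η i x : ℂ) * β j x - β j x‖ ^ 2 ∂(C.Wt P.φ₂) ≤ ε) ∧
      ∫ x, ‖C.cutAdj P.φ₁ P.φ₂ (P.η i) β g x - g x‖ ^ 2 ∂(C.Wt P.φ₁) ≤ ε ∧
      ∀ j k, ∫ x, ‖C.cutCurl (P.η i) β j k x‖ ^ 2 ∂(C.Wt P.Φ) ≤ ε := by
  have cΦ : Continuous P.Φ := C.smR_cont P.smΦ
  have cψ : Continuous P.ψ := C.smR_cont P.smψ
  have c1 : Continuous P.φ₁ := cΦ.sub (continuous_const.mul cψ)
  have c2 : Continuous P.φ₂ := cΦ.sub cψ
  have cηC : ∀ i, Continuous fun x => (P.η i x : ℂ) := fun i => C.sm_cont (P.smη i)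
  have cd : ∀ i j, Continuous (C.dR j (P.η i)) := fun i j => C.sm_cont (C.sm_dR j (P.smη i))
  have cdb : ∀ i j, Continuous (C.dbR j (P.η i)) := fun i j => C.sm_cont (C.sm_dbR j (P.smη i))
  have e12 : ∀ x, P.φ₁ x - P.φ₂ x = - P.ψ x := fun x => by
    unfold HorWts.φ₁ HorWts.φ₂
    ring
  have e32 : ∀ x, P.Φ x - P.φ₂ x = P.ψ x := fun x => by
    unfold HorWts.φ₂
    ring
  -- measurability of `β` for the three measures
  have mβμ : ∀ j, AEStronglyMeasurable (β j) C.μ := fun j =>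
    (C.aestronglyMeasurable_Wt_iff c2.measurable).1 (hβ j).1
  have mβ1 : ∀ j, AEStronglyMeasurable (β j) (C.Wt P.φ₁) := fun j =>
    (C.aestronglyMeasurable_Wt_iff c1.measurable).2 (mβμ j)
  have mβ3 : ∀ j, AEStronglyMeasurable (β j) (C.Wt P.Φ) := fun j =>
    (C.aestronglyMeasurable_Wt_iff cΦ.measurable).2 (mβμ j)
  -- pointwise behaviour of the cut-off functions
  have ev1 : ∀ x, ∀ᶠ i in atTop, P.η i x = 1 := fun x => (P.ηev x).mono fun i hi => hi.self_of_nhds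
  have evd : ∀ x, ∀ᶠ i in atTop, ∀ j, C.dR j (P.η i) x = 0 := fun x =>
    (P.ηev x).mono fun i hi j => by
      rw [C.dR_congr j (φ' := fun _ => 1) hi, C.dR_const]
  have evdb : ∀ x, ∀ᶠ i in atTop, ∀ j, C.dbR j (P.η i) x = 0 := fun x =>
    (P.ηev x).mono fun i hi j => by
      rw [C.dbR_congr j (φ' := fun _ => 1) hi, C.dbR_const]
  have bdb : ∀ i j x, ‖C.dbR j (P.η i) x‖ ^ 2 ≤ Real.exp (P.ψ x) := fun i j x =>
    (Finset.single_le_sum (f := fun j => ‖C.dbR j (P.η i) x‖ ^ 2) (fun _ _ => by positivity)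
      (Finset.mem_univ j)).trans (P.ηd i x)
  have bd : ∀ i x, ∑ j, ‖C.dR j (P.η i) x‖ ^ 2 ≤ Real.exp (P.ψ x) := fun i x => by
    have := P.ηd i x
    simpa only [C.norm_dbR _ _ (P.smη i)] using this
  -- integrability of the dominating functions
  have I2 : ∀ j, Integrable (fun x => ‖β j x‖ ^ 2) (C.Wt P.φ₂) := fun j => hor_integrable_nsq (hβ j)
  have I1 : ∀ j, Integrable (fun x => ‖β j x‖ ^ 2 * Real.exp (- P.ψ x)) (C.Wt P.φ₁) := fun j => by
    have := (C.integrable_Wt_change_real c2.measurable c1.measurable).1 (I2 j)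
    simpa only [e12] using this
  have I3 : ∀ j, Integrable (fun x => ‖β j x‖ ^ 2 * Real.exp (P.ψ x)) (C.Wt P.Φ) := fun j => by
    have := (C.integrable_Wt_change_real c2.measurable cΦ.measurable).1 (I2 j)
    simpa only [e32] using this
  -- (1)
  have E1 : ∀ j, ∀ᶠ i in atTop, ∫ x, ‖(P.η i x : ℂ) * β j x - β j x‖ ^ 2 ∂(C.Wt P.φ₂) ≤ ε := fun j =>
    horcutB_ev (F := fun i x => ‖(P.η i x : ℂ) * β j x - β j x‖ ^ 2) (G := fun x => ‖β j x‖ ^ 2)
      (fun i => (((cηC i).aestronglyMeasurable.mul (hβ j).1).sub (hβ j).1).norm.pow 2) (I2 j)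
      (fun i x => by
        rw [Real.norm_of_nonneg (by positivity)]
        exact horcutB_eta_sub (P.η0 i x) (P.η1 i x) _)
      (fun x => (ev1 x).mono fun i hi => by simp [hi]) ε hε
  -- (2)
  have E2 : ∀ᶠ i in atTop,
      ∫ x, ‖C.cutAdj P.φ₁ P.φ₂ (P.η i) β g x - g x‖ ^ 2 ∂(C.Wt P.φ₁) ≤ ε := by
    refine horcutB_ev (F := fun i x => ‖C.cutAdj P.φ₁ P.φ₂ (P.η i) β g x - g x‖ ^ 2)
      (G := fun x => 2 * ‖g x‖ ^ 2 + 2 * ∑ j, ‖β j x‖ ^ 2 * Real.exp (- P.ψ x))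
      (fun i => ?_) ?_ (fun i x => ?_) (fun x => ?_) ε hε
    · have hE : Continuous fun x => ((Real.exp (P.φ₁ x - P.φ₂ x) : ℝ) : ℂ) :=
        Complex.continuous_ofReal.comp (Real.continuous_exp.comp (c1.sub c2))
      have hS : AEStronglyMeasurable (fun x => ∑ j, β j x * C.dR j (P.η i) x) (C.Wt P.φ₁) := by
        have := Finset.aestronglyMeasurable_fun_sum (μ := C.Wt P.φ₁) Finset.univ
          (f := fun j x => β j x * C.dR j (P.η i) x)
          (fun j _ => (mβ1 j).mul (cd i j).aestronglyMeasurable)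
        exact this
      exact ((((cηC i).aestronglyMeasurable.mul hg.1).sub
        (hE.aestronglyMeasurable.mul hS)).sub hg.1).norm.pow 2
    · exact ((hor_integrable_nsq hg).const_mul 2).add
        ((integrable_finsetSum _ fun j _ => I1 j).const_mul 2)
    · rw [Real.norm_of_nonneg (by positivity)]
      have e : C.cutAdj P.φ₁ P.φ₂ (P.η i) β g x - g x = ((P.η i x : ℂ) * g x - g x)
          - ((Real.exp (P.φ₁ x - P.φ₂ x) : ℝ) : ℂ) * ∑ j, β j x * C.dR j (P.η i) x := by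
        unfold RDCalc.cutAdj
        ring
      rw [e]
      refine (horcutB_sq_sub _ _).trans ?_
      have h1 := horcutB_eta_sub (P.η0 i x) (P.η1 i x) (g x)
      have h2 : ‖((Real.exp (P.φ₁ x - P.φ₂ x) : ℝ) : ℂ) * ∑ j, β j x * C.dR j (P.η i) x‖ ^ 2
          ≤ ∑ j, ‖β j x‖ ^ 2 * Real.exp (- P.ψ x) := by
        rw [norm_mul, Complex.norm_real, Real.norm_of_nonneg (Real.exp_pos _).le, mul_pow, e12,
          ← Finset.sum_mul]
        have h3 := horcutB_cs (fun j => β j x) (fun j => C.dR j (P.η i) x)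
        have h4 : (∑ j, ‖β j x‖ ^ 2) * ∑ j, ‖C.dR j (P.η i) x‖ ^ 2
            ≤ (∑ j, ‖β j x‖ ^ 2) * Real.exp (P.ψ x) :=
          mul_le_mul_of_nonneg_left (bd i x) (Finset.sum_nonneg fun _ _ => by positivity)
        have h5 : Real.exp (- P.ψ x) ^ 2 * Real.exp (P.ψ x) = Real.exp (- P.ψ x) := by
          rw [← Real.exp_nat_mul, ← Real.exp_add]
          congr 1
          push_cast
          ring
        calc Real.exp (- P.ψ x) ^ 2 * ‖∑ j, β j x * C.dR j (P.η i) x‖ ^ 2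
            ≤ Real.exp (- P.ψ x) ^ 2 * ((∑ j, ‖β j x‖ ^ 2) * Real.exp (P.ψ x)) :=
              mul_le_mul_of_nonneg_left (h3.trans h4) (by positivity)
          _ = (∑ j, ‖β j x‖ ^ 2) * (Real.exp (- P.ψ x) ^ 2 * Real.exp (P.ψ x)) := by ring
          _ = (∑ j, ‖β j x‖ ^ 2) * Real.exp (- P.ψ x) := by rw [h5]
      linarith
    · filter_upwards [ev1 x, evd x] with i h1 h2
      simp [RDCalc.cutAdj, h1, h2]
  -- (3)
  have E3 : ∀ j k, ∀ᶠ i in atTop, ∫ x, ‖C.cutCurl (P.η i) β j k x‖ ^ 2 ∂(C.Wt P.Φ) ≤ ε := by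
    intro j k
    refine horcutB_ev (F := fun i x => ‖C.cutCurl (P.η i) β j k x‖ ^ 2)
      (G := fun x => 2 * (‖β j x‖ ^ 2 * Real.exp (P.ψ x)) + 2 * (‖β k x‖ ^ 2 * Real.exp (P.ψ x)))
      (fun i => ?_) ?_ (fun i x => ?_) (fun x => ?_) ε hε
    · exact (((mβ3 j).mul (cdb i k).aestronglyMeasurable).sub
        ((mβ3 k).mul (cdb i j).aestronglyMeasurable)).norm.pow 2
    · exact ((I3 j).const_mul 2).add ((I3 k).const_mul 2)
    · rw [Real.norm_of_nonneg (by positivity)]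
      unfold RDCalc.cutCurl
      refine (horcutB_sq_sub _ _).trans ?_
      rw [norm_mul, norm_mul, mul_pow, mul_pow]
      have h1 : ‖β j x‖ ^ 2 * ‖C.dbR k (P.η i) x‖ ^ 2 ≤ ‖β j x‖ ^ 2 * Real.exp (P.ψ x) :=
        mul_le_mul_of_nonneg_left (bdb i k x) (by positivity)
      have h2 : ‖β k x‖ ^ 2 * ‖C.dbR j (P.η i) x‖ ^ 2 ≤ ‖β k x‖ ^ 2 * Real.exp (P.ψ x) :=
        mul_le_mul_of_nonneg_left (bdb i j x) (by positivity)
      linarith
    · filter_upwards [evdb x] with i h2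
      simp [RDCalc.cutCurl, h2]
  exact ((eventually_all.2 E1).and (E2.and (eventually_all.2 fun j => eventually_all.2 (E3 j)))).exists

/-- membership in the weighted `L²` spaces of the three objects (needed to apply `HorDen`). -/
theorem HorWts.cut_memLp {φ : W → ℝ} {f : Fin n → W → ℂ} {γ : ℝ} {S : Set W} (P : HorWts C φ f γ S)
    {β : Fin n → W → ℂ} {g : W → ℂ}
    (hβ : ∀ j, MemLp (β j) 2 (C.Wt P.φ₂)) (hg : MemLp g 2 (C.Wt P.φ₁)) (i : ℕ) :
    (∀ j, MemLp (fun x => (P.η i x : ℂ) * β j x) 2 (C.Wt P.φ₂)) ∧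
      MemLp (C.cutAdj P.φ₁ P.φ₂ (P.η i) β g) 2 (C.Wt P.φ₁) ∧
      ∀ j k, MemLp (C.cutCurl (P.η i) β j k) 2 (C.Wt P.Φ) := by
  have hcΦ : Continuous P.Φ := C.smR_cont P.smΦ
  have hcψ : Continuous P.ψ := C.smR_cont P.smψ
  have hc₁ : Continuous P.φ₁ := hcΦ.sub (continuous_const.mul hcψ)
  have hc₂ : Continuous P.φ₂ := hcΦ.sub hcψ
  have hcη : Continuous (P.η i) := C.smR_cont (P.smη i)
  have hηC : Continuous fun x => (P.η i x : ℂ) := C.sm_cont (P.smη i)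
  have hηb : ∀ x, ‖(P.η i x : ℂ)‖ ≤ 1 := fun x => by
    rw [Complex.norm_real, Real.norm_eq_abs, abs_of_nonneg (P.η0 i x)]
    exact P.η1 i x
  have hL : ∀ j, C.L2Loc (β j) := fun j => C.L2Loc_of_memLp_Wt hc₂ (hβ j)
  have hsupp : HasCompactSupport fun x => (P.η i x : ℂ) :=
    (P.cptη i).comp_left (g := fun t : ℝ => (t : ℂ)) Complex.ofReal_zero
  have hηT : C.Test fun x => (P.η i x : ℂ) := ⟨P.smη i, hsupp⟩
  have hdT : ∀ j, C.Test (C.dR j (P.η i)) := fun j => C.test_d j hηT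
  have hdbT : ∀ j, C.Test (C.dbR j (P.η i)) := fun j => C.test_db j hηT
  refine ⟨fun j => hor_memLp_bdd_mul 1 hηC.aestronglyMeasurable hηb (hβ j), ?_, fun j k => ?_⟩
  · have h1 : MemLp (fun x => (P.η i x : ℂ) * g x) 2 (C.Wt P.φ₁) :=
      hor_memLp_bdd_mul 1 hηC.aestronglyMeasurable hηb hg
    have hE : Continuous fun x => ((Real.exp (P.φ₁ x - P.φ₂ x) : ℝ) : ℂ) :=
      Complex.continuous_ofReal.comp (Real.continuous_exp.comp (hc₁.sub hc₂))
    have h2 : ∀ j ∈ (Finset.univ : Finset (Fin n)), MemLp (fun x => β j x *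
        (((Real.exp (P.φ₁ x - P.φ₂ x) : ℝ) : ℂ) * C.dR j (P.η i) x)) 2 (C.Wt P.φ₁) := fun j _ =>
      RDCalc.L2Loc.memLp_mul C hc₁ (hL j) (hE.mul (C.sm_cont (hdT j).1))
        ((hdT j).2.mul_left (f := fun x => ((Real.exp (P.φ₁ x - P.φ₂ x) : ℝ) : ℂ)))
    have h3 := h1.sub (hor_memLp_sum _ _ h2)
    refine MemLp.ae_eq (Filter.Eventually.of_forall fun x => ?_) h3
    show (P.η i x : ℂ) * g x - ∑ j, β j x *
        (((Real.exp (P.φ₁ x - P.φ₂ x) : ℝ) : ℂ) * C.dR j (P.η i) x)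
      = C.cutAdj P.φ₁ P.φ₂ (P.η i) β g x
    unfold RDCalc.cutAdj
    rw [Finset.mul_sum]
    congr 1
    exact Finset.sum_congr rfl fun j _ => by ring
  · exact (RDCalc.L2Loc.memLp_mul C hcΦ (hL j) (C.sm_cont (hdbT k).1) (hdbT k).2).sub
      (RDCalc.L2Loc.memLp_mul C hcΦ (hL k) (C.sm_cont (hdbT j).1) (hdbT j).2)

/-- the three objects vanish outside the compact set `tsupport (η i)`. -/
theorem HorWts.cut_vanish {φ : W → ℝ} {f : Fin n → W → ℂ} {γ : ℝ} {S : Set W} (P : HorWts C φ f γ S)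
    (β : Fin n → W → ℂ) (g : W → ℂ) (i : ℕ) (x : W) (hx : x ∉ tsupport (P.η i)) :
    (∀ j, (P.η i x : ℂ) * β j x = 0) ∧ C.cutAdj P.φ₁ P.φ₂ (P.η i) β g x = 0 ∧
      ∀ j k, C.cutCurl (P.η i) β j k x = 0 := by
  have h0 : P.η i x = 0 := image_eq_zero_of_notMem_tsupport hx
  have hev : P.η i =ᶠ[𝓝 x] fun _ => (0 : ℝ) := notMem_tsupport_iff_eventuallyEq.1 hx
  have hd : ∀ j, C.dR j (P.η i) x = 0 := fun j => by rw [C.dR_congr j hev, C.dR_const]
  have hdb : ∀ j, C.dbR j (P.η i) x = 0 := fun j => by rw [C.dbR_congr j hev, C.dbR_const]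
  refine ⟨fun j => by rw [h0]; simp, ?_, fun j k => ?_⟩
  · unfold RDCalc.cutAdj
    simp [h0, hd]
  · unfold RDCalc.cutCurl
    rw [hdb k, hdb j]
    simp

end Claimed.Agent.R242
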