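/-
Row 242, SCV layer.  HorOpenAd: the adapter from Riemann domains to open subsets of `Cn n` (`W = Ω`, `p = Subtype.val`):
`hormander_open_holo` from `hormander_rd_holo`.     Blueprint: helper290.   Leaf: SCV-HO-TR (section 1).  Glue proved.

Hints for section 1 (`hp = isLocalHomeomorph_subtype_val hΩ`):
* `rdLoc_comp hp u x : rdLoc hp (fun y => u (p y)) x =ᶠ[𝓝 (p x)] u`, so `RdContDiffAt hp k (fun y : Ω => u y) x ↔ ContDiffAt ℝ k u x`
  (`Filter.EventuallyEq.contDiffAt_iff`), and `ContDiffOn` on an open set is `ContDiffAt` at each point (`ContDiffOn.contDiffAt`,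
  `IsOpen.mem_nhds`, `ContDiffAt.contDiffWithinAt`); same for `DifferentiableAt ℂ` (`Filter.EventuallyEq.differentiableAt_iff`).
* integrals: `lintegral_rdVolW_ofReal`, `integral_rdVolW`, `rdVol_subtype_val`, `lintegral_subtype_comap`, `integral_subtype_comap`
  (`hΩ.measurableSet`); `φ ∘ val` is continuous (`continuousOn_iff_continuous_restrict`), hence measurable.
* compactness: `Subtype.isCompact_iff`.
-/
import Claimed.Agent.R242.SCV.HorHolo
import Claimed.Agent.R242.SCV.OtDefs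

set_option autoImplicit false
set_option linter.unusedSectionVars false

open MeasureTheory Complex Filter Set
open scoped ContDiff ComplexConjugate ENNReal Topology

namespace Claimed.Agent.R242

variable {n : ℕ} {Ω : Set (Cn n)} (hΩ : IsOpen Ω)

/-! ### 1. Translation -/

theorem rdContDiff_subtype_iff {F : Type*} [NormedAddCommGroup F] [NormedSpace ℝ F]
    {k : WithTop ℕ∞} {u : Cn n → F} :
    RdContDiff (isLocalHomeomorph_subtype_val hΩ) k (fun x : Ω => u x) ↔ ContDiffOn ℝ k u Ω := by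
  constructor
  · intro h x hx
    have h1 : ContDiffAt ℝ k (rdLoc (isLocalHomeomorph_subtype_val hΩ) (fun y : Ω => u y) ⟨x, hx⟩) x :=
      h ⟨x, hx⟩
    have h2 := rdLoc_comp (isLocalHomeomorph_subtype_val hΩ) u ⟨x, hx⟩
    exact (h1.congr_of_eventuallyEq h2.symm).contDiffWithinAt
  · intro h x
    have h2 := rdLoc_comp (isLocalHomeomorph_subtype_val hΩ) u x
    exact (h.contDiffAt (hΩ.mem_nhds x.2)).congr_of_eventuallyEq h2

theorem rdHolo_subtype_iff {u : Cn n → ℂ} :
    RdHolo (isLocalHomeomorph_subtype_val hΩ) (fun x : Ω => u x) ↔ DifferentiableOn ℂ u Ω := by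
  constructor
  · intro h x hx
    have h1 : DifferentiableAt ℂ (rdLoc (isLocalHomeomorph_subtype_val hΩ) (fun y : Ω => u y) ⟨x, hx⟩) x :=
      h ⟨x, hx⟩
    have h2 := rdLoc_comp (isLocalHomeomorph_subtype_val hΩ) u ⟨x, hx⟩
    exact ((Filter.EventuallyEq.differentiableAt_iff h2).1 h1).differentiableWithinAt
  · intro h x
    have h2 := rdLoc_comp (isLocalHomeomorph_subtype_val hΩ) u x
    exact (Filter.EventuallyEq.differentiableAt_iff h2).2 (h.differentiableAt (hΩ.mem_nhds x.2))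

open Classical in
/-- extension by zero of a function on the subtype. -/
noncomputable def extZ (F : Ω → ℂ) : Cn n → ℂ := fun z => if h : z ∈ Ω then F ⟨z, h⟩ else 0

theorem extZ_coe (F : Ω → ℂ) : (fun x : Ω => extZ F x) = F := by
  funext x
  simp [extZ, x.2]

include hΩ in
theorem lintegral_rdVolW_subtype {φ : Cn n → ℝ} (hφ : ContinuousOn φ Ω) {G : Cn n → ℝ}
    (hG : ∀ z, 0 ≤ G z) :
    ∫⁻ x : Ω, ENNReal.ofReal (G x) ∂(rdVolW (Subtype.val : Ω → Cn n) fun x => φ x)
      = ∫⁻ z in Ω, ENNReal.ofReal (G z * Real.exp (-φ z)) := by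
  have hm : Measurable fun x : Ω => φ x := (continuousOn_iff_continuous_domRestrict.1 hφ).measurable
  rw [lintegral_rdVolW_ofReal hm (g := fun x : Ω => G x) (fun x => hG x), rdVol_subtype_val hΩ]
  exact lintegral_subtype_comap hΩ.measurableSet (fun z => ENNReal.ofReal (G z * Real.exp (-φ z)))

include hΩ in
theorem integral_rdVolW_subtype {φ : Cn n → ℝ} (hφ : ContinuousOn φ Ω) (G : Cn n → ℂ) :
    ∫ x : Ω, G x ∂(rdVolW (Subtype.val : Ω → Cn n) fun x => φ x)
      = ∫ z in Ω, G z * (Real.exp (-φ z) : ℂ) := by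
  have hm : Measurable fun x : Ω => φ x := (continuousOn_iff_continuous_domRestrict.1 hφ).measurable
  rw [integral_rdVolW hm (fun x : Ω => G x), rdVol_subtype_val hΩ]
  exact integral_subtype_comap hΩ.measurableSet (fun z => G z * (Real.exp (-φ z) : ℂ))

theorem isCompact_subtype_sublevel {ρ : Cn n → ℝ} {t : ℝ}
    (h : IsCompact {z | z ∈ Ω ∧ ρ z ≤ t}) : IsCompact {x : Ω | ρ x ≤ t} := by
  rw [Subtype.isCompact_iff]
  convert h using 1
  ext z
  constructor
  · rintro ⟨x, hx, rfl⟩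
    exact ⟨x.2, hx⟩
  · rintro ⟨hz, hr⟩
    exact ⟨⟨z, hz⟩, hr, rfl⟩

/-! ### 2. The adapter -/

/-- **HOR-min on open subsets of `Cn n`.** -/
theorem hormander_open_of
    (H : ∀ (Ω : Set (Cn n)) (hΩ : IsOpen Ω), HorRdHolo (isLocalHomeomorph_subtype_val hΩ)) :
    HorOpen n := by
  intro Ω hadm φ hφ g hg B hB hB0 hgB hBi
  obtain ⟨hΩ, ρ, hρ, hρc, hρl⟩ := hadm
  set hp := isLocalHomeomorph_subtype_val hΩ with hhp
  have hφc : ContinuousOn φ Ω := hφ.1.continuousOn
  obtain ⟨F, hF, hFs, hFb, hFo⟩ := H Ω hΩ (fun x => ρ x) ((rdContDiff_subtype_iff hΩ).2 hρ)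
    (fun t => isCompact_subtype_sublevel (hρc t))
    (fun x a => by rw [rdLevi_comp hp ρ x a]; exact hρl x x.2 a)
    (fun x => φ x) ((rdContDiff_subtype_iff hΩ).2 hφ.1)
    (fun x a => by rw [rdLevi_comp hp φ x a]; exact hφ.2 x x.2 a)
    (fun x => g x) ((rdContDiff_subtype_iff hΩ).2 hg)
    (fun x => B x) (hB.comp measurable_subtype_coe) (fun x => hB0 x)
    (fun x a => by
      simp only [rdDb_comp hp g, rdLevi_comp hp φ x a]
      exact hgB x x.2 a)
    (by rw [lintegral_rdVolW_subtype hΩ hφc hB0]; exact hBi)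
  have hFe : (fun x : Ω => extZ F x) = F := extZ_coe F
  refine ⟨extZ F, (rdHolo_subtype_iff hΩ).1 (by rw [hFe]; exact hF),
    (rdContDiff_subtype_iff hΩ).1 (by rw [hFe]; exact hFs), ?_, ?_⟩
  · rw [← lintegral_rdVolW_subtype hΩ hφc hB0,
      ← lintegral_rdVolW_subtype hΩ hφc (G := fun z => ‖g z - extZ F z‖ ^ 2) (fun z => by positivity)]
    have : (fun x : Ω => ENNReal.ofReal (‖g x - extZ F x‖ ^ 2))
        = fun x : Ω => ENNReal.ofReal (‖g x - F x‖ ^ 2) := by
      funext x; rw [congrFun hFe x]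
    rw [this]
    exact hFb
  · intro h hh hh2
    have h1 := hFo (fun x => h x) ((rdHolo_subtype_iff hΩ).2 hh)
      (by rw [lintegral_rdVolW_subtype hΩ hφc (G := fun z => ‖h z‖ ^ 2) (fun z => by positivity)]
          exact hh2)
    rw [← integral_rdVolW_subtype hΩ hφc (fun z => (g z - extZ F z) * conj (h z))]
    have : (fun x : Ω => (g x - extZ F x) * conj (h x)) = fun x : Ω => (g x - F x) * conj (h x) := by
      funext x; rw [congrFun hFe x]
    rw [this]
    exact h1

end Claimed.Agent.R242
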